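import Mathlib

/-!
# Statement of the density theorem for products of curves: definitions
-/

namespace Vale.Agent.P002R.Product

open Matrix NumberField

variable {k r : ℕ} {g n : Fin k → ℕ}

/-- Generators of the fundamental group of `X = X_1 × ... × X_k`, where `X_i` is a smooth curve of
genus `g i` with `n i` punctures: `inl ⟨i, l, false⟩ = a_{i,l}`, `inl ⟨i, l, true⟩ = b_{i,l}` for
`l < g i`, and `inr ⟨i, j⟩ = c_{i,j}`, the loop around the `j`-th puncture of `X_i`; it is the
meridian of the boundary divisor `x_i = p_{i,j}` of the compactification `∏ \bar X_i` of `X`. -/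
abbrev Gens (g n : Fin k → ℕ) := ((i : Fin k) × (Fin (g i) × Bool)) ⊕ ((i : Fin k) × Fin (n i))

/-- The factor to which a generator belongs. -/
def factor : Gens g n → Fin k := Sum.elim Sigma.fst Sigma.fst

/-- `Rep_r(X)(A)`: tuples in `SL_r(A)` such that `∏ [A_{i,l}, B_{i,l}] * ∏ C_{i,j} = 1` for all
`i`, and matrices which belong to different factors commute, that is, representations of
`π_1(X) = ∏ π_1(X_i)`, `π_1(X_i) = ⟨a_{i,l}, b_{i,l}, c_{i,j} | ∏ [a_{i,l}, b_{i,l}] * ∏ c_{i,j}⟩`. -/
def IsRep {A : Type*} [CommRing A] (X : Gens g n → SpecialLinearGroup (Fin r) A) : Prop :=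
  (∀ i, (List.ofFn fun l : Fin (g i) => X (Sum.inl ⟨i, l, false⟩) * X (Sum.inl ⟨i, l, true⟩) *
    (X (Sum.inl ⟨i, l, false⟩))⁻¹ * (X (Sum.inl ⟨i, l, true⟩))⁻¹).prod *
      (List.ofFn fun j : Fin (n i) => X (Sum.inr ⟨i, j⟩)).prod = 1) ∧
  ∀ p q : Gens g n, factor p ≠ factor q → X p * X q = X q * X p

/-- The value of a polynomial in the matrix entries of the generators. -/
noncomputable def value {S A : Type*} [CommRing S] [CommRing A] [Algebra S A]
    (F : MvPolynomial (Gens g n × Fin r × Fin r) S)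
    (X : Gens g n → SpecialLinearGroup (Fin r) A) : A :=
  MvPolynomial.eval₂ (algebraMap S A) (fun p => (X p.1).1 p.2.1 p.2.2) F

/-- `F` defines an element of `𝒪(Rep_r)^{SL_r}` over `S`: a function on the scheme of
representations (over `S`) which is invariant under conjugation by the group scheme `SL_r`. -/
def IsInvariant {S : Type} [CommRing S] (F : MvPolynomial (Gens g n × Fin r × Fin r) S) : Prop :=
  ∀ (A : Type) [CommRing A] [Algebra S A] (X : Gens g n → SpecialLinearGroup (Fin r) A)
    (P : SpecialLinearGroup (Fin r) A), IsRep X → value F (fun p => P * X p * P⁻¹) = value F X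

/-- `W` is an invariant subspace. -/
def IsInvSubspace (X : Gens g n → SpecialLinearGroup (Fin r) ℂ)
    (W : Submodule ℂ (Fin r → ℂ)) : Prop :=
  ∀ p, ∀ v ∈ W, (X p).1 *ᵥ v ∈ W

/-- The points of `M_r(X)(ℂ)`, represented by the semisimple representations: every invariant
subspace has an invariant complement. -/
def YNone (g n : Fin k → ℕ) (r : ℕ) : Set (Gens g n → SpecialLinearGroup (Fin r) ℂ) :=
  {X | IsRep X ∧ ∀ W, IsInvSubspace X W → ∃ W', IsInvSubspace X W' ∧ IsCompl W W'}

/-- The points of `Y`: those with `ρ(c_{i,j})` in the conjugacy class of `C i j`. -/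
def Y (g : Fin k → ℕ) (C : ∀ i, Fin (n i) → SpecialLinearGroup (Fin r) ℂ) :
    Set (Gens g n → SpecialLinearGroup (Fin r) ℂ) :=
  {X | X ∈ YNone g n r ∧ ∀ i j, IsConj (C i j) (X (Sum.inr ⟨i, j⟩))}

/-- `z` is an eigenvalue of `M`. -/
def IsEigenvalue (M : SpecialLinearGroup (Fin r) ℂ) (z : ℂ) : Prop := M.1.charpoly.IsRoot z

/-- The `𝓞 L`-integral points of `M_r(X)(ℂ)`: all conjugation-invariant functions defined over
`ℤ` take values in `𝓞 L`. -/
def IsIntegralPoint (L : IntermediateField ℚ ℂ) (X : Gens g n → SpecialLinearGroup (Fin r) ℂ) :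
    Prop :=
  ∀ F : MvPolynomial (Gens g n × Fin r × Fin r) ℤ, IsInvariant F → ∃ a : 𝓞 L, value F X = a.1.1

/-- All matrices have entries in `𝓞 L`, that is, `X` comes from a representation into
`SL_r(𝓞 L)`. -/
def IsIntegralRep (L : IntermediateField ℚ ℂ) (X : Gens g n → SpecialLinearGroup (Fin r) ℂ) :
    Prop :=
  ∀ p i j, ∃ a : 𝓞 L, (X p).1 i j = a.1.1

/-- The classes of the elements of `S ⊆ T` are Zariski dense in the image of `T` in
`M_r(X)(ℂ)`: every invariant function that vanishes on `S` vanishes on `T`. -/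
def IsZariskiDense (S T : Set (Gens g n → SpecialLinearGroup (Fin r) ℂ)) : Prop :=
  S ⊆ T ∧ ∀ F : MvPolynomial (Gens g n × Fin r × Fin r) ℂ, IsInvariant F →
    (∀ X ∈ S, value F X = 0) → ∀ X ∈ T, value F X = 0

/-- `S ⊆ T` is Zariski dense in `T` as a set of points of the representation variety. -/
def IsZariskiDenseRep (S T : Set (Gens g n → SpecialLinearGroup (Fin r) ℂ)) : Prop :=
  S ⊆ T ∧ ∀ F : MvPolynomial (Gens g n × Fin r × Fin r) ℂ,
    (∀ X ∈ S, value F X = 0) → ∀ X ∈ T, value F X = 0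

end Vale.Agent.P002R.Product
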