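import Mathlib

/-!
# Statement of the density theorem for products of orbifold curves: definitions
-/

namespace Vale.Agent.P002R.Orb

open Matrix NumberField commutatorElement

/-- Generators of `π_1(X)`, `X = X_1 × ... × X_k`, where `X_i` is a smooth curve of genus `g i` with
`n i` marked points: `inl ⟨i, l, false⟩ = a_{i,l}`, `inl ⟨i, l, true⟩ = b_{i,l}` for `l < g i`, and
`inr ⟨i, j⟩ = c_{i,j}`, the loop around the `j`-th marked point of `X_i`. -/
abbrev Gens {k : ℕ} (g n : Fin k → ℕ) :=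
  ((i : Fin k) × (Fin (g i) × Bool)) ⊕ ((i : Fin k) × Fin (n i))

/-- The relations of `π_1(X)`: `∏ [a_{i,l}, b_{i,l}] * ∏ c_{i,j} = 1` for all `i`, the generators of
different factors commute, and `c_{i,j} ^ m_{i,j} = 1`: the `j`-th marked point of `X_i` is a
puncture if `m i j = 0` and an orbifold point of order `m i j` otherwise. -/
def Rels {k : ℕ} (g n : Fin k → ℕ) (m : ∀ i, Fin (n i) → ℕ) : Set (FreeGroup (Gens g n)) :=
  let e : Gens g n → FreeGroup (Gens g n) := FreeGroup.of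
  {w | (∃ i, w = (List.ofFn fun l => ⁅e (Sum.inl ⟨i, l, false⟩), e (Sum.inl ⟨i, l, true⟩)⁆).prod *
        (List.ofFn fun j => e (Sum.inr ⟨i, j⟩)).prod) ∨
    (∃ p q : Gens g n, Sum.elim Sigma.fst Sigma.fst p ≠ Sum.elim Sigma.fst Sigma.fst q ∧
      w = ⁅e p, e q⁆) ∨ ∃ i j, w = e (Sum.inr ⟨i, j⟩) ^ m i j}

variable {ι : Type} {r : ℕ}

/-- `Rep_r(A)` for the group with generators `ι` and relations `R`. -/
def IsRep (R : Set (FreeGroup ι)) {A : Type*} [CommRing A]
    (X : ι → SpecialLinearGroup (Fin r) A) : Prop :=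
  ∀ w ∈ R, FreeGroup.lift X w = 1

/-- The value of a polynomial in the matrix entries of the generators. -/
noncomputable def value {S A : Type*} [CommRing S] [CommRing A] [Algebra S A]
    (F : MvPolynomial (ι × Fin r × Fin r) S) (X : ι → SpecialLinearGroup (Fin r) A) : A :=
  MvPolynomial.eval₂ (algebraMap S A) (fun p => (X p.1).1 p.2.1 p.2.2) F

/-- `F` defines an element of `𝒪(Rep_r)^{SL_r}` over `S`. -/
def IsInvariant (R : Set (FreeGroup ι)) {S : Type} [CommRing S]
    (F : MvPolynomial (ι × Fin r × Fin r) S) : Prop :=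
  ∀ (A : Type) [CommRing A] [Algebra S A] (X : ι → SpecialLinearGroup (Fin r) A)
    (P : SpecialLinearGroup (Fin r) A), IsRep R X → value F (fun p => P * X p * P⁻¹) = value F X

/-- `W` is an invariant subspace. -/
def IsInv (X : ι → SpecialLinearGroup (Fin r) ℂ) (W : Submodule ℂ (Fin r → ℂ)) : Prop :=
  ∀ p, ∀ v ∈ W, (X p).1 *ᵥ v ∈ W

/-- The points of `M_r(X)(ℂ)`, represented by the semisimple representations. -/
def YNone (R : Set (FreeGroup ι)) (r : ℕ) : Set (ι → SpecialLinearGroup (Fin r) ℂ) :=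
  {X | IsRep R X ∧ ∀ W, IsInv X W → ∃ W', IsInv X W' ∧ IsCompl W W'}

/-- `z` is an eigenvalue of `M`. -/
def IsEigenvalue (M : SpecialLinearGroup (Fin r) ℂ) (z : ℂ) : Prop := M.1.charpoly.IsRoot z

/-- `M` is nonderogatory: it has a cyclic vector. -/
def IsNonderogatory (M : SpecialLinearGroup (Fin r) ℂ) : Prop :=
  ∃ v : Fin r → ℂ, LinearIndependent ℂ fun i : Fin r => (M.1 ^ (i : ℕ)) *ᵥ v

/-- The `𝓞 L`-integral points of `M_r(X)(ℂ)`. -/
def IsIntegralPoint (R : Set (FreeGroup ι)) (L : IntermediateField ℚ ℂ)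
    (X : ι → SpecialLinearGroup (Fin r) ℂ) : Prop :=
  ∀ F : MvPolynomial (ι × Fin r × Fin r) ℤ, IsInvariant R F → ∃ a : 𝓞 L, value F X = a.1.1

/-- All matrices have entries in `𝓞 L`. -/
def IsIntegralRep (L : IntermediateField ℚ ℂ) (X : ι → SpecialLinearGroup (Fin r) ℂ) : Prop :=
  ∀ p i j, ∃ a : 𝓞 L, (X p).1 i j = a.1.1

/-- The `𝓞 L`-integral points of `T` are Zariski dense in the image of `T` in `M_r(X)(ℂ)`: every
invariant function that vanishes at the integral points of `T` vanishes on `T`. -/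
def IsDense (R : Set (FreeGroup ι)) (L : IntermediateField ℚ ℂ)
    (T : Set (ι → SpecialLinearGroup (Fin r) ℂ)) : Prop :=
  ∀ F : MvPolynomial (ι × Fin r × Fin r) ℂ, IsInvariant R F →
    (∀ X ∈ T, IsIntegralPoint R L X → value F X = 0) → ∀ X ∈ T, value F X = 0

/-- The representations into `SL_r(𝓞 L)` in `T` are Zariski dense in `T` as a set of points of the
representation variety. -/
def IsDenseRep (L : IntermediateField ℚ ℂ) (T : Set (ι → SpecialLinearGroup (Fin r) ℂ)) : Prop :=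
  ∀ F : MvPolynomial (ι × Fin r × Fin r) ℂ,
    (∀ X ∈ T, IsIntegralRep L X → value F X = 0) → ∀ X ∈ T, value F X = 0

section curves

variable {k : ℕ} {g n : Fin k → ℕ} (m : ∀ i, Fin (n i) → ℕ) (S : ∀ i, Set (Fin (n i)))
  (C : ∀ i, Fin (n i) → SpecialLinearGroup (Fin r) ℂ)

/-- The points of `M_r(X)(ℂ)` with prescribed classes `C i j` at the marked points `j ∈ S i`. -/
def Y : Set (Gens g n → SpecialLinearGroup (Fin r) ℂ) :=
  {X ∈ YNone (Rels g n m) r | ∀ i, ∀ j ∈ S i, IsConj (C i j) (X (Sum.inr ⟨i, j⟩))}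

/-- All of `Y`, except that there is a condition on the classes of `X` at the marked points of
those spheres `X_i` which have at least three marked points and no free puncture, if `r ≥ 4`: one of
them is nonderogatory, or all but one are of the form scalar plus rank at most one. -/
def Z : Set (Gens g n → SpecialLinearGroup (Fin r) ℂ) :=
  {X ∈ Y m S C | ∀ i, 1 ≤ g i ∨ n i ≤ 2 ∨ r ≤ 3 ∨ (∃ j, m i j = 0 ∧ j ∉ S i) ∨
    (∃ j, IsNonderogatory (X (Sum.inr ⟨i, j⟩))) ∨
    ∃ j₀, ∀ j, j ≠ j₀ → ∃ z : ℂ, ((X (Sum.inr ⟨i, j⟩)).1 - z • 1).rank ≤ 1}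

end curves

end Vale.Agent.P002R.Orb
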