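import Vale.Agent.P002R.RStatementP

/-!
# Statement for spheres with regular classes: definition
-/

namespace Vale.Agent.P002R.Product

open Matrix

/-- `M` is nonderogatory: it has a cyclic vector, that is, it has only one Jordan block
for each eigenvalue. -/
def IsNonderogatory {r : ℕ} (M : SpecialLinearGroup (Fin r) ℂ) : Prop :=
  ∃ v : Fin r → ℂ, LinearIndependent ℂ fun i : Fin r => (M.1 ^ (i : ℕ)) *ᵥ v

end Vale.Agent.P002R.Product
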