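import Vale.Agent.P002R.YInt

/-!
# P002, genus 0, two regular classes: density in the chart
-/

namespace Vale.Agent.P002R

open Matrix

/-- Density of the integral points in the chart. The integral points are triangular at both ends,
with the diagonals of the given point. -/
theorem chart_density2 {R : Type*} [CommRing R] (φ : R →+* ℂ) (hinj : Function.Injective φ)
    {r m : ℕ} (C : Fin (m + 3) → (Mat r ℂ)ˣ) (hE : ∀ j, EigU φ (C j : Mat r ℂ))
    (hT : ∀ j : Fin (m + 3), 1 ≤ (j : ℕ) → (j : ℕ) ≤ m → TotD φ (C j : Mat r ℂ))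
    (h0 : ∃ v, P002G.Cyc (C 0 : Mat r ℂ) v)
    (hl : ∃ v, P002G.Cyc (C (Fin.last (m + 2)) : Mat r ℂ) v)
    (x : FU 0 (m + 3) →* (Mat r ℂ)ˣ) (hx1 : x (relatorU 0 (m + 3)) = 1)
    (hxC : ∀ j, IsConj (C j) (x (FreeGroup.of (Sum.inr j))))
    (hup : UpT (cseq x 0)) (hlo : LoT (cseq x (m + 2)))
    (hcell : ∀ k ≤ m + 1, ∃ X : Mat r ℂ,
      (List.ofFn fun j : Fin k => cseq x ((j : ℕ) + 1)).prod = zZ X ∧ ∀ i, X i i ≠ 0)
    (hD : ∀ X X' : Mat r ℂ, (List.ofFn fun j : Fin m => cseq x ((j : ℕ) + 1)).prod = zZ X' →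
      (∀ i, X' i i ≠ 0) → (∀ i, X i i ≠ 0) → zZ X * lL X' = lL X' * cseq x (m + 1) →
      DualD φ (C ⟨m + 1, by omega⟩ : Mat r ℂ) X)
    (f : MvPolynomial (GenU 0 (m + 3) × Fin r × Fin r) ℂ)
    (hf : ∀ (y : FU 0 (m + 3) →* (Mat r ℂ)ˣ) (cR : ℕ → Mat r R), y (relatorU 0 (m + 3)) = 1 →
      (∀ j, IsConj (C j) (y (FreeGroup.of (Sum.inr j)))) →
      (∀ j : Fin (m + 3), (y (FreeGroup.of (Sum.inr j)) : Mat r ℂ) = (cR j).map φ) →
      (∀ j : Fin (m + 3), IsUnit (cR j).det) → UpT (cR 0) → LoT (cR (m + 2)) →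
      (∀ i, φ (cR 0 i i) = cseq x 0 i i) → (∀ i, φ (cR (m + 2) i i) = cseq x (m + 2) i i) →
      evalG y f = 0) :
    evalG x f = 0 := by
  -- the tuple in the chart
  have hXex : ∀ k, ∃ X : Mat r ℂ, k ≤ m + 1 →
      (List.ofFn fun j : Fin k => cseq x ((j : ℕ) + 1)).prod = zZ X ∧ ∀ i, X i i ≠ 0 := by
    intro k
    by_cases hk : k ≤ m + 1
    · obtain ⟨X, hX⟩ := hcell k hk
      exact ⟨X, fun _ => hX⟩
    · exact ⟨0, fun h => absurd h hk⟩
  choose X hX using hXex
  obtain ⟨Y, κ, t, hκ, ht, hctup, hLc, hY0⟩ := exists_ctup (m + 1) (cseq x) X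
    (fun k hk => (hX k hk).1) (fun k hk => (hX k hk).2) hup hlo (cseq_prod x hx1)
  obtain ⟨t', ht'⟩ : ∃ t' : Fin r → ℂ, t' = fun i => cseq x 0 i i := ⟨_, rfl⟩
  rw [← ht'] at hctup
  have hcx : ∀ j (hj : j < m + 3), CjM (C ⟨j, hj⟩ : Mat r ℂ) (cseq x j) := by
    intro j hj
    have h1 : cseq x j = _ := cseq_of x ⟨j, hj⟩
    rw [h1]
    exact cjM_of_isConj (hxC ⟨j, hj⟩)
  -- eigenvalues
  have hξ0 : ∀ i, ∃ u : Rˣ, φ (u : R) = cseq x 0 i i := by
    intro i
    apply hE 0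
    have h1 : (C 0 : Mat r ℂ).charpoly = (cseq x 0).charpoly :=
      ((hcx 0 (by omega)).charpoly).symm
    rw [h1, charpoly_upT hup, Polynomial.IsRoot.def, Polynomial.eval_prod]
    exact Finset.prod_eq_zero (Finset.mem_univ i) (by simp)
  choose ξ hξ using hξ0
  have hξ0' : ∀ i, ∃ u : Rˣ, φ (u : R) = cseq x (m + 2) i i := by
    intro i
    apply hE (Fin.last (m + 2))
    have h1 : (C (Fin.last (m + 2)) : Mat r ℂ).charpoly = (cseq x (m + 2)).charpoly :=
      ((hcx (m + 2) (by omega)).charpoly).symm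
    rw [h1, charpoly_loT hlo, Polynomial.IsRoot.def, Polynomial.eval_prod]
    exact Finset.prod_eq_zero (Finset.mem_univ i) (by simp)
  choose ξ' hξ' using hξ0'
  have hδ0 : ∀ l, ∃ u : Rˣ, ∀ hl : l < m + 1, φ (u : R) =
      (C ⟨l + 1, by omega⟩ : Mat r ℂ).det := by
    intro l
    by_cases hl : l < m + 1
    · obtain ⟨u, hu⟩ := (hE ⟨l + 1, by omega⟩).det
      exact ⟨u, fun _ => hu⟩
    · exact ⟨1, fun h => absurd h hl⟩
  choose δ hδ using hδ0
  -- the elements of the cell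
  have hYC : ∀ k (hk : k < m + 1), CjM (C ⟨k + 1, by omega⟩ : Mat r ℂ) (zZ (Y k)) := by
    intro k hk
    obtain ⟨L, -, hL⟩ := ctup_mid_cjM (m + 1) t t' κ Y k hk (hκ k hk.le)
    refine (hcx (k + 1) (by omega)).trans ⟨L, ?_⟩
    rw [hctup (k + 1) (by omega)]
    exact hL
  have hκ' : ∀ k ≤ m + 1, κ k = φ (kap' δ k) := by
    intro k hk
    have h1 := kap'_mul δ φ Y k fun l hlk => by
      rw [(hYC l (by omega)).det, hδ l (by omega)]
    have h2 := hκ k hk
    have h3 : (Lc Y k).det ≠ 0 := right_ne_zero_of_mul (by rw [h2]; exact one_ne_zero)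
    exact mul_right_cancel₀ h3 (h2.trans h1.symm)
  have htt : t = fun i => φ ((ξ i)⁻¹ : Rˣ) := by
    funext i
    have h1 := ht i
    have h2 : φ (ξ i) * φ ((ξ i)⁻¹ : Rˣ) = 1 := by rw [← map_mul, Units.mul_inv, map_one]
    rw [hξ] at h2
    exact mul_left_cancel₀ (left_ne_zero_of_mul (by rw [h1]; exact one_ne_zero)) (h1.trans h2.symm)
  have htt' : t' = fun i => φ (ξ i) := by
    rw [ht']
    funext i
    rw [hξ]
  have hlast : ∀ i, (∏ l ∈ Finset.range (m + 1), Y l i i) * φ (ξ i) * φ (ξ' i) = 1 := by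
    intro i
    have h1 := (ctup_last_loT (m + 1) t t' κ Y (hκ (m + 1) le_rfl)).2 i
    rw [← hctup (m + 1 + 1) (by omega), Lc_diag] at h1
    have h2 := ht i
    rw [hξ, hξ', mul_comm (∏ l ∈ Finset.range (m + 1), Y l i i), mul_assoc,
      mul_comm (∏ l ∈ Finset.range (m + 1), Y l i i), h1, h2]
  -- the dual chart
  have hDY : DualD φ (C ⟨m + 1, by omega⟩ : Mat r ℂ) (Y m) := by
    refine hD (Y m) (X m) (hX m (Nat.le_succ m)).1 (hX m (Nat.le_succ m)).2
      (hY0 m (Nat.lt_succ_self m)) ?_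
    obtain ⟨L, hL1, hL2⟩ := ctup_mid_cjM (m + 1) t t' κ Y m (Nat.lt_succ_self m)
      (hκ m (Nat.le_succ m))
    rw [← hctup (m + 1) (by omega)] at hL2
    rw [← hLc m (Nat.le_succ m), ← hL1, hL2, mul_assoc, Units.inv_mul, mul_one]
  -- the polynomial
  obtain ⟨v, hv⟩ := (hcx 0 (by omega)).cyc h0
  obtain ⟨v', hv'⟩ := (hcx (m + 2) (by omega)).cyc hl
  obtain ⟨F, hF⟩ := exists_chart_poly (m := m) t t' κ v v' f
  have hext : ∀ j, ctup (m + 1) t t' κ (extY fun k : Fin (m + 1) => Y k) j =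
      ctup (m + 1) t t' κ Y j := fun j =>
    ctup_congr (fun l hl => extY_of _ l hl) (fun _ _ => rfl) j
  have hmain := core_density2 φ (fun k : Fin m => (C ⟨k + 1, by omega⟩ : Mat r ℂ))
    (fun k => hT _ (Nat.succ_le_succ (Nat.zero_le _)) (Nat.succ_le_of_lt k.2))
    (C ⟨m + 1, by omega⟩ : Mat r ℂ) (fun i => (ξ i * ξ' i)⁻¹) F
    (fun Y' hY1 hY2 hY3 hY5 => by
      obtain ⟨Z, hZ⟩ : ∃ Z : ℕ → Mat r R, Z = extY Y' := ⟨_, rfl⟩
      have hZk : ∀ k (hk : k < m + 1), Z k = Y' ⟨k, hk⟩ := fun k hk => by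
        rw [hZ, extY_of _ k hk]
      have hZm : Z m = Y' (Fin.last m) := hZk m (Nat.lt_succ_self m)
      obtain ⟨hκZ, y, cR, hy1, hy2, hy2', hyu, hyl, hyu', hyl', hy3⟩ := chart_integral2 φ hinj C hE
        h0 hl δ ξ ξ' (fun l hl => hδ l hl)
        (by
          have h1 : (C 0 : Mat r ℂ).charpoly = (cseq x 0).charpoly :=
            ((hcx 0 (by omega)).charpoly).symm
          rw [h1, charpoly_upT hup]
          exact Finset.prod_congr rfl fun i _ => by rw [hξ])
        (by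
          have h1 : (C (Fin.last (m + 2)) : Mat r ℂ).charpoly = (cseq x (m + 2)).charpoly :=
            ((hcx (m + 2) (by omega)).charpoly).symm
          rw [h1, charpoly_loT hlo]
          exact Finset.prod_congr rfl fun i _ => by rw [hξ'])
        Z (fun k hk => by
          rcases Nat.lt_succ_iff_lt_or_eq.1 hk with h | rfl
          · rw [hZk k (by omega)]
            exact hY2 ⟨k, h⟩
          · rw [hZm]
            exact hY3)
        (fun i => by
          have h1 : (∏ l ∈ Finset.range (m + 1), φ (Z l i i)) = φ ((ξ i * ξ' i)⁻¹ : Rˣ) := by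
            rw [← hY5 i, map_prod, ← Fin.prod_univ_eq_prod_range (fun l => φ (Z l i i))]
            exact Finset.prod_congr rfl fun l _ => by rw [hZk l l.2]
          rw [h1, mul_assoc, ← map_mul, ← map_mul, ← Units.val_mul, ← Units.val_mul,
            inv_mul_cancel, Units.val_one, map_one])
      have hcc : ∀ j, ctup (m + 1) (fun i => φ ((ξ i)⁻¹ : Rˣ)) (fun i => φ (ξ i))
          (fun k => φ (kap' δ k)) (fun k => (Z k).map φ) j =
          ctup (m + 1) t t' κ (extY fun k => (Y' k).map φ) j := by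
        intro j
        rw [htt, htt', ← extY_map, ← hZ]
        exact ctup_congr (fun _ _ => rfl) (fun l hl => (hκ' l hl).symm) j
      have hFY := hF fun k => (Y' k).map φ
      simp only [Matrix.map_apply] at hFY
      rw [hFY]
      by_cases hk1 : (P002.kry (ctup (m + 1) t t' κ (extY fun k => (Y' k).map φ) 0) v).det = 0
      · rw [hk1, mul_zero, zero_mul]
      by_cases hk2 : (P002.kry (ctup (m + 1) t t' κ (extY fun k => (Y' k).map φ) (m + 2)) v').det = 0
      · rw [hk2, mul_zero]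
      obtain ⟨hy4, hy5⟩ := hy3
        ⟨v, by
          rw [hcc, P002G.cyc_iff, Matrix.isUnit_iff_isUnit_det, isUnit_iff_ne_zero]
          exact hk1⟩
        ⟨v', by
          rw [hcc, P002G.cyc_iff, Matrix.isUnit_iff_isUnit_det, isUnit_iff_ne_zero]
          exact hk2⟩
      have hy6 := hf y cR hy1 hy4 hy2' hy5 hyu hyl (fun i => by rw [hyu', hξ])
        (fun i => by rw [hyl', hξ'])
      rw [evalG_eq_evalT y _ hy2] at hy6
      have hcc' : (fun j => ctup (m + 1) (fun i => φ ((ξ i)⁻¹ : Rˣ)) (fun i => φ (ξ i))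
          (fun k => φ (kap' δ k)) (fun k => (Z k).map φ) j) =
          fun j => ctup (m + 1) t t' κ (extY fun k => (Y' k).map φ) j := funext hcc
      have hy7 : evalT (ctup (m + 1) t t' κ (extY fun k => (Y' k).map φ)) f = 0 := by
        rw [← hy6]
        exact congrArg (fun c => evalT c f) hcc'.symm
      rw [hy7, zero_mul, zero_mul])
    (fun k : Fin (m + 1) => Y k) (fun k i => hY0 k k.2 i) (fun k => hYC k (by omega))
    (hYC m (Nat.lt_succ_self m)) hDY
    (fun i => by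
      have h1 := hlast i
      have h2 : φ ((ξ i * ξ' i)⁻¹ : Rˣ) * (φ (ξ i) * φ (ξ' i)) = 1 := by
        rw [← map_mul, ← map_mul, ← Units.val_mul, ← Units.val_mul, inv_mul_cancel, Units.val_one,
          map_one]
      rw [Fin.prod_univ_eq_prod_range (fun l => Y l i i)]
      rw [mul_assoc] at h1
      exact mul_right_cancel₀ (right_ne_zero_of_mul (by rw [h2]; exact one_ne_zero))
        (h1.trans h2.symm))
  have hmain' := (hF fun k : Fin (m + 1) => Y k).symm.trans hmain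
  rw [hext, hext] at hmain'
  have hkv : (P002.kry (ctup (m + 1) t t' κ Y 0) v).det ≠ 0 := by
    rw [← hctup 0 (by omega), ← isUnit_iff_ne_zero, ← Matrix.isUnit_iff_isUnit_det,
      ← P002G.cyc_iff]
    exact hv
  have hkv' : (P002.kry (ctup (m + 1) t t' κ Y (m + 2)) v').det ≠ 0 := by
    rw [← hctup (m + 1 + 1) le_rfl, ← isUnit_iff_ne_zero, ← Matrix.isUnit_iff_isUnit_det,
      ← P002G.cyc_iff]
    exact hv'
  have hev : evalT (N := m + 3) (ctup (m + 1) t t' κ (extY fun k : Fin (m + 1) => Y k)) f = 0 := by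
    rcases mul_eq_zero.1 hmain' with h | h
    · exact (mul_eq_zero.1 h).resolve_right hkv
    · exact absurd h hkv'
  rw [evalG_eq_evalT x _ fun j => ?_]
  · exact hev
  · rw [hext, ← hctup j (by omega), cseq_of]

end Vale.Agent.P002R
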