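import Vale.Agent.P002R.YCore

/-!
# P002, genus 0, two regular classes: integral points of the chart
-/

namespace Vale.Agent.P002R

open Matrix

variable {R : Type*} [CommRing R] {r m : ℕ}

/-- All eigenvalues are units of the ring. -/
def EigU (φ : R →+* ℂ) (M : Mat r ℂ) : Prop :=
  ∀ z : ℂ, M.charpoly.IsRoot z → ∃ e : Rˣ, φ (e : R) = z

theorem EigU.det {φ : R →+* ℂ} {M : Mat r ℂ} (h : EigU φ M) : ∃ e : Rˣ, φ (e : R) = M.det := by
  rw [Matrix.det_eq_prod_roots_charpoly]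
  have key : ∀ s : Multiset ℂ, (∀ z ∈ s, ∃ e : Rˣ, φ (e : R) = z) →
      ∃ e : Rˣ, φ (e : R) = s.prod := by
    intro s
    induction s using Multiset.induction_on with
    | empty => exact fun _ => ⟨1, by simp⟩
    | cons a s ih =>
      intro hs
      obtain ⟨e, he⟩ := hs a (Multiset.mem_cons_self a s)
      obtain ⟨e', he'⟩ := ih fun z hz => hs z (Multiset.mem_cons_of_mem hz)
      exact ⟨e * e', by rw [Units.val_mul, map_mul, he, he', Multiset.prod_cons]⟩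
  refine key _ fun z hz => h z ?_
  exact (Polynomial.mem_roots'.1 hz).2

theorem chart_integral2 (φ : R →+* ℂ) (hinj : Function.Injective φ)
    (C : Fin (m + 3) → (Mat r ℂ)ˣ) (hE : ∀ j, EigU φ (C j : Mat r ℂ))
    (h0 : ∃ v, P002G.Cyc (C 0 : Mat r ℂ) v)
    (hl : ∃ v, P002G.Cyc (C (Fin.last (m + 2)) : Mat r ℂ) v)
    (δ : ℕ → Rˣ) (ξ ξ' : Fin r → Rˣ)
    (hδ : ∀ l (hl : l < m + 1), φ (δ l) = (C ⟨l + 1, by omega⟩ : Mat r ℂ).det)
    (hξ : (C 0 : Mat r ℂ).charpoly = ∏ i, (Polynomial.X - Polynomial.C (φ (ξ i))))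
    (hξ' : (C (Fin.last (m + 2)) : Mat r ℂ).charpoly =
      ∏ i, (Polynomial.X - Polynomial.C (φ (ξ' i))))
    (Y : ℕ → Mat r R)
    (hY : ∀ k (hk : k < m + 1), CjM (C ⟨k + 1, by omega⟩ : Mat r ℂ) (zZ ((Y k).map φ)))
    (hprod : ∀ i, (∏ l ∈ Finset.range (m + 1), φ (Y l i i)) * φ (ξ i) * φ (ξ' i) = 1) :
    (∀ k ≤ m + 1, φ (kap' δ k) * (Lc (fun k => (Y k).map φ) k).det = 1) ∧
    ∃ (y : FU 0 (m + 3) →* (Mat r ℂ)ˣ) (cR : ℕ → Mat r R), y (relatorU 0 (m + 3)) = 1 ∧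
      (∀ j : Fin (m + 3), (y (FreeGroup.of (Sum.inr j)) : Mat r ℂ) =
        ctup (m + 1) (fun i => φ ((ξ i)⁻¹ : Rˣ)) (fun i => φ (ξ i)) (fun k => φ (kap' δ k))
          (fun k => (Y k).map φ) j) ∧
      (∀ j : Fin (m + 3), (y (FreeGroup.of (Sum.inr j)) : Mat r ℂ) = (cR j).map φ) ∧
      UpT (cR 0) ∧ LoT (cR (m + 2)) ∧ (∀ i, cR 0 i i = ξ i) ∧ (∀ i, cR (m + 2) i i = ξ' i) ∧
      ((∃ v, P002G.Cyc (ctup (m + 1) (fun i => φ ((ξ i)⁻¹ : Rˣ)) (fun i => φ (ξ i))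
          (fun k => φ (kap' δ k)) (fun k => (Y k).map φ) 0) v) →
        (∃ v, P002G.Cyc (ctup (m + 1) (fun i => φ ((ξ i)⁻¹ : Rˣ)) (fun i => φ (ξ i))
          (fun k => φ (kap' δ k)) (fun k => (Y k).map φ) (m + 2)) v) →
        (∀ j, IsConj (C j) (y (FreeGroup.of (Sum.inr j)))) ∧
          ∀ j : Fin (m + 3), IsUnit (cR j).det) := by
  obtain ⟨Y', hY'⟩ : ∃ Y' : ℕ → Mat r ℂ, Y' = fun k => (Y k).map φ := ⟨_, rfl⟩
  have hdet : ∀ l < m + 1, (zZ (Y' l)).det = φ (δ l) := by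
    intro l hlm
    rw [hδ l hlm, hY']
    exact (hY l hlm).det
  have hκ : ∀ k ≤ m + 1, φ (kap' δ k) * (Lc Y' k).det = 1 := fun k hk =>
    kap'_mul δ φ Y' k fun l hl => hdet l (lt_of_lt_of_le hl hk)
  rw [← hY']
  refine ⟨hκ, ?_⟩
  obtain ⟨t, ht⟩ : ∃ t : Fin r → ℂ, t = fun i => φ ((ξ i)⁻¹ : Rˣ) := ⟨_, rfl⟩
  obtain ⟨t', ht'⟩ : ∃ t' : Fin r → ℂ, t' = fun i => φ (ξ i) := ⟨_, rfl⟩
  obtain ⟨κ, hκdef⟩ : ∃ κ : ℕ → ℂ, κ = fun k => φ (kap' δ k) := ⟨_, rfl⟩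
  have hκ' : ∀ k ≤ m + 1, κ k * (Lc Y' k).det = 1 := by rw [hκdef]; exact hκ
  obtain ⟨cR, hcR⟩ : ∃ cR : ℕ → Mat r R, cR =
    ctup (m + 1) (fun i => (((ξ i)⁻¹ : Rˣ) : R)) (fun i => (ξ i : R)) (kap' δ) Y := ⟨_, rfl⟩
  have hint : ∀ j, ctup (m + 1) t t' κ Y' j = (cR j).map φ := by
    intro j
    rw [hcR, ctup_map, ht, ht', hκdef, hY']
  rw [← ht, ← ht', ← hκdef]
  have htt : ∀ i, t' i * t i = 1 := by
    intro i
    rw [ht, ht']
    simp only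
    rw [← map_mul, Units.mul_inv, map_one]
  obtain ⟨y, hy1, hy2⟩ := exists_hom (m + 3) (fun j => ctup (m + 1) t t' κ Y' j)
    (ctup_prod (m + 1) t t' κ Y' hκ' htt)
  obtain ⟨hu1, hu2⟩ := ctup_zero_upT (m + 1) t t' κ Y'
  obtain ⟨hl1, hl2⟩ := ctup_last_loT (m + 1) t t' κ Y' (hκ' _ le_rfl)
  have h9 : ∀ i, φ (ξ' i) = ctup (m + 1) t t' κ Y' (m + 1 + 1) i i := by
    intro i
    have h5 := hl2 i
    have h6 := hprod i
    have h7 : Lc Y' (m + 1) i i = ∏ l ∈ Finset.range (m + 1), φ (Y l i i) := by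
      rw [Lc_diag, hY']
      rfl
    rw [← h7] at h6
    have h8 := htt i
    have h10 : φ (ξ i) = t' i := by rw [ht']
    rw [h10] at h6
    calc φ (ξ' i) = φ (ξ' i) * (t' i * t i) := by rw [h8, mul_one]
      _ = φ (ξ' i) * (t' i * (ctup (m + 1) t t' κ Y' (m + 1 + 1) i i * Lc Y' (m + 1) i i)) := by
        rw [h5]
      _ = ctup (m + 1) t t' κ Y' (m + 1 + 1) i i * (Lc Y' (m + 1) i i * t' i * φ (ξ' i)) := by
        ring
      _ = _ := by rw [h6, mul_one]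
  refine ⟨y, cR, hy1, hy2, fun j => (hy2 j).trans (hint j), ?_, ?_, ?_, ?_, fun hc0 hcl => ?_⟩
  · intro i j hij
    apply hinj
    have h1 := hu1 i j hij
    rw [hint, Matrix.map_apply] at h1
    rw [h1, map_zero]
  · intro i j hij
    apply hinj
    have h1 := hl1 i j hij
    rw [hint, Matrix.map_apply] at h1
    rw [h1, map_zero]
  · intro i
    apply hinj
    have h1 := hu2 i
    rw [hint, Matrix.map_apply] at h1
    rw [h1, ht']
  · intro i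
    apply hinj
    have h1 := h9 i
    rw [hint, Matrix.map_apply] at h1
    exact h1.symm
  have hconj : ∀ j, IsConj (C j) (y (FreeGroup.of (Sum.inr j))) := by
    intro j
    rcases Nat.eq_zero_or_pos (j : ℕ) with h | h
    · have hj : j = 0 := Fin.ext h
      subst hj
      obtain ⟨v, hv⟩ := h0
      obtain ⟨w, hw⟩ := hc0
      have h3 : (y (FreeGroup.of (Sum.inr 0)) : Mat r ℂ) = ctup (m + 1) t t' κ Y' 0 := hy2 0
      refine isConj_of_cyc (v := v) (w := w) _ _ ?_ hv (by rw [h3]; exact hw)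
      rw [h3, charpoly_upT hu1, hξ]
      refine Finset.prod_congr rfl fun i _ => ?_
      rw [hu2, ht']
    obtain ⟨k, hk⟩ : ∃ k, (j : ℕ) = k + 1 := ⟨(j : ℕ) - 1, by omega⟩
    have hkN : k + 1 < m + 3 := by have := j.2; omega
    have hj : j = ⟨k + 1, hkN⟩ := Fin.ext hk
    clear hk h
    subst hj
    rcases Nat.lt_or_ge k (m + 1) with hkm | hkm
    · have h3 : (y (FreeGroup.of (Sum.inr ⟨k + 1, by omega⟩)) : Mat r ℂ) =
        ctup (m + 1) t t' κ Y' (k + 1) := hy2 _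
      obtain ⟨L, hL, hL'⟩ := ctup_mid_cjM (m + 1) t t' κ Y' k hkm (hκ' k hkm.le)
      have h4 : CjM (y (FreeGroup.of (Sum.inr ⟨k + 1, by omega⟩)) : Mat r ℂ) (zZ (Y' k)) := by
        rw [h3]
        exact ⟨L, hL'⟩
      apply isConj_of_cjM
      refine CjM.trans ?_ h4.symm
      rw [hY']
      exact hY k hkm
    · have hkm' : k = m + 1 := by omega
      subst hkm'
      obtain ⟨v, hv⟩ := hl
      obtain ⟨w, hw⟩ := hcl
      have h3 : (y (FreeGroup.of (Sum.inr ⟨m + 1 + 1, by omega⟩)) : Mat r ℂ) =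
        ctup (m + 1) t t' κ Y' (m + 1 + 1) := hy2 _
      refine isConj_of_cyc (v := v) (w := w) _ _ ?_ hv (by rw [h3]; exact hw)
      rw [h3, charpoly_loT hl1]
      refine hξ'.trans ?_
      refine Finset.prod_congr rfl fun i _ => ?_
      rw [h9]
  refine ⟨hconj, fun j => ?_⟩
  obtain ⟨e, he⟩ := (hE j).det
  have h1 : φ (cR j).det = φ (e : R) := by
    rw [he, ← (cjM_of_isConj (hconj j)).det, hy2 j, hint, RingHom.map_det]
    rfl
  rw [hinj h1]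
  exact e.isUnit

end Vale.Agent.P002R
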