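import Vale.Agent.P002R.Z2Main

/-!
# P002, genus 1: all boundary classes are scalar
-/

namespace Vale.Agent.P002R

open Matrix

variable {r : ℕ}

/-- Powers of `b` are eigenvectors of `a` when `a b = l b a`. -/
theorem eig_pow {a b : Mat r ℂ} {l : ℂ} (hab : a * b = l • (b * a)) {α : ℂ} {v : Fin r → ℂ}
    (hv : a *ᵥ v = α • v) (k : ℕ) : a *ᵥ (b ^ k *ᵥ v) = (α * l ^ k) • (b ^ k *ᵥ v) := by
  induction k with
  | zero => simp [hv]
  | succ k ih =>
    rw [pow_succ' b, ← mulVec_mulVec, mulVec_mulVec _ a b, hab, smul_mulVec, ← mulVec_mulVec, ih,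
      mulVec_smul, smul_smul, pow_succ]
    congr 1
    ring

theorem commute_pow_of {a b : Mat r ℂ} {l : ℂ} (hab : a * b = l • (b * a)) (k : ℕ) :
    a * b ^ k = l ^ k • (b ^ k * a) := by
  induction k with
  | zero => simp
  | succ k ih =>
    rw [pow_succ, ← mul_assoc, ih, smul_mul_assoc, mul_assoc, hab, mul_smul_comm, smul_smul,
      ← mul_assoc, pow_succ]

/-- The normal form of a Heisenberg pair. -/
theorem heis_form {n : ℕ} {a b : Mat (n + 1) ℂ} {l : ℂ} (hl : l ^ (n + 1) = 1)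
    (hab : a * b = l • (b * a)) (ha : IsUnit a.det) (hb : IsUnit b.det)
    (hcomm : ∀ M : Mat (n + 1) ℂ, Commute M a → Commute M b →
      ∃ c : ℂ, M = c • (1 : Mat (n + 1) ℂ))
    (hst : ∀ W : Submodule ℂ (Fin (n + 1) → ℂ), (∀ v ∈ W, a *ᵥ v ∈ W) → (∀ v ∈ W, b *ᵥ v ∈ W) →
      W = ⊥ ∨ W = ⊤) :
    ∃ (g : Mat (n + 1) ℂ) (α β : ℂ), IsUnit g.det ∧ α ≠ 0 ∧ β ≠ 0 ∧
      a * g = g * (α • Matrix.diagonal fun i : Fin (n + 1) => l ^ (i : ℕ)) ∧
      b * g = g * (β • (Equiv.toPEquiv (Equiv.addLeft (1 : Fin (n + 1))).symm).toMatrix) := by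
  classical
  -- an eigenvector of `a`
  obtain ⟨α, v, hv0, hv⟩ : ∃ (α : ℂ) (v : Fin (n + 1) → ℂ), v ≠ 0 ∧ a *ᵥ v = α • v := by
    obtain ⟨α, hα⟩ := Module.End.exists_eigenvalue (Matrix.toLin' a)
    obtain ⟨v, hv⟩ := hα.exists_hasEigenvector
    exact ⟨α, v, hv.2, by simpa [Matrix.toLin'_apply] using hv.apply_eq_smul⟩
  have hα0 : α ≠ 0 := by
    rintro rfl
    rw [zero_smul] at hv
    apply hv0
    have h1 : a⁻¹ *ᵥ (a *ᵥ v) = v := by
      rw [mulVec_mulVec, nonsing_inv_mul a ha, one_mulVec]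
    rw [← h1, hv, mulVec_zero]
  have hl0 : l ≠ 0 := by
    rintro rfl
    simp at hl
  obtain ⟨d, hd⟩ : ∃ d, d = orderOf l := ⟨_, rfl⟩
  have hd0 : 0 < d := by
    rw [hd]
    exact orderOf_pos_iff.2 (isOfFinOrder_iff_pow_eq_one.2 ⟨n + 1, Nat.succ_pos n, hl⟩)
  have hld : l ^ d = 1 := by
    rw [hd]
    exact pow_orderOf_eq_one l
  obtain ⟨B, hB⟩ : ∃ B : ℂ, b ^ d = B • (1 : Mat (n + 1) ℂ) := by
    refine hcomm _ ?_ ((Commute.refl b).pow_left d)
    have h1 := commute_pow_of hab d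
    rw [hld, one_smul] at h1
    exact h1.symm
  have hB0 : B ≠ 0 := by
    rintro rfl
    rw [zero_smul] at hB
    have h1 : IsUnit (b ^ d).det := by
      rw [det_pow]
      exact hb.pow d
    rw [hB, det_zero] at h1
    exact not_isUnit_zero h1
  obtain ⟨β, hβ⟩ := IsAlgClosed.exists_pow_nat_eq B hd0
  have hβ0 : β ≠ 0 := by
    rintro rfl
    rw [zero_pow hd0.ne'] at hβ
    exact hB0 hβ.symm
  have hbd : ∀ k : ℕ, b ^ (k + d) *ᵥ v = B • (b ^ k *ᵥ v) := by
    intro k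
    rw [pow_add, hB, mul_smul_comm, mul_one, smul_mulVec]
  -- the span of the powers
  obtain ⟨W, hW⟩ : ∃ W : Submodule ℂ (Fin (n + 1) → ℂ),
      W = Submodule.span ℂ (Set.range fun k : Fin d => b ^ (k : ℕ) *ᵥ v) := ⟨_, rfl⟩
  have hWm : ∀ k : ℕ, k < d → b ^ k *ᵥ v ∈ W := fun k hk => by
    rw [hW]
    exact Submodule.subset_span ⟨⟨k, hk⟩, rfl⟩
  have hWtop : W = ⊤ := by
    have h1 := hst W ?_ ?_
    · rcases h1 with h1 | h1
      · exfalso
        have h2 := hWm 0 hd0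
        rw [pow_zero, one_mulVec, h1, Submodule.mem_bot] at h2
        exact hv0 h2
      · exact h1
    · intro u hu
      rw [hW] at hu
      induction hu using Submodule.span_induction with
      | mem x hx =>
        obtain ⟨k, rfl⟩ := hx
        change a *ᵥ (b ^ (k : ℕ) *ᵥ v) ∈ W
        rw [eig_pow hab hv]
        exact W.smul_mem _ (hWm _ k.2)
      | zero => rw [mulVec_zero]; exact W.zero_mem
      | add x y _ _ hx hy => rw [mulVec_add]; exact W.add_mem hx hy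
      | smul c x _ hx => rw [mulVec_smul]; exact W.smul_mem _ hx
    · intro u hu
      rw [hW] at hu
      induction hu using Submodule.span_induction with
      | mem x hx =>
        obtain ⟨k, rfl⟩ := hx
        change b *ᵥ (b ^ (k : ℕ) *ᵥ v) ∈ W
        rw [mulVec_mulVec, ← pow_succ']
        rcases Nat.lt_or_ge ((k : ℕ) + 1) d with h | h
        · exact hWm _ h
        · have h2 : (k : ℕ) + 1 = 0 + d := by
            have := k.2
            omega
          rw [h2, hbd]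
          exact W.smul_mem _ (hWm _ hd0)
      | zero => rw [mulVec_zero]; exact W.zero_mem
      | add x y _ _ hx hy => rw [mulVec_add]; exact W.add_mem hx hy
      | smul c x _ hx => rw [mulVec_smul]; exact W.smul_mem _ hx
  have hbk0 : ∀ k : ℕ, b ^ k *ᵥ v ≠ 0 := by
    intro k h
    apply hv0
    have hu : IsUnit (b ^ k).det := by
      rw [det_pow]
      exact hb.pow k
    have h1 : (b ^ k)⁻¹ *ᵥ (b ^ k *ᵥ v) = v := by
      rw [mulVec_mulVec, nonsing_inv_mul _ hu, one_mulVec]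
    rw [← h1, h, mulVec_zero]
  have hli : LinearIndependent ℂ fun k : Fin d => b ^ (k : ℕ) *ᵥ v := by
    refine Module.End.eigenvectors_linearIndependent' (Matrix.toLin' a)
      (fun k : Fin d => α * l ^ (k : ℕ)) ?_ _ fun k => ?_
    · intro i j hij
      have h1 : l ^ (i : ℕ) = l ^ (j : ℕ) := mul_left_cancel₀ hα0 hij
      have h2 := pow_injOn_Iio_orderOf (x := l) (by rw [← hd]; exact i.2)
        (by rw [← hd]; exact j.2) h1
      exact Fin.ext h2
    · refine ⟨?_, hbk0 _⟩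
      rw [Module.End.mem_eigenspace_iff, Matrix.toLin'_apply]
      exact eig_pow hab hv _
  have hdn : d = n + 1 := by
    have h1 := finrank_span_eq_card hli
    rw [← hW, hWtop, finrank_top, Fintype.card_fin, Module.finrank_fin_fun] at h1
    exact h1.symm
  subst hdn
  -- the basis
  obtain ⟨u, hu⟩ : ∃ u : ℕ → Fin (n + 1) → ℂ, ∀ k, u k = (β⁻¹) ^ k • (b ^ k *ᵥ v) := ⟨_, fun _ => rfl⟩
  have hper : Function.Periodic u (n + 1) := by
    intro k
    rw [hu, hu, hbd, pow_add, smul_smul, ← hβ]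
    congr 1
    rw [mul_assoc, ← mul_pow, inv_mul_cancel₀ hβ0, one_pow, mul_one]
  obtain ⟨g, hg⟩ : ∃ g : Mat (n + 1) ℂ, ∀ i j, g i j = u j i := ⟨Matrix.of fun i j => u j i, fun _ _ => rfl⟩
  refine ⟨g, α, β, ?_, hα0, hβ0, ?_, ?_⟩
  · rw [← Matrix.isUnit_iff_isUnit_det, ← Matrix.linearIndependent_cols_iff_isUnit]
    have h1 : g.col = fun j : Fin (n + 1) => (Units.mk0 β hβ0)⁻¹ ^ (j : ℕ) • (b ^ (j : ℕ) *ᵥ v) := by
      funext j i
      rw [Matrix.col_apply, hg, hu]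
      rfl
    rw [h1]
    exact hli.units_smul fun j => (Units.mk0 β hβ0)⁻¹ ^ (j : ℕ)
  · ext i j
    have h1 : (a * g) i j = (a *ᵥ u j) i := by
      rw [Matrix.mul_apply, Matrix.mulVec, dotProduct]
      exact Finset.sum_congr rfl fun k _ => by rw [hg]
    rw [h1, hu, mulVec_smul, eig_pow hab hv, Matrix.mul_smul, Matrix.smul_apply,
      Matrix.mul_diagonal, hg, hu]
    simp only [Pi.smul_apply, smul_eq_mul]
    ring
  · ext i j
    have h1 : (b * g) i j = (b *ᵥ u j) i := by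
      rw [Matrix.mul_apply, Matrix.mulVec, dotProduct]
      exact Finset.sum_congr rfl fun k _ => by rw [hg]
    have h2 : b *ᵥ u j = β • u (j + 1) := by
      rw [hu, hu, mulVec_smul, mulVec_mulVec, ← pow_succ', smul_smul, pow_succ (β⁻¹)]
      congr 1
      field_simp
    have h3 : u (((1 : Fin (n + 1)) + j : Fin (n + 1)) : ℕ) = u (j + 1) := by
      have h4 : (((1 : Fin (n + 1)) + j : Fin (n + 1)) : ℕ) = ((j : ℕ) + 1) % (n + 1) := by
        rw [Fin.val_add, Fin.val_one', Nat.add_comm, Nat.add_mod_mod]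
      rw [h4, hper.map_mod_nat]
    rw [h1, h2, Matrix.mul_smul, Matrix.smul_apply, PEquiv.mul_toMatrix_toPEquiv]
    simp only [Matrix.submatrix_apply, id, Equiv.symm_symm, Equiv.coe_addLeft, hg, h3,
      Pi.smul_apply, smul_eq_mul]

theorem exists_unit_root_of_mem {R : Type*} [CommRing R] {φ : R →+* ℂ} {E : Subgroup ℂˣ}
    (hc : CoefOK φ E r) (hr : 0 < r) (e : R) (z : ℂˣ) (hz : z ∈ E) (he : φ e = z) :
    ∃ c : Rˣ, e = (c : R) ^ r := by
  obtain ⟨w, hw⟩ := IsAlgClosed.exists_pow_nat_eq (z : ℂ) hr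
  have hw0 : w ≠ 0 := by
    rintro rfl
    rw [zero_pow hr.ne'] at hw
    exact z.ne_zero hw.symm
  have h1 : (Units.mk0 w hw0) ^ r = z := by
    ext1
    rw [Units.val_pow_eq_pow_val, Units.val_mk0, hw]
  obtain ⟨c, hcw⟩ := hc.root r hr le_rfl (Units.mk0 w hw0) (by rw [h1]; exact hz)
  obtain ⟨c', hcw'⟩ := hc.root r hr le_rfl (Units.mk0 w hw0)⁻¹
    (by rw [inv_pow, h1]; exact E.inv_mem hz)
  have h2 : c * c' = 1 := by
    apply hc.inj
    rw [map_mul, hcw, hcw', map_one, ← Units.val_mul, mul_inv_cancel, Units.val_one]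
  refine ⟨⟨c, c', h2, by rw [mul_comm, h2]⟩, ?_⟩
  apply hc.inj
  rw [map_pow, he]
  change _ = φ c ^ r
  rw [hcw, Units.val_mk0, hw]

theorem mem_GR_smul {R : Type*} [CommRing R] (φ : R →+* ℂ) (U : (Mat r ℂ)ˣ) (Y : Mat r R) {α : ℂ}
    (hα : α ≠ 0) (hU : (U : Mat r ℂ) = α • Y.map φ) (c : Rˣ) (hc : Y.det = (c : R) ^ r) :
    U ∈ GR r φ := by
  have h1 : scalarU (Units.mk0 α hα) ∈ GR r φ := ⟨Units.mk0 α hα, 1, by simp⟩
  have h2 : U = scalarU (Units.mk0 α hα) * ((scalarU (Units.mk0 α hα))⁻¹ * U) := by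
    rw [mul_inv_cancel_left]
  rw [h2]
  refine (GR r φ).mul_mem h1 (mem_GR_of φ _ Y ?_ c hc)
  have h3 : (scalarU (Units.mk0 α hα) : (Mat r ℂ)ˣ) * ((scalarU (Units.mk0 α hα))⁻¹ * U) = U := by
    rw [mul_inv_cancel_left]
  rw [← map_inv, Units.val_mul]
  change (algebraMap ℂ (Mat r ℂ)) ((Units.mk0 α hα)⁻¹ : ℂˣ) * (U : Mat r ℂ) = _
  rw [hU, ← Algebra.smul_def, smul_smul, Units.val_inv_eq_inv_val, Units.val_mk0,
    inv_mul_cancel₀ hα, one_smul]

/-- The two standard matrices, up to scalars. -/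
theorem heis_mem_GR {n : ℕ} {R : Type*} [CommRing R] {φ : R →+* ℂ} {E : Subgroup ℂˣ}
    (hc : CoefOK φ E (n + 1)) {L : ℂˣ} (hL : L ∈ E) {α : ℂ} (hα : α ≠ 0) (U : (Mat (n + 1) ℂ)ˣ)
    (hU : (U : Mat (n + 1) ℂ) = α • Matrix.diagonal fun i : Fin (n + 1) => (L : ℂ) ^ (i : ℕ)) :
    U ∈ GR (n + 1) φ := by
  obtain ⟨t, ht⟩ := hc.root 1 one_pos (Nat.succ_le_succ (Nat.zero_le n)) L (by rwa [pow_one])
  obtain ⟨c, hcc⟩ := exists_unit_root_of_mem hc (Nat.succ_pos n)
    (Matrix.diagonal fun i : Fin (n + 1) => t ^ (i : ℕ)).det (∏ i : Fin (n + 1), L ^ (i : ℕ))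
    (E.prod_mem fun i _ => E.pow_mem hL _) (by
      rw [det_diagonal, map_prod, Units.coe_prod]
      exact Finset.prod_congr rfl fun i _ => by rw [map_pow, ht, Units.val_pow_eq_pow_val])
  refine mem_GR_smul φ U _ hα ?_ c hcc
  rw [hU, Matrix.diagonal_map (map_zero φ)]
  congr 2
  funext i
  rw [map_pow, ht]

theorem shift_mem_GR {n : ℕ} {R : Type*} [CommRing R] {φ : R →+* ℂ} {E : Subgroup ℂˣ}
    (hc : CoefOK φ E (n + 1)) (σ : Equiv.Perm (Fin (n + 1))) {β : ℂ} (hβ : β ≠ 0)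
    (U : (Mat (n + 1) ℂ)ˣ)
    (hU : (U : Mat (n + 1) ℂ) = β • (Equiv.toPEquiv σ).toMatrix) : U ∈ GR (n + 1) φ := by
  have hdet : ((Equiv.toPEquiv σ).toMatrix : Mat (n + 1) R).det = (Equiv.Perm.sign σ : ℤ) :=
    Matrix.det_permutation σ
  obtain ⟨z, hz, hz'⟩ : ∃ z ∈ E, φ ((Equiv.toPEquiv σ).toMatrix : Mat (n + 1) R).det = (z : ℂˣ) := by
    rw [hdet]
    rcases Int.units_eq_one_or (Equiv.Perm.sign σ) with h | h
    · refine ⟨1, E.one_mem, ?_⟩
      rw [h]
      simp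
    · refine ⟨-1, hc.neg, ?_⟩
      rw [h]
      simp
  obtain ⟨c, hcc⟩ := exists_unit_root_of_mem hc (Nat.succ_pos n) _ z hz hz'
  refine mem_GR_smul φ U _ hβ ?_ c hcc
  rw [hU]
  congr 1
  ext i j
  rw [Matrix.map_apply, PEquiv.toMatrix_apply, PEquiv.toMatrix_apply]
  split_ifs <;> simp

/-- Genus one, all boundary classes scalar. -/
theorem scalar_case {n r : ℕ} (hr : 0 < r) {R : Type} [CommRing R] (φ : R →+* ℂ)
    (E : Subgroup ℂˣ) (hc : CoefOK φ E r)
    (C : Fin n → (Mat r ℂ)ˣ) (hE : ∀ j, EigIn E (C j : Mat r ℂ))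
    (hsc : ∀ j, ∃ μ : ℂ, (C j : Mat r ℂ) = μ • (1 : Mat r ℂ))
    (x : FU 1 n →* (Mat r ℂ)ˣ)
    (hx : x ∈ YG ({relatorU 1 n} : Set (FreeGroup ((Fin 1 × Bool) ⊕ Fin n))) C)
    (hirr : ∀ M : Mat r ℂ, (∀ w, Commute M (x w : Mat r ℂ)) → ∃ c : ℂ, M = c • (1 : Mat r ℂ))
    (f : MvPolynomial (((Fin 1 × Bool) ⊕ Fin n) × Fin r × Fin r) ℂ)
    (hf : ∀ y ∈ DGT ({relatorU 1 n} : Set (FreeGroup ((Fin 1 × Bool) ⊕ Fin n))) φ C,
      evalG y f = 0) : evalG x f = 0 := by
  obtain ⟨hx1, hx2, hx3⟩ := hx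
  have hadj := adjoin_top_of_irr x hx3 hirr
  have hxrel : x (relatorU 1 n) = 1 := hx1 _ rfl
  obtain ⟨n', rfl⟩ : ∃ n', r = n' + 1 := ⟨r - 1, by omega⟩
  obtain ⟨a, ha⟩ : ∃ a : Mat (n' + 1) ℂ, a = mt x (Sum.inr false) := ⟨_, rfl⟩
  obtain ⟨b, hb⟩ : ∃ b : Mat (n' + 1) ℂ, b = mt x (Sum.inr true) := ⟨_, rfl⟩
  -- the boundary generators are scalar
  choose μ hμ using hsc
  have hμE : ∀ j, ∃ e ∈ E, (e : ℂ) = μ j := by
    intro j
    refine hE j (μ j) ?_
    rw [Polynomial.IsRoot.def, Matrix.eval_charpoly, hμ, Matrix.smul_one_eq_diagonal,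
      Matrix.scalar_apply, sub_self, det_zero]
  choose e heE he using hμE
  have hcj : ∀ j, mt x (Sum.inl j) = algebraMap ℂ (Mat (n' + 1) ℂ) (e j : ℂ) := by
    intro j
    obtain ⟨u, hu⟩ := isConj_iff.1 (hx2 j)
    rw [mt_inl, ← hu, Units.val_mul, Units.val_mul, hμ, mul_smul_comm, mul_one, smul_mul_assoc,
      ← Units.val_mul, mul_inv_cancel, Units.val_one, he, Algebra.algebraMap_eq_smul_one]
  obtain ⟨L, hL⟩ : ∃ L : ℂˣ, L = (∏ j, e j)⁻¹ := ⟨_, rfl⟩
  have hLE : L ∈ E := by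
    rw [hL]
    exact E.inv_mem (E.prod_mem fun j _ => heE j)
  have haU : IsUnit a.det := by
    rw [ha, mt_inr]
    exact Matrix.isUnits_det_units _
  have hbU : IsUnit b.det := by
    rw [hb, mt_inr]
    exact Matrix.isUnits_det_units _
  have hab : a * b = (L : ℂ) • (b * a) := by
    have h1 := (relU1_iff x).1 hxrel
    rw [← ha, ← hb] at h1
    have h2 : ((List.finRange n).map fun j => mt x (Sum.inl j)).prod =
        algebraMap ℂ (Mat (n' + 1) ℂ) ((∏ j, e j : ℂˣ) : ℂ) := by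
      rw [Fin.prod_univ_def, ← Units.coeHom_apply, map_list_prod, map_list_prod, List.map_map,
        List.map_map]
      congr 1
      exact List.map_congr_left fun j _ => hcj j
    rw [h2, Algebra.algebraMap_eq_smul_one, smul_mul_assoc, one_mul] at h1
    have h3 : a * b * a⁻¹ * b⁻¹ = (L : ℂ) • (1 : Mat (n' + 1) ℂ) := by
      rw [hL, ← h1, smul_smul, ← Units.val_mul, inv_mul_cancel, Units.val_one, one_smul]
    calc a * b = a * b * a⁻¹ * b⁻¹ * (b * a) := by
          rw [mul_assoc (a * b * a⁻¹), ← mul_assoc b⁻¹, nonsing_inv_mul b hbU, one_mul,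
            mul_assoc, nonsing_inv_mul a haU, mul_one]
      _ = _ := by rw [h3, smul_mul_assoc, one_mul]
  have hLr : (L : ℂ) ^ (n' + 1) = 1 := by
    have h1 := congrArg Matrix.det hab
    rw [det_smul, det_mul, det_mul, Fintype.card_fin, mul_comm b.det] at h1
    have h2 : a.det * b.det ≠ 0 := mul_ne_zero haU.ne_zero hbU.ne_zero
    exact (mul_right_cancel₀ h2 ((one_mul _).trans h1)).symm
  have hadj' := (adjoin_iff1 x).1 hadj
  obtain ⟨g, α, β, hg, hα, hβ, h1, h2⟩ := heis_form hLr hab haU hbU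
    (fun M hMa hMb => by
      have h3 : ∀ N ∈ Algebra.adjoin ℂ (Set.range (mt x)), Commute M N := by
        intro N hN
        induction hN using Algebra.adjoin_induction with
        | mem y hy =>
          obtain ⟨j | s, rfl⟩ := hy
          · rw [hcj]
            exact (Algebra.commutes _ _).symm
          · cases s
            · rwa [← ha]
            · rwa [← hb]
        | algebraMap c => exact (Algebra.commutes _ _).symm
        | add y z _ _ hy hz => exact hy.add_right hz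
        | mul y z _ _ hy hz => exact hy.mul_right hz
      refine hirr M fun w => h3 _ ?_
      rw [hadj']
      exact Algebra.mem_top)
    (fun W hWa hWb => by
      refine eq_bot_or_top_of_adjoin (mt x) hadj' W ?_
      rintro (j | s) v hv
      · rw [hcj, Algebra.algebraMap_eq_smul_one, smul_mulVec, one_mulVec]
        exact W.smul_mem _ hv
      · cases s
        · rw [← ha]
          exact hWa v hv
        · rw [← hb]
          exact hWb v hv)
  -- the integral representation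
  obtain ⟨gu, hgu⟩ := (Matrix.isUnit_iff_isUnit_det g).2 hg
  have h3 : ∀ (M N : Mat (n' + 1) ℂ), M * g = g * N → ((gu⁻¹ : (Mat (n' + 1) ℂ)ˣ) : Mat (n' + 1) ℂ) *
      M * (gu : Mat (n' + 1) ℂ) = N := by
    intro M N h
    rw [mul_assoc, hgu, h, ← hgu, ← mul_assoc, ← Units.val_mul, inv_mul_cancel, Units.val_one,
      one_mul]
  refine upgrade x hadj {y | y (relatorU 1 n) = 1 ∧
    (∀ j, IsConj (C j) (y (FreeGroup.of (Sum.inr j)))) ∧
    ∀ k, y (FreeGroup.of k) ∈ GR (n' + 1) φ} ?_ f ?_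
  · intro f' hf'
    have h4 : x = conjH gu (conjH gu⁻¹ x) := by
      apply MonoidHom.ext
      intro w
      rw [conjH_apply, conjH_apply]
      simp only [mul_assoc, inv_inv, mul_inv_cancel_left, mul_inv_cancel, mul_one]
    rw [h4]
    refine conj_vanish_gen {y | y (relatorU 1 n) = 1 ∧
      (∀ j, IsConj (C j) (y (FreeGroup.of (Sum.inr j)))) ∧
      ∀ k, y (FreeGroup.of k) ∈ GR (n' + 1) φ} ?_ f' hf' _ ⟨?_, fun j => ?_, fun k => ?_⟩ gu
    · rintro z ⟨hz1, hz2, hz3⟩ X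
      refine ⟨?_, fun j => ?_, fun k => ?_⟩
      · rw [conjH_apply, hz1, mul_one, mul_inv_cancel]
      · refine (hz2 j).trans ?_
        rw [isConj_iff]
        exact ⟨slU (Int.castRingHom ℂ) X, (conjH_apply _ _ _).symm⟩
      · rw [conjH_apply]
        exact (GR (n' + 1) φ).mul_mem ((GR (n' + 1) φ).mul_mem (slU_int_mem_GR φ X) (hz3 k))
          ((GR (n' + 1) φ).inv_mem (slU_int_mem_GR φ X))
    · rw [conjH_apply, hxrel, mul_one, mul_inv_cancel]
    · refine (hx2 j).trans ?_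
      rw [isConj_iff]
      exact ⟨gu⁻¹, (conjH_apply _ _ _).symm⟩
    · have h5 : (conjH gu⁻¹ x (FreeGroup.of k) : Mat (n' + 1) ℂ) =
          ((gu⁻¹ : (Mat (n' + 1) ℂ)ˣ) : Mat (n' + 1) ℂ) * (x (FreeGroup.of k) : Mat (n' + 1) ℂ) *
            (gu : Mat (n' + 1) ℂ) := by
        rw [conjH_apply, inv_inv, Units.val_mul, Units.val_mul]
      rcases k with ⟨k, s⟩ | j
      · have hk : k = 0 := Subsingleton.elim _ _
        subst hk
        cases s
        · refine heis_mem_GR hc hLE hα _ ?_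
          rw [h5]
          exact h3 _ _ (by rw [← mt_inr x false, ← ha]; exact h1)
        · refine shift_mem_GR hc (Equiv.addLeft (1 : Fin (n' + 1))).symm hβ _ ?_
          rw [h5]
          exact h3 _ _ (by rw [← mt_inr x true, ← hb]; exact h2)
      · refine ⟨e j, 1, ?_⟩
        ext1
        rw [h5, ← mt_inl, hcj, map_one, mul_one, ← Algebra.commutes, mul_assoc, ← Units.val_mul,
          inv_mul_cancel, Units.val_one, mul_one]
        rfl
  · rintro y ⟨hy1, hy2, hy3⟩ hy4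
    refine hf y ⟨⟨⟨?_, hy2, ss_of_adjoin y hy4⟩, hy3⟩, hy4⟩
    rintro w rfl
    exact hy1

end Vale.Agent.P002R
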