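import Vale.Agent.P002R.ZIrrQ
import Mathlib.GroupTheory.GroupAction.MultipleTransitivity

/-!
# Permutation of the punctures of a sphere
-/

namespace Vale.Agent.P002R

open Matrix

/-- The entries of a word in matrices of fixed determinants are polynomials in the entries of the
generators. -/
theorem exists_word_matrixD {K : Type} (r : ℕ) (d : K → ℂˣ) (w : FreeGroup K) :
    ∃ M : Matrix (Fin r) (Fin r) (MvPolynomial (K × Fin r × Fin r) ℂ),
      ∀ x : FreeGroup K →* (Mat r ℂ)ˣ, (∀ k, (x (FreeGroup.of k) : Mat r ℂ).det = d k) →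
        M.map (evalG x) = (x w : Mat r ℂ) := by
  obtain ⟨S, hS⟩ : ∃ S : Subgroup (FreeGroup K), ∀ w, w ∈ S ↔
      ∃ M : Matrix (Fin r) (Fin r) (MvPolynomial (K × Fin r × Fin r) ℂ),
        ∀ x : FreeGroup K →* (Mat r ℂ)ˣ, (∀ k, (x (FreeGroup.of k) : Mat r ℂ).det = d k) →
          M.map (evalG x) = (x w : Mat r ℂ) := by
    refine ⟨{
      carrier := {w | ∃ M : Matrix (Fin r) (Fin r) (MvPolynomial (K × Fin r × Fin r) ℂ),
        ∀ x : FreeGroup K →* (Mat r ℂ)ˣ, (∀ k, (x (FreeGroup.of k) : Mat r ℂ).det = d k) →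
          M.map (evalG x) = (x w : Mat r ℂ)}
      mul_mem' := ?_
      one_mem' := ?_
      inv_mem' := ?_ }, fun w => Iff.rfl⟩
    · rintro a b ⟨M, hM⟩ ⟨N, hN⟩
      refine ⟨M * N, fun x hx => ?_⟩
      have h1 := RingHom.map_mul (RingHom.mapMatrix (m := Fin r) (evalG x).toRingHom) M N
      rw [map_mul, Units.val_mul, ← hM x hx, ← hN x hx]
      exact h1
    · refine ⟨1, fun x _ => ?_⟩
      rw [Matrix.map_one _ (map_zero _) (map_one _), map_one, Units.val_one]
    · rintro a ⟨M, hM⟩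
      refine ⟨((FreeGroup.lift d a)⁻¹ : ℂˣ).val • M.adjugate, fun x hx => ?_⟩
      have h1 := RingHom.map_adjugate (evalG x).toRingHom M
      have h2 : ∀ w, (x w : Mat r ℂ).det = (FreeGroup.lift d w : ℂˣ) := by
        have h3 : (Units.map (Matrix.detMonoidHom (n := Fin r) (R := ℂ))).comp x =
            FreeGroup.lift d := by
          apply FreeGroup.ext_hom
          intro k
          rw [FreeGroup.lift_apply_of]
          apply Units.ext
          exact hx k
        intro w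
        rw [← h3]
        rfl
      have h4 : ((x a⁻¹ : (Mat r ℂ)ˣ) : Mat r ℂ) =
          ((FreeGroup.lift d a)⁻¹ : ℂˣ).val • (x a : Mat r ℂ).adjugate := by
        rw [map_inv, Matrix.coe_units_inv, Matrix.inv_def, Ring.inverse_eq_inv', h2,
          Units.val_inv_eq_inv_val]
      rw [h4, ← hM x hx]
      have h5 : (M.map (evalG x)).adjugate = M.adjugate.map (evalG x) := h1.symm
      rw [h5]
      ext i j
      simp [Matrix.map_apply, Matrix.smul_apply]
  have h : (⊤ : Subgroup (FreeGroup K)) ≤ S := by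
    rw [← FreeGroup.closure_range_of, Subgroup.closure_le]
    rintro _ ⟨p, rfl⟩
    rw [SetLike.mem_coe, hS]
    refine ⟨Matrix.of fun i j => MvPolynomial.X (p, i, j), fun x _ => ?_⟩
    ext i j
    simp [evalG]
  exact (hS w).1 (h (Subgroup.mem_top w))

/-- An endomorphism which fixes the generators in `κ` and maps the generators in `ι` to words in
the generators in `ι`. -/
def Fixes {κ ι : Type} (τ : FreeGroup (κ ⊕ ι) →* FreeGroup (κ ⊕ ι)) : Prop :=
  (∀ k, τ (FreeGroup.of (Sum.inl k)) = FreeGroup.of (Sum.inl k)) ∧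
    ∀ j, ∃ v : FreeGroup ι, τ (FreeGroup.of (Sum.inr j)) = FreeGroup.map Sum.inr v

/-- Pull back of a polynomial by an endomorphism of the free group. -/
theorem exists_pullbackD {κ ι : Type} {r : ℕ} (d : ι → ℂˣ)
    (τ : FreeGroup (κ ⊕ ι) →* FreeGroup (κ ⊕ ι)) (hτ : Fixes τ)
    (F : MvPolynomial ((κ ⊕ ι) × Fin r × Fin r) ℂ) :
    ∃ f : MvPolynomial ((κ ⊕ ι) × Fin r × Fin r) ℂ, ∀ x : FreeGroup (κ ⊕ ι) →* (Mat r ℂ)ˣ,
      (∀ j, (x (FreeGroup.of (Sum.inr j)) : Mat r ℂ).det = d j) →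
        evalG x f = evalG (x.comp τ) F := by
  have key : ∀ p : κ ⊕ ι, ∃ M : Matrix (Fin r) (Fin r) (MvPolynomial ((κ ⊕ ι) × Fin r × Fin r) ℂ),
      ∀ x : FreeGroup (κ ⊕ ι) →* (Mat r ℂ)ˣ,
        (∀ j, (x (FreeGroup.of (Sum.inr j)) : Mat r ℂ).det = d j) →
        M.map (evalG x) = (x (τ (FreeGroup.of p)) : Mat r ℂ) := by
    rintro (k | j)
    · refine ⟨Matrix.of fun i j => MvPolynomial.X (Sum.inl k, i, j), fun x _ => ?_⟩
      rw [hτ.1]
      ext i j
      simp [evalG]
    · obtain ⟨v, hv⟩ := hτ.2 j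
      obtain ⟨M, hM⟩ := exists_word_matrixD r d v
      refine ⟨M.map (MvPolynomial.rename fun p => (Sum.inr p.1, p.2)), fun x hx => ?_⟩
      have h1 := hM (x.comp (FreeGroup.map Sum.inr)) fun k => by
        rw [MonoidHom.comp_apply, FreeGroup.map.of]
        exact hx k
      rw [hv, ← MonoidHom.comp_apply, ← h1]
      ext i l
      rw [Matrix.map_apply, Matrix.map_apply, Matrix.map_apply, evalG, evalG,
        MvPolynomial.aeval_rename]
      congr 2
  choose M hM using key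
  refine ⟨MvPolynomial.aeval (fun p => M p.1 p.2.1 p.2.2) F, fun x hx => ?_⟩
  have h : (evalG x).comp
      (MvPolynomial.aeval (R := ℂ)
        (fun p : (κ ⊕ ι) × Fin r × Fin r => M p.1 p.2.1 p.2.2)) = evalG (x.comp τ) := by
    apply MvPolynomial.algHom_ext
    intro p
    rw [AlgHom.comp_apply, MvPolynomial.aeval_X]
    have h1 := congrFun (congrFun (hM p.1 x hx) p.2.1) p.2.2
    rw [Matrix.map_apply] at h1
    rw [h1]
    simp [evalG]
  exact DFunLike.congr_fun h F

variable {κ ι : Type} {r : ℕ} {Q : ι → ∀ r : ℕ, Mat r ℂ → Prop} {R : Type*} [CommRing R]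
  {φ : R →+* ℂ}

theorem YG.comp_auto {w₁ w₂ : FreeGroup (κ ⊕ ι)}
    {τ τ' : FreeGroup (κ ⊕ ι) →* FreeGroup (κ ⊕ ι)} (h12 : ∀ w, τ (τ' w) = w) (hw : τ w₁ = w₂)
    (hc : ∀ j, IsConj (FreeGroup.of (Sum.inr j)) (τ (FreeGroup.of (Sum.inr j))))
    {C : ι → (Mat r ℂ)ˣ} {x : FreeGroup (κ ⊕ ι) →* (Mat r ℂ)ˣ} (hx : x ∈ YG {w₂} C) :
    x.comp τ ∈ YG {w₁} C := by
  refine ⟨fun w h => ?_, fun j => ?_, fun W hW => ?_⟩
  · rw [Set.mem_singleton_iff.1 h, MonoidHom.comp_apply, hw]
    exact hx.1 _ rfl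
  · refine (hx.2.1 j).trans ?_
    rw [MonoidHom.comp_apply]
    exact MonoidHom.map_isConj x (hc j)
  · obtain ⟨W', h1, h2⟩ := hx.2.2 W fun w v hv => by
      have h3 := hW (τ' w) v hv
      rwa [MonoidHom.comp_apply, h12] at h3
    exact ⟨W', fun w v hv => h1 _ v hv, h2⟩

/-- Invariance of the density under automorphisms of the free group which preserve the conjugacy
classes of the generators. -/
theorem IrrDenseQ.auto {w₁ w₂ : FreeGroup (κ ⊕ ι)}
    (τ τ' : FreeGroup (κ ⊕ ι) →* FreeGroup (κ ⊕ ι)) (hτ' : Fixes τ') (h12 : ∀ w, τ (τ' w) = w)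
    (h21 : ∀ w, τ' (τ w) = w) (hw : τ w₁ = w₂)
    (hc : ∀ j, IsConj (FreeGroup.of (Sum.inr j)) (τ (FreeGroup.of (Sum.inr j))))
    (hc' : ∀ j, IsConj (FreeGroup.of (Sum.inr j)) (τ' (FreeGroup.of (Sum.inr j))))
    (hI : IrrDenseQ Q {w₁} φ r) : IrrDenseQ Q {w₂} φ r := by
  intro C hC x hx hirr f hf
  have hdet : ∀ y ∈ YG {w₁} C, ∀ j : ι, (y (FreeGroup.of (Sum.inr j)) : Mat r ℂ).det =
      (Units.map (Matrix.detMonoidHom (n := Fin r) (R := ℂ)) (C j) : ℂˣ) := by
    intro y hy j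
    obtain ⟨U, hU⟩ := isConj_iff.1 (hy.2.1 j)
    rw [← hU, Units.val_mul, Units.val_mul, Matrix.det_mul, Matrix.det_mul, mul_right_comm,
      ← Matrix.det_mul, Units.mul_inv, Matrix.det_one, one_mul]
    rfl
  obtain ⟨F, hF⟩ := exists_pullbackD (r := r)
    (fun j => Units.map (Matrix.detMonoidHom (n := Fin r) (R := ℂ)) (C j)) τ' hτ' f
  have hx1 : x.comp τ ∈ YG {w₁} C := YG.comp_auto h12 hw hc hx
  have h3 : ∀ y : FreeGroup (κ ⊕ ι) →* (Mat r ℂ)ˣ, (y.comp τ).comp τ' = y := by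
    intro y
    ext1 w
    simp only [MonoidHom.comp_apply, h12]
  have h4 : evalG (x.comp τ) F = evalG x f := by
    rw [hF _ (hdet _ hx1), h3]
  rw [← h4]
  have hw' : τ' w₂ = w₁ := by rw [← hw, h21]
  refine hI C hC _ hx1 (fun M hM => hirr M fun w => ?_) F fun y hy => ?_
  · have := hM (τ' w)
    rwa [MonoidHom.comp_apply, h12] at this
  · rw [hF _ (hdet _ hy.1.1)]
    refine hf _ ⟨⟨YG.comp_auto h21 hw' hc' hy.1.1, fun k => ?_⟩, ?_⟩
    · have h5 : ∀ w, y w ∈ GR r φ := by
        have h6 : (⊤ : Subgroup (FreeGroup (κ ⊕ ι))) ≤ (GR r φ).comap y := by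
          rw [← FreeGroup.closure_range_of, Subgroup.closure_le]
          rintro _ ⟨k, rfl⟩
          exact hy.1.2 k
        exact fun w => h6 (Subgroup.mem_top w)
      exact h5 _
    · rw [← hy.2]
      congr 1
      ext M
      constructor
      · rintro ⟨w, rfl⟩
        exact ⟨τ' w, rfl⟩
      · rintro ⟨w, rfl⟩
        refine ⟨τ w, ?_⟩
        simp only [MonoidHom.comp_apply, h21]

/-- The product of the boundary generators, in the order of a list, and of a word in the other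
generators. -/
def relL (R' : FreeGroup κ) (L : List ι) : FreeGroup (κ ⊕ ι) :=
  (L.map fun j => FreeGroup.of (Sum.inr j)).prod * FreeGroup.map Sum.inl R'

section swap

variable [DecidableEq ι]

/-- The elementary braid `a ↦ b a b⁻¹`. -/
def brd1 (a b : ι) : FreeGroup (κ ⊕ ι) →* FreeGroup (κ ⊕ ι) :=
  FreeGroup.lift (Sum.elim (fun k => FreeGroup.of (Sum.inl k)) fun j =>
    if j = a then FreeGroup.of (Sum.inr b) * FreeGroup.of (Sum.inr a) *
      (FreeGroup.of (Sum.inr b))⁻¹ else FreeGroup.of (Sum.inr j))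

/-- Its inverse. -/
def brd2 (a b : ι) : FreeGroup (κ ⊕ ι) →* FreeGroup (κ ⊕ ι) :=
  FreeGroup.lift (Sum.elim (fun k => FreeGroup.of (Sum.inl k)) fun j =>
    if j = a then (FreeGroup.of (Sum.inr b))⁻¹ * FreeGroup.of (Sum.inr a) *
      FreeGroup.of (Sum.inr b) else FreeGroup.of (Sum.inr j))

theorem brd1_inl (a b : ι) (k : κ) : brd1 a b (FreeGroup.of (Sum.inl k)) =
    (FreeGroup.of (Sum.inl k) : FreeGroup (κ ⊕ ι)) := by
  rw [brd1, FreeGroup.lift_apply_of, Sum.elim_inl]

theorem brd2_inl (a b : ι) (k : κ) : brd2 a b (FreeGroup.of (Sum.inl k)) =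
    (FreeGroup.of (Sum.inl k) : FreeGroup (κ ⊕ ι)) := by
  rw [brd2, FreeGroup.lift_apply_of, Sum.elim_inl]

theorem brd1_ne {a b j : ι} (h : j ≠ a) : brd1 a b (FreeGroup.of (Sum.inr j)) =
    (FreeGroup.of (Sum.inr j) : FreeGroup (κ ⊕ ι)) := by
  rw [brd1, FreeGroup.lift_apply_of, Sum.elim_inr, if_neg h]

theorem brd2_ne {a b j : ι} (h : j ≠ a) : brd2 a b (FreeGroup.of (Sum.inr j)) =
    (FreeGroup.of (Sum.inr j) : FreeGroup (κ ⊕ ι)) := by
  rw [brd2, FreeGroup.lift_apply_of, Sum.elim_inr, if_neg h]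

theorem brd1_self (a b : ι) : brd1 a b (FreeGroup.of (Sum.inr a)) =
    (FreeGroup.of (Sum.inr b) * FreeGroup.of (Sum.inr a) * (FreeGroup.of (Sum.inr b))⁻¹ :
      FreeGroup (κ ⊕ ι)) := by
  rw [brd1, FreeGroup.lift_apply_of, Sum.elim_inr, if_pos rfl]

theorem brd2_self (a b : ι) : brd2 a b (FreeGroup.of (Sum.inr a)) =
    ((FreeGroup.of (Sum.inr b))⁻¹ * FreeGroup.of (Sum.inr a) * FreeGroup.of (Sum.inr b) :
      FreeGroup (κ ⊕ ι)) := by
  rw [brd2, FreeGroup.lift_apply_of, Sum.elim_inr, if_pos rfl]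

theorem brd12 {a b : ι} (h : b ≠ a) (w : FreeGroup (κ ⊕ ι)) : brd1 a b (brd2 a b w) = w := by
  have h1 : (brd1 a b).comp (brd2 a b) = MonoidHom.id (FreeGroup (κ ⊕ ι)) := by
    apply FreeGroup.ext_hom
    rintro (k | j)
    · rw [MonoidHom.comp_apply, brd2_inl, brd1_inl, MonoidHom.id_apply]
    · rw [MonoidHom.comp_apply, MonoidHom.id_apply]
      by_cases hj : j = a
      · rw [hj, brd2_self, map_mul, map_mul, map_inv, brd1_self, brd1_ne h]
        group
      · rw [brd2_ne hj, brd1_ne hj]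
  exact DFunLike.congr_fun h1 w

theorem brd21 {a b : ι} (h : b ≠ a) (w : FreeGroup (κ ⊕ ι)) : brd2 a b (brd1 a b w) = w := by
  have h1 : (brd2 a b).comp (brd1 a b) = MonoidHom.id (FreeGroup (κ ⊕ ι)) := by
    apply FreeGroup.ext_hom
    rintro (k | j)
    · rw [MonoidHom.comp_apply, brd1_inl, brd2_inl, MonoidHom.id_apply]
    · rw [MonoidHom.comp_apply, MonoidHom.id_apply]
      by_cases hj : j = a
      · rw [hj, brd1_self, map_mul, map_mul, map_inv, brd2_self, brd2_ne h]
        group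
      · rw [brd1_ne hj, brd2_ne hj]
  exact DFunLike.congr_fun h1 w

theorem brd1_map_inl (a b : ι) (w : FreeGroup κ) : brd1 a b (FreeGroup.map Sum.inl w) =
    (FreeGroup.map Sum.inl w : FreeGroup (κ ⊕ ι)) := by
  have h1 : (brd1 a b).comp (FreeGroup.map Sum.inl) =
      (FreeGroup.map Sum.inl : FreeGroup κ →* FreeGroup (κ ⊕ ι)) := by
    apply FreeGroup.ext_hom
    intro k
    rw [MonoidHom.comp_apply, FreeGroup.map.of, brd1_inl]
  exact DFunLike.congr_fun h1 w

theorem brd2_fixes (a b : ι) : Fixes (brd2 a b : FreeGroup (κ ⊕ ι) →* FreeGroup (κ ⊕ ι)) := by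
  refine ⟨fun k => brd2_inl a b k, fun j => ?_⟩
  by_cases hj : j = a
  · refine ⟨(FreeGroup.of b)⁻¹ * FreeGroup.of a * FreeGroup.of b, ?_⟩
    rw [hj, brd2_self, map_mul, map_mul, map_inv, FreeGroup.map.of, FreeGroup.map.of]
  · exact ⟨FreeGroup.of j, by rw [brd2_ne hj, FreeGroup.map.of]⟩

variable {R' : FreeGroup κ}

theorem IrrDenseQ.swap {l₁ l₂ : List ι} {a b : ι}
    (hnd : (l₁ ++ a :: b :: l₂).Nodup)
    (hI : IrrDenseQ Q {(relL R' (l₁ ++ a :: b :: l₂) : FreeGroup (κ ⊕ ι))} φ r) :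
    IrrDenseQ Q {(relL R' (l₁ ++ b :: a :: l₂) : FreeGroup (κ ⊕ ι))} φ r := by
  have hba : b ≠ a := by
    rintro rfl
    rw [List.nodup_append] at hnd
    have := hnd.2.1
    simp at this
  have h1 : a ∉ l₁ := by
    intro h
    rw [List.nodup_append] at hnd
    exact hnd.2.2 a h a (by simp) rfl
  have h2 : a ∉ l₂ := by
    intro h
    rw [List.nodup_append] at hnd
    have := hnd.2.1
    rw [List.nodup_cons] at this
    exact this.1 (List.mem_cons_of_mem _ h)
  refine IrrDenseQ.auto (brd1 a b) (brd2 a b) (brd2_fixes a b) (brd12 hba) (brd21 hba) ?_ (fun j => ?_)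
    (fun j => ?_) hI
  · have key : ∀ l : List ι, a ∉ l → (l.map fun j => brd1 a b
        (FreeGroup.of (Sum.inr j) : FreeGroup (κ ⊕ ι))) =
        l.map fun j => (FreeGroup.of (Sum.inr j) : FreeGroup (κ ⊕ ι)) := by
      intro l hl
      refine List.map_congr_left fun j hj => brd1_ne ?_
      rintro rfl
      exact hl hj
    unfold relL
    rw [map_mul, brd1_map_inl, map_list_prod, List.map_map]
    change (List.map (fun j => brd1 a b (FreeGroup.of (Sum.inr j) : FreeGroup (κ ⊕ ι)))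
      (l₁ ++ a :: b :: l₂)).prod * _ = _
    rw [List.map_append, List.map_cons, List.map_cons, key l₁ h1, key l₂ h2, brd1_self,
      brd1_ne hba, List.map_append, List.map_cons, List.map_cons, List.prod_append,
      List.prod_append, List.prod_cons, List.prod_cons, List.prod_cons, List.prod_cons]
    group
  · by_cases hj : j = a
    · rw [hj, brd1_self]
      exact isConj_iff.2 ⟨_, rfl⟩
    · rw [brd1_ne hj]
  · by_cases hj : j = a
    · rw [hj, brd2_self]
      exact isConj_iff.2 ⟨(FreeGroup.of (Sum.inr b))⁻¹, by rw [inv_inv]⟩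
    · rw [brd2_ne hj]

theorem IrrDenseQ.perm_aux {L L' : List ι} (h : L.Perm L') :
    ∀ l₁ : List ι, (l₁ ++ L).Nodup →
    IrrDenseQ Q {(relL R' (l₁ ++ L) : FreeGroup (κ ⊕ ι))} φ r →
    IrrDenseQ Q {(relL R' (l₁ ++ L') : FreeGroup (κ ⊕ ι))} φ r := by
  induction h with
  | nil => exact fun l₁ _ h => h
  | cons x h ih =>
    intro l₁ hnd hI
    have := ih (l₁ ++ [x]) (by simpa using hnd) (by simpa using hI)
    simpa using this
  | swap x y l => exact fun l₁ hnd hI => hI.swap hnd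
  | trans h h' ih ih' =>
    intro l₁ hnd hI
    exact ih' l₁ ((List.Perm.append_left l₁ h).nodup_iff.1 hnd) (ih l₁ hnd hI)

/-- Invariance under permutations of the punctures. -/
theorem IrrDenseQ.perm {L L' : List ι} (h : L.Perm L') (hnd : L.Nodup)
    (hI : IrrDenseQ Q {(relL R' L : FreeGroup (κ ⊕ ι))} φ r) :
    IrrDenseQ Q {(relL R' L' : FreeGroup (κ ⊕ ι))} φ r :=
  IrrDenseQ.perm_aux h [] hnd hI

end swap

/-- The product of the commutators. -/
def comW (g : ℕ) : FreeGroup (Fin g × Bool) :=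
  (List.ofFn fun i : Fin g => (FreeGroup.of (i, false) * FreeGroup.of (i, true) *
    (FreeGroup.of (i, false))⁻¹ * (FreeGroup.of (i, true))⁻¹ : FreeGroup (Fin g × Bool))).prod

theorem relatorU_relL (g n : ℕ) : relatorU g n = relL (comW g) (List.finRange n) := by
  rw [relatorU_eqn, relL, comW, map_list_prod, List.ofFn_eq_map, List.map_ofFn]
  congr 2

/-- Invariance under permutations of the classes. -/
theorem irrDenseQ_reorder {g n : ℕ} {Q : Fin n → ∀ r : ℕ, Mat r ℂ → Prop}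
    (e : Equiv.Perm (Fin n)) (hI : IrrDenseQ (fun j => Q (e j))
      ({relatorU g n} : Set (FreeGroup ((Fin g × Bool) ⊕ Fin n))) φ r) :
    IrrDenseQ Q ({relatorU g n} : Set (FreeGroup ((Fin g × Bool) ⊕ Fin n))) φ r := by
  rw [relatorU_relL] at hI ⊢
  have h1 : IrrDenseQ Q ({relL (comW g) ((List.finRange n).map e)} :
      Set (FreeGroup ((Fin g × Bool) ⊕ Fin n))) φ r := by
    refine IrrDenseQ.congr (Equiv.refl _) e (fun j M hM => ?_) _ _ (fun y => ?_) hI
    · rw [Equiv.apply_symm_apply]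
      exact hM
    · have h3 : renE (Equiv.refl (Fin g × Bool)).symm e.symm (FreeGroup.map Sum.inl (comW g)) =
          (FreeGroup.map Sum.inl (comW g) : FreeGroup ((Fin g × Bool) ⊕ Fin n)) := by
        have h4 : (renE (Equiv.refl (Fin g × Bool)).symm e.symm).comp (FreeGroup.map Sum.inl) =
            (FreeGroup.map Sum.inl : FreeGroup (Fin g × Bool) →*
              FreeGroup ((Fin g × Bool) ⊕ Fin n)) := by
          apply FreeGroup.ext_hom
          intro k
          rw [MonoidHom.comp_apply, FreeGroup.map.of, renE_inl]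
          rfl
        exact DFunLike.congr_fun h4 _
      have h2 : renE (Equiv.refl (Fin g × Bool)).symm e.symm
          (relL (comW g) ((List.finRange n).map e)) = relL (comW g) (List.finRange n) := by
        rw [relL, relL, map_mul, h3, map_list_prod, List.map_map, List.map_map]
        congr 2
        refine List.map_congr_left fun j _ => ?_
        simp only [Function.comp_apply]
        rw [renE_inr, Equiv.symm_apply_apply]
      constructor
      · intro h w hw
        rw [Set.mem_singleton_iff.1 hw, h2]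
        exact h _ rfl
      · intro h w hw
        rw [Set.mem_singleton_iff.1 hw, ← h2]
        exact h _ rfl
  refine h1.perm ?_ ((List.nodup_finRange n).map e.injective)
  refine (List.perm_ext_iff_of_nodup ((List.nodup_finRange n).map e.injective)
    (List.nodup_finRange n)).2 fun j => ?_
  simp only [List.mem_map, List.mem_finRange, true_and, iff_true]
  exact ⟨e.symm j, e.apply_symm_apply j⟩

/-- Three given punctures can be moved to three given places. -/
theorem exists_perm_three {n : ℕ} {T : Finset (Fin n)} (hT : 3 ≤ T.card) (a b c : Fin n)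
    (hab : a ≠ b) (hac : a ≠ c) (hbc : b ≠ c) :
    ∃ e : Equiv.Perm (Fin n), e a ∈ T ∧ e b ∈ T ∧ e c ∈ T := by
  obtain ⟨x, hx, y, hy, z, hz, hxy, hxz, hyz⟩ := Finset.two_lt_card.1 hT
  have hinj1 : Function.Injective ![a, b, c] := by
    intro i j hij
    fin_cases i <;> fin_cases j <;> simp_all
  have hinj2 : Function.Injective ![x, y, z] := by
    intro i j hij
    fin_cases i <;> fin_cases j <;> simp_all
  obtain ⟨g, hg⟩ := (Equiv.Perm.isMultiplyPretransitive (Fin n) 3).exists_smul_eq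
    (⟨![a, b, c], hinj1⟩ : Fin 3 ↪ Fin n) ⟨![x, y, z], hinj2⟩
  have h0 := DFunLike.congr_fun hg 0
  have h1 := DFunLike.congr_fun hg 1
  have h2 := DFunLike.congr_fun hg 2
  refine ⟨g, ?_, ?_, ?_⟩
  · have : g a = x := h0
    rwa [this]
  · have : g b = y := h1
    rwa [this]
  · have : g c = z := h2
    rwa [this]

end Vale.Agent.P002R
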