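import Vale.Agent.P002G.TotCell8

/-!
# P002: total density for the boundary classes
-/

namespace Vale.Agent.P002R

open Matrix

variable {r : ℕ} {R : Type*} [CommRing R]

/-- The elements of `E` are units of the ring. -/
theorem CoefOK.exists_unit {φ : R →+* ℂ} {E : Subgroup ℂˣ} (hc : CoefOK φ E r) (hr : 0 < r)
    {z : ℂˣ} (hz : z ∈ E) : ∃ e : Rˣ, φ e = z := by
  obtain ⟨a, ha⟩ := hc.root 1 one_pos hr z (by rwa [pow_one])
  obtain ⟨b, hb⟩ := hc.root 1 one_pos hr z⁻¹ (by rw [pow_one]; exact E.inv_mem hz)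
  refine ⟨⟨a, b, hc.inj ?_, hc.inj ?_⟩, ha⟩
  · rw [map_mul, ha, hb, map_one, Units.mul_inv]
  · rw [map_mul, ha, hb, map_one, Units.inv_mul]

theorem CoefOK.exists_free {φ : R →+* ℂ} {E : Subgroup ℂˣ} (hc : CoefOK φ E r) :
    ∃ u : Rˣ, ∀ k : ℕ, 0 < k → φ u ^ k ≠ 1 := by
  obtain ⟨u, hu⟩ := hc.unit
  refine ⟨u, fun k hk h => hu k hk ?_⟩
  have h1 : Units.map (φ : R →* ℂ) u ^ k = 1 := by
    apply Units.ext
    rw [Units.val_pow_eq_pow_val, Units.val_one]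
    exact h
  rw [h1]
  exact E.one_mem

theorem totD_of_eigIn {φ : R →+* ℂ} {E : Subgroup ℂˣ} (hc : CoefOK φ E r) (hr : 0 < r)
    (C : (Mat r ℂ)ˣ) (hC : EigIn E (C : Mat r ℂ)) : TotD φ (C : Mat r ℂ) := by
  obtain ⟨u, hu⟩ := hc.exists_free
  refine P002G.totD φ u hu _ C.isUnit fun z hz => ?_
  obtain ⟨e, he, rfl⟩ := hC z hz
  exact hc.exists_unit hr he

theorem totM_of_eigIn {φ : R →+* ℂ} {E : Subgroup ℂˣ} (hc : CoefOK φ E r) (hr : 0 < r)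
    (hUP : ∀ (u : Rˣ) (D : R), D ≠ 0 → ∃ M : ℕ, 0 < M ∧ D ∣ (u : R) ^ M - 1)
    (C : (Mat r ℂ)ˣ) (hC : EigIn E (C : Mat r ℂ)) : P002G.TotM φ (C : Mat r ℂ) := by
  obtain ⟨u, hu⟩ := hc.exists_free
  refine P002G.totM φ u hu (hUP u) _ C.isUnit fun z hz => ?_
  obtain ⟨e, he, rfl⟩ := hC z hz
  exact hc.exists_unit hr he

end Vale.Agent.P002R
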