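import Vale.Agent.P002R.ZGlue2
import Vale.Agent.P002R.ZTot
import Vale.Agent.P002R.ZPerm
import Vale.Agent.P002R.YInt
import Vale.Agent.P002R.YChart
import Vale.Agent.P002R.Z2Scalar

/-!
# P002, genus 0, two regular classes: from the chart to all irreducible representations
-/

namespace Vale.Agent.P002R

open Matrix

/-- No coordinate subspace is stable. -/
def NoStab {r : ℕ} (Z : Mat r ℂ) : Prop :=
  ∀ I : Finset (Fin r), I.Nonempty → I ≠ Finset.univ → ∃ i, i ∉ I ∧ ∃ j ∈ I, Z i j ≠ 0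

/-- Points of the class with prescribed diagonal are near those in the dual chart. -/
def DualNear {R : Type*} [CommRing R] (φ : R →+* ℂ) {r : ℕ} (J : Mat r ℂ) : Prop :=
  ∀ X : Mat r ℂ, (∀ i, X i i ≠ 0) → CjM J (zZ X) → NoStab (zZ X) → ∀ N ∈ nhds X,
    ∃ X' ∈ N, (∀ i, X' i i = X i i) ∧ CjM J (zZ X') ∧ DualD φ J X'

/-- Density of the integral points in the chart, genus zero. -/
def ChartDensity3 : Prop :=
  ∀ {R : Type} [CommRing R] (φ : R →+* ℂ), Function.Injective φ → ∀ {r m : ℕ}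
    (C : Fin (m + 3) → (Mat r ℂ)ˣ), (∀ j, EigU φ (C j : Mat r ℂ)) →
    (∀ j : Fin (m + 3), 1 ≤ (j : ℕ) → (j : ℕ) ≤ m → TotD φ (C j : Mat r ℂ)) →
    (∃ v, P002G.Cyc (C 0 : Mat r ℂ) v) →
    (∃ v, P002G.Cyc (C (Fin.last (m + 2)) : Mat r ℂ) v) →
    (∀ μ : ℂ, (C ⟨m + 1, by omega⟩ : Mat r ℂ) ≠ μ • (1 : Mat r ℂ)) →
    DualNear φ (C ⟨m + 1, by omega⟩ : Mat r ℂ) →
    ∀ x : FU 0 (m + 3) →* (Mat r ℂ)ˣ, x (relatorU 0 (m + 3)) = 1 →
    (∀ j, IsConj (C j) (x (FreeGroup.of (Sum.inr j)))) →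
    UpT (cseq x 0) → LoT (cseq x (m + 2)) →
    (∀ k ≤ m + 1, ∃ X : Mat r ℂ,
      (List.ofFn fun j : Fin k => cseq x ((j : ℕ) + 1)).prod = zZ X ∧ ∀ i, X i i ≠ 0) →
    (∀ W : Submodule ℂ (Fin r → ℂ),
      (∀ j, ∀ w ∈ W, (x (FreeGroup.of (Sum.inr j)) : Mat r ℂ) *ᵥ w ∈ W) → W = ⊥ ∨ W = ⊤) →
    ∀ f : MvPolynomial (GenU 0 (m + 3) × Fin r × Fin r) ℂ,
    (∀ (y : FU 0 (m + 3) →* (Mat r ℂ)ˣ) (cR : ℕ → Mat r R), y (relatorU 0 (m + 3)) = 1 →
      (∀ j, IsConj (C j) (y (FreeGroup.of (Sum.inr j)))) →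
      (∀ j : Fin (m + 3), (y (FreeGroup.of (Sum.inr j)) : Mat r ℂ) = (cR j).map φ) →
      (∀ j : Fin (m + 3), IsUnit (cR j).det) → UpT (cR 0) → LoT (cR (m + 2)) →
      (∀ i, φ (cR 0 i i) = cseq x 0 i i) → (∀ i, φ (cR (m + 2) i i) = cseq x (m + 2) i i) →
      evalG y f = 0) → evalG x f = 0

theorem irr_of_chartDens2 {R : Type} [CommRing R] (φ : R →+* ℂ) {n m : ℕ}
    (C : Fin (m + 3) → (Mat (n + 1) ℂ)ˣ)
    (H : ∀ x : FU 0 (m + 3) →* (Mat (n + 1) ℂ)ˣ,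
      x (relatorU 0 (m + 3)) = 1 → (∀ j, IsConj (C j) (x (FreeGroup.of (Sum.inr j)))) →
      UpT (cseqB x 0) → LoT (cseqB x (m + 2)) →
      (∀ k ≤ m + 1, ∃ X : Mat (n + 1) ℂ,
        (List.ofFn fun j : Fin k => cseqB x (j + 1)).prod = zZ X ∧ ∀ i, X i i ≠ 0) →
      (∀ W : Submodule ℂ (Fin (n + 1) → ℂ),
        (∀ j, ∀ w ∈ W, (x (FreeGroup.of (Sum.inr j)) : Mat (n + 1) ℂ) *ᵥ w ∈ W) →
          W = ⊥ ∨ W = ⊤) →
      ∀ f : MvPolynomial (GenU 0 (m + 3) × Fin (n + 1) × Fin (n + 1)) ℂ,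
      (∀ y : FU 0 (m + 3) →* (Mat (n + 1) ℂ)ˣ, y (relatorU 0 (m + 3)) = 1 →
        (∀ j, IsConj (C j) (y (FreeGroup.of (Sum.inr j)))) →
        (∀ k, y (FreeGroup.of k) ∈ GR (n + 1) φ) → evalG y f = 0) → evalG x f = 0)
    (x : FU 0 (m + 3) →* (Mat (n + 1) ℂ)ˣ)
    (hx : x ∈ YG ({relatorU 0 (m + 3)} : Set (FreeGroup ((Fin 0 × Bool) ⊕ Fin (m + 3)))) C)
    (hirr : ∀ M : Mat (n + 1) ℂ, (∀ w, Commute M (x w : Mat (n + 1) ℂ)) →
      ∃ c : ℂ, M = c • (1 : Mat (n + 1) ℂ))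
    (f : MvPolynomial (((Fin 0 × Bool) ⊕ Fin (m + 3)) × Fin (n + 1) × Fin (n + 1)) ℂ)
    (hf : ∀ y ∈ DGT ({relatorU 0 (m + 3)} : Set (FreeGroup ((Fin 0 × Bool) ⊕ Fin (m + 3)))) φ C,
      evalG y f = 0) : evalG x f = 0 := by
  obtain ⟨hx1, hx2, hx3⟩ := hx
  have hadj := adjoin_top_of_irr x hx3 hirr
  have hxrel : x (relatorU 0 (m + 3)) = 1 := hx1 _ rfl
  refine upgrade x hadj {y | y (relatorU 0 (m + 3)) = 1 ∧
    (∀ j, IsConj (C j) (y (FreeGroup.of (Sum.inr j)))) ∧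
    ∀ k, y (FreeGroup.of k) ∈ GR (n + 1) φ} ?_ f ?_
  · intro f' hf'
    by_contra hne
    have hL := finRange_split m 0 (Nat.zero_le _)
    rw [List.ofFn_zero, List.nil_append] at hL
    obtain ⟨x', g, h1, h2, h3, h4, h5⟩ := exists_chartForm (Nat.succ_pos n) 0 (Fin.last (m + 2)) _
      hL C x hxrel hx2 hadj f' hne
    obtain ⟨f'', hf''⟩ := exists_conjP g f'
    apply h1
    rw [← hf'']
    have hprod : ∀ k (hk : k ≤ m + 1), (List.ofFn fun j : Fin k => cseqB x' (j + 1)).prod =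
        ((List.ofFn fun j : Fin k => (⟨j + 1, by omega⟩ : Fin (m + 3))).map (bt x')).prod := by
      intro k hk
      rw [List.map_ofFn]
      congr 1
      refine congrArg List.ofFn (funext fun j => ?_)
      rw [cseqB_lt x' _ (by omega)]
      rfl
    refine H x' h2 h3 ?_ ?_ ?_ ?_ f'' ?_
    · rw [cseqB_lt x' 0 (by omega)]
      exact h5.up
    · rw [cseqB_lt x' (m + 2) (by omega)]
      exact h5.lo
    · intro k hk
      obtain ⟨X, hX, hXd⟩ := h5.cell _ _ (finRange_split m k hk)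
      exact ⟨X, by rw [hprod k hk]; exact hX, hXd⟩
    · intro W hW
      have h6 := adjoin_gen_eq_top x' h4
      refine eq_bot_or_top_of_adjoin _ h6 W ?_
      rintro (k | j)
      · exact k.1.elim0
      · exact hW j
    · intro y hy1 hy2 hy3
      rw [hf'']
      refine conj_vanish_gen {y | y (relatorU 0 (m + 3)) = 1 ∧
        (∀ j, IsConj (C j) (y (FreeGroup.of (Sum.inr j)))) ∧
        ∀ k, y (FreeGroup.of k) ∈ GR (n + 1) φ} ?_ f' hf' y ⟨hy1, hy2, hy3⟩ g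
      rintro z ⟨hz1, hz2, hz3⟩ X
      refine ⟨?_, fun j => ?_, fun k => ?_⟩
      · rw [conjH_apply, hz1, mul_one, mul_inv_cancel]
      · refine (hz2 j).trans ?_
        rw [isConj_iff]
        exact ⟨slU (Int.castRingHom ℂ) X, (conjH_apply _ _ _).symm⟩
      · rw [conjH_apply]
        exact (GR (n + 1) φ).mul_mem ((GR (n + 1) φ).mul_mem (slU_int_mem_GR φ X) (hz3 k))
          ((GR (n + 1) φ).inv_mem (slU_int_mem_GR φ X))
  · rintro y ⟨hy1, hy2, hy3⟩ hy4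
    refine hf y ⟨⟨⟨?_, hy2, ss_of_adjoin y hy4⟩, hy3⟩, hy4⟩
    rintro w rfl
    exact hy1

theorem commute_all {K : Type} {r : ℕ} (x : FreeGroup K →* (Mat r ℂ)ˣ) (M : Mat r ℂ)
    (h : ∀ k, Commute M (x (FreeGroup.of k) : Mat r ℂ)) (w : FreeGroup K) :
    Commute M (x w : Mat r ℂ) := by
  induction w using FreeGroup.induction_on with
  | C1 => rw [map_one, Units.val_one]; exact Commute.one_right M
  | of k => exact h k
  | inv_of k hk => rw [map_inv]; exact hk.units_inv_right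
  | mul u v hu hv => rw [map_mul, Units.val_mul]; exact hu.mul_right hv

/-- The nonscalar middle class is at the last but one position. -/
theorem g02_pos (hCD : ChartDensity3) {m r : ℕ} (hr : 0 < r) {R : Type} [CommRing R]
    (φ : R →+* ℂ) (E : Subgroup ℂˣ) (hc : CoefOK φ E r)
    (hDN : ∀ J : (Mat r ℂ)ˣ, EigIn E (J : Mat r ℂ) →
      (∀ μ : ℂ, (J : Mat r ℂ) ≠ μ • (1 : Mat r ℂ)) → DualNear φ (J : Mat r ℂ))
    (C : Fin (m + 3) → (Mat r ℂ)ˣ) (hE : ∀ j, EigIn E (C j : Mat r ℂ))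
    (h0 : HasCyc r (C 0 : Mat r ℂ)) (hl : HasCyc r (C (Fin.last (m + 2)) : Mat r ℂ))
    (hns : ∀ μ : ℂ, (C ⟨m + 1, by omega⟩ : Mat r ℂ) ≠ μ • (1 : Mat r ℂ))
    (x : FU 0 (m + 3) →* (Mat r ℂ)ˣ)
    (hx : x ∈ YG ({relatorU 0 (m + 3)} : Set (FreeGroup ((Fin 0 × Bool) ⊕ Fin (m + 3)))) C)
    (hirr : ∀ M : Mat r ℂ, (∀ w, Commute M (x w : Mat r ℂ)) → ∃ c : ℂ, M = c • (1 : Mat r ℂ))
    (f : MvPolynomial (((Fin 0 × Bool) ⊕ Fin (m + 3)) × Fin r × Fin r) ℂ)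
    (hf : ∀ y ∈ DGT ({relatorU 0 (m + 3)} : Set (FreeGroup ((Fin 0 × Bool) ⊕ Fin (m + 3)))) φ C,
      evalG y f = 0) : evalG x f = 0 := by
  obtain ⟨n, rfl⟩ : ∃ n, r = n + 1 := ⟨r - 1, by omega⟩
  refine irr_of_chartDens2 φ C (fun x hx1 hx2 hup hlo hcell hirr f hf => ?_) x hx hirr f hf
  refine hCD φ hc.inj C (fun j => ?_) (fun j _ _ => totD_of_eigIn hc hr (C j) (hE j)) h0 hl hns
    (hDN _ (hE _) hns) x hx1 hx2 hup hlo hcell hirr f fun y cR hy1 hy2 hy3 hy4 _ _ _ _ => ?_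
  · intro z hz
    obtain ⟨e, he, rfl⟩ := hE j z hz
    exact hc.exists_unit hr he
  · refine hf y hy1 hy2 ?_
    rintro (k | j)
    · exact k.1.elim0
    · obtain ⟨e, he, hed⟩ := (hE j).det
      obtain ⟨c, hcc⟩ := exists_unit_root_of_mem hc hr (cR j).det e he (by
        rw [hed, RingHom.map_det]
        change ((cR j).map φ).det = _
        rw [← hy3]
        obtain ⟨u, hu⟩ := isConj_iff.1 (hy2 j)
        rw [← hu, Units.val_mul, Units.val_mul, det_mul, det_mul, mul_right_comm, ← det_mul,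
          ← Units.val_mul, mul_inv_cancel, Units.val_one, det_one, one_mul])
      exact mem_GR_of φ _ (cR j) (hy3 j) c hcc

theorem scalar_mem_GR {r : ℕ} {R : Type*} [CommRing R] (φ : R →+* ℂ) (U : (Mat r ℂ)ˣ) (μ : ℂ)
    (hU : (U : Mat r ℂ) = μ • (1 : Mat r ℂ)) : U ∈ GR r φ := by
  by_cases hμ : μ = 0
  · have h1 : U = 1 := by
      have h2 : (1 : Mat r ℂ) = 0 := by
        rw [← Units.val_one, ← mul_inv_cancel U, Units.val_mul, hU, hμ, zero_smul, zero_mul]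
      ext1
      rw [← mul_one (U : Mat r ℂ), h2, mul_zero, Units.val_one, h2]
    rw [h1]
    exact (GR r φ).one_mem
  · refine ⟨Units.mk0 μ hμ, 1, ?_⟩
    ext1
    rw [hU, map_one, mul_one, ← Algebra.algebraMap_eq_smul_one]
    rfl

/-- All middle classes are scalar. -/
theorem g02_scalar {m r : ℕ} {R : Type} [CommRing R] (φ : R →+* ℂ)
    (C : Fin (m + 3) → (Mat r ℂ)ˣ)
    (hsc : ∀ j : Fin (m + 3), j ≠ 0 → j ≠ Fin.last (m + 2) →
      ∃ μ : ℂ, (C j : Mat r ℂ) = μ • (1 : Mat r ℂ))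
    (x : FU 0 (m + 3) →* (Mat r ℂ)ˣ)
    (hx : x ∈ YG ({relatorU 0 (m + 3)} : Set (FreeGroup ((Fin 0 × Bool) ⊕ Fin (m + 3)))) C)
    (hirr : ∀ M : Mat r ℂ, (∀ w, Commute M (x w : Mat r ℂ)) → ∃ c : ℂ, M = c • (1 : Mat r ℂ)) :
    x ∈ DGT ({relatorU 0 (m + 3)} : Set (FreeGroup ((Fin 0 × Bool) ⊕ Fin (m + 3)))) φ C := by
  have hadj := adjoin_top_of_irr x hx.2.2 hirr
  have hxrel : x (relatorU 0 (m + 3)) = 1 := hx.1 _ rfl
  have hmid : ∀ j : Fin (m + 3), j ≠ 0 → j ≠ Fin.last (m + 2) →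
      ∃ μ : ℂ, (x (FreeGroup.of (Sum.inr j)) : Mat r ℂ) = μ • (1 : Mat r ℂ) := by
    intro j hj hj'
    obtain ⟨u, hu⟩ := isConj_iff.1 (hx.2.1 j)
    obtain ⟨μ, hμ⟩ := hsc j hj hj'
    refine ⟨μ, ?_⟩
    rw [← hu, Units.val_mul, Units.val_mul, hμ, mul_smul_comm, mul_one, smul_mul_assoc,
      ← Units.val_mul, mul_inv_cancel, Units.val_one]
  obtain ⟨L, hL, hLm⟩ : ∃ L : List (Fin (m + 3)), List.finRange (m + 3) =
      0 :: (L ++ [Fin.last (m + 2)]) ∧ ∀ j ∈ L, j ≠ 0 ∧ j ≠ Fin.last (m + 2) := by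
    refine ⟨_, finRange_split m 0 (Nat.zero_le _), fun j hj => ?_⟩
    have hnd := List.nodup_finRange (m + 3)
    rw [finRange_split m 0 (Nat.zero_le _), List.ofFn_zero, List.nil_append, List.nodup_cons] at hnd
    refine ⟨?_, ?_⟩
    · rintro rfl
      exact hnd.1 (List.mem_append_left _ hj)
    · rintro rfl
      have h1 := List.disjoint_of_nodup_append hnd.2
      exact h1 hj (List.mem_singleton_self _)
  have hprod : ∀ l : List (Fin (m + 3)), (∀ j ∈ l, j ≠ 0 ∧ j ≠ Fin.last (m + 2)) →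
      ∃ s : ℂ, (l.map (bt x)).prod = s • (1 : Mat r ℂ) := by
    intro l
    induction l with
    | nil => intro _; exact ⟨1, by rw [List.map_nil, List.prod_nil, one_smul]⟩
    | cons a l ih =>
      intro h
      obtain ⟨s, hs⟩ := ih fun j hj => h j (List.mem_cons_of_mem _ hj)
      obtain ⟨μ, hμ⟩ := hmid a (h a List.mem_cons_self).1 (h a List.mem_cons_self).2
      refine ⟨μ * s, ?_⟩
      rw [List.map_cons, List.prod_cons, hs, bt_eqn, hμ, smul_mul_smul_comm, mul_one]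
  obtain ⟨s, hs⟩ := hprod L hLm
  have h1 := (relU_iff x).1 hxrel
  rw [hL, List.map_cons, List.prod_cons, List.map_append, List.prod_append, hs, List.map_singleton,
    List.prod_singleton, smul_mul_assoc, one_mul, bt_eqn, bt_eqn] at h1
  obtain ⟨c0, hc0⟩ : ∃ c0 : Mat r ℂ, c0 = (x (FreeGroup.of (Sum.inr 0)) : Mat r ℂ) := ⟨_, rfl⟩
  obtain ⟨cl, hcl⟩ : ∃ cl : Mat r ℂ,
      cl = (x (FreeGroup.of (Sum.inr (Fin.last (m + 2)))) : Mat r ℂ) := ⟨_, rfl⟩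
  rw [← hc0, ← hcl] at h1
  have h2 : s • cl * c0 = 1 := mul_eq_one_comm.1 h1
  have h3 : Commute c0 cl := by
    by_cases hs0 : s = 0
    · rw [hs0, zero_smul, mul_zero] at h1
      rw [Commute, SemiconjBy, ← mul_one (c0 * cl), ← mul_one (cl * c0), ← h1, mul_zero, mul_zero]
    · rw [mul_smul_comm] at h1
      rw [smul_mul_assoc, ← h1] at h2
      exact (smul_right_injective (Mat r ℂ) hs0 h2).symm
  have hsc' : ∀ (M : Mat r ℂ) {N : Mat r ℂ}, (∃ μ : ℂ, N = μ • (1 : Mat r ℂ)) → Commute M N := by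
    rintro M N ⟨μ, rfl⟩
    exact (Commute.one_right M).smul_right μ
  have h4 : ∃ μ : ℂ, c0 = μ • (1 : Mat r ℂ) := by
    refine hirr c0 fun w => commute_all x c0 ?_ w
    rintro (k | j)
    · exact k.1.elim0
    · by_cases hj : j = 0
      · rw [hj, ← hc0]
      · by_cases hj' : j = Fin.last (m + 2)
        · rw [hj', ← hcl]
          exact h3
        · exact hsc' _ (hmid j hj hj')
  have h5 : ∃ μ : ℂ, cl = μ • (1 : Mat r ℂ) := by
    refine hirr cl fun w => commute_all x cl ?_ w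
    rintro (k | j)
    · exact k.1.elim0
    · by_cases hj : j = 0
      · rw [hj, ← hc0]
        exact h3.symm
      · by_cases hj' : j = Fin.last (m + 2)
        · rw [hj', ← hcl]
        · exact hsc' _ (hmid j hj hj')
  refine ⟨⟨hx, ?_⟩, hadj⟩
  rintro (k | j)
  · exact k.1.elim0
  · have h6 : ∃ μ : ℂ, (x (FreeGroup.of (Sum.inr j)) : Mat r ℂ) = μ • (1 : Mat r ℂ) := by
      by_cases hj : j = 0
      · rw [hj, ← hc0]
        exact h4
      · by_cases hj' : j = Fin.last (m + 2)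
        · rw [hj', ← hcl]
          exact h5
        · exact hmid j hj hj'
    obtain ⟨μ, hμ⟩ := h6
    exact scalar_mem_GR φ _ μ hμ

/-- Reordering for one tuple of classes. -/
theorem reorder_one {g n r : ℕ} {R : Type*} [CommRing R] {φ : R →+* ℂ} (C : Fin n → (Mat r ℂ)ˣ)
    (e : Equiv.Perm (Fin n))
    (h : ∀ x ∈ YG ({relatorU g n} : Set (FreeGroup ((Fin g × Bool) ⊕ Fin n))) (fun j => C (e j)),
      (∀ M : Mat r ℂ, (∀ w, Commute M (x w : Mat r ℂ)) → ∃ c : ℂ, M = c • (1 : Mat r ℂ)) →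
      ∀ f : MvPolynomial (((Fin g × Bool) ⊕ Fin n) × Fin r × Fin r) ℂ,
      (∀ y ∈ DGT ({relatorU g n} : Set (FreeGroup ((Fin g × Bool) ⊕ Fin n))) φ (fun j => C (e j)),
        evalG y f = 0) → evalG x f = 0)
    (x : FU g n →* (Mat r ℂ)ˣ)
    (hx : x ∈ YG ({relatorU g n} : Set (FreeGroup ((Fin g × Bool) ⊕ Fin n))) C)
    (hirr : ∀ M : Mat r ℂ, (∀ w, Commute M (x w : Mat r ℂ)) → ∃ c : ℂ, M = c • (1 : Mat r ℂ))
    (f : MvPolynomial (((Fin g × Bool) ⊕ Fin n) × Fin r × Fin r) ℂ)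
    (hf : ∀ y ∈ DGT ({relatorU g n} : Set (FreeGroup ((Fin g × Bool) ⊕ Fin n))) φ C,
      evalG y f = 0) : evalG x f = 0 := by
  obtain ⟨Q, hQ⟩ : ∃ Q : Fin n → ∀ r' : ℕ, Mat r' ℂ → Prop, ∀ j (M : Mat r ℂ),
      Q j r M ↔ M = (C j : Mat r ℂ) :=
    ⟨fun j r' M => ∀ h : r' = r, h ▸ M = (C j : Mat r ℂ), fun j M =>
      ⟨fun h => h rfl, fun h _ => h⟩⟩
  refine irrDenseQ_reorder (Q := Q) (φ := φ) (r := r) e (fun C' hC' x hx hirr f hf => ?_) C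
    (fun j => (hQ j _).2 rfl) x hx hirr f hf
  have h1 : C' = fun j => C (e j) := by
    funext j
    ext1
    exact (hQ (e j) _).1 (hC' j)
  subst h1
  exact h x hx hirr f hf

/-- The main theorem in genus zero, two regular classes. -/
theorem g02Irr_of (hCD : ChartDensity3)
    (hDN : ∀ {r : ℕ} {R : Type} [CommRing R] (φ : R →+* ℂ) (E : Subgroup ℂˣ), CoefOK φ E r →
      0 < r → ∀ J : (Mat r ℂ)ˣ, EigIn E (J : Mat r ℂ) →
      (∀ μ : ℂ, (J : Mat r ℂ) ≠ μ • (1 : Mat r ℂ)) → DualNear φ (J : Mat r ℂ))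
    {m r : ℕ} (hr : 0 < r) {R : Type} [CommRing R] (φ : R →+* ℂ) (E : Subgroup ℂˣ)
    (hc : CoefOK φ E r) (C : Fin (m + 3) → (Mat r ℂ)ˣ) (hE : ∀ j, EigIn E (C j : Mat r ℂ))
    (h0 : HasCyc r (C 0 : Mat r ℂ)) (hl : HasCyc r (C (Fin.last (m + 2)) : Mat r ℂ))
    (x : FU 0 (m + 3) →* (Mat r ℂ)ˣ)
    (hx : x ∈ YG ({relatorU 0 (m + 3)} : Set (FreeGroup ((Fin 0 × Bool) ⊕ Fin (m + 3)))) C)
    (hirr : ∀ M : Mat r ℂ, (∀ w, Commute M (x w : Mat r ℂ)) → ∃ c : ℂ, M = c • (1 : Mat r ℂ))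
    (f : MvPolynomial (((Fin 0 × Bool) ⊕ Fin (m + 3)) × Fin r × Fin r) ℂ)
    (hf : ∀ y ∈ DGT ({relatorU 0 (m + 3)} : Set (FreeGroup ((Fin 0 × Bool) ⊕ Fin (m + 3)))) φ C,
      evalG y f = 0) : evalG x f = 0 := by
  by_cases hsc : ∀ j : Fin (m + 3), j ≠ 0 → j ≠ Fin.last (m + 2) →
      ∃ μ : ℂ, (C j : Mat r ℂ) = μ • (1 : Mat r ℂ)
  · exact hf x (g02_scalar φ C hsc x hx hirr)
  · push Not at hsc
    obtain ⟨j, hj0, hjl, hj⟩ := hsc
    refine reorder_one C (Equiv.swap (⟨m + 1, by omega⟩ : Fin (m + 3)) j)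
      (fun x hx hirr f hf => ?_) x hx hirr f hf
    have e0 : Equiv.swap (⟨m + 1, by omega⟩ : Fin (m + 3)) j 0 = 0 := by
      refine Equiv.swap_apply_of_ne_of_ne ?_ hj0.symm
      intro h
      have := congrArg Fin.val h
      simp at this
    have e1 : Equiv.swap (⟨m + 1, by omega⟩ : Fin (m + 3)) j (Fin.last (m + 2)) =
        Fin.last (m + 2) := by
      refine Equiv.swap_apply_of_ne_of_ne ?_ hjl.symm
      intro h
      have := congrArg Fin.val h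
      simp at this
    refine g02_pos hCD hr φ E hc (hDN φ E hc hr) _ (fun j => hE _) ?_ ?_ ?_ x hx hirr f hf
    · rw [e0]
      exact h0
    · rw [e1]
      exact hl
    · rw [Equiv.swap_apply_left]
      exact hj

end Vale.Agent.P002R
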