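import Vale.Agent.P002R.YChart

/-!
# P002: triangular matrices whose eigenvalue differences are units
-/

namespace Vale.Agent.P002R

open Matrix Polynomial

variable {S : Type*} [CommRing S] {r : ℕ}

theorem aeval_upT {A : Mat r S} (hA : UpT A) (p : Polynomial S) :
    UpT (aeval A p) ∧ ∀ i, (aeval A p) i i = p.eval (A i i) := by
  induction p using Polynomial.induction_on' with
  | add p q hp hq =>
    refine ⟨fun i j hij => ?_, fun i => ?_⟩
    · rw [map_add, Matrix.add_apply, hp.1 i j hij, hq.1 i j hij, add_zero]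
    · rw [map_add, Matrix.add_apply, hp.2, hq.2, Polynomial.eval_add]
  | monomial n a =>
    have h1 : UpT (A ^ n) ∧ ∀ i, (A ^ n) i i = A i i ^ n := by
      induction n with
      | zero =>
        refine ⟨by rw [pow_zero]; exact upT_one, fun i => ?_⟩
        rw [pow_zero, pow_zero, Matrix.one_apply_eq]
      | succ n ih =>
        refine ⟨by rw [pow_succ]; exact ih.1.mul hA, fun i => ?_⟩
        rw [pow_succ, ih.1.mul_diag hA, ih.2, pow_succ]
    have h2 : aeval A (monomial n a) = a • A ^ n := by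
      rw [Polynomial.aeval_monomial, ← Algebra.smul_def]
    refine ⟨fun i j hij => ?_, fun i => ?_⟩
    · rw [h2, Matrix.smul_apply, h1.1 i j hij, smul_zero]
    · rw [h2, Matrix.smul_apply, h1.2, smul_eq_mul, Polynomial.eval_monomial]

theorem aeval_loT {A : Mat r S} (hA : LoT A) (p : Polynomial S) :
    LoT (aeval A p) ∧ ∀ i, (aeval A p) i i = p.eval (A i i) := by
  induction p using Polynomial.induction_on' with
  | add p q hp hq =>
    refine ⟨fun i j hij => ?_, fun i => ?_⟩
    · rw [map_add, Matrix.add_apply, hp.1 i j hij, hq.1 i j hij, add_zero]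
    · rw [map_add, Matrix.add_apply, hp.2, hq.2, Polynomial.eval_add]
  | monomial n a =>
    have h1 : LoT (A ^ n) ∧ ∀ i, (A ^ n) i i = A i i ^ n := by
      induction n with
      | zero =>
        refine ⟨by rw [pow_zero]; exact loT_one, fun i => ?_⟩
        rw [pow_zero, pow_zero, Matrix.one_apply_eq]
      | succ n ih =>
        refine ⟨by rw [pow_succ]; exact ih.1.mul hA, fun i => ?_⟩
        rw [pow_succ, ih.1.mul_diag hA, ih.2, pow_succ]
    have h2 : aeval A (monomial n a) = a • A ^ n := by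
      rw [Polynomial.aeval_monomial, ← Algebra.smul_def]
    refine ⟨fun i j hij => ?_, fun i => ?_⟩
    · rw [h2, Matrix.smul_apply, h1.1 i j hij, smul_zero]
    · rw [h2, Matrix.smul_apply, h1.2, smul_eq_mul, Polynomial.eval_monomial]

/-- Lagrange polynomials. -/
theorem exists_lag (d : Fin r → S) (hd : ∀ i j, i ≠ j → IsUnit (d i - d j)) (j : Fin r) :
    ∃ (p : Polynomial S) (c : S), (X - C (d j)) * p = C c * ∏ i, (X - C (d i)) ∧
      p.eval (d j) = 1 := by
  have h1 : ∀ i, ∃ u : S, i ≠ j → u * (d j - d i) = 1 := by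
    intro i
    by_cases hij : i = j
    · exact ⟨0, fun h => absurd hij h⟩
    · obtain ⟨u, hu⟩ := hd j i (Ne.symm hij)
      exact ⟨((u⁻¹ : Sˣ) : S), fun _ => by rw [← hu, Units.inv_mul]⟩
  choose u hu using h1
  refine ⟨∏ i ∈ Finset.univ.erase j, (C (u i) * (X - C (d i))), ∏ i ∈ Finset.univ.erase j, u i,
    ?_, ?_⟩
  · rw [Finset.prod_mul_distrib, map_prod, mul_left_comm,
      Finset.mul_prod_erase Finset.univ (fun i => (X - C (d i))) (Finset.mem_univ j)]
  · rw [Polynomial.eval_prod]
    refine Finset.prod_eq_one fun i hi => ?_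
    rw [Polynomial.eval_mul, Polynomial.eval_C, Polynomial.eval_sub, Polynomial.eval_X,
      Polynomial.eval_C]
    exact hu i (Finset.ne_of_mem_erase hi)

/-- Annihilation. -/
theorem mul_aeval_lag {A : Mat r S} {d : Fin r → S}
    (hch : A.charpoly = ∏ i, (X - C (d i))) {j : Fin r} {p : Polynomial S} {c : S}
    (hp : (X - C (d j)) * p = C c * ∏ i, (X - C (d i))) :
    A * aeval A p = d j • aeval A p := by
  have h1 := congrArg (aeval A) hp
  rw [map_mul, map_mul, ← hch, Matrix.aeval_self_charpoly, mul_zero, map_sub, aeval_X, aeval_C,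
    sub_mul, sub_eq_zero, ← Algebra.smul_def] at h1
  exact h1

theorem exists_diag_upT {A : Mat r S} (hA : UpT A)
    (hd : ∀ i j, i ≠ j → IsUnit (A i i - A j j)) :
    ∃ P : Mat r S, UpT P ∧ (∀ i, P i i = 1) ∧ A * P = P * diagonal fun i => A i i := by
  choose p c hp1 hp2 using fun j => exists_lag (fun i => A i i) hd j
  have hch : A.charpoly = ∏ i, (X - C (A i i)) :=
    Matrix.charpoly_of_isUpperTriangular A fun i j h => hA i j h
  refine ⟨Matrix.of fun i j => (aeval A (p j)) i j, fun i j hij => ?_, fun i => ?_, ?_⟩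
  · rw [Matrix.of_apply]
    exact (aeval_upT hA (p j)).1 i j hij
  · rw [Matrix.of_apply, (aeval_upT hA (p i)).2, hp2]
  · ext i j
    rw [Matrix.mul_diagonal, Matrix.of_apply, Matrix.mul_apply]
    have h1 := congrFun (congrFun (mul_aeval_lag hch (hp1 j)) i) j
    rw [Matrix.smul_apply, smul_eq_mul, Matrix.mul_apply] at h1
    rw [mul_comm, ← h1]
    rfl

theorem exists_diag_loT {A : Mat r S} (hA : LoT A)
    (hd : ∀ i j, i ≠ j → IsUnit (A i i - A j j)) :
    ∃ P : Mat r S, LoT P ∧ (∀ i, P i i = 1) ∧ A * P = P * diagonal fun i => A i i := by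
  choose p c hp1 hp2 using fun j => exists_lag (fun i => A i i) hd j
  have hch : A.charpoly = ∏ i, (X - C (A i i)) := by
    rw [← Matrix.charpoly_transpose,
      Matrix.charpoly_of_isUpperTriangular Aᵀ fun i j h => hA.transpose i j h]
    rfl
  refine ⟨Matrix.of fun i j => (aeval A (p j)) i j, fun i j hij => ?_, fun i => ?_, ?_⟩
  · rw [Matrix.of_apply]
    exact (aeval_loT hA (p j)).1 i j hij
  · rw [Matrix.of_apply, (aeval_loT hA (p i)).2, hp2]
  · ext i j
    rw [Matrix.mul_diagonal, Matrix.of_apply, Matrix.mul_apply]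
    have h1 := congrFun (congrFun (mul_aeval_lag hch (hp1 j)) i) j
    rw [Matrix.smul_apply, smul_eq_mul, Matrix.mul_apply] at h1
    rw [mul_comm, ← h1]
    rfl

/-- Diagonalizable matrices with distinct eigenvalues have cyclic vectors. -/
theorem cyc_of_diag {A P : Mat r ℂ} {d : Fin r → ℂ} (hP : IsUnit P) (h : A * P = P * diagonal d)
    (hd : Function.Injective d) : P002G.Cyc A (P *ᵥ fun _ => 1) := by
  rw [P002G.cyc_iff]
  have h1 : ∀ k : ℕ, A ^ k * P = P * diagonal fun i => d i ^ k := by
    intro k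
    induction k with
    | zero => simp
    | succ k ih =>
      rw [pow_succ, mul_assoc, h, ← mul_assoc, ih, mul_assoc, Matrix.diagonal_mul_diagonal]
      congr 2
  have h2 : P002.kry A (P *ᵥ fun _ => 1) = P * Matrix.vandermonde d := by
    ext i j
    rw [P002.kry, Matrix.of_apply, Matrix.mulVec_mulVec, h1, Matrix.mul_apply, Matrix.mulVec,
      dotProduct]
    refine Finset.sum_congr rfl fun k _ => ?_
    rw [Matrix.mul_diagonal, Matrix.vandermonde_apply, mul_one]
  rw [h2]
  refine hP.mul ?_
  rw [Matrix.isUnit_iff_isUnit_det, isUnit_iff_ne_zero]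
  exact Matrix.det_vandermonde_ne_zero_iff.2 hd

end Vale.Agent.P002R
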