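import Vale.Agent.P002R.RStatement2
import Vale.Agent.P002.BaseDensity

/-!
# Density of integral representations without boundary conditions (free fundamental group)

If the curve has at least one puncture, its fundamental group is free, and the semisimple
representations into `SL_r(ℤ)` are Zariski dense in the representation variety.
-/

namespace Vale.Agent.P002R.Statement

open Matrix NumberField

variable {g n m r : ℕ}

/-- Specialization of a family of matrices over `ℤ[T]`. -/
noncomputable def spec {T A : Type} [CommRing A] (t : T → A) :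
    SpecialLinearGroup (Fin r) (MvPolynomial T ℤ) →* SpecialLinearGroup (Fin r) A :=
  SpecialLinearGroup.map (MvPolynomial.eval₂Hom (Int.castRingHom A) t)

/-- Renaming the parameters of a family. -/
noncomputable def renameSL {T T' : Type} (f : T → T') :
    SpecialLinearGroup (Fin r) (MvPolynomial T ℤ) →*
      SpecialLinearGroup (Fin r) (MvPolynomial T' ℤ) :=
  SpecialLinearGroup.map (MvPolynomial.rename f : MvPolynomial T ℤ →ₐ[ℤ] _).toRingHom

theorem spec_rename {T T' A : Type} [CommRing A] (f : T → T') (t : T' → A)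
    (Φ : SpecialLinearGroup (Fin r) (MvPolynomial T ℤ)) :
    spec t (renameSL f Φ) = spec (t ∘ f) Φ := by
  apply Subtype.ext
  ext i j
  change MvPolynomial.eval₂ (Int.castRingHom A) t (MvPolynomial.rename f (Φ.1 i j)) =
    MvPolynomial.eval₂ (Int.castRingHom A) (t ∘ f) (Φ.1 i j)
  rw [MvPolynomial.eval₂_rename]

/-- The matrix `A` is a value of a family over `ℤ[T]` that is `1` at the origin. -/
def Reach (A : SpecialLinearGroup (Fin r) ℂ) : Prop :=
  ∃ (T : Type) (Φ : SpecialLinearGroup (Fin r) (MvPolynomial T ℤ)) (t : T → ℂ),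
    spec t Φ = A ∧ spec (0 : T → ℂ) Φ = 1

theorem Reach.mul {A B : SpecialLinearGroup (Fin r) ℂ} (hA : Reach A) (hB : Reach B) :
    Reach (A * B) := by
  obtain ⟨T, Φ, t, h1, h2⟩ := hA
  obtain ⟨T', Φ', t', h1', h2'⟩ := hB
  refine ⟨T ⊕ T', renameSL Sum.inl Φ * renameSL Sum.inr Φ', Sum.elim t t', ?_, ?_⟩
  · rw [map_mul, spec_rename, spec_rename, Sum.elim_comp_inl, Sum.elim_comp_inr, h1, h1']
  · rw [map_mul, spec_rename, spec_rename]
    have e1 : (0 : T ⊕ T' → ℂ) ∘ Sum.inl = 0 := rfl
    have e2 : (0 : T ⊕ T' → ℂ) ∘ Sum.inr = 0 := rfl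
    rw [e1, e2, h2, h2', one_mul]

theorem Reach.transvection {i j : Fin r} (hij : i ≠ j) (c : ℂ) :
    Reach (SpecialLinearGroup.transvection hij c) := by
  refine ⟨Unit, SpecialLinearGroup.transvection hij (MvPolynomial.X ()), fun _ => c, ?_, ?_⟩
  · apply Subtype.ext
    ext a b
    change MvPolynomial.eval₂ (Int.castRingHom ℂ) (fun _ => c)
      (Matrix.transvection i j (MvPolynomial.X () : MvPolynomial Unit ℤ) a b) =
      Matrix.transvection i j c a b
    simp only [Matrix.transvection, Matrix.add_apply, Matrix.one_apply, Matrix.single_apply]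
    split_ifs <;> simp
  · apply Subtype.ext
    ext a b
    change MvPolynomial.eval₂ (Int.castRingHom ℂ) (0 : Unit → ℂ)
      (Matrix.transvection i j (MvPolynomial.X () : MvPolynomial Unit ℤ) a b) =
      (1 : Matrix (Fin r) (Fin r) ℂ) a b
    simp only [Matrix.transvection, Matrix.add_apply, Matrix.one_apply, Matrix.single_apply]
    split_ifs <;> simp

theorem Reach.one : Reach (1 : SpecialLinearGroup (Fin r) ℂ) :=
  ⟨Empty, 1, 0, map_one _, map_one _⟩

theorem Reach.diag2n {i j : Fin r} (hij : i ≠ j) {c : ℂ} (hc : c ≠ 0) :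
    Reach (SpecialLinearGroup.diag2n hij c hc) := by
  have h : SpecialLinearGroup.diag2n hij c hc =
      SpecialLinearGroup.transvection hij (c - 1) * (SpecialLinearGroup.transvection hij.symm 1 *
        (SpecialLinearGroup.transvection hij (c⁻¹ - 1) *
          SpecialLinearGroup.transvection hij.symm (-c))) := by
    apply Subtype.ext
    have := Vale.Agent.P002.whitehead hij c hc (1 : Matrix (Fin r) (Fin r) ℂ)
    rw [Matrix.mul_one, Matrix.mul_one] at this
    exact this
  rw [h]
  exact (transvection hij _).mul ((transvection hij.symm _).mul ((transvection hij _).mul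
    (transvection hij.symm _)))

theorem reach_all (A : SpecialLinearGroup (Fin r) ℂ) : Reach A := by
  by_cases hr : 2 ≤ r
  · have : Nontrivial (Fin r) := Fin.nontrivial_iff_two_le.2 hr
    exact SpecialLinearGroup.diagonal_transvection_induction' Reach A
      (fun i j hij c hc => Reach.diag2n hij hc) (fun i j hij a => Reach.transvection hij a)
      (fun _ _ => Reach.mul)
  · have h1 : A = 1 := by
      have hr' : r = 0 ∨ r = 1 := by omega
      rcases hr' with rfl | rfl
      · exact Subsingleton.elim _ _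
      · apply Subtype.ext
        ext i j
        have h2 := A.2
        rw [Matrix.det_fin_one] at h2
        rw [Subsingleton.elim i 0, Subsingleton.elim j 0]
        exact h2
    rw [h1]
    exact Reach.one

/-- Any two tuples are members of a common family with integer coefficients. -/
theorem exists_family {ι : Type} (X X₀ : ι → SpecialLinearGroup (Fin r) ℂ) :
    ∃ (T : Type) (Φ : ι → SpecialLinearGroup (Fin r) (MvPolynomial T ℤ)) (t t₀ : T → ℂ),
      (∀ k, spec t (Φ k) = X k) ∧ ∀ k, spec t₀ (Φ k) = X₀ k := by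
  choose T Φ t h1 h2 using fun k => reach_all (X k)
  choose T' Φ' t' h1' h2' using fun k => reach_all (X₀ k)
  refine ⟨(Σ k, T k) ⊕ (Σ k, T' k), fun k => renameSL (fun x => Sum.inl ⟨k, x⟩) (Φ k) *
    renameSL (fun x => Sum.inr ⟨k, x⟩) (Φ' k), Sum.elim (fun x => t x.1 x.2) 0,
    Sum.elim 0 (fun x => t' x.1 x.2), fun k => ?_, fun k => ?_⟩
  · rw [map_mul, spec_rename, spec_rename]
    exact (congrArg₂ (· * ·) (h1 k) (h2' k)).trans (mul_one _)
  · rw [map_mul, spec_rename, spec_rename]
    exact (congrArg₂ (· * ·) (h2 k) (h1' k)).trans (one_mul _)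

/-- A polynomial which vanishes at all integer points is zero. -/
theorem eq_zero_of_int {T : Type} (P : MvPolynomial T ℂ)
    (h : ∀ t : T → ℤ, MvPolynomial.eval (fun i => (t i : ℂ)) P = 0) : P = 0 := by
  refine MvPolynomial.funext_set (fun _ => Set.range ((↑) : ℤ → ℂ))
    (fun _ => Set.infinite_range_of_injective Int.cast_injective) ?_
  intro x hx
  have h1 : ∀ i, ∃ a : ℤ, (a : ℂ) = x i := fun i => hx i (Set.mem_univ i)
  choose a ha using h1
  have h2 : (fun i => (a i : ℂ)) = x := funext ha
  rw [map_zero, ← h2]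
  exact h a

/-! ### The last boundary loop is a word in the other generators -/

/-- The representation with given values at all generators but the last one. -/
noncomputable def extLast {A : Type} [CommRing A] (Y : Gens g m → SpecialLinearGroup (Fin r) A) :
    Gens g (m + 1) → SpecialLinearGroup (Fin r) A :=
  Sum.elim (fun x => Y (Sum.inl x)) (Fin.lastCases
    (((List.ofFn fun i : Fin g => Y (Sum.inl (i, false)) * Y (Sum.inl (i, true)) *
      (Y (Sum.inl (i, false)))⁻¹ * (Y (Sum.inl (i, true)))⁻¹).prod *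
      (List.ofFn fun j : Fin m => Y (Sum.inr j)).prod)⁻¹) (fun j => Y (Sum.inr j)))

/-- Restriction to all generators but the last one. -/
def restLast {A : Type} [CommRing A] (X : Gens g (m + 1) → SpecialLinearGroup (Fin r) A) :
    Gens g m → SpecialLinearGroup (Fin r) A :=
  Sum.elim (fun x => X (Sum.inl x)) (fun j => X (Sum.inr (Fin.castSucc j)))

section

variable {A B : Type} [CommRing A] [CommRing B]

theorem extLast_inl (Y : Gens g m → SpecialLinearGroup (Fin r) A) (x : Fin g × Bool) :
    extLast Y (Sum.inl x) = Y (Sum.inl x) := rfl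

theorem extLast_castSucc (Y : Gens g m → SpecialLinearGroup (Fin r) A) (j : Fin m) :
    extLast Y (Sum.inr (Fin.castSucc j)) = Y (Sum.inr j) := by
  simp only [extLast, Sum.elim_inr, Fin.lastCases_castSucc]

theorem extLast_last (Y : Gens g m → SpecialLinearGroup (Fin r) A) :
    extLast Y (Sum.inr (Fin.last m)) =
      ((List.ofFn fun i : Fin g => Y (Sum.inl (i, false)) * Y (Sum.inl (i, true)) *
      (Y (Sum.inl (i, false)))⁻¹ * (Y (Sum.inl (i, true)))⁻¹).prod *
      (List.ofFn fun j : Fin m => Y (Sum.inr j)).prod)⁻¹ := by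
  simp only [extLast, Sum.elim_inr, Fin.lastCases_last]

theorem isRep_extLast (Y : Gens g m → SpecialLinearGroup (Fin r) A) : IsRep (extLast Y) := by
  unfold IsRep
  rw [List.ofFn_succ' (f := fun j : Fin (m + 1) => extLast Y (Sum.inr j))]
  rw [List.concat_eq_append, List.prod_append, List.prod_singleton, extLast_last]
  simp only [extLast_inl, extLast_castSucc]
  rw [← mul_assoc, mul_inv_cancel]

theorem eq_extLast (X : Gens g (m + 1) → SpecialLinearGroup (Fin r) A) (h : IsRep X) :
    extLast (restLast X) = X := by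
  funext k
  rcases k with x | j
  · rfl
  · induction j using Fin.lastCases with
    | last =>
      rw [extLast_last]
      unfold IsRep at h
      rw [List.ofFn_succ' (f := fun j : Fin (m + 1) => X (Sum.inr j)), List.concat_eq_append,
        List.prod_append, List.prod_singleton, ← mul_assoc] at h
      exact (eq_inv_of_mul_eq_one_right h).symm
    | cast j =>
      rw [extLast_castSucc]
      rfl

theorem extLast_map (f : SpecialLinearGroup (Fin r) A →* SpecialLinearGroup (Fin r) B)
    (Y : Gens g m → SpecialLinearGroup (Fin r) A) (k : Gens g (m + 1)) :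
    extLast (fun k => f (Y k)) k = f (extLast Y k) := by
  rcases k with x | j
  · rfl
  · induction j using Fin.lastCases with
    | last =>
      rw [extLast_last, extLast_last, map_inv, map_mul, map_list_prod, map_list_prod,
        List.map_ofFn, List.map_ofFn]
      congr 3
      congr 1
      funext i
      simp only [Function.comp_apply, map_mul, map_inv]
    | cast j =>
      rw [extLast_castSucc, extLast_castSucc]

end

/-- The density argument: integral tuples at which `D` does not vanish are dense if `D` does not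
vanish identically. -/
theorem density_of_poly (D : MvPolynomial (Gens g m × Fin r × Fin r) ℂ)
    (F : MvPolynomial (Gens g (m + 1) × Fin r × Fin r) ℂ)
    (X₀ : Gens g m → SpecialLinearGroup (Fin r) ℂ) (h₀ : value D X₀ ≠ 0)
    (hF : ∀ Z : Gens g m → SpecialLinearGroup (Fin r) ℤ,
      value D (fun k => SpecialLinearGroup.map (Int.castRingHom ℂ) (Z k)) ≠ 0 →
      value F (extLast fun k => SpecialLinearGroup.map (Int.castRingHom ℂ) (Z k)) = 0)
    (X : Gens g m → SpecialLinearGroup (Fin r) ℂ) : value F (extLast X) = 0 := by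
  obtain ⟨T, Φ, t, t₀, ht, ht₀⟩ := exists_family X X₀
  -- the family over `ℂ[T]`
  obtain ⟨Ψ, hΨ⟩ : ∃ Ψ : Gens g m → SpecialLinearGroup (Fin r) (MvPolynomial T ℂ), Ψ = fun k =>
      SpecialLinearGroup.map (MvPolynomial.map (Int.castRingHom ℂ)) (Φ k) := ⟨_, rfl⟩
  have hspec : ∀ (s : T → ℂ) (k : Gens g m),
      SpecialLinearGroup.map (MvPolynomial.eval s) (Ψ k) = spec s (Φ k) := by
    intro s k
    rw [hΨ]
    apply Subtype.ext
    ext i j
    change MvPolynomial.eval s (MvPolynomial.map (Int.castRingHom ℂ) ((Φ k).1 i j)) =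
      MvPolynomial.eval₂ (Int.castRingHom ℂ) s ((Φ k).1 i j)
    rw [MvPolynomial.eval_map]
  have hval : ∀ {κ : Type} (G : MvPolynomial (κ × Fin r × Fin r) ℂ)
      (V : κ → SpecialLinearGroup (Fin r) (MvPolynomial T ℂ)) (s : T → ℂ),
      MvPolynomial.eval s (MvPolynomial.eval₂ (algebraMap ℂ (MvPolynomial T ℂ))
        (fun p => (V p.1).1 p.2.1 p.2.2) G) =
      MvPolynomial.eval₂ (algebraMap ℂ ℂ) (fun p =>
        (SpecialLinearGroup.map (MvPolynomial.eval s) (V p.1)).1 p.2.1 p.2.2) G := by
    intro κ G V s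
    rw [MvPolynomial.hom_eval₂]
    congr 1
    ext x
    simp
  obtain ⟨PD, hPD⟩ : ∃ PD : MvPolynomial T ℂ, PD = value D Ψ := ⟨_, rfl⟩
  obtain ⟨PF, hPF⟩ : ∃ PF : MvPolynomial T ℂ, PF = value F (extLast Ψ) := ⟨_, rfl⟩
  have eD : ∀ s : T → ℂ, MvPolynomial.eval s PD = value D (fun k => spec s (Φ k)) := by
    intro s
    rw [hPD]
    unfold value
    rw [hval]
    simp only [hspec]
  have eF : ∀ s : T → ℂ, MvPolynomial.eval s PF = value F (extLast fun k => spec s (Φ k)) := by
    intro s
    rw [hPF]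
    unfold value
    rw [hval]
    simp only [← extLast_map, hspec]
  have hprod : PD * PF = 0 := by
    apply eq_zero_of_int
    intro s
    rw [map_mul, mul_eq_zero, or_iff_not_imp_left]
    intro h1
    rw [eD] at h1
    rw [eF]
    have h2 : (fun k => spec (fun i => (s i : ℂ)) (Φ k)) =
        fun k => SpecialLinearGroup.map (Int.castRingHom ℂ) (spec s (Φ k)) := by
      funext k
      apply Subtype.ext
      ext i j
      change MvPolynomial.eval₂ (Int.castRingHom ℂ) (fun i => (s i : ℂ)) ((Φ k).1 i j) =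
        Int.castRingHom ℂ (MvPolynomial.eval₂ (Int.castRingHom ℤ) s ((Φ k).1 i j))
      rw [MvPolynomial.hom_eval₂]
      congr 1
    rw [h2] at h1 ⊢
    exact hF _ h1
  have hPD0 : PD ≠ 0 := by
    intro h
    apply h₀
    have := eD t₀
    rw [h, map_zero] at this
    rw [this]
    congr 1
    funext k
    exact (ht₀ k).symm
  have hPF0 : PF = 0 := (mul_eq_zero.1 hprod).resolve_left hPD0
  have := eF t
  rw [hPF0, map_zero] at this
  rw [this]
  congr 2
  funext k
  exact (ht k).symm

/-! ### Two or more free generators: irreducibility -/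

/-- A polynomial condition that implies generation of the full matrix algebra, and which holds
at a given generating tuple. -/
theorem exists_generating_poly_at {ι : Type} (B : ι → Matrix (Fin r) (Fin r) ℂ)
    (hB : Algebra.adjoin ℂ (Set.range B) = ⊤) :
    ∃ h : MvPolynomial (ι × Fin r × Fin r) ℂ,
      MvPolynomial.eval (fun p => B p.1 p.2.1 p.2.2) h ≠ 0 ∧
      ∀ A : ι → Matrix (Fin r) (Fin r) ℂ,
      MvPolynomial.eval (fun p => A p.1 p.2.1 p.2.2) h ≠ 0 →
        Algebra.adjoin ℂ (Set.range A) = ⊤ := by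
  have hspan : Submodule.span ℂ (Set.range (FreeMonoid.lift B)) = ⊤ := by
    have h1 : Submodule.span ℂ (Submonoid.closure (Set.range B) :
        Set (Matrix (Fin r) (Fin r) ℂ)) = ⊤ := by
      rw [← Algebra.adjoin_eq_span, hB, Algebra.top_toSubmodule]
    rw [← h1]
    congr 1
    rw [← FreeMonoid.mrange_lift]
    rfl
  obtain ⟨κ, a, _, hsp, hli⟩ := exists_linearIndependent' ℂ (FreeMonoid.lift B)
  rw [hspan] at hsp
  let b : Module.Basis κ ℂ (Matrix (Fin r) (Fin r) ℂ) := Module.Basis.mk hli hsp.ge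
  let e : κ ≃ Fin r × Fin r := b.indexEquiv (Matrix.stdBasis ℂ (Fin r) (Fin r))
  let w : Fin r × Fin r → FreeMonoid ι := a ∘ e.symm
  have hw : LinearIndependent ℂ (fun k => FreeMonoid.lift B (w k)) :=
    hli.comp e.symm e.symm.injective
  let G : ι → Matrix (Fin r) (Fin r) (MvPolynomial (ι × Fin r × Fin r) ℂ) :=
    fun i => Matrix.of fun a b => MvPolynomial.X (i, a, b)
  let Mk : Matrix (Fin r × Fin r) (Fin r × Fin r) (MvPolynomial (ι × Fin r × Fin r) ℂ) :=
    Matrix.of fun k p => (FreeMonoid.lift G (w k)) p.1 p.2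
  have hev : ∀ A : ι → Matrix (Fin r) (Fin r) ℂ,
      MvPolynomial.eval (fun p => A p.1 p.2.1 p.2.2) Mk.det =
        (Matrix.of fun k p : Fin r × Fin r => (FreeMonoid.lift A (w k)) p.1 p.2).det := by
    intro A
    rw [RingHom.map_det]
    congr 1
    ext k p
    have h1 : ∀ u : FreeMonoid ι,
        (MvPolynomial.eval (fun p : ι × Fin r × Fin r => A p.1 p.2.1 p.2.2)).mapMatrix
          (FreeMonoid.lift G u) = FreeMonoid.lift A u := by
      intro u
      induction u using FreeMonoid.inductionOn' with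
      | one => simp
      | of_mul x xs ih =>
        rw [map_mul, map_mul, map_mul, ih]
        congr 1
        rw [FreeMonoid.lift_eval_of, FreeMonoid.lift_eval_of]
        ext i j
        simp [G]
    have h2 := congrFun (congrFun (h1 (w k)) p.1) p.2
    exact h2
  refine ⟨Mk.det, ?_, ?_⟩
  · intro h0
    have h1 := hev B
    rw [h0] at h1
    obtain ⟨v, hv, hv'⟩ := Matrix.exists_vecMul_eq_zero_iff.mpr h1.symm
    apply hv
    have h2 : ∑ k, v k • FreeMonoid.lift B (w k) = 0 := by
      ext i j
      have h3 := congrFun hv' (i, j)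
      rw [Matrix.sum_apply]
      simpa [Matrix.vecMul, dotProduct] using h3
    have h3 := (Fintype.linearIndependent_iff.mp hw) v h2
    ext k
    exact h3 k
  · intro A hA
    rw [hev A] at hA
    have hli' : LinearIndependent ℂ (fun k => FreeMonoid.lift A (w k)) := by
      rw [Fintype.linearIndependent_iff]
      intro v hv k
      by_contra hk
      apply hA
      apply Matrix.exists_vecMul_eq_zero_iff.mp
      refine ⟨v, fun h => hk (congrFun h k), ?_⟩
      ext p
      have h3 := congrFun (congrFun hv p.1) p.2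
      rw [Matrix.sum_apply] at h3
      simpa [Matrix.vecMul, dotProduct] using h3
    have hsp' : Submodule.span ℂ (Set.range fun k => FreeMonoid.lift A (w k)) = ⊤ := by
      apply hli'.span_eq_top_of_card_eq_finrank'
      rw [Module.finrank_matrix]
      simp
    have h4 : Submodule.span ℂ (Set.range fun k => FreeMonoid.lift A (w k)) ≤
        Subalgebra.toSubmodule (Algebra.adjoin ℂ (Set.range A)) := by
      rw [Submodule.span_le]
      rintro _ ⟨k, rfl⟩
      have h5 : FreeMonoid.lift A (w k) ∈ Submonoid.closure (Set.range A) := by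
        rw [← FreeMonoid.mrange_lift]
        exact ⟨w k, rfl⟩
      change FreeMonoid.lift A (w k) ∈ Algebra.adjoin ℂ (Set.range A)
      exact (Submonoid.closure_le
        (S := (Algebra.adjoin ℂ (Set.range A)).toSubsemiring.toSubmonoid)).mpr
        Algebra.subset_adjoin h5
    rw [hsp'] at h4
    rw [eq_top_iff]
    intro M _
    exact h4 (Submodule.mem_top (x := M))

/-- Every invertible matrix is a scalar multiple of a matrix of determinant `1`. -/
theorem exists_scale (hr : 0 < r) (M : Matrix (Fin r) (Fin r) ℂ) (hM : M.det ≠ 0) :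
    ∃ (c : ℂ) (Q : SpecialLinearGroup (Fin r) ℂ), c ≠ 0 ∧
      (Q : Matrix (Fin r) (Fin r) ℂ) = c • M := by
  obtain ⟨c, hc⟩ := IsAlgClosed.exists_pow_nat_eq (M.det⁻¹) hr
  have hQ : (c • M).det = 1 := by
    rw [Matrix.det_smul, Fintype.card_fin, hc, inv_mul_cancel₀ hM]
  refine ⟨c, ⟨_, hQ⟩, ?_, rfl⟩
  rintro rfl
  rw [zero_pow hr.ne', eq_comm, inv_eq_zero] at hc
  exact hM hc

theorem det_diag_ne_zero : (diagonal fun k : Fin r => ((k : ℕ) : ℂ) + 1).det ≠ 0 := by
  rw [det_diagonal, Finset.prod_ne_zero_iff]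
  intro k _
  exact Nat.cast_add_one_ne_zero _

theorem det_one_add_ne_zero :
    (1 + Matrix.of fun _ _ => 1 : Matrix (Fin r) (Fin r) ℂ).det ≠ 0 := by
  have h1 : (Matrix.of fun _ _ => 1 : Matrix (Fin r) (Fin r) ℂ) =
      (Matrix.of fun (_ : Fin r) (_ : Unit) => (1 : ℂ)) * (Matrix.of fun (_ : Unit) (_ : Fin r) => (1 : ℂ)) := by
    ext i j
    simp [Matrix.mul_apply]
  rw [h1, Matrix.det_one_add_mul_comm, Matrix.det_unique]
  simp only [Matrix.add_apply, Matrix.one_apply_eq, Matrix.mul_apply, Matrix.of_apply, mul_one,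
    Finset.sum_const, Finset.card_univ, Fintype.card_fin, nsmul_eq_mul]
  rw [add_comm]
  exact Nat.cast_add_one_ne_zero _

/-- Two matrices of determinant `1` which generate the full matrix algebra. -/
theorem exists_generating_pair (hr : 0 < r) : ∃ P Q : SpecialLinearGroup (Fin r) ℂ,
    ∀ S : Subalgebra ℂ (Matrix (Fin r) (Fin r) ℂ),
      (P : Matrix (Fin r) (Fin r) ℂ) ∈ S → (Q : Matrix (Fin r) (Fin r) ℂ) ∈ S → S = ⊤ := by
  obtain ⟨c, P, hc, hP⟩ := exists_scale hr _ (det_diag_ne_zero (r := r))
  obtain ⟨d, Q, hd, hQ⟩ := exists_scale hr _ (det_one_add_ne_zero (r := r))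
  refine ⟨P, Q, fun S h1 h2 => ?_⟩
  have h3 : (diagonal fun k : Fin r => ((k : ℕ) : ℂ) + 1) ∈ S := by
    have := S.smul_mem h1 c⁻¹
    rwa [hP, smul_smul, inv_mul_cancel₀ hc, one_smul] at this
  have h3' : (diagonal fun k : Fin r => ((k : ℕ) : ℂ)) ∈ S := by
    have := S.sub_mem h3 S.one_mem
    convert this using 1
    rw [← diagonal_one, diagonal_sub]
    congr 1
    funext k
    simp
  have h4 : (Matrix.of fun _ _ => 1 : Matrix (Fin r) (Fin r) ℂ) ∈ S := by
    have := S.smul_mem h2 d⁻¹
    rw [hQ, smul_smul, inv_mul_cancel₀ hd, one_smul] at this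
    have := S.sub_mem this S.one_mem
    rwa [add_sub_cancel_left] at this
  have h5 := Vale.Agent.P002.adjoin_pair (g := 2) (r := r)
    ![(diagonal fun k : Fin r => ((k : ℕ) : ℂ)), Matrix.of fun _ _ => 1] 0 1 rfl rfl
  rw [eq_top_iff, ← h5, Algebra.adjoin_le_iff]
  rintro _ ⟨i, rfl⟩
  fin_cases i
  · exact h3'
  · exact h4

/-- A tuple that generates the full matrix algebra is irreducible. -/
theorem semisimple_of_adjoin {ι : Type} (A : ι → Matrix (Fin r) (Fin r) ℂ)
    (hA : Algebra.adjoin ℂ (Set.range A) = ⊤) (W : Submodule ℂ (Fin r → ℂ))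
    (hW : ∀ k, ∀ v ∈ W, A k *ᵥ v ∈ W) : W = ⊥ ∨ W = ⊤ := by
  obtain ⟨S, hS⟩ : ∃ S : Subalgebra ℂ (Matrix (Fin r) (Fin r) ℂ), ∀ M, M ∈ S ↔
      ∀ v ∈ W, M *ᵥ v ∈ W :=
    ⟨{ carrier := {M | ∀ v ∈ W, M *ᵥ v ∈ W}
       mul_mem' := fun {a b} ha hb v hv => by
        rw [← Matrix.mulVec_mulVec]
        exact ha _ (hb v hv)
       add_mem' := fun {a b} ha hb v hv => by
        rw [Matrix.add_mulVec]
        exact W.add_mem (ha v hv) (hb v hv)
       algebraMap_mem' := fun c v hv => by
        rw [Algebra.algebraMap_eq_smul_one, Matrix.smul_mulVec, Matrix.one_mulVec]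
        exact W.smul_mem c hv }, fun M => Iff.rfl⟩
  have h1 : S = ⊤ := by
    rw [eq_top_iff, ← hA, Algebra.adjoin_le_iff]
    rintro _ ⟨k, rfl⟩
    exact (hS _).2 (hW k)
  have h2 : ∀ (M : Matrix (Fin r) (Fin r) ℂ), ∀ v ∈ W, M *ᵥ v ∈ W := fun M =>
    (hS M).1 (h1 ▸ Algebra.mem_top)
  rw [or_iff_not_imp_left]
  intro h3
  obtain ⟨v, hv, hv0⟩ := (Submodule.ne_bot_iff W).1 h3
  obtain ⟨i, hi⟩ := Function.ne_iff.1 hv0
  rw [eq_top_iff]
  intro u _
  have h4 := h2 (Matrix.of fun a b => if b = i then u a * (v i)⁻¹ else 0) v hv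
  convert h4 using 1
  ext a
  simp only [Matrix.mulVec, dotProduct, Matrix.of_apply, ite_mul, zero_mul, Finset.sum_ite_eq',
    Finset.mem_univ, if_true]
  rw [mul_assoc, inv_mul_cancel₀ hi, mul_one]

/-- The stabilizer of a subspace. -/
theorem exists_stab (W : Submodule ℂ (Fin r → ℂ)) :
    ∃ H : Subgroup (SpecialLinearGroup (Fin r) ℂ), ∀ M, M ∈ H ↔
      ∀ v ∈ W, M.1 *ᵥ v ∈ W := by
  refine ⟨{ carrier := {M | ∀ v ∈ W, M.1 *ᵥ v ∈ W}
            mul_mem' := fun {a b} ha hb v hv => ?_
            one_mem' := fun v hv => ?_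
            inv_mem' := fun {a} ha => ?_ }, fun M => Iff.rfl⟩
  · have e : (a * b).1 *ᵥ v = a.1 *ᵥ (b.1 *ᵥ v) := (Matrix.mulVec_mulVec v a.1 b.1).symm
    exact (congrArg (· ∈ W) e).mpr (ha _ (hb v hv))
  · have e : (1 : SpecialLinearGroup (Fin r) ℂ).1 *ᵥ v = v := Matrix.one_mulVec v
    exact (congrArg (· ∈ W) e).mpr hv
  · intro v hv
    obtain ⟨T, hT⟩ : ∃ T : W →ₗ[ℂ] W, ∀ v, ((T v : W) : Fin r → ℂ) = a.1 *ᵥ v :=
      ⟨(Matrix.mulVecLin a.1).restrict ha, fun v => rfl⟩
    have hMi : (a⁻¹).1 * a.1 = 1 := congrArg Subtype.val (inv_mul_cancel a)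
    have hinj : Function.Injective T := by
      intro x y hxy
      have h1 : a.1 *ᵥ (x : Fin r → ℂ) = a.1 *ᵥ (y : Fin r → ℂ) := by
        rw [← hT, ← hT, hxy]
      apply Subtype.ext
      have h2 := congrArg (fun u => (a⁻¹).1 *ᵥ u) h1
      simpa only [Matrix.mulVec_mulVec, hMi, Matrix.one_mulVec] using h2
    obtain ⟨x, hx⟩ := (LinearMap.injective_iff_surjective.1 hinj) ⟨v, hv⟩
    have h1 : v = a.1 *ᵥ (x : Fin r → ℂ) := by rw [← hT, hx]
    rw [h1, Matrix.mulVec_mulVec, hMi, Matrix.one_mulVec]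
    exact x.2

theorem isInvSubspace_extLast (Y : Gens g m → SpecialLinearGroup (Fin r) ℂ)
    (W : Submodule ℂ (Fin r → ℂ)) : IsInvSubspace (extLast Y) W ↔ IsInvSubspace Y W := by
  constructor
  · intro h k
    rcases k with x | j
    · exact h (Sum.inl x)
    · have := h (Sum.inr (Fin.castSucc j))
      rwa [extLast_castSucc] at this
  · intro h
    obtain ⟨H, hH⟩ := exists_stab W
    have h1 : ∀ k, Y k ∈ H := fun k => (hH _).2 (h k)
    intro k
    rw [← hH]
    rcases k with x | j
    · exact h1 (Sum.inl x)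
    · induction j using Fin.lastCases with
      | last =>
        rw [extLast_last]
        refine H.inv_mem (H.mul_mem (H.list_prod_mem ?_) (H.list_prod_mem ?_))
        · intro x hx
          rw [List.mem_ofFn] at hx
          obtain ⟨i, rfl⟩ := hx
          exact H.mul_mem (H.mul_mem (H.mul_mem (h1 _) (h1 _)) (H.inv_mem (h1 _)))
            (H.inv_mem (h1 _))
        · intro x hx
          rw [List.mem_ofFn] at hx
          obtain ⟨i, rfl⟩ := hx
          exact h1 _
      | cast j =>
        rw [extLast_castSucc]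
        exact h1 _

/-! ### One free generator: separable characteristic polynomial -/

theorem semisimple_of_separable (M : Matrix (Fin r) (Fin r) ℂ) (h : M.charpoly.Separable)
    (W : Submodule ℂ (Fin r → ℂ)) (hW : ∀ v ∈ W, M *ᵥ v ∈ W) :
    ∃ W' : Submodule ℂ (Fin r → ℂ), (∀ v ∈ W', M *ᵥ v ∈ W') ∧ IsCompl W W' := by
  have h1 : Module.End.IsSemisimple (Matrix.mulVecLin M : Module.End ℂ (Fin r → ℂ)) := by
    refine Module.End.isSemisimple_of_squarefree_aeval_eq_zero h.squarefree ?_
    have h2 : Polynomial.aeval (Matrix.toLinAlgEquiv' M) M.charpoly = 0 := by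
      rw [← AlgEquiv.coe_toAlgHom, Polynomial.aeval_algHom_apply, Matrix.aeval_self_charpoly, map_zero]
    exact h2
  obtain ⟨W', hW', hc⟩ := Module.End.isSemisimple_iff.1 h1 W hW
  exact ⟨W', hW', hc⟩

theorem exists_separable_poly {ι : Type} (hr : 0 < r) (k₀ : ι) :
    ∃ h : MvPolynomial (ι × Fin r × Fin r) ℂ, ∀ A : ι → Matrix (Fin r) (Fin r) ℂ,
      MvPolynomial.eval (fun p => A p.1 p.2.1 p.2.2) h ≠ 0 ↔ (A k₀).charpoly.Separable := by
  obtain ⟨G, hG⟩ : ∃ G : Matrix (Fin r) (Fin r) (MvPolynomial (ι × Fin r × Fin r) ℂ),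
    G = Matrix.of fun a b => MvPolynomial.X (k₀, a, b) := ⟨_, rfl⟩
  refine ⟨Polynomial.resultant G.charpoly (Polynomial.derivative G.charpoly) r (r - 1),
    fun A => ?_⟩
  have h1 : G.map (MvPolynomial.eval (fun p : ι × Fin r × Fin r => A p.1 p.2.1 p.2.2)) = A k₀ := by
    rw [hG]
    ext i j
    simp
  rw [← Polynomial.resultant_map_map, ← Polynomial.derivative_map, ← Matrix.charpoly_map]
  rw [h1]
  have h2 : (A k₀).charpoly.natDegree = r := by
    rw [Matrix.charpoly_natDegree_eq_dim, Fintype.card_fin]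
  have h3 : (Polynomial.derivative (A k₀).charpoly).natDegree = r - 1 := by
    refine Polynomial.natDegree_eq_of_degree_eq_some ?_
    rw [Polynomial.degree_derivative (by rw [h2]; exact hr.ne'), h2]
  have h4 : (Polynomial.resultant (A k₀).charpoly (Polynomial.derivative (A k₀).charpoly) r (r - 1)) =
      Polynomial.resultant (A k₀).charpoly (Polynomial.derivative (A k₀).charpoly) := by
    rw [h2, h3]
  rw [h4, ← isUnit_iff_ne_zero, Polynomial.isUnit_resultant_iff_isCoprime
    (Matrix.charpoly_monic _)]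
  rfl

/-- The integral semisimple representations. -/
def ZNone (g n r : ℕ) : Set (Gens g n → SpecialLinearGroup (Fin r) ℂ) :=
  {X ∈ YNone g n r | ∀ k i j, ∃ a : ℤ, (X k).1 i j = a}

theorem value_eq_eval (G : MvPolynomial (Gens g m × Fin r × Fin r) ℂ)
    (X : Gens g m → SpecialLinearGroup (Fin r) ℂ) :
    value G X = MvPolynomial.eval (fun p => (X p.1).1 p.2.1 p.2.2) G := rfl

theorem extLast_int (Z : Gens g m → SpecialLinearGroup (Fin r) ℤ) (k : Gens g (m + 1))
    (i j : Fin r) : ∃ a : ℤ,
      (extLast (fun k => SpecialLinearGroup.map (Int.castRingHom ℂ) (Z k)) k).1 i j = a := by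
  rw [extLast_map]
  exact ⟨(extLast Z k).1 i j, rfl⟩

/-- Density for free fundamental groups. -/
theorem none_density_int (g m r : ℕ) (F : MvPolynomial (Gens g (m + 1) × Fin r × Fin r) ℂ)
    (hF : ∀ X ∈ ZNone g (m + 1) r, value F X = 0)
    (X : Gens g (m + 1) → SpecialLinearGroup (Fin r) ℂ) (hX : IsRep X) : value F X = 0 := by
  rcases Nat.eq_zero_or_pos r with hr | hr
  · subst hr
    apply hF
    refine ⟨⟨hX, fun W _ => ⟨W, ‹_›, ?_⟩⟩, fun k i => i.elim0⟩
    exact ⟨disjoint_iff.2 (Subsingleton.elim _ _), codisjoint_iff.2 (Subsingleton.elim _ _)⟩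
  rw [← eq_extLast X hX]
  rcases isEmpty_or_nonempty (Gens g m) with hE | ⟨⟨k₀⟩⟩
  · -- the trivial group
    apply hF
    have h1 : restLast X = fun k => SpecialLinearGroup.map (Int.castRingHom ℂ)
        ((isEmptyElim k : SpecialLinearGroup (Fin r) ℤ)) := by
      funext k
      exact hE.elim k
    refine ⟨⟨isRep_extLast _, fun W hW => ?_⟩, fun k i j => ?_⟩
    · obtain ⟨W', hW'⟩ := exists_isCompl W
      refine ⟨W', ?_, hW'⟩
      rw [isInvSubspace_extLast]
      intro k
      exact hE.elim k
    · rw [h1]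
      exact extLast_int _ k i j
  by_cases hk : ∃ k₁ : Gens g m, k₁ ≠ k₀
  · -- at least two free generators
    obtain ⟨k₁, hk₁⟩ := hk
    obtain ⟨P, Q, hPQ⟩ := exists_generating_pair hr
    classical
    obtain ⟨X₀, hX₀⟩ : ∃ X₀ : Gens g m → SpecialLinearGroup (Fin r) ℂ,
      X₀ = fun k => if k = k₀ then P else Q := ⟨_, rfl⟩
    obtain ⟨D, hD0, hD⟩ := exists_generating_poly_at (fun k => (X₀ k).1) (by
      apply hPQ
      · apply Algebra.subset_adjoin
        refine ⟨k₀, ?_⟩
        simp only [hX₀, if_true]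
      · apply Algebra.subset_adjoin
        refine ⟨k₁, ?_⟩
        simp only [hX₀, hk₁, if_false])
    refine density_of_poly D F X₀ ?_ ?_ _
    · rw [value_eq_eval]
      exact hD0
    intro Z hZ
    apply hF
    refine ⟨⟨isRep_extLast _, fun W hW => ?_⟩, fun k i j => extLast_int _ k i j⟩
    rw [isInvSubspace_extLast] at hW
    rw [value_eq_eval] at hZ
    have hZ' := hD (fun k => (SpecialLinearGroup.map (Int.castRingHom ℂ) (Z k)).1) hZ
    rcases semisimple_of_adjoin _ hZ' W hW with h | h
    · refine ⟨⊤, fun k v _ => Submodule.mem_top, ?_⟩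
      rw [h]
      exact isCompl_bot_top
    · refine ⟨⊥, fun k v hv => ?_, ?_⟩
      · rw [Submodule.mem_bot] at hv ⊢
        rw [hv, Matrix.mulVec_zero]
      · rw [h]
        exact isCompl_top_bot
  · -- exactly one free generator
    have hk' : ∀ k, k = k₀ := fun k => by_contra fun h => hk ⟨k, h⟩
    obtain ⟨D, hD⟩ := exists_separable_poly (ι := Gens g m) hr k₀
    obtain ⟨c, P, hc, hP⟩ := exists_scale hr _ (det_diag_ne_zero (r := r))
    refine density_of_poly D F (fun _ => P) ?_ ?_ _
    · rw [value_eq_eval]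
      refine (hD (fun _ => P.1)).2 ?_
      · rw [hP]
        have h2 : c • (diagonal fun k : Fin r => ((k : ℕ) : ℂ) + 1) =
            diagonal fun k : Fin r => c * (((k : ℕ) : ℂ) + 1) := by
          rw [← diagonal_smul]
          rfl
        rw [h2, Matrix.charpoly_diagonal, Polynomial.separable_prod_X_sub_C_iff]
        intro a b hab
        have h3 := mul_left_cancel₀ hc hab
        exact Fin.ext (Nat.cast_injective (add_right_cancel h3))
    · intro Z hZ
      apply hF
      refine ⟨⟨isRep_extLast _, fun W hW => ?_⟩, fun k i j => extLast_int _ k i j⟩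
      rw [isInvSubspace_extLast] at hW
      rw [value_eq_eval] at hZ
      have hZ' := (hD (fun k => (SpecialLinearGroup.map (Int.castRingHom ℂ) (Z k)).1)).1 hZ
      obtain ⟨W', h1, h2⟩ := semisimple_of_separable _ hZ' W (hW k₀)
      refine ⟨W', ?_, h2⟩
      rw [isInvSubspace_extLast]
      intro k
      rw [hk' k]
      exact h1

/-- **Density without boundary conditions.** If the curve has a puncture, the semisimple
representations into `SL_r(ℤ)`, hence those into `SL_r(𝓞 L)` for every number field `L`, are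
Zariski dense. -/
theorem none_density (g n r : ℕ) (hn : 0 < n) (L : IntermediateField ℚ ℂ) :
    IsZariskiDenseRep {X ∈ YNone g n r | IsIntegralRep L X} (YNone g n r) := by
  obtain ⟨m, rfl⟩ := Nat.exists_eq_succ_of_ne_zero hn.ne'
  refine ⟨fun _ hX => hX.1, fun F hF X hX => ?_⟩
  refine none_density_int g m r F (fun X' hX' => hF X' ⟨hX'.1, fun k i j => ?_⟩) X hX.1
  obtain ⟨a, ha⟩ := hX'.2 k i j
  refine ⟨(a : 𝓞 L), ?_⟩
  rw [ha]
  exact (map_intCast ((algebraMap L ℂ).comp (algebraMap (𝓞 L) L)) a).symm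

end Vale.Agent.P002R.Statement
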