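import Vale.Agent.P002R.RGDefs
import Vale.Agent.P002R.RNone

/-!
# Free groups without boundary conditions; Burnside's theorem
-/

namespace Vale.Agent.P002R

open Matrix

/-- Burnside's theorem. -/
theorem burnside_top {r : ℕ} {G : Type*} [Group G] (x : G →* (Mat r ℂ)ˣ) (hss : SS x)
    (hirr : ∀ M : Mat r ℂ, (∀ w, Commute M (x w : Mat r ℂ)) → ∃ c : ℂ, M = c • (1 : Mat r ℂ)) :
    Algebra.adjoin ℂ (Set.range fun w => (x w : Mat r ℂ)) = ⊤ := by
  obtain ⟨A, hA⟩ : ∃ A, A = Algebra.adjoin ℂ (Set.range fun w => (x w : Mat r ℂ)) := ⟨_, rfl⟩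
  rw [← hA]
  let act : A →+* Module.End ℂ (Fin r → ℂ) :=
    ((Matrix.toLinAlgEquiv' (R := ℂ) (n := Fin r)).toAlgHom.toRingHom).comp A.subtype
  let _ : Module A (Fin r → ℂ) := Module.compHom _ act
  have hact : ∀ (a : A) (v : Fin r → ℂ), a • v = (a : Mat r ℂ) *ᵥ v := fun a v => rfl
  have hxA : ∀ w, (x w : Mat r ℂ) ∈ A := fun w => by
    rw [hA]
    exact Algebra.subset_adjoin ⟨w, rfl⟩
  have hsemi : IsSemisimpleModule A (Fin r → ℂ) := by
    rw [isSemisimpleModule_iff]
    refine ⟨fun N => ?_⟩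
    obtain ⟨W, hW⟩ : ∃ W : Submodule ℂ (Fin r → ℂ), ∀ v, v ∈ W ↔ v ∈ N :=
      ⟨{ carrier := {v | v ∈ N}
         add_mem' := fun ha hb => N.add_mem ha hb
         zero_mem' := N.zero_mem
         smul_mem' := fun c v hv => by
          have h1 : ((algebraMap ℂ A c : A) : Mat r ℂ) *ᵥ v ∈ N :=
            N.smul_mem (algebraMap ℂ A c) hv
          have h2 : ((algebraMap ℂ A c : A) : Mat r ℂ) *ᵥ v = c • v := by
            change algebraMap ℂ (Mat r ℂ) c *ᵥ v = _
            rw [Algebra.algebraMap_eq_smul_one, Matrix.smul_mulVec, Matrix.one_mulVec]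
          rw [h2] at h1
          exact h1 }, fun v => Iff.rfl⟩
    obtain ⟨W', h1, h2⟩ := hss W (fun w v hv => by
      rw [hW] at hv ⊢
      exact N.smul_mem (⟨_, hxA w⟩ : A) hv)
    have h3 : ∀ a ∈ A, ∀ v ∈ W', a *ᵥ v ∈ W' := by
      intro a ha
      rw [hA] at ha
      induction ha using Algebra.adjoin_induction with
      | mem y hy =>
        obtain ⟨w, rfl⟩ := hy
        exact h1 w
      | algebraMap c =>
        intro v hv
        rw [Algebra.algebraMap_eq_smul_one, Matrix.smul_mulVec, Matrix.one_mulVec]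
        exact W'.smul_mem c hv
      | add y z _ _ hy hz =>
        intro v hv
        rw [Matrix.add_mulVec]
        exact W'.add_mem (hy v hv) (hz v hv)
      | mul y z _ _ hy hz =>
        intro v hv
        rw [← Matrix.mulVec_mulVec]
        exact hy _ (hz v hv)
    refine ⟨{ carrier := {v | v ∈ W'}
              add_mem' := fun ha hb => W'.add_mem ha hb
              zero_mem' := W'.zero_mem
              smul_mem' := fun a v hv => ?_ }, ?_⟩
    · exact h3 _ a.2 v hv
    · rw [isCompl_iff, disjoint_iff, codisjoint_iff] at h2 ⊢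
      constructor
      · rw [eq_bot_iff]
        intro v hv
        rw [Submodule.mem_inf] at hv
        have : v ∈ W ⊓ W' := ⟨(hW v).2 hv.1, hv.2⟩
        rw [h2.1, Submodule.mem_bot] at this
        rw [Submodule.mem_bot]
        exact this
      · rw [eq_top_iff]
        intro v _
        have : v ∈ W ⊔ W' := by
          rw [h2.2]
          exact Submodule.mem_top
        obtain ⟨a, ha, b, hb, rfl⟩ := Submodule.mem_sup.1 this
        exact Submodule.add_mem_sup ((hW a).1 ha) hb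
  have hend : ∀ f : Module.End A (Fin r → ℂ), ∃ c : ℂ, ∀ v, f v = c • v := by
    intro f
    obtain ⟨f', hf'⟩ : ∃ f' : (Fin r → ℂ) →ₗ[ℂ] (Fin r → ℂ), ∀ v, f' v = f v :=
      ⟨{ toFun := f
         map_add' := f.map_add
         map_smul' := fun c v => by
          have h1 : f (((algebraMap ℂ A c : A) : Mat r ℂ) *ᵥ v) =
              ((algebraMap ℂ A c : A) : Mat r ℂ) *ᵥ f v := f.map_smul (algebraMap ℂ A c) v
          have h2 : ∀ u : Fin r → ℂ, ((algebraMap ℂ A c : A) : Mat r ℂ) *ᵥ u = c • u := by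
            intro u
            change algebraMap ℂ (Mat r ℂ) c *ᵥ u = _
            rw [Algebra.algebraMap_eq_smul_one, Matrix.smul_mulVec, Matrix.one_mulVec]
          rw [h2, h2] at h1
          exact h1 }, fun v => rfl⟩
    obtain ⟨c, hc⟩ := hirr (LinearMap.toMatrix' f') (fun w => by
      have h1 : ∀ v, f' ((x w : Mat r ℂ) *ᵥ v) = (x w : Mat r ℂ) *ᵥ f' v := by
        intro v
        rw [hf', hf']
        exact f.map_smul (⟨_, hxA w⟩ : A) v
      apply (Matrix.toLin' (R := ℂ)).injective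
      rw [Matrix.toLin'_mul, Matrix.toLin'_mul, Matrix.toLin'_toMatrix']
      exact LinearMap.ext fun v => h1 v)
    refine ⟨c, fun v => ?_⟩
    rw [← hf', ← Matrix.toLin'_toMatrix' f', hc, Matrix.toLin'_apply, Matrix.smul_mulVec,
      Matrix.one_mulVec]
  rw [eq_top_iff]
  intro T _
  classical
  obtain ⟨F, hF⟩ : ∃ F : Module.End (Module.End A (Fin r → ℂ)) (Fin r → ℂ),
      ∀ v, F v = T *ᵥ v :=
    ⟨{ toFun := fun v => T *ᵥ v
       map_add' := fun u v => Matrix.mulVec_add _ _ _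
       map_smul' := fun f v => by
        obtain ⟨c, hc⟩ := hend f
        change T *ᵥ (f v) = f (T *ᵥ v)
        rw [hc, hc, Matrix.mulVec_smul] }, fun v => rfl⟩
  obtain ⟨a, ha⟩ := jacobson_density F (Finset.univ.image fun i : Fin r => Pi.single i (1 : ℂ))
  have h1 : T = (a : Mat r ℂ) := by
    ext i j
    have h2 : F (Pi.single j 1) = (a : Mat r ℂ) *ᵥ Pi.single j 1 :=
      ha (Pi.single j 1) (Finset.mem_image_of_mem _ (Finset.mem_univ j))
    rw [hF, Matrix.mulVec_single_one, Matrix.mulVec_single_one] at h2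
    exact congrFun h2 i
  rw [h1]
  exact a.2

theorem evalG_eq_eval {κ : Type*} {r : ℕ} (x : FreeGroup κ →* (Mat r ℂ)ˣ)
    (f : MvPolynomial (κ × Fin r × Fin r) ℂ) :
    evalG x f = MvPolynomial.eval (fun p => (x (FreeGroup.of p.1) : Mat r ℂ) p.2.1 p.2.2) f := by
  rw [evalG_eqn, MvPolynomial.aeval_eq_eval]

/-- The algebra generated by a group of matrices is generated by the generators of the group. -/
theorem adjoin_gen_eq_top {κ : Type*} {r : ℕ} (x : FreeGroup κ →* (Mat r ℂ)ˣ)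
    (h : Algebra.adjoin ℂ (Set.range fun w => (x w : Mat r ℂ)) = ⊤) :
    Algebra.adjoin ℂ (Set.range fun k => (x (FreeGroup.of k) : Mat r ℂ)) = ⊤ := by
  rw [eq_top_iff, ← h, Algebra.adjoin_le_iff]
  rintro _ ⟨w, rfl⟩
  obtain ⟨A, hA⟩ : ∃ A, A = Algebra.adjoin ℂ
    (Set.range fun k => (x (FreeGroup.of k) : Mat r ℂ)) := ⟨_, rfl⟩
  rw [← hA]
  have hinv : ∀ u : (Mat r ℂ)ˣ, (u : Mat r ℂ) ∈ A → ((u⁻¹ : (Mat r ℂ)ˣ) : Mat r ℂ) ∈ A := by
    intro u hu
    obtain ⟨T, hT⟩ : ∃ T : A →ₗ[ℂ] A, ∀ a : A, ((T a : A) : Mat r ℂ) = (u : Mat r ℂ) * a :=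
      ⟨LinearMap.mulLeft ℂ (⟨u, hu⟩ : A), fun a => rfl⟩
    have hinj : Function.Injective T := by
      intro a b hab
      have h1 := congrArg (fun c : A => ((u⁻¹ : (Mat r ℂ)ˣ) : Mat r ℂ) * (c : Mat r ℂ)) hab
      simp only [hT, ← mul_assoc, Units.inv_mul, one_mul] at h1
      exact Subtype.ext h1
    obtain ⟨b, hb⟩ := (LinearMap.injective_iff_surjective.1 hinj) 1
    have h1 : (u : Mat r ℂ) * (b : Mat r ℂ) = 1 := by
      rw [← hT, hb]
      rfl
    have h2 : ((u⁻¹ : (Mat r ℂ)ˣ) : Mat r ℂ) = b := by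
      rw [← mul_one ((u⁻¹ : (Mat r ℂ)ˣ) : Mat r ℂ), ← h1, ← mul_assoc, Units.inv_mul, one_mul]
    rw [h2]
    exact b.2
  change (x w : Mat r ℂ) ∈ A
  induction w using FreeGroup.induction_on with
  | C1 =>
    rw [map_one]
    exact A.one_mem
  | of k =>
    rw [hA]
    exact Algebra.subset_adjoin ⟨k, rfl⟩
  | inv_of k hk =>
    rw [map_inv]
    exact hinv _ hk
  | mul a b ha hb =>
    rw [map_mul]
    exact A.mul_mem ha hb

theorem free_irrDense {N : ℕ} {R : Type*} [CommRing R] (φ : R →+* ℂ) (E : Subgroup ℂˣ)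
    (r : ℕ) (hr : 0 < r) : IrrDense (∅ : Set (FreeGroup (Fin N ⊕ Empty))) φ E r := by
  intro C _ x hx hirr f hf
  have htop := adjoin_gen_eq_top x (burnside_top x hx.2.2 hirr)
  obtain ⟨D, hD0, hD⟩ := Statement.exists_generating_poly_at
    (fun k => (x (FreeGroup.of k) : Mat r ℂ)) htop
  -- the polynomials in the variables of `Fin N`
  obtain ⟨e, he⟩ : ∃ e : (Fin N ⊕ Empty) × Fin r × Fin r ≃ Fin N × Fin r × Fin r,
      ∀ (k : Fin N) (p : Fin r × Fin r), e (Sum.inl k, p) = (k, p) :=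
    ⟨Equiv.prodCongr (Equiv.sumEmpty _ _) (Equiv.refl _), fun k p => rfl⟩
  have hprod : MvPolynomial.rename e (D * f) = 0 := by
    apply Vale.Agent.P002.multi_dense
    intro c Z
    rw [MvPolynomial.eval_rename]
    -- the representation
    obtain ⟨y, hy⟩ : ∃ y : FreeGroup (Fin N ⊕ Empty) →* (Mat r ℂ)ˣ, ∀ k : Fin N,
        y (FreeGroup.of (Sum.inl k)) = scalarU (c k) * slU (Int.castRingHom ℂ) (Z k) :=
      ⟨FreeGroup.lift (Sum.elim (fun k => scalarU (c k) * slU (Int.castRingHom ℂ) (Z k))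
        fun k => k.elim), fun k => FreeGroup.lift_apply_of⟩
    have h1 : ∀ p : (Fin N ⊕ Empty) × Fin r × Fin r,
        ((fun p : Fin N × Fin r × Fin r => (c p.1 : ℂ) * (((Z p.1).1 p.2.1 p.2.2 : ℤ) : ℂ)) ∘ e) p =
        (y (FreeGroup.of p.1) : Mat r ℂ) p.2.1 p.2.2 := by
      rintro ⟨k | k, p⟩
      · change _ = (y (FreeGroup.of (Sum.inl k)) : Mat r ℂ) p.1 p.2
        rw [hy, Function.comp_apply, he]
        change (c k : ℂ) * (((Z k).1 p.1 p.2 : ℤ) : ℂ) =
          (algebraMap ℂ (Mat r ℂ) (c k : ℂ) * ((Z k).1.map (Int.castRingHom ℂ))) p.1 p.2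
        rw [Algebra.algebraMap_eq_smul_one, Matrix.smul_mul, Matrix.one_mul, Matrix.smul_apply,
          smul_eq_mul]
        rfl
      · exact k.elim
    rw [funext h1, map_mul, mul_eq_zero, or_iff_not_imp_left]
    intro h2
    have h3 := hD (fun k => (y (FreeGroup.of k) : Mat r ℂ)) h2
    have h4 : Algebra.adjoin ℂ (Set.range fun w => (y w : Mat r ℂ)) = ⊤ := by
      rw [eq_top_iff, ← h3]
      apply Algebra.adjoin_mono
      rintro _ ⟨k, rfl⟩
      exact ⟨FreeGroup.of k, rfl⟩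
    rw [← evalG_eq_eval]
    refine hf y ⟨⟨⟨fun w hw => absurd hw (Set.notMem_empty w), fun j => j.elim, ?_⟩, ?_⟩, h4⟩
    · intro W hW
      rcases Statement.semisimple_of_adjoin _ h3 W (fun k => hW _) with h | h
      · refine ⟨⊤, fun k v _ => Submodule.mem_top, ?_⟩
        rw [h]
        exact isCompl_bot_top
      · refine ⟨⊥, fun k v hv => ?_, ?_⟩
        · rw [Submodule.mem_bot] at hv ⊢
          rw [hv, Matrix.mulVec_zero]
        · rw [h]
          exact isCompl_top_bot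
    · rintro (k | k)
      · refine ⟨c k, SpecialLinearGroup.map (Int.castRingHom R) (Z k), ?_⟩
        rw [hy]
        congr 1
        apply Units.ext
        change (Z k).1.map (Int.castRingHom ℂ) =
          ((Z k).1.map (Int.castRingHom R)).map φ
        ext i j
        simp
      · exact k.elim
  have hzero : D * f = 0 := by
    have := MvPolynomial.rename_injective (R := ℂ) _ e.injective
    exact this (by rw [hprod, map_zero])
  have hD' : D ≠ 0 := by
    rintro rfl
    rw [map_zero] at hD0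
    exact hD0 rfl
  rw [(mul_eq_zero.1 hzero).resolve_left hD', map_zero]

end Vale.Agent.P002R
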