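import Vale.Agent.P002R.RFreeE

/-!
# Irreducible representations of products are tensor products
-/

namespace Vale.Agent.P002R

open Matrix

variable {r : ℕ}

theorem adjoin_top_of_irr {G : Type*} [Group G] (x : G →* (Mat r ℂ)ˣ) (hss : SS x)
    (hirr : ∀ M : Mat r ℂ, (∀ w, Commute M (x w : Mat r ℂ)) → ∃ c : ℂ, M = c • (1 : Mat r ℂ)) :
    Algebra.adjoin ℂ (Set.range fun w => (x w : Mat r ℂ)) = ⊤ :=
  burnside_top x hss hirr

theorem exists_min_inv {G : Type*} [Group G] (hr : 0 < r) (y : G →* (Mat r ℂ)ˣ) :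
    ∃ W : Submodule ℂ (Fin r → ℂ), W ≠ ⊥ ∧ (∀ a, ∀ v ∈ W, (y a : Mat r ℂ) *ᵥ v ∈ W) ∧
      ∀ W' ≤ W, W' ≠ ⊥ → (∀ a, ∀ v ∈ W', (y a : Mat r ℂ) *ᵥ v ∈ W') → W' = W := by
  obtain ⟨S, hS⟩ : ∃ S : Set (Submodule ℂ (Fin r → ℂ)), S = {W | W ≠ ⊥ ∧
    ∀ a, ∀ v ∈ W, (y a : Mat r ℂ) *ᵥ v ∈ W} := ⟨_, rfl⟩
  have hne : S.Nonempty := by
    refine ⟨⊤, ?_⟩
    rw [hS]
    have : Nonempty (Fin r) := ⟨⟨0, hr⟩⟩
    exact ⟨top_ne_bot, fun _ _ _ => Submodule.mem_top⟩
  obtain ⟨W, hW, hmin⟩ := (wellFounded_lt (α := Submodule ℂ (Fin r → ℂ))).has_min S hne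
  rw [hS] at hW
  refine ⟨W, hW.1, hW.2, fun W' hle h0 hinv => ?_⟩
  rcases eq_or_lt_of_le hle with h | h
  · exact h
  · refine absurd h (hmin W' ?_)
    rw [hS]
    exact ⟨h0, hinv⟩

/-- The matrices of a representation in a basis. -/
theorem rep_matrix {G : Type*} [Group G] {U : Type*} [AddCommGroup U] [Module ℂ U] {n : ℕ}
    (b : Module.Basis (Fin n) ℂ U) (τ : G →* Module.End ℂ U) :
    ∃ z : G →* (Mat n ℂ)ˣ, ∀ a i, τ a (b i) = ∑ l, (z a : Mat n ℂ) l i • b l := by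
  refine ⟨((LinearMap.toMatrixAlgEquiv b).toAlgHom.toRingHom.toMonoidHom.comp τ).toHomUnits,
    fun a i => ?_⟩
  have h1 : (((((LinearMap.toMatrixAlgEquiv b).toAlgHom.toRingHom.toMonoidHom.comp
      τ).toHomUnits a : (Mat n ℂ)ˣ) : Mat n ℂ)) = LinearMap.toMatrix b b (τ a) := rfl
  rw [h1]
  conv_lhs => rw [← b.sum_repr (τ a (b i))]
  refine Finset.sum_congr rfl fun l _ => ?_
  rw [LinearMap.toMatrix_apply]

theorem eq_bot_or_top_of_adjoin {ι : Type*} (A : ι → Mat r ℂ)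
    (hA : Algebra.adjoin ℂ (Set.range A) = ⊤) (W : Submodule ℂ (Fin r → ℂ))
    (hW : ∀ k, ∀ v ∈ W, A k *ᵥ v ∈ W) : W = ⊥ ∨ W = ⊤ := by
  obtain ⟨S, hS⟩ : ∃ S : Subalgebra ℂ (Mat r ℂ), ∀ M, M ∈ S ↔ ∀ v ∈ W, M *ᵥ v ∈ W :=
    ⟨{ carrier := {M | ∀ v ∈ W, M *ᵥ v ∈ W}
       mul_mem' := fun {a b} ha hb v hv => by
        rw [← Matrix.mulVec_mulVec]
        exact ha _ (hb v hv)
       add_mem' := fun {a b} ha hb v hv => by
        rw [Matrix.add_mulVec]
        exact W.add_mem (ha v hv) (hb v hv)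
       algebraMap_mem' := fun c v hv => by
        rw [Algebra.algebraMap_eq_smul_one, Matrix.smul_mulVec, Matrix.one_mulVec]
        exact W.smul_mem c hv }, fun M => Iff.rfl⟩
  have h1 : S = ⊤ := by
    rw [eq_top_iff, ← hA, Algebra.adjoin_le_iff]
    rintro _ ⟨k, rfl⟩
    exact (hS _).2 (hW k)
  have h2 : ∀ (M : Mat r ℂ), ∀ v ∈ W, M *ᵥ v ∈ W := fun M => (hS M).1 (h1 ▸ Algebra.mem_top)
  rw [or_iff_not_imp_left]
  intro h3
  obtain ⟨v, hv, hv0⟩ := (Submodule.ne_bot_iff W).1 h3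
  obtain ⟨i, hi⟩ := Function.ne_iff.1 hv0
  rw [eq_top_iff]
  intro u _
  have h4 := h2 (Matrix.of fun a b => if b = i then u a * (v i)⁻¹ else 0) v hv
  convert h4 using 1
  ext a
  simp only [Matrix.mulVec, dotProduct, Matrix.of_apply, ite_mul, zero_mul, Finset.sum_ite_eq',
    Finset.mem_univ, if_true]
  rw [mul_assoc, inv_mul_cancel₀ hi, mul_one]

/-- Schur's lemma and Burnside's theorem for a representation without invariant subspaces. -/
theorem adjoin_top_of_simple {G : Type*} [Group G] (hr : 0 < r) (z : G →* (Mat r ℂ)ˣ)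
    (h : ∀ N : Submodule ℂ (Fin r → ℂ), (∀ a, ∀ v ∈ N, (z a : Mat r ℂ) *ᵥ v ∈ N) →
      N = ⊥ ∨ N = ⊤) :
    Algebra.adjoin ℂ (Set.range fun w => (z w : Mat r ℂ)) = ⊤ := by
  apply burnside_top
  · intro W hW
    rcases h W hW with h1 | h1
    · refine ⟨⊤, fun k v _ => Submodule.mem_top, ?_⟩
      rw [h1]
      exact isCompl_bot_top
    · refine ⟨⊥, fun k v hv => ?_, ?_⟩
      · rw [Submodule.mem_bot] at hv ⊢
        rw [hv, Matrix.mulVec_zero]
      · rw [h1]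
        exact isCompl_top_bot
  · intro M hM
    have : Nonempty (Fin r) := ⟨⟨0, hr⟩⟩
    obtain ⟨c, hc⟩ := Module.End.exists_eigenvalue (Matrix.toLin' M)
    obtain ⟨v, hv⟩ := hc.exists_hasEigenvector
    refine ⟨c, ?_⟩
    have hv1 : M *ᵥ v = c • v := by
      have := hv.apply_eq_smul
      rwa [Matrix.toLin'_apply] at this
    obtain ⟨N, hN⟩ : ∃ N : Submodule ℂ (Fin r → ℂ), ∀ u, u ∈ N ↔ M *ᵥ u = c • u :=
      ⟨{ carrier := {u | M *ᵥ u = c • u}
         add_mem' := fun {a b} ha hb => by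
          have ha' : M *ᵥ a = c • a := ha
          have hb' : M *ᵥ b = c • b := hb
          change M *ᵥ (a + b) = c • (a + b)
          rw [Matrix.mulVec_add, ha', hb', smul_add]
         zero_mem' := by
          change M *ᵥ 0 = c • 0
          rw [Matrix.mulVec_zero, smul_zero]
         smul_mem' := fun d a ha => by
          have ha' : M *ᵥ a = c • a := ha
          change M *ᵥ (d • a) = c • (d • a)
          rw [Matrix.mulVec_smul, ha', smul_comm] }, fun u => Iff.rfl⟩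
    have hinv : ∀ a, ∀ v ∈ N, (z a : Mat r ℂ) *ᵥ v ∈ N := by
      intro a u hu
      rw [hN] at hu ⊢
      rw [Matrix.mulVec_mulVec, (hM a).eq, ← Matrix.mulVec_mulVec, hu, Matrix.mulVec_smul]
    have htop : N = ⊤ := by
      rcases h N hinv with h1 | h1
      · exfalso
        have : v ∈ N := (hN v).2 hv1
        rw [h1, Submodule.mem_bot] at this
        exact hv.2 this
      · exact h1
    apply (Matrix.toLin' (R := ℂ)).injective
    refine LinearMap.ext fun u => ?_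
    have h2 : u ∈ N := by
      rw [htop]
      exact Submodule.mem_top
    rw [hN] at h2
    rw [Matrix.toLin'_apply, Matrix.toLin'_apply, h2, Matrix.smul_mulVec, Matrix.one_mulVec]

/-- An irreducible subrepresentation, in coordinates. -/
theorem exists_simple_sub {G : Type*} [Group G] (hr : 0 < r) (y : G →* (Mat r ℂ)ˣ) :
    ∃ (n : ℕ) (ρ : G →* (Mat n ℂ)ˣ) (T₀ : Matrix (Fin r) (Fin n) ℂ), 0 < n ∧
      (∀ a, T₀ * (ρ a : Mat n ℂ) = (y a : Mat r ℂ) * T₀) ∧ T₀ ≠ 0 ∧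
      Algebra.adjoin ℂ (Set.range fun w => (ρ w : Mat n ℂ)) = ⊤ := by
  obtain ⟨W, hW0, hW, hmin⟩ := exists_min_inv hr y
  obtain ⟨n, hn⟩ : ∃ n, n = Module.finrank ℂ W := ⟨_, rfl⟩
  have hn0 : 0 < n := by
    rw [hn, Nat.pos_iff_ne_zero]
    intro h
    exact hW0 (Submodule.finrank_eq_zero.1 h)
  obtain ⟨b⟩ : Nonempty (Module.Basis (Fin n) ℂ W) := by
    rw [hn]
    exact ⟨Module.finBasis ℂ W⟩
  obtain ⟨τ, hτ⟩ : ∃ τ : G →* Module.End ℂ W, ∀ a (w : W),
      ((τ a w : W) : Fin r → ℂ) = (y a : Mat r ℂ) *ᵥ (w : Fin r → ℂ) :=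
    ⟨{ toFun := fun a => (Matrix.mulVecLin (y a : Mat r ℂ)).restrict (hW a)
       map_one' := by
        refine LinearMap.ext fun w => Subtype.ext ?_
        change (y 1 : Mat r ℂ) *ᵥ (w : Fin r → ℂ) = w
        rw [map_one, Units.val_one, Matrix.one_mulVec]
       map_mul' := fun a a' => by
        refine LinearMap.ext fun w => Subtype.ext ?_
        change (y (a * a') : Mat r ℂ) *ᵥ (w : Fin r → ℂ) =
          (y a : Mat r ℂ) *ᵥ ((y a' : Mat r ℂ) *ᵥ (w : Fin r → ℂ))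
        rw [map_mul, Units.val_mul, Matrix.mulVec_mulVec] }, fun a w => rfl⟩
  obtain ⟨ρ, hρ⟩ := rep_matrix b τ
  obtain ⟨T₀, hT₀⟩ : ∃ T₀ : Matrix (Fin r) (Fin n) ℂ, T₀ = Matrix.of fun x j =>
      (b j : Fin r → ℂ) x := ⟨_, rfl⟩
  have hmv : ∀ c : Fin n → ℂ, T₀ *ᵥ c = ((∑ j, c j • b j : W) : Fin r → ℂ) := by
    intro c
    ext x
    rw [hT₀, Matrix.mulVec, dotProduct]
    simp only [Matrix.of_apply, Submodule.coe_sum, Submodule.coe_smul, Finset.sum_apply,
      Pi.smul_apply, smul_eq_mul]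
    exact Finset.sum_congr rfl fun j _ => mul_comm _ _
  have hinj : ∀ c : Fin n → ℂ, T₀ *ᵥ c = 0 → c = 0 := by
    intro c hc
    rw [hmv] at hc
    have h1 : (∑ j, c j • b j : W) = 0 := Subtype.ext hc
    funext j
    exact (Fintype.linearIndependent_iff.1 b.linearIndependent) c h1 j
  have hcomm : ∀ a, T₀ * (ρ a : Mat n ℂ) = (y a : Mat r ℂ) * T₀ := by
    intro a
    ext x j
    have h1 := congrArg (fun w : W => (w : Fin r → ℂ) x) (hρ a j)
    simp only [hτ] at h1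
    have h2 : ((y a : Mat r ℂ) * T₀) x j = ((y a : Mat r ℂ) *ᵥ (b j : Fin r → ℂ)) x := by
      rw [hT₀, Matrix.mul_apply, Matrix.mulVec, dotProduct]
      rfl
    rw [h2, h1, Matrix.mul_apply, hT₀]
    simp only [Matrix.of_apply, Submodule.coe_sum, Submodule.coe_smul, Finset.sum_apply,
      Pi.smul_apply, smul_eq_mul]
    exact Finset.sum_congr rfl fun j _ => mul_comm _ _
  refine ⟨n, ρ, T₀, hn0, hcomm, ?_, ?_⟩
  · intro h0
    have h1 := hinj (fun _ => 1) (by rw [h0, Matrix.zero_mulVec])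
    exact one_ne_zero (congrFun h1 ⟨0, hn0⟩)
  · apply adjoin_top_of_simple hn0
    intro N hN
    obtain ⟨N', hN'⟩ : ∃ N' : Submodule ℂ (Fin r → ℂ), N' = N.map (Matrix.mulVecLin T₀) :=
      ⟨_, rfl⟩
    have hle : N' ≤ W := by
      rw [hN']
      rintro _ ⟨c, _, rfl⟩
      rw [Matrix.mulVecLin_apply, hmv]
      exact Subtype.mem _
    have hinv' : ∀ a, ∀ v ∈ N', (y a : Mat r ℂ) *ᵥ v ∈ N' := by
      intro a v hv
      rw [hN'] at hv ⊢
      obtain ⟨c, hc, rfl⟩ := hv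
      refine ⟨(ρ a : Mat n ℂ) *ᵥ c, hN a c hc, ?_⟩
      rw [Matrix.mulVecLin_apply, Matrix.mulVecLin_apply, Matrix.mulVec_mulVec,
        Matrix.mulVec_mulVec, hcomm]
    have hinj' : Function.Injective (Matrix.mulVecLin T₀) := by
      rw [injective_iff_map_eq_zero]
      exact hinj
    by_cases h0 : N' = ⊥
    · left
      rw [eq_bot_iff]
      intro c hc
      have h1 : Matrix.mulVecLin T₀ c ∈ N' := by
        rw [hN']
        exact ⟨c, hc, rfl⟩
      rw [h0, Submodule.mem_bot] at h1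
      rw [Submodule.mem_bot]
      exact hinj c h1
    · right
      have h1 := hmin N' hle h0 hinv'
      apply Submodule.eq_top_of_finrank_eq
      rw [Module.finrank_fin_fun]
      refine Eq.trans ?_ hn.symm
      rw [← h1, hN']
      exact (Submodule.equivMapOfInjective _ hinj' N).finrank_eq

/-- An irreducible representation of a product of two groups is a tensor product. -/
theorem tensor_decomp {G₁ G₂ : Type*} [Group G₁] [Group G₂] (hr : 0 < r)
    (y₁ : G₁ →* (Mat r ℂ)ˣ) (y₂ : G₂ →* (Mat r ℂ)ˣ) (hcomm : ∀ a b, Commute (y₁ a) (y₂ b))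
    (htop : Algebra.adjoin ℂ ((Set.range fun w => (y₁ w : Mat r ℂ)) ∪
      Set.range fun w => (y₂ w : Mat r ℂ)) = ⊤) :
    ∃ (r₁ r₂ : ℕ) (e : Fin r₁ × Fin r₂ ≃ Fin r) (P : (Mat r ℂ)ˣ)
      (z₁ : G₁ →* (Mat r₁ ℂ)ˣ) (z₂ : G₂ →* (Mat r₂ ℂ)ˣ), 0 < r₁ ∧ 0 < r₂ ∧
      Algebra.adjoin ℂ (Set.range fun w => (z₁ w : Mat r₁ ℂ)) = ⊤ ∧
      Algebra.adjoin ℂ (Set.range fun w => (z₂ w : Mat r₂ ℂ)) = ⊤ ∧
      (∀ a, (y₁ a : Mat r ℂ) = (P : Mat r ℂ) *
        Matrix.reindex e e (Matrix.kroneckerMap (· * ·) (z₁ a : Mat r₁ ℂ) (1 : Mat r₂ ℂ)) *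
          ((P⁻¹ : (Mat r ℂ)ˣ) : Mat r ℂ)) ∧
      ∀ b, (y₂ b : Mat r ℂ) = (P : Mat r ℂ) *
        Matrix.reindex e e (Matrix.kroneckerMap (· * ·) (1 : Mat r₁ ℂ) (z₂ b : Mat r₂ ℂ)) *
          ((P⁻¹ : (Mat r ℂ)ˣ) : Mat r ℂ) := by
  obtain ⟨r₁, z₁, T₀, hr₁, hT₀, hT₀0, hz₁⟩ := exists_simple_sub hr y₁
  -- the space of intertwiners
  obtain ⟨U, hU⟩ : ∃ U : Submodule ℂ (Matrix (Fin r) (Fin r₁) ℂ), ∀ T, T ∈ U ↔
      ∀ a, T * (z₁ a : Mat r₁ ℂ) = (y₁ a : Mat r ℂ) * T :=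
    ⟨{ carrier := {T | ∀ a, T * (z₁ a : Mat r₁ ℂ) = (y₁ a : Mat r ℂ) * T}
       add_mem' := fun {S T} hS hT a => by
        rw [Matrix.add_mul, Matrix.mul_add, hS a, hT a]
       zero_mem' := fun a => by rw [Matrix.zero_mul, Matrix.mul_zero]
       smul_mem' := fun c T hT a => by
        rw [Matrix.smul_mul, Matrix.mul_smul, hT a] }, fun T => Iff.rfl⟩
  obtain ⟨r₂, hr₂⟩ : ∃ r₂, r₂ = Module.finrank ℂ U := ⟨_, rfl⟩
  have hr₂0 : 0 < r₂ := by
    rw [hr₂, Nat.pos_iff_ne_zero]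
    intro h
    have h1 := Submodule.finrank_eq_zero.1 h
    have h2 : T₀ ∈ U := (hU T₀).2 hT₀
    rw [h1, Submodule.mem_bot] at h2
    exact hT₀0 h2
  obtain ⟨b⟩ : Nonempty (Module.Basis (Fin r₂) ℂ U) := by
    rw [hr₂]
    exact ⟨Module.finBasis ℂ U⟩
  have hbU : ∀ i a, (b i : Matrix (Fin r) (Fin r₁) ℂ) * (z₁ a : Mat r₁ ℂ) =
      (y₁ a : Mat r ℂ) * (b i : Matrix (Fin r) (Fin r₁) ℂ) := fun i => (hU _).1 (b i).2
  -- the action of the second group on the intertwiners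
  have hyU : ∀ c, ∀ T ∈ U, (y₂ c : Mat r ℂ) * T ∈ U := by
    intro c T hT
    rw [hU] at hT ⊢
    intro a
    have h1 : (y₁ a : Mat r ℂ) * (y₂ c : Mat r ℂ) = (y₂ c : Mat r ℂ) * (y₁ a : Mat r ℂ) :=
      congrArg Units.val (hcomm a c).eq
    rw [Matrix.mul_assoc, hT a, ← Matrix.mul_assoc, ← Matrix.mul_assoc, h1]
  obtain ⟨τ, hτ⟩ : ∃ τ : G₂ →* Module.End ℂ U, ∀ c (T : U),
      ((τ c T : U) : Matrix (Fin r) (Fin r₁) ℂ) =
        (y₂ c : Mat r ℂ) * (T : Matrix (Fin r) (Fin r₁) ℂ) :=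
    ⟨{ toFun := fun c =>
        { toFun := fun T => ⟨(y₂ c : Mat r ℂ) * (T : Matrix (Fin r) (Fin r₁) ℂ), hyU c T T.2⟩
          map_add' := fun S T => Subtype.ext (Matrix.mul_add _ _ _)
          map_smul' := fun d T => Subtype.ext (Matrix.mul_smul _ _ _) }
       map_one' := by
        refine LinearMap.ext fun T => Subtype.ext ?_
        change (y₂ 1 : Mat r ℂ) * (T : Matrix (Fin r) (Fin r₁) ℂ) = T
        rw [map_one, Units.val_one, Matrix.one_mul]
       map_mul' := fun c c' => by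
        refine LinearMap.ext fun T => Subtype.ext ?_
        change (y₂ (c * c') : Mat r ℂ) * (T : Matrix (Fin r) (Fin r₁) ℂ) =
          (y₂ c : Mat r ℂ) * ((y₂ c' : Mat r ℂ) * (T : Matrix (Fin r) (Fin r₁) ℂ))
        rw [map_mul, Units.val_mul, Matrix.mul_assoc] }, fun c T => rfl⟩
  obtain ⟨z₂, hz₂⟩ := rep_matrix b τ
  -- the basis
  obtain ⟨v, hv⟩ : ∃ v : Fin r₁ × Fin r₂ → (Fin r → ℂ), ∀ p x, v p x =
      (b p.2 : Matrix (Fin r) (Fin r₁) ℂ) x p.1 := ⟨fun p x => _, fun _ _ => rfl⟩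
  have hy₁ : ∀ a p, (y₁ a : Mat r ℂ) *ᵥ v p = ∑ k, (z₁ a : Mat r₁ ℂ) k p.1 • v (k, p.2) := by
    intro a p
    ext x
    have h1 := congrFun (congrFun (hbU p.2 a) x) p.1
    rw [Matrix.mul_apply, Matrix.mul_apply] at h1
    rw [Matrix.mulVec, dotProduct, Finset.sum_apply]
    simp only [hv, Pi.smul_apply, smul_eq_mul]
    rw [← h1]
    exact Finset.sum_congr rfl fun k _ => mul_comm _ _
  have hy₂ : ∀ c p, (y₂ c : Mat r ℂ) *ᵥ v p = ∑ l, (z₂ c : Mat r₂ ℂ) l p.2 • v (p.1, l) := by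
    intro c p
    ext x
    have h1 := congrArg (fun T : U => (T : Matrix (Fin r) (Fin r₁) ℂ) x p.1) (hz₂ c p.2)
    simp only [hτ] at h1
    rw [Matrix.mulVec, dotProduct, Finset.sum_apply]
    simp only [hv, Pi.smul_apply, smul_eq_mul]
    rw [Matrix.mul_apply] at h1
    rw [h1]
    simp only [Submodule.coe_sum, Submodule.coe_smul, Matrix.sum_apply, Matrix.smul_apply,
      smul_eq_mul]
  have hint : ∀ B : Mat r₁ ℂ, ∃ B' : Mat r ℂ, ∀ i,
      (b i : Matrix (Fin r) (Fin r₁) ℂ) * B = B' * (b i : Matrix (Fin r) (Fin r₁) ℂ) := by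
    intro B
    have hB : B ∈ Algebra.adjoin ℂ (Set.range fun w => (z₁ w : Mat r₁ ℂ)) := by
      rw [hz₁]
      exact Algebra.mem_top
    induction hB using Algebra.adjoin_induction with
    | mem B hB =>
      obtain ⟨a, rfl⟩ := hB
      exact ⟨_, fun i => hbU i a⟩
    | algebraMap c =>
      refine ⟨c • 1, fun i => ?_⟩
      rw [Algebra.algebraMap_eq_smul_one, Matrix.mul_smul, Matrix.mul_one, Matrix.smul_mul,
        Matrix.one_mul]
    | add B C _ _ hB hC =>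
      obtain ⟨B', hB'⟩ := hB
      obtain ⟨C', hC'⟩ := hC
      exact ⟨B' + C', fun i => by rw [Matrix.mul_add, Matrix.add_mul, hB', hC']⟩
    | mul B C _ _ hB hC =>
      obtain ⟨B', hB'⟩ := hB
      obtain ⟨C', hC'⟩ := hC
      exact ⟨B' * C', fun i => by
        rw [← Matrix.mul_assoc, hB', Matrix.mul_assoc, hC', Matrix.mul_assoc]⟩
  have hli : LinearIndependent ℂ v := by
    rw [Fintype.linearIndependent_iff]
    intro c hc
    have h1 : ∑ i, (b i : Matrix (Fin r) (Fin r₁) ℂ) *ᵥ (fun k => c (k, i)) = 0 := by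
      rw [← hc, Fintype.sum_prod_type_right]
      refine Finset.sum_congr rfl fun i _ => ?_
      ext x
      rw [Matrix.mulVec, dotProduct, Finset.sum_apply]
      simp only [hv, Pi.smul_apply, smul_eq_mul]
      exact Finset.sum_congr rfl fun k _ => mul_comm _ _
    have h2 : ∀ (k j : Fin r₁) (x : Fin r),
        ∑ i, c (k, i) * (b i : Matrix (Fin r) (Fin r₁) ℂ) x j = 0 := by
      intro k j x
      obtain ⟨B', hB'⟩ := hint (Matrix.of fun a a' => if a = j ∧ a' = k then 1 else 0)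
      have h3 : ∑ i, (b i : Matrix (Fin r) (Fin r₁) ℂ) *ᵥ
          ((Matrix.of fun a a' => if a = j ∧ a' = k then (1 : ℂ) else 0) *ᵥ
            (fun k => c (k, i))) = 0 := by
        have h4 : B' *ᵥ (∑ i, (b i : Matrix (Fin r) (Fin r₁) ℂ) *ᵥ (fun k => c (k, i))) = 0 := by
          rw [h1, Matrix.mulVec_zero]
        rw [Matrix.mulVec_sum] at h4
        rw [← h4]
        refine Finset.sum_congr rfl fun i _ => ?_
        rw [Matrix.mulVec_mulVec, Matrix.mulVec_mulVec, hB']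
      have h5 := congrFun h3 x
      rw [Finset.sum_apply] at h5
      rw [← Pi.zero_apply (M := fun _ : Fin r => ℂ) x, ← h5]
      refine Finset.sum_congr rfl fun i _ => ?_
      rw [Matrix.mulVec, dotProduct, Finset.sum_eq_single j]
      · rw [mul_comm]
        congr 1
        rw [Matrix.mulVec, dotProduct, Finset.sum_eq_single k]
        · simp
        · intro a _ ha
          simp [ha]
        · simp
      · intro a _ ha
        have : ((Matrix.of fun a a' => if a = j ∧ a' = k then (1 : ℂ) else 0) *ᵥ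
            (fun k => c (k, i))) a = 0 := by
          rw [Matrix.mulVec, dotProduct]
          exact Finset.sum_eq_zero fun a' _ => by simp [ha]
        rw [this, mul_zero]
      · simp
    rintro ⟨k, i⟩
    have h3 : ∑ i, c (k, i) • b i = 0 := by
      apply Subtype.ext
      ext x j
      rw [Submodule.coe_sum, Matrix.sum_apply]
      simp only [Submodule.coe_smul, Matrix.smul_apply, smul_eq_mul]
      exact h2 k j x
    exact (Fintype.linearIndependent_iff.1 b.linearIndependent) (fun i => c (k, i)) h3 i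
  have hspan : Submodule.span ℂ (Set.range v) = ⊤ := by
    have hA : Algebra.adjoin ℂ (Set.range (Sum.elim (fun w => (y₁ w : Mat r ℂ))
        fun w => (y₂ w : Mat r ℂ))) = ⊤ := by
      rw [Set.Sum.elim_range]
      exact htop
    have hinvS : ∀ k : G₁ ⊕ G₂, ∀ u ∈ Submodule.span ℂ (Set.range v),
        (Sum.elim (fun w => (y₁ w : Mat r ℂ)) (fun w => (y₂ w : Mat r ℂ)) k) *ᵥ u ∈
          Submodule.span ℂ (Set.range v) := by
      have key : ∀ M : Mat r ℂ, (∀ p, M *ᵥ v p ∈ Submodule.span ℂ (Set.range v)) →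
          ∀ u ∈ Submodule.span ℂ (Set.range v), M *ᵥ u ∈ Submodule.span ℂ (Set.range v) := by
        intro M hM u hu
        induction hu using Submodule.span_induction with
        | mem u hu =>
          obtain ⟨p, rfl⟩ := hu
          exact hM p
        | zero =>
          rw [Matrix.mulVec_zero]
          exact Submodule.zero_mem _
        | add u w _ _ hu hw =>
          rw [Matrix.mulVec_add]
          exact Submodule.add_mem _ hu hw
        | smul c u _ hu =>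
          rw [Matrix.mulVec_smul]
          exact Submodule.smul_mem _ _ hu
      rintro (a | c)
      · apply key
        intro p
        rw [Sum.elim_inl, hy₁]
        exact Submodule.sum_mem _ fun k _ => Submodule.smul_mem _ _
          (Submodule.subset_span ⟨_, rfl⟩)
      · apply key
        intro p
        rw [Sum.elim_inr, hy₂]
        exact Submodule.sum_mem _ fun k _ => Submodule.smul_mem _ _
          (Submodule.subset_span ⟨_, rfl⟩)
    rcases eq_bot_or_top_of_adjoin _ hA (Submodule.span ℂ (Set.range v)) hinvS with h | h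
    · exfalso
      have h1 : v (⟨0, hr₁⟩, ⟨0, hr₂0⟩) ∈ Submodule.span ℂ (Set.range v) :=
        Submodule.subset_span ⟨_, rfl⟩
      rw [h, Submodule.mem_bot] at h1
      exact hli.ne_zero _ h1
    · exact h
  obtain ⟨bV⟩ : Nonempty (Module.Basis (Fin r₁ × Fin r₂) ℂ (Fin r → ℂ)) :=
    ⟨Module.Basis.mk hli hspan.ge⟩
  obtain ⟨e⟩ : Nonempty (Fin r₁ × Fin r₂ ≃ Fin r) := ⟨bV.indexEquiv (Pi.basisFun ℂ (Fin r))⟩
  obtain ⟨P₀, hP₀⟩ : ∃ P₀ : Mat r ℂ, ∀ x i, P₀ x i = v (e.symm i) x :=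
    ⟨Matrix.of fun x i => v (e.symm i) x, fun _ _ => rfl⟩
  have hdet : P₀.det ≠ 0 := by
    intro h
    obtain ⟨w, hw, hw'⟩ := Matrix.exists_mulVec_eq_zero_iff.2 h
    apply hw
    have h1 : ∑ p, w (e p) • v p = 0 := by
      rw [← hw']
      ext x
      rw [Matrix.mulVec, dotProduct, Finset.sum_apply, ← e.sum_comp]
      refine Finset.sum_congr rfl fun p _ => ?_
      rw [hP₀, e.symm_apply_apply, Pi.smul_apply, smul_eq_mul, mul_comm]
    funext i
    have := (Fintype.linearIndependent_iff.1 hli) (fun p => w (e p)) h1 (e.symm i)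
    rwa [e.apply_symm_apply] at this
  obtain ⟨P, hP⟩ : ∃ P : (Mat r ℂ)ˣ, (P : Mat r ℂ) = P₀ :=
    (Matrix.isUnit_iff_isUnit_det P₀).2 (isUnit_iff_ne_zero.2 hdet)
  have h₁ : ∀ a, (y₁ a : Mat r ℂ) * (P : Mat r ℂ) = (P : Mat r ℂ) *
      Matrix.reindex e e (Matrix.kroneckerMap (· * ·) (z₁ a : Mat r₁ ℂ) (1 : Mat r₂ ℂ)) := by
    intro a
    ext x i
    have e1 : ((y₁ a : Mat r ℂ) * (P : Mat r ℂ)) x i =
        ((y₁ a : Mat r ℂ) *ᵥ v (e.symm i)) x := by
      rw [Matrix.mul_apply, Matrix.mulVec, dotProduct, hP]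
      simp only [hP₀]
    rw [e1, hy₁, Matrix.mul_apply, ← e.sum_comp, Fintype.sum_prod_type, Finset.sum_apply]
    refine Finset.sum_congr rfl fun k _ => ?_
    rw [Finset.sum_eq_single (e.symm i).2]
    · rw [hP, hP₀, e.symm_apply_apply, Matrix.reindex_apply, Matrix.submatrix_apply,
        e.symm_apply_apply, Matrix.kroneckerMap_apply, Matrix.one_apply_eq, mul_one,
        Pi.smul_apply, smul_eq_mul, mul_comm]
    · intro l _ hl
      rw [Matrix.reindex_apply, Matrix.submatrix_apply, e.symm_apply_apply,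
        Matrix.kroneckerMap_apply, Matrix.one_apply_ne hl, mul_zero, mul_zero]
    · simp
  have h₂ : ∀ c, (y₂ c : Mat r ℂ) * (P : Mat r ℂ) = (P : Mat r ℂ) *
      Matrix.reindex e e (Matrix.kroneckerMap (· * ·) (1 : Mat r₁ ℂ) (z₂ c : Mat r₂ ℂ)) := by
    intro c
    ext x i
    have e1 : ((y₂ c : Mat r ℂ) * (P : Mat r ℂ)) x i =
        ((y₂ c : Mat r ℂ) *ᵥ v (e.symm i)) x := by
      rw [Matrix.mul_apply, Matrix.mulVec, dotProduct, hP]
      simp only [hP₀]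
    rw [e1, hy₂, Matrix.mul_apply, ← e.sum_comp, Fintype.sum_prod_type_right, Finset.sum_apply]
    refine Finset.sum_congr rfl fun l _ => ?_
    rw [Finset.sum_eq_single (e.symm i).1]
    · rw [hP, hP₀, e.symm_apply_apply, Matrix.reindex_apply, Matrix.submatrix_apply,
        e.symm_apply_apply, Matrix.kroneckerMap_apply, Matrix.one_apply_eq, one_mul,
        Pi.smul_apply, smul_eq_mul, mul_comm]
    · intro k _ hk
      rw [Matrix.reindex_apply, Matrix.submatrix_apply, e.symm_apply_apply,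
        Matrix.kroneckerMap_apply, Matrix.one_apply_ne hk, zero_mul, mul_zero]
    · simp
  have h₁' : ∀ a, (y₁ a : Mat r ℂ) = (P : Mat r ℂ) *
      Matrix.reindex e e (Matrix.kroneckerMap (· * ·) (z₁ a : Mat r₁ ℂ) (1 : Mat r₂ ℂ)) *
        ((P⁻¹ : (Mat r ℂ)ˣ) : Mat r ℂ) := by
    intro a
    rw [← h₁, Matrix.mul_assoc, Units.mul_inv, Matrix.mul_one]
  have h₂' : ∀ c, (y₂ c : Mat r ℂ) = (P : Mat r ℂ) *
      Matrix.reindex e e (Matrix.kroneckerMap (· * ·) (1 : Mat r₁ ℂ) (z₂ c : Mat r₂ ℂ)) *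
        ((P⁻¹ : (Mat r ℂ)ˣ) : Mat r ℂ) := by
    intro a
    rw [← h₂, Matrix.mul_assoc, Units.mul_inv, Matrix.mul_one]
  refine ⟨r₁, r₂, e, P, z₁, z₂, hr₁, hr₂0, hz₁, ?_, h₁', h₂'⟩
  -- the blocks
  obtain ⟨A, hA⟩ : ∃ A, A = Algebra.adjoin ℂ (Set.range fun w => (z₂ w : Mat r₂ ℂ)) := ⟨_, rfl⟩
  rw [← hA]
  obtain ⟨blk, hblk⟩ : ∃ blk : Mat r ℂ → Fin r₁ → Fin r₁ → Mat r₂ ℂ, ∀ X j k l l',
      blk X j k l l' =
        (((P⁻¹ : (Mat r ℂ)ˣ) : Mat r ℂ) * X * (P : Mat r ℂ)) (e (j, l)) (e (k, l')) :=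
    ⟨fun X j k => Matrix.of fun l l' => _, fun _ _ _ _ _ => rfl⟩
  have hmul : ∀ X Y j k, blk (X * Y) j k = ∑ m, blk X j m * blk Y m k := by
    intro X Y j k
    ext l l'
    have e1 : ((P⁻¹ : (Mat r ℂ)ˣ) : Mat r ℂ) * (X * Y) * (P : Mat r ℂ) =
        (((P⁻¹ : (Mat r ℂ)ˣ) : Mat r ℂ) * X * (P : Mat r ℂ)) *
          (((P⁻¹ : (Mat r ℂ)ˣ) : Mat r ℂ) * Y * (P : Mat r ℂ)) := by
      simp only [Matrix.mul_assoc]
      rw [← Matrix.mul_assoc (P : Mat r ℂ) ((P⁻¹ : (Mat r ℂ)ˣ) : Mat r ℂ), Units.mul_inv,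
        Matrix.one_mul]
    rw [hblk, e1, Matrix.mul_apply, ← e.sum_comp, Fintype.sum_prod_type, Matrix.sum_apply]
    refine Finset.sum_congr rfl fun m _ => ?_
    rw [Matrix.mul_apply]
    simp only [hblk]
  obtain ⟨S, hS⟩ : ∃ S : Subalgebra ℂ (Mat r ℂ), ∀ X, X ∈ S ↔ ∀ j k, blk X j k ∈ A :=
    ⟨{ carrier := {X | ∀ j k, blk X j k ∈ A}
       mul_mem' := fun {X Y} hX hY j k => by
        rw [hmul]
        exact A.sum_mem fun m _ => A.mul_mem (hX j m) (hY m k)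
       add_mem' := fun {X Y} hX hY j k => by
        have e1 : blk (X + Y) j k = blk X j k + blk Y j k := by
          ext l l'
          rw [Matrix.add_apply, hblk, hblk, hblk, Matrix.mul_add, Matrix.add_mul,
            Matrix.add_apply]
        rw [e1]
        exact A.add_mem (hX j k) (hY j k)
       algebraMap_mem' := fun c j k => by
        have e1 : blk (algebraMap ℂ (Mat r ℂ) c) j k =
            (if j = k then c else 0) • (1 : Mat r₂ ℂ) := by
          ext l l'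
          rw [hblk, Algebra.algebraMap_eq_smul_one, Matrix.mul_smul, Matrix.mul_one,
            Matrix.smul_mul, Units.inv_mul, Matrix.smul_apply, Matrix.smul_apply,
            Matrix.one_apply, Matrix.one_apply]
          by_cases hjk : j = k
          · by_cases hl : l = l'
            · simp [hjk, hl]
            · simp [hjk, hl]
          · simp [hjk]
        rw [e1]
        exact A.smul_mem A.one_mem _ }, fun X => Iff.rfl⟩
  have hblkK : ∀ (K : Matrix (Fin r₁ × Fin r₂) (Fin r₁ × Fin r₂) ℂ) j k l l',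
      blk ((P : Mat r ℂ) * Matrix.reindex e e K * ((P⁻¹ : (Mat r ℂ)ˣ) : Mat r ℂ)) j k l l' =
        K (j, l) (k, l') := by
    intro K j k l l'
    rw [hblk]
    have e1 : ((P⁻¹ : (Mat r ℂ)ˣ) : Mat r ℂ) * ((P : Mat r ℂ) * Matrix.reindex e e K *
        ((P⁻¹ : (Mat r ℂ)ˣ) : Mat r ℂ)) * (P : Mat r ℂ) = Matrix.reindex e e K := by
      simp only [Matrix.mul_assoc]
      rw [Units.inv_mul, Matrix.mul_one, ← Matrix.mul_assoc, Units.inv_mul, Matrix.one_mul]
    rw [e1, Matrix.reindex_apply, Matrix.submatrix_apply, e.symm_apply_apply,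
      e.symm_apply_apply]
  have hStop : S = ⊤ := by
    rw [eq_top_iff, ← htop, Algebra.adjoin_le_iff]
    rintro _ (⟨a, rfl⟩ | ⟨c, rfl⟩)
    · rw [SetLike.mem_coe, hS]
      intro j k
      have e1 : blk (y₁ a : Mat r ℂ) j k = (z₁ a : Mat r₁ ℂ) j k • (1 : Mat r₂ ℂ) := by
        ext l l'
        rw [h₁', hblkK, Matrix.kroneckerMap_apply, Matrix.smul_apply, smul_eq_mul]
      rw [e1]
      exact A.smul_mem A.one_mem _
    · rw [SetLike.mem_coe, hS]
      intro j k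
      have e1 : blk (y₂ c : Mat r ℂ) j k =
          (1 : Mat r₁ ℂ) j k • (z₂ c : Mat r₂ ℂ) := by
        ext l l'
        rw [h₂', hblkK, Matrix.kroneckerMap_apply, Matrix.smul_apply, smul_eq_mul]
      rw [e1]
      refine A.smul_mem ?_ _
      rw [hA]
      exact Algebra.subset_adjoin ⟨c, rfl⟩
  rw [eq_top_iff]
  intro M _
  have h3 : (P : Mat r ℂ) * Matrix.reindex e e (Matrix.kroneckerMap (· * ·) (1 : Mat r₁ ℂ) M) *
      ((P⁻¹ : (Mat r ℂ)ˣ) : Mat r ℂ) ∈ S := by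
    rw [hStop]
    exact Algebra.mem_top
  rw [hS] at h3
  have h4 := h3 ⟨0, hr₁⟩ ⟨0, hr₁⟩
  convert h4 using 1
  ext l l'
  rw [hblkK, Matrix.kroneckerMap_apply, Matrix.one_apply_eq, one_mul]

end Vale.Agent.P002R
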