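import Vale.Agent.P002R.RGDefs

/-!
# Restricting the test set to absolutely irreducible representations
-/

namespace Vale.Agent.P002R

open Matrix

variable {K : Type*} {r : ℕ}

/-- The generic matrix of a positive word. -/
noncomputable def posW (l : List K) :
    Matrix (Fin r) (Fin r) (MvPolynomial (K × Fin r × Fin r) ℂ) :=
  (l.map fun k => Matrix.of fun i j => MvPolynomial.X (k, i, j)).prod

theorem evalG_posW (y : FreeGroup K →* (Mat r ℂ)ˣ) (l : List K) (i j : Fin r) :
    evalG y (posW l i j) = ((l.map fun k => (y (FreeGroup.of k) : Mat r ℂ)).prod) i j := by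
  have h : (evalG y).toRingHom.mapMatrix (posW l) =
      (l.map fun k => (y (FreeGroup.of k) : Mat r ℂ)).prod := by
    rw [posW, map_list_prod, List.map_map]
    congr 1
    apply List.map_congr_left
    intro k _
    ext a b
    simp [evalG]
  rw [← h]
  rfl

/-- The inverse of an element of a finite dimensional subalgebra is in the subalgebra. -/
theorem inv_mem_of_mem (A : Subalgebra ℂ (Mat r ℂ)) (u : (Mat r ℂ)ˣ) (hu : (u : Mat r ℂ) ∈ A) :
    ((u⁻¹ : (Mat r ℂ)ˣ) : Mat r ℂ) ∈ A := by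
  obtain ⟨L, hL⟩ : ∃ L : A →ₗ[ℂ] A, ∀ a, L a = ⟨(u : Mat r ℂ), hu⟩ * a :=
    ⟨LinearMap.mulLeft ℂ (⟨(u : Mat r ℂ), hu⟩ : A), fun a => rfl⟩
  have hinj : Function.Injective L := by
    intro a b hab
    rw [hL, hL] at hab
    have h1 := congrArg Subtype.val hab
    simp only [MulMemClass.coe_mul] at h1
    exact Subtype.ext (u.isUnit.mul_left_cancel h1)
  obtain ⟨a, ha⟩ := (LinearMap.injective_iff_surjective.1 hinj) 1
  rw [hL] at ha
  have h2 : (u : Mat r ℂ) * (a : Mat r ℂ) = 1 := congrArg Subtype.val ha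
  have h3 : ((u⁻¹ : (Mat r ℂ)ˣ) : Mat r ℂ) = (a : Mat r ℂ) := by
    have := Units.inv_mul u
    calc ((u⁻¹ : (Mat r ℂ)ˣ) : Mat r ℂ) = ((u⁻¹ : (Mat r ℂ)ˣ) : Mat r ℂ) * (u * a) := by
          rw [h2, mul_one]
      _ = a := by rw [← mul_assoc, Units.inv_mul, one_mul]
  rw [h3]
  exact a.2

theorem adjoin_gen (x : FreeGroup K →* (Mat r ℂ)ˣ) :
    Algebra.adjoin ℂ (Set.range fun w => (x w : Mat r ℂ)) =
      Algebra.adjoin ℂ (Set.range fun k => (x (FreeGroup.of k) : Mat r ℂ)) := by
  apply le_antisymm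
  · rw [Algebra.adjoin_le_iff]
    rintro _ ⟨w, rfl⟩
    obtain ⟨A, hA⟩ : ∃ A, A = Algebra.adjoin ℂ (Set.range fun k => (x (FreeGroup.of k) : Mat r ℂ)) :=
      ⟨_, rfl⟩
    rw [← hA]
    change (x w : Mat r ℂ) ∈ A
    have h1 : (⊤ : Subgroup (FreeGroup K)) ≤
        (Subgroup.comap x ({
          carrier := {y : (Mat r ℂ)ˣ | (y : Mat r ℂ) ∈ A}
          mul_mem' := fun {a b} ha hb => by
            rw [Set.mem_ofPred_eq, Units.val_mul]
            exact mul_mem ha hb
          one_mem' := one_mem A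
          inv_mem' := fun {a} ha => inv_mem_of_mem A a ha } : Subgroup (Mat r ℂ)ˣ)) := by
      rw [← FreeGroup.closure_range_of, Subgroup.closure_le]
      rintro _ ⟨k, rfl⟩
      change (x (FreeGroup.of k) : Mat r ℂ) ∈ A
      rw [hA]
      exact Algebra.subset_adjoin ⟨k, rfl⟩
    exact h1 (Subgroup.mem_top w)
  · apply Algebra.adjoin_mono
    rintro _ ⟨k, rfl⟩
    exact ⟨FreeGroup.of k, rfl⟩

theorem adjoin_pos (X : K → Mat r ℂ) :
    Subalgebra.toSubmodule (Algebra.adjoin ℂ (Set.range X)) =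
      Submodule.span ℂ (Set.range fun l : List K => (l.map X).prod) := by
  rw [Algebra.adjoin_eq_span]
  congr 1
  ext M
  constructor
  · intro h
    obtain ⟨l, hl, rfl⟩ := Submonoid.exists_list_of_mem_closure h
    clear h
    induction l with
    | nil => exact ⟨[], rfl⟩
    | cons a l ih =>
      obtain ⟨l', hl'⟩ := ih fun y hy => hl y (List.mem_cons_of_mem _ hy)
      obtain ⟨k, rfl⟩ := hl a List.mem_cons_self
      refine ⟨k :: l', ?_⟩
      simp only [List.map_cons, List.prod_cons] at hl' ⊢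
      rw [hl']
  · rintro ⟨l, rfl⟩
    apply Submonoid.list_prod_mem
    intro y hy
    rw [List.mem_map] at hy
    obtain ⟨k, -, rfl⟩ := hy
    exact Submonoid.subset_closure ⟨k, rfl⟩

theorem linearIndependent_entries (v : Fin r × Fin r → Mat r ℂ) :
    LinearIndependent ℂ v ↔ (Matrix.of fun p q : Fin r × Fin r => v p q.1 q.2).det ≠ 0 := by
  rw [← isUnit_iff_ne_zero, ← Matrix.isUnit_iff_isUnit_det, ← Matrix.linearIndependent_rows_iff_isUnit,
    Fintype.linearIndependent_iff, Fintype.linearIndependent_iff]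
  have h : ∀ g : Fin r × Fin r → ℂ, (∑ p, g p • v p = 0 ↔
      ∑ p, g p • (Matrix.of fun p q : Fin r × Fin r => v p q.1 q.2).row p = 0) := by
    intro g
    constructor
    · intro h
      funext q
      have := congrFun (congrFun h q.1) q.2
      simpa [Matrix.sum_apply] using this
    · intro h
      ext i j
      have := congrFun h (i, j)
      simpa [Matrix.sum_apply] using this
  constructor
  · intro h1 g hg
    exact h1 g ((h g).2 hg)
  · intro h1 g hg
    exact h1 g ((h g).1 hg)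

theorem upgrade (x : FreeGroup K →* (Mat r ℂ)ˣ)
    (hx : Algebra.adjoin ℂ (Set.range fun w => (x w : Mat r ℂ)) = ⊤)
    (D : Set (FreeGroup K →* (Mat r ℂ)ˣ))
    (hall : ∀ f' : MvPolynomial (K × Fin r × Fin r) ℂ, (∀ y ∈ D, evalG y f' = 0) → evalG x f' = 0)
    (f : MvPolynomial (K × Fin r × Fin r) ℂ)
    (hf : ∀ y ∈ D, Algebra.adjoin ℂ (Set.range fun w => (y w : Mat r ℂ)) = ⊤ → evalG y f = 0) :
    evalG x f = 0 := by
  classical
  have hspan : Submodule.span ℂ (Set.range fun l : List K =>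
      (l.map fun k => (x (FreeGroup.of k) : Mat r ℂ)).prod) = ⊤ := by
    rw [← adjoin_pos, ← adjoin_gen, hx]
    rfl
  obtain ⟨s, hs1, hs2, hs3⟩ := exists_linearIndependent ℂ (Set.range fun l : List K =>
      (l.map fun k => (x (FreeGroup.of k) : Mat r ℂ)).prod)
  rw [hspan] at hs2
  have hfin : Fintype s := FiniteDimensional.fintypeBasisIndex (Module.Basis.mk hs3 (by
    rw [Subtype.range_coe, hs2]))
  have hcard : Fintype.card s = Fintype.card (Fin r × Fin r) := by
    have h1 := finrank_span_eq_card hs3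
    rw [Subtype.range_coe, hs2, finrank_top, Module.finrank_matrix] at h1
    rw [← h1]
    simp
  obtain ⟨e⟩ : Nonempty (Fin r × Fin r ≃ s) := Fintype.card_eq.1 hcard.symm
  have hw : ∀ p : Fin r × Fin r, ∃ l : List K,
      (l.map fun k => (x (FreeGroup.of k) : Mat r ℂ)).prod = (e p : Mat r ℂ) := by
    intro p
    obtain ⟨l, hl⟩ := hs1 (e p).2
    exact ⟨l, hl⟩
  choose w hw using hw
  obtain ⟨h, hh⟩ : ∃ h : MvPolynomial (K × Fin r × Fin r) ℂ, h =
      (Matrix.of fun p q : Fin r × Fin r => posW (r := r) (w p) q.1 q.2).det := ⟨_, rfl⟩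
  have heval : ∀ y : FreeGroup K →* (Mat r ℂ)ˣ, evalG y h = (Matrix.of fun p q : Fin r × Fin r =>
      (((w p).map fun k => (y (FreeGroup.of k) : Mat r ℂ)).prod) q.1 q.2).det := by
    intro y
    rw [hh, AlgHom.map_det]
    congr 1
    ext p q
    exact evalG_posW y (w p) q.1 q.2
  have hx1 : evalG x h ≠ 0 := by
    rw [heval]
    have h1 : LinearIndependent ℂ (fun p : Fin r × Fin r => (e p : Mat r ℂ)) :=
      hs3.comp e e.injective
    have h2 : (fun p : Fin r × Fin r =>
        ((w p).map fun k => (x (FreeGroup.of k) : Mat r ℂ)).prod) = fun p => (e p : Mat r ℂ) :=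
      funext hw
    rw [← h2, linearIndependent_entries] at h1
    exact h1
  have hy1 : ∀ y : FreeGroup K →* (Mat r ℂ)ˣ, evalG y h ≠ 0 →
      Algebra.adjoin ℂ (Set.range fun w => (y w : Mat r ℂ)) = ⊤ := by
    intro y hy
    rw [heval] at hy
    have h1 := (linearIndependent_entries (fun p : Fin r × Fin r =>
      ((w p).map fun k => (y (FreeGroup.of k) : Mat r ℂ)).prod)).2 hy
    have h2 : Submodule.span ℂ (Set.range fun p : Fin r × Fin r =>
        ((w p).map fun k => (y (FreeGroup.of k) : Mat r ℂ)).prod) = ⊤ := by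
      apply h1.span_eq_top_of_card_eq_finrank'
      rw [Module.finrank_matrix]
      simp
    rw [adjoin_gen]
    apply Subalgebra.toSubmodule_injective
    rw [adjoin_pos, Algebra.top_toSubmodule, eq_top_iff, ← h2]
    apply Submodule.span_mono
    rintro _ ⟨p, rfl⟩
    exact ⟨w p, rfl⟩
  have hprod := hall (h * f) (fun y hy => by
    rw [map_mul]
    by_cases hy0 : evalG y h = 0
    · rw [hy0, zero_mul]
    · rw [hf y hy (hy1 y hy0), mul_zero])
  rw [map_mul] at hprod
  exact (mul_eq_zero.1 hprod).resolve_left hx1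

end Vale.Agent.P002R
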