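import Vale.Agent.P002R.RReducibleG
import Vale.Agent.P002R.RFreeE
import Vale.Agent.P002R.RUp
import Vale.Agent.P002R.RTensor

/-! TASK G6b: products of groups. -/

namespace Vale.Agent.P002R

open Matrix

section Kron

variable {r r₁ r₂ : ℕ} {S T : Type*} [CommRing S] [CommRing T]

/-- Tensor product of matrices. -/
noncomputable def kr (e : Fin r₁ × Fin r₂ ≃ Fin r) (A : Mat r₁ S) (B : Mat r₂ S) : Mat r S :=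
  Matrix.reindex e e (Matrix.kroneckerMap (· * ·) A B)

theorem kr_apply (e : Fin r₁ × Fin r₂ ≃ Fin r) (A : Mat r₁ S) (B : Mat r₂ S)
    (p q : Fin r₁ × Fin r₂) : kr e A B (e p) (e q) = A p.1 q.1 * B p.2 q.2 := by
  simp [kr, Matrix.kroneckerMap_apply]

theorem kr_mul (e : Fin r₁ × Fin r₂ ≃ Fin r) (A A' : Mat r₁ S) (B B' : Mat r₂ S) :
    kr e A B * kr e A' B' = kr e (A * A') (B * B') := by
  unfold kr
  rw [Matrix.mul_kronecker_mul, Matrix.reindex_apply, Matrix.reindex_apply, Matrix.reindex_apply,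
    Matrix.submatrix_mul_equiv]

theorem kr_one (e : Fin r₁ × Fin r₂ ≃ Fin r) : kr e (1 : Mat r₁ S) (1 : Mat r₂ S) = 1 := by
  unfold kr
  rw [Matrix.one_kronecker_one, Matrix.reindex_apply, Matrix.submatrix_one_equiv]

theorem kr_map (e : Fin r₁ × Fin r₂ ≃ Fin r) (A : Mat r₁ S) (B : Mat r₂ S) (θ : S →+* T) :
    (kr e A B).map θ = kr e (A.map θ) (B.map θ) := by
  ext i j
  obtain ⟨p, rfl⟩ := e.surjective i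
  obtain ⟨q, rfl⟩ := e.surjective j
  rw [Matrix.map_apply, kr_apply, kr_apply, map_mul, Matrix.map_apply, Matrix.map_apply]

theorem det_kr (e : Fin r₁ × Fin r₂ ≃ Fin r) (A : Mat r₁ S) (B : Mat r₂ S) :
    (kr e A B).det = A.det ^ r₂ * B.det ^ r₁ := by
  unfold kr
  rw [Matrix.det_reindex_self, Matrix.det_kronecker, Fintype.card_fin, Fintype.card_fin]

/-- The inclusion of the first factor. -/
noncomputable def krL (e : Fin r₁ × Fin r₂ ≃ Fin r) : Mat r₁ ℂ →ₐ[ℂ] Mat r ℂ where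
  toFun A := kr e A 1
  map_one' := kr_one e
  map_mul' A A' := by rw [kr_mul, one_mul]
  map_zero' := by
    ext i j
    obtain ⟨p, rfl⟩ := e.surjective i
    obtain ⟨q, rfl⟩ := e.surjective j
    rw [kr_apply]
    simp
  map_add' A A' := by
    ext i j
    obtain ⟨p, rfl⟩ := e.surjective i
    obtain ⟨q, rfl⟩ := e.surjective j
    rw [Matrix.add_apply, kr_apply, kr_apply, kr_apply, Matrix.add_apply, add_mul]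
  commutes' c := by
    ext i j
    obtain ⟨p, rfl⟩ := e.surjective i
    obtain ⟨q, rfl⟩ := e.surjective j
    rw [kr_apply, Algebra.algebraMap_eq_smul_one, Algebra.algebraMap_eq_smul_one,
      Matrix.smul_apply, Matrix.smul_apply, smul_mul_assoc, ← kr_apply, kr_one]

/-- The inclusion of the second factor. -/
noncomputable def krR (e : Fin r₁ × Fin r₂ ≃ Fin r) : Mat r₂ ℂ →ₐ[ℂ] Mat r ℂ where
  toFun B := kr e 1 B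
  map_one' := kr_one e
  map_mul' A A' := by rw [kr_mul, one_mul]
  map_zero' := by
    ext i j
    obtain ⟨p, rfl⟩ := e.surjective i
    obtain ⟨q, rfl⟩ := e.surjective j
    rw [kr_apply]
    simp
  map_add' A A' := by
    ext i j
    obtain ⟨p, rfl⟩ := e.surjective i
    obtain ⟨q, rfl⟩ := e.surjective j
    rw [Matrix.add_apply, kr_apply, kr_apply, kr_apply, Matrix.add_apply, mul_add]
  commutes' c := by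
    ext i j
    obtain ⟨p, rfl⟩ := e.surjective i
    obtain ⟨q, rfl⟩ := e.surjective j
    rw [kr_apply, Algebra.algebraMap_eq_smul_one, Algebra.algebraMap_eq_smul_one,
      Matrix.smul_apply, Matrix.smul_apply, mul_smul_comm, ← kr_apply, kr_one]

theorem krL_apply (e : Fin r₁ × Fin r₂ ≃ Fin r) (A : Mat r₁ ℂ) : krL e A = kr e A 1 := rfl

theorem krR_apply (e : Fin r₁ × Fin r₂ ≃ Fin r) (B : Mat r₂ ℂ) : krR e B = kr e 1 B := rfl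

/-- The inclusion of the first factor on units. -/
noncomputable def krU₁ (e : Fin r₁ × Fin r₂ ≃ Fin r) : (Mat r₁ ℂ)ˣ →* (Mat r ℂ)ˣ :=
  Units.map (krL e : Mat r₁ ℂ →* Mat r ℂ)

/-- The inclusion of the second factor on units. -/
noncomputable def krU₂ (e : Fin r₁ × Fin r₂ ≃ Fin r) : (Mat r₂ ℂ)ˣ →* (Mat r ℂ)ˣ :=
  Units.map (krR e : Mat r₂ ℂ →* Mat r ℂ)

theorem krU₁_coe (e : Fin r₁ × Fin r₂ ≃ Fin r) (A : (Mat r₁ ℂ)ˣ) :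
    (krU₁ e A : Mat r ℂ) = kr e (A : Mat r₁ ℂ) 1 := rfl

theorem krU₂_coe (e : Fin r₁ × Fin r₂ ≃ Fin r) (B : (Mat r₂ ℂ)ˣ) :
    (krU₂ e B : Mat r ℂ) = kr e 1 (B : Mat r₂ ℂ) := rfl

theorem krU_comm (e : Fin r₁ × Fin r₂ ≃ Fin r) (A : (Mat r₁ ℂ)ˣ) (B : (Mat r₂ ℂ)ˣ) :
    Commute (krU₁ e A) (krU₂ e B) := by
  apply Units.ext
  rw [Units.val_mul, Units.val_mul, krU₁_coe, krU₂_coe, kr_mul, kr_mul, one_mul, mul_one, one_mul,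
    mul_one]

theorem krU₁_inj (e : Fin r₁ × Fin r₂ ≃ Fin r) (h : 0 < r₂) (A : (Mat r₁ ℂ)ˣ)
    (hA : krU₁ e A = 1) : A = 1 := by
  apply Units.ext
  have h1 := congrArg (fun u : (Mat r ℂ)ˣ => (u : Mat r ℂ)) hA
  simp only [krU₁_coe, Units.val_one] at h1
  ext i j
  have h2 := congrFun (congrFun h1 (e (i, ⟨0, h⟩))) (e (j, ⟨0, h⟩))
  rw [← kr_one e, kr_apply, kr_apply] at h2
  simpa using h2

theorem krU₂_inj (e : Fin r₁ × Fin r₂ ≃ Fin r) (h : 0 < r₁) (B : (Mat r₂ ℂ)ˣ)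
    (hB : krU₂ e B = 1) : B = 1 := by
  apply Units.ext
  have h1 := congrArg (fun u : (Mat r ℂ)ˣ => (u : Mat r ℂ)) hB
  simp only [krU₂_coe, Units.val_one] at h1
  ext i j
  have h2 := congrFun (congrFun h1 (e (⟨0, h⟩, i))) (e (⟨0, h⟩, j))
  rw [← kr_one e, kr_apply, kr_apply] at h2
  simpa using h2

theorem EigIn.kr₁ {E : Subgroup ℂˣ} {e : Fin r₁ × Fin r₂ ≃ Fin r} (h : 0 < r₂) {A : Mat r₁ ℂ}
    (hA : EigIn E (kr e A (1 : Mat r₂ ℂ))) : EigIn E A := by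
  intro z hz
  apply hA z
  rw [Polynomial.IsRoot.def, Matrix.eval_charpoly] at hz ⊢
  have h1 : Matrix.scalar (Fin r) z - kr e A (1 : Mat r₂ ℂ) =
      kr e (Matrix.scalar (Fin r₁) z - A) (1 : Mat r₂ ℂ) := by
    have h2 : ∀ (k : ℕ), Matrix.scalar (Fin k) z = algebraMap ℂ (Mat k ℂ) z := fun k => rfl
    rw [h2, h2, ← krL_apply, ← krL_apply, map_sub, AlgHom.commutes]
  rw [h1, det_kr, hz, zero_pow h.ne', zero_mul]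

theorem EigIn.kr₂ {E : Subgroup ℂˣ} {e : Fin r₁ × Fin r₂ ≃ Fin r} (h : 0 < r₁) {B : Mat r₂ ℂ}
    (hB : EigIn E (kr e (1 : Mat r₁ ℂ) B)) : EigIn E B := by
  intro z hz
  apply hB z
  rw [Polynomial.IsRoot.def, Matrix.eval_charpoly] at hz ⊢
  have h1 : Matrix.scalar (Fin r) z - kr e (1 : Mat r₁ ℂ) B =
      kr e (1 : Mat r₁ ℂ) (Matrix.scalar (Fin r₂) z - B) := by
    have h2 : ∀ (k : ℕ), Matrix.scalar (Fin k) z = algebraMap ℂ (Mat k ℂ) z := fun k => rfl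
    rw [h2, h2, ← krR_apply, ← krR_apply, map_sub, AlgHom.commutes]
  rw [h1, det_kr, hz, zero_pow h.ne', mul_zero]

theorem krU₁_mem_GR {R : Type*} [CommRing R] (φ : R →+* ℂ) (e : Fin r₁ × Fin r₂ ≃ Fin r)
    {A : (Mat r₁ ℂ)ˣ} (hA : A ∈ GR r₁ φ) : krU₁ e A ∈ GR r φ := by
  obtain ⟨c, z, rfl⟩ := hA
  obtain ⟨z', hz'⟩ : ∃ z' : SpecialLinearGroup (Fin r) R, (z' : Mat r R) = kr e (z : Mat r₁ R) 1 :=
    ⟨⟨kr e (z : Mat r₁ R) 1, by rw [det_kr, z.det_coe, Matrix.det_one, one_pow, one_pow, one_mul]⟩,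
      rfl⟩
  refine ⟨c, z', ?_⟩
  apply Units.ext
  rw [krU₁_coe, scalarU_mul_coe, scalarU_mul_coe, slU_coe, slU_coe, hz', kr_map, ← krL_apply,
    map_smul, krL_apply]
  congr 2
  ext i j
  by_cases h : i = j
  · subst h; simp
  · simp [Matrix.one_apply_ne h]

theorem krU₂_mem_GR {R : Type*} [CommRing R] (φ : R →+* ℂ) (e : Fin r₁ × Fin r₂ ≃ Fin r)
    {B : (Mat r₂ ℂ)ˣ} (hB : B ∈ GR r₂ φ) : krU₂ e B ∈ GR r φ := by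
  obtain ⟨c, z, rfl⟩ := hB
  obtain ⟨z', hz'⟩ : ∃ z' : SpecialLinearGroup (Fin r) R, (z' : Mat r R) = kr e 1 (z : Mat r₂ R) :=
    ⟨⟨kr e 1 (z : Mat r₂ R), by rw [det_kr, z.det_coe, Matrix.det_one, one_pow, one_pow, one_mul]⟩,
      rfl⟩
  refine ⟨c, z', ?_⟩
  apply Units.ext
  rw [krU₂_coe, scalarU_mul_coe, scalarU_mul_coe, slU_coe, slU_coe, hz', kr_map, ← krR_apply,
    map_smul, krR_apply]
  congr 2
  ext i j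
  by_cases h : i = j
  · subst h; simp
  · simp [Matrix.one_apply_ne h]

theorem kr_top (e : Fin r₁ × Fin r₂ ≃ Fin r) (A : Subalgebra ℂ (Mat r ℂ))
    (h₁ : ∀ M : Mat r₁ ℂ, kr e M 1 ∈ A) (h₂ : ∀ M : Mat r₂ ℂ, kr e 1 M ∈ A) : A = ⊤ := by
  rw [eq_top_iff]
  intro X _
  rw [Matrix.matrix_eq_sum_single X]
  refine sum_mem fun i _ => sum_mem fun j _ => ?_
  obtain ⟨p, rfl⟩ := e.surjective i
  obtain ⟨q, rfl⟩ := e.surjective j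
  have h : Matrix.single (e p) (e q) (X (e p) (e q)) = X (e p) (e q) •
      (kr e (Matrix.single p.1 q.1 1) 1 * kr e 1 (Matrix.single p.2 q.2 1)) := by
    rw [kr_mul, mul_one, one_mul]
    ext i j
    obtain ⟨a, rfl⟩ := e.surjective i
    obtain ⟨b, rfl⟩ := e.surjective j
    rw [Matrix.smul_apply, kr_apply, smul_eq_mul, Matrix.single_apply, Matrix.single_apply,
      Matrix.single_apply]
    by_cases h1 : p = a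
    · by_cases h2 : q = b
      · subst h1 h2; simp
      · have : ¬ (q.1 = b.1 ∧ q.2 = b.2) := fun h => h2 (Prod.ext h.1 h.2)
        have h3 : ¬ (e p = e a ∧ e q = e b) := fun h => h2 (e.injective h.2)
        rw [if_neg h3]
        by_cases h4 : q.1 = b.1
        · have : q.2 ≠ b.2 := fun h => h2 (Prod.ext h4 h)
          simp [this]
        · simp [h4]
    · have h3 : ¬ (e p = e a ∧ e q = e b) := fun h => h1 (e.injective h.1)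
      rw [if_neg h3]
      by_cases h4 : p.1 = a.1
      · have : p.2 ≠ a.2 := fun h => h1 (Prod.ext h4 h)
        simp [this]
      · simp [h4]
  rw [h]
  exact A.smul_mem (A.mul_mem (h₁ _) (h₂ _)) _

end Kron

section Adj

variable {r : ℕ} {G : Type*} [Group G]

theorem ss_of_adjoin (x : G →* (Mat r ℂ)ˣ)
    (h : Algebra.adjoin ℂ (Set.range fun w => (x w : Mat r ℂ)) = ⊤) : SS x := by
  intro W hW
  have h1 : ∀ M : Mat r ℂ, ∀ v ∈ W, M *ᵥ v ∈ W := by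
    intro M
    have hM : M ∈ Algebra.adjoin ℂ (Set.range fun w => (x w : Mat r ℂ)) := by
      rw [h]; exact Algebra.mem_top
    induction hM using Algebra.adjoin_induction with
    | mem y hy =>
      obtain ⟨w, rfl⟩ := hy
      exact hW w
    | algebraMap c =>
      intro v hv
      rw [Algebra.algebraMap_eq_smul_one, Matrix.smul_mulVec, Matrix.one_mulVec]
      exact W.smul_mem c hv
    | add y z _ _ hy hz =>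
      intro v hv
      rw [Matrix.add_mulVec]
      exact W.add_mem (hy v hv) (hz v hv)
    | mul y z _ _ hy hz =>
      intro v hv
      rw [← Matrix.mulVec_mulVec]
      exact hy _ (hz v hv)
  by_cases hW0 : W = ⊥
  · refine ⟨⊤, fun w v _ => Submodule.mem_top, ?_⟩
    rw [hW0]
    exact isCompl_bot_top
  · have hW1 : W = ⊤ := by
      obtain ⟨v, hv, hv0⟩ := (Submodule.ne_bot_iff W).1 hW0
      obtain ⟨i, hi⟩ := Function.ne_iff.1 hv0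
      rw [eq_top_iff]
      intro u _
      have h2 := h1 (Matrix.vecMulVec u (Pi.single i (v i)⁻¹)) v hv
      have h3 : Matrix.vecMulVec u (Pi.single i (v i)⁻¹) *ᵥ v = u := by
        ext j
        rw [Matrix.mulVec, dotProduct, Finset.sum_eq_single i]
        · rw [Matrix.vecMulVec_apply, Pi.single_eq_same, mul_assoc, inv_mul_cancel₀ hi, mul_one]
        · intro k _ hk
          rw [Matrix.vecMulVec_apply, Pi.single_eq_of_ne hk, mul_zero, zero_mul]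
        · intro hk; exact absurd (Finset.mem_univ _) hk
      rwa [h3] at h2
    refine ⟨⊥, fun w v hv => ?_, ?_⟩
    · rw [Submodule.mem_bot] at hv ⊢
      rw [hv, Matrix.mulVec_zero]
    · rw [hW1]
      exact isCompl_top_bot

theorem scalar_of_adjoin (x : G →* (Mat r ℂ)ˣ)
    (h : Algebra.adjoin ℂ (Set.range fun w => (x w : Mat r ℂ)) = ⊤) (M : Mat r ℂ)
    (hM : ∀ w, Commute M (x w : Mat r ℂ)) : ∃ c : ℂ, M = c • (1 : Mat r ℂ) := by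
  have h1 : ∀ X : Mat r ℂ, Commute M X := by
    intro X
    have hX : X ∈ Algebra.adjoin ℂ (Set.range fun w => (x w : Mat r ℂ)) := by
      rw [h]; exact Algebra.mem_top
    induction hX using Algebra.adjoin_induction with
    | mem y hy =>
      obtain ⟨w, rfl⟩ := hy
      exact hM w
    | algebraMap c => exact (Algebra.commutes c M).symm
    | add y z _ _ hy hz => exact hy.add_right hz
    | mul y z _ _ hy hz => exact hy.mul_right hz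
  obtain ⟨c, hc⟩ := Matrix.mem_range_scalar_of_commute_single (M := M)
    (fun i j _ => (h1 _).symm)
  exact ⟨c, by rw [← hc, ← Algebra.algebraMap_eq_smul_one]; rfl⟩

/-- Conjugation as an algebra homomorphism. -/
noncomputable def conjA (U : (Mat r ℂ)ˣ) : Mat r ℂ →ₐ[ℂ] Mat r ℂ where
  toFun M := (U : Mat r ℂ) * M * ((U⁻¹ : (Mat r ℂ)ˣ) : Mat r ℂ)
  map_one' := by rw [mul_one, ← Units.val_mul, mul_inv_cancel, Units.val_one]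
  map_mul' M N := by
    have h : ((U⁻¹ : (Mat r ℂ)ˣ) : Mat r ℂ) * (U : Mat r ℂ) = 1 := by
      rw [← Units.val_mul, inv_mul_cancel, Units.val_one]
    calc (U : Mat r ℂ) * (M * N) * ((U⁻¹ : (Mat r ℂ)ˣ) : Mat r ℂ) =
        (U : Mat r ℂ) * M * 1 * N * ((U⁻¹ : (Mat r ℂ)ˣ) : Mat r ℂ) := by
          rw [mul_one]; simp only [mul_assoc]
      _ = _ := by rw [← h]; simp only [mul_assoc]
  map_zero' := by rw [mul_zero, zero_mul]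
  map_add' M N := by rw [mul_add, add_mul]
  commutes' c := by
    rw [← Algebra.commutes, mul_assoc, ← Units.val_mul, mul_inv_cancel, Units.val_one, mul_one]

theorem conjA_apply (U : (Mat r ℂ)ˣ) (M : Mat r ℂ) :
    conjA U M = (U : Mat r ℂ) * M * ((U⁻¹ : (Mat r ℂ)ˣ) : Mat r ℂ) := rfl

theorem adjoin_conj_top {K : Type*} (y : FreeGroup K →* (Mat r ℂ)ˣ) (U : (Mat r ℂ)ˣ)
    (h : Algebra.adjoin ℂ (Set.range fun w => (y w : Mat r ℂ)) = ⊤) :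
    Algebra.adjoin ℂ (Set.range fun w => (conjH U y w : Mat r ℂ)) = ⊤ := by
  obtain ⟨A, hA⟩ : ∃ A, A = Algebra.adjoin ℂ (Set.range fun w => (conjH U y w : Mat r ℂ)) :=
    ⟨_, rfl⟩
  rw [← hA]
  have h1 : Algebra.adjoin ℂ (Set.range fun w => (y w : Mat r ℂ)) ≤ A.comap (conjA U) := by
    rw [Algebra.adjoin_le_iff]
    rintro _ ⟨w, rfl⟩
    change conjA U (y w : Mat r ℂ) ∈ A
    rw [hA]
    apply Algebra.subset_adjoin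
    refine ⟨w, ?_⟩
    simp only [conjH_apply, conjA_apply, Units.val_mul]
  rw [eq_top_iff]
  intro X _
  have h2 : conjA U⁻¹ X ∈ A.comap (conjA U) := h1 (by rw [h]; exact Algebra.mem_top)
  have h3 : conjA U (conjA U⁻¹ X) = X := by
    rw [conjA_apply, conjA_apply, inv_inv]
    have h : (U : Mat r ℂ) * ((U⁻¹ : (Mat r ℂ)ˣ) : Mat r ℂ) = 1 := by
      rw [← Units.val_mul, mul_inv_cancel, Units.val_one]
    calc (U : Mat r ℂ) * (((U⁻¹ : (Mat r ℂ)ˣ) : Mat r ℂ) * X * (U : Mat r ℂ)) *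
          ((U⁻¹ : (Mat r ℂ)ˣ) : Mat r ℂ) =
        ((U : Mat r ℂ) * ((U⁻¹ : (Mat r ℂ)ˣ) : Mat r ℂ)) * X *
          ((U : Mat r ℂ) * ((U⁻¹ : (Mat r ℂ)ˣ) : Mat r ℂ)) := by simp only [mul_assoc]
      _ = X := by rw [h, one_mul, mul_one]
  have h4 : conjA U (conjA U⁻¹ X) ∈ A := h2
  rwa [h3] at h4

theorem commute_of_gen {K : Type*} (x : FreeGroup K →* G) (g : G)
    (h : ∀ k, Commute (x (FreeGroup.of k)) g) (a : FreeGroup K) : Commute (x a) g := by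
  induction a using FreeGroup.induction_on with
  | C1 => rw [map_one]; exact Commute.one_left g
  | of k => exact h k
  | inv_of k _ => rw [map_inv]; exact (h k).inv_left
  | mul a b ha hb => rw [map_mul]; exact ha.mul_left hb

end Adj

section Prod

variable {κ₁ ι₁ κ₂ ι₂ : Type} {r r₁ r₂ : ℕ}

/-- Splitting of the generators. -/
def splG : (κ₁ ⊕ κ₂) ⊕ (ι₁ ⊕ ι₂) → (κ₁ ⊕ ι₁) ⊕ (κ₂ ⊕ ι₂) := Equiv.sumSumSumComm κ₁ κ₂ ι₁ ι₂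

theorem splG_inc₁ (k : κ₁ ⊕ ι₁) : (splG (inc₁ k) : (κ₁ ⊕ ι₁) ⊕ (κ₂ ⊕ ι₂)) = Sum.inl k := by
  rcases k with k | k <;> rfl

theorem splG_inc₂ (k : κ₂ ⊕ ι₂) : (splG (inc₂ k) : (κ₁ ⊕ ι₁) ⊕ (κ₂ ⊕ ι₂)) = Sum.inr k := by
  rcases k with k | k <;> rfl

theorem inc_cases (k : (κ₁ ⊕ κ₂) ⊕ (ι₁ ⊕ ι₂)) :
    (∃ l : κ₁ ⊕ ι₁, k = inc₁ l) ∨ ∃ l : κ₂ ⊕ ι₂, k = inc₂ l := by
  rcases k with (k | k) | (k | k)
  · exact Or.inl ⟨Sum.inl k, rfl⟩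
  · exact Or.inr ⟨Sum.inl k, rfl⟩
  · exact Or.inl ⟨Sum.inr k, rfl⟩
  · exact Or.inr ⟨Sum.inr k, rfl⟩

/-- Tensor product of representations of two free groups. -/
noncomputable def ten (e : Fin r₁ × Fin r₂ ≃ Fin r) (y₁ : FreeGroup (κ₁ ⊕ ι₁) →* (Mat r₁ ℂ)ˣ)
    (y₂ : FreeGroup (κ₂ ⊕ ι₂) →* (Mat r₂ ℂ)ˣ) :
    FreeGroup ((κ₁ ⊕ κ₂) ⊕ (ι₁ ⊕ ι₂)) →* (Mat r ℂ)ˣ :=
  FreeGroup.lift fun k => Sum.elim (fun k₁ => krU₁ e (y₁ (FreeGroup.of k₁)))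
    (fun k₂ => krU₂ e (y₂ (FreeGroup.of k₂))) (splG k)

theorem ten_inc₁ (e : Fin r₁ × Fin r₂ ≃ Fin r) (y₁ : FreeGroup (κ₁ ⊕ ι₁) →* (Mat r₁ ℂ)ˣ)
    (y₂ : FreeGroup (κ₂ ⊕ ι₂) →* (Mat r₂ ℂ)ˣ) (w : FreeGroup (κ₁ ⊕ ι₁)) :
    ten e y₁ y₂ (FreeGroup.map inc₁ w) = krU₁ e (y₁ w) := by
  have h : (ten e y₁ y₂).comp (FreeGroup.map inc₁) = (krU₁ e).comp y₁ := by
    ext1 k
    rw [MonoidHom.comp_apply, FreeGroup.map.of, ten, FreeGroup.lift_apply_of, splG_inc₁,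
      Sum.elim_inl, MonoidHom.comp_apply]
  exact DFunLike.congr_fun h w

theorem ten_inc₂ (e : Fin r₁ × Fin r₂ ≃ Fin r) (y₁ : FreeGroup (κ₁ ⊕ ι₁) →* (Mat r₁ ℂ)ˣ)
    (y₂ : FreeGroup (κ₂ ⊕ ι₂) →* (Mat r₂ ℂ)ˣ) (w : FreeGroup (κ₂ ⊕ ι₂)) :
    ten e y₁ y₂ (FreeGroup.map inc₂ w) = krU₂ e (y₂ w) := by
  have h : (ten e y₁ y₂).comp (FreeGroup.map inc₂) = (krU₂ e).comp y₂ := by
    ext1 k
    rw [MonoidHom.comp_apply, FreeGroup.map.of, ten, FreeGroup.lift_apply_of, splG_inc₂,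
      Sum.elim_inr, MonoidHom.comp_apply]
  exact DFunLike.congr_fun h w

theorem ten_of₁ (e : Fin r₁ × Fin r₂ ≃ Fin r) (y₁ : FreeGroup (κ₁ ⊕ ι₁) →* (Mat r₁ ℂ)ˣ)
    (y₂ : FreeGroup (κ₂ ⊕ ι₂) →* (Mat r₂ ℂ)ˣ) (k : κ₁ ⊕ ι₁) :
    ten e y₁ y₂ (FreeGroup.of (inc₁ k)) = krU₁ e (y₁ (FreeGroup.of k)) := by
  rw [← FreeGroup.map.of, ten_inc₁]

theorem ten_of₂ (e : Fin r₁ × Fin r₂ ≃ Fin r) (y₁ : FreeGroup (κ₁ ⊕ ι₁) →* (Mat r₁ ℂ)ˣ)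
    (y₂ : FreeGroup (κ₂ ⊕ ι₂) →* (Mat r₂ ℂ)ˣ) (k : κ₂ ⊕ ι₂) :
    ten e y₁ y₂ (FreeGroup.of (inc₂ k)) = krU₂ e (y₂ (FreeGroup.of k)) := by
  rw [← FreeGroup.map.of, ten_inc₂]

theorem adjoin_ten_top (e : Fin r₁ × Fin r₂ ≃ Fin r) (y₁ : FreeGroup (κ₁ ⊕ ι₁) →* (Mat r₁ ℂ)ˣ)
    (y₂ : FreeGroup (κ₂ ⊕ ι₂) →* (Mat r₂ ℂ)ˣ)
    (h₁ : Algebra.adjoin ℂ (Set.range fun w => (y₁ w : Mat r₁ ℂ)) = ⊤)
    (h₂ : Algebra.adjoin ℂ (Set.range fun w => (y₂ w : Mat r₂ ℂ)) = ⊤) :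
    Algebra.adjoin ℂ (Set.range fun w => (ten e y₁ y₂ w : Mat r ℂ)) = ⊤ := by
  obtain ⟨A, hA⟩ : ∃ A, A = Algebra.adjoin ℂ (Set.range fun w => (ten e y₁ y₂ w : Mat r ℂ)) :=
    ⟨_, rfl⟩
  rw [← hA]
  apply kr_top e A
  · intro M
    have h3 : Algebra.adjoin ℂ (Set.range fun w => (y₁ w : Mat r₁ ℂ)) ≤ A.comap (krL e) := by
      rw [Algebra.adjoin_le_iff]
      rintro _ ⟨w, rfl⟩
      change kr e (y₁ w : Mat r₁ ℂ) 1 ∈ A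
      rw [hA]
      apply Algebra.subset_adjoin
      exact ⟨FreeGroup.map inc₁ w, by simp only [ten_inc₁, krU₁_coe]⟩
    exact h3 (by rw [h₁]; exact Algebra.mem_top)
  · intro M
    have h3 : Algebra.adjoin ℂ (Set.range fun w => (y₂ w : Mat r₂ ℂ)) ≤ A.comap (krR e) := by
      rw [Algebra.adjoin_le_iff]
      rintro _ ⟨w, rfl⟩
      change kr e 1 (y₂ w : Mat r₂ ℂ) ∈ A
      rw [hA]
      apply Algebra.subset_adjoin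
      exact ⟨FreeGroup.map inc₂ w, by simp only [ten_inc₂, krU₂_coe]⟩
    exact h3 (by rw [h₂]; exact Algebra.mem_top)

theorem prodRel_eqn (Rel₁ : Set (FreeGroup (κ₁ ⊕ ι₁))) (Rel₂ : Set (FreeGroup (κ₂ ⊕ ι₂)))
    (w : FreeGroup ((κ₁ ⊕ κ₂) ⊕ (ι₁ ⊕ ι₂))) : w ∈ prodRel Rel₁ Rel₂ ↔
      (∃ w' ∈ Rel₁, FreeGroup.map inc₁ w' = w) ∨ (∃ w' ∈ Rel₂, FreeGroup.map inc₂ w' = w) ∨
        ∃ (k : κ₁ ⊕ ι₁) (l : κ₂ ⊕ ι₂), w =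
          FreeGroup.of (inc₁ k) * FreeGroup.of (inc₂ l) * (FreeGroup.of (inc₁ k))⁻¹ *
            (FreeGroup.of (inc₂ l))⁻¹ := by
  unfold prodRel
  rw [Set.mem_union, Set.mem_union, Set.mem_image, Set.mem_image, or_assoc]
  rfl

theorem ten_mem_DGT {R : Type*} [CommRing R] (φ : R →+* ℂ) {Rel₁ : Set (FreeGroup (κ₁ ⊕ ι₁))}
    {Rel₂ : Set (FreeGroup (κ₂ ⊕ ι₂))} (e : Fin r₁ × Fin r₂ ≃ Fin r)
    {C₁ : ι₁ → (Mat r₁ ℂ)ˣ} {C₂ : ι₂ → (Mat r₂ ℂ)ˣ} {C : ι₁ ⊕ ι₂ → (Mat r ℂ)ˣ}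
    (hC₁ : ∀ j, IsConj (C (Sum.inl j)) (krU₁ e (C₁ j)))
    (hC₂ : ∀ j, IsConj (C (Sum.inr j)) (krU₂ e (C₂ j)))
    {y₁ : FreeGroup (κ₁ ⊕ ι₁) →* (Mat r₁ ℂ)ˣ} {y₂ : FreeGroup (κ₂ ⊕ ι₂) →* (Mat r₂ ℂ)ˣ}
    (hy₁ : y₁ ∈ DGT Rel₁ φ C₁) (hy₂ : y₂ ∈ DGT Rel₂ φ C₂) :
    ten e y₁ y₂ ∈ DGT (prodRel Rel₁ Rel₂) φ C := by
  have htop := adjoin_ten_top e y₁ y₂ hy₁.2 hy₂.2
  refine ⟨⟨⟨?_, ?_, ss_of_adjoin _ htop⟩, ?_⟩, htop⟩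
  · intro w hw
    rw [prodRel_eqn] at hw
    rcases hw with ⟨w', hw', rfl⟩ | ⟨w', hw', rfl⟩ | ⟨k, l, rfl⟩
    · rw [ten_inc₁, hy₁.1.1.1 w' hw', map_one]
    · rw [ten_inc₂, hy₂.1.1.1 w' hw', map_one]
    · rw [map_mul, map_mul, map_mul, map_inv, map_inv, ten_of₁, ten_of₂,
        (krU_comm e (y₁ (FreeGroup.of k)) (y₂ (FreeGroup.of l))).eq]
      group
  · rintro (j | j)
    · refine (hC₁ j).trans ?_
      have h1 : (Sum.inr (Sum.inl j) : (κ₁ ⊕ κ₂) ⊕ (ι₁ ⊕ ι₂)) = inc₁ (Sum.inr j) := rfl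
      rw [h1, ten_of₁]
      exact (krU₁ e).map_isConj (hy₁.1.1.2.1 j)
    · refine (hC₂ j).trans ?_
      have h1 : (Sum.inr (Sum.inr j) : (κ₁ ⊕ κ₂) ⊕ (ι₁ ⊕ ι₂)) = inc₂ (Sum.inr j) := rfl
      rw [h1, ten_of₂]
      exact (krU₂ e).map_isConj (hy₂.1.1.2.1 j)
  · intro k
    rcases inc_cases k with ⟨l, rfl⟩ | ⟨l, rfl⟩
    · rw [ten_of₁]
      exact krU₁_mem_GR φ e (hy₁.1.2 l)
    · rw [ten_of₂]
      exact krU₂_mem_GR φ e (hy₂.1.2 l)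

/-- The tuple of matrices of a tensor product. -/
noncomputable def tenK {S : Type*} [CommRing S] [Algebra ℂ S] (e : Fin r₁ × Fin r₂ ≃ Fin r)
    (P Q : Mat r ℂ) (Y₁ : κ₁ ⊕ ι₁ → Mat r₁ S) (Y₂ : κ₂ ⊕ ι₂ → Mat r₂ S)
    (k : (κ₁ ⊕ κ₂) ⊕ (ι₁ ⊕ ι₂)) : Mat r S :=
  P.map (algebraMap ℂ S) * (Sum.elim (fun k₁ => kr e (Y₁ k₁) 1)
    (fun k₂ => kr e 1 (Y₂ k₂)) (splG k)) * Q.map (algebraMap ℂ S)

theorem tenK_map {S T : Type*} [CommRing S] [Algebra ℂ S] [CommRing T] [Algebra ℂ T]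
    (θ : S →ₐ[ℂ] T) (e : Fin r₁ × Fin r₂ ≃ Fin r)
    (P Q : Mat r ℂ) (Y₁ : κ₁ ⊕ ι₁ → Mat r₁ S) (Y₂ : κ₂ ⊕ ι₂ → Mat r₂ S)
    (k : (κ₁ ⊕ κ₂) ⊕ (ι₁ ⊕ ι₂)) : (tenK e P Q Y₁ Y₂ k).map θ =
      tenK e P Q (fun k => (Y₁ k).map θ) (fun k => (Y₂ k).map θ) k := by
  have h : ∀ M : Mat r ℂ, (M.map (algebraMap ℂ S)).map θ = M.map (algebraMap ℂ T) := by
    intro M
    ext i j
    simp
  have hone : ∀ k : ℕ, (1 : Mat k S).map θ = 1 := by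
    intro k
    ext i j
    by_cases hij : i = j
    · subst hij; simp
    · simp [Matrix.one_apply_ne hij]
  have hkr : ∀ (A : Mat r₁ S) (B : Mat r₂ S), (kr e A B).map θ = kr e (A.map θ) (B.map θ) :=
    fun A B => kr_map e A B (θ : S →+* T)
  unfold tenK
  rw [Matrix.map_mul, Matrix.map_mul, h, h]
  congr 2
  rcases splG k with k | k
  · rw [Sum.elim_inl, Sum.elim_inl, hkr, hone]
  · rw [Sum.elim_inr, Sum.elim_inr, hkr, hone]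

theorem conjH_ten (e : Fin r₁ × Fin r₂ ≃ Fin r) (P : (Mat r ℂ)ˣ)
    (y₁ : FreeGroup (κ₁ ⊕ ι₁) →* (Mat r₁ ℂ)ˣ) (y₂ : FreeGroup (κ₂ ⊕ ι₂) →* (Mat r₂ ℂ)ˣ)
    (k : (κ₁ ⊕ κ₂) ⊕ (ι₁ ⊕ ι₂)) :
    (conjH P (ten e y₁ y₂) (FreeGroup.of k) : Mat r ℂ) =
      tenK e (P : Mat r ℂ) ((P⁻¹ : (Mat r ℂ)ˣ) : Mat r ℂ)
        (fun k => (y₁ (FreeGroup.of k) : Mat r₁ ℂ)) (fun k => (y₂ (FreeGroup.of k) : Mat r₂ ℂ))
          k := by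
  have h : ∀ M : Mat r ℂ, M.map (algebraMap ℂ ℂ) = M := by
    intro M
    ext i j
    simp
  rw [conjH_apply, Units.val_mul, Units.val_mul, tenK, h, h]
  congr 2
  rcases inc_cases k with ⟨l, rfl⟩ | ⟨l, rfl⟩
  · rw [ten_of₁, splG_inc₁, krU₁_coe, Sum.elim_inl]
  · rw [ten_of₂, splG_inc₂, krU₂_coe, Sum.elim_inr]

theorem exists_polyT₁ (e : Fin r₁ × Fin r₂ ≃ Fin r) (P Q : Mat r ℂ)
    (f : MvPolynomial (((κ₁ ⊕ κ₂) ⊕ (ι₁ ⊕ ι₂)) × Fin r × Fin r) ℂ) (Y₂ : κ₂ ⊕ ι₂ → Mat r₂ ℂ) :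
    ∃ f₁ : MvPolynomial ((κ₁ ⊕ ι₁) × Fin r₁ × Fin r₁) ℂ,
      ∀ y₁ : FreeGroup (κ₁ ⊕ ι₁) →* (Mat r₁ ℂ)ˣ,
        evalG y₁ f₁ = evK (tenK e P Q (fun k => (y₁ (FreeGroup.of k) : Mat r₁ ℂ)) Y₂) f := by
  let L := MvPolynomial ((κ₁ ⊕ ι₁) × Fin r₁ × Fin r₁) ℂ
  refine ⟨evK (tenK e P Q (fun k => Matrix.of fun i j => (MvPolynomial.X (k, i, j) : L))
    (fun k => (Y₂ k).map MvPolynomial.C)) f, ?_⟩
  intro y₁
  have h1 : ∀ g : L, evalG y₁ g = MvPolynomial.aeval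
      (fun p => (y₁ (FreeGroup.of p.1) : Mat r₁ ℂ) p.2.1 p.2.2) g := fun g => evalG_eqn y₁ g
  rw [h1, evK_map]
  refine congrArg (fun X => evK X f) (funext fun k => ?_)
  rw [tenK_map]
  congr 1
  · funext k
    ext i j
    simp
  · funext k
    ext i j
    simp

theorem exists_polyT₂ (e : Fin r₁ × Fin r₂ ≃ Fin r) (P Q : Mat r ℂ)
    (f : MvPolynomial (((κ₁ ⊕ κ₂) ⊕ (ι₁ ⊕ ι₂)) × Fin r × Fin r) ℂ) (Y₁ : κ₁ ⊕ ι₁ → Mat r₁ ℂ) :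
    ∃ f₂ : MvPolynomial ((κ₂ ⊕ ι₂) × Fin r₂ × Fin r₂) ℂ,
      ∀ y₂ : FreeGroup (κ₂ ⊕ ι₂) →* (Mat r₂ ℂ)ˣ,
        evalG y₂ f₂ = evK (tenK e P Q Y₁ (fun k => (y₂ (FreeGroup.of k) : Mat r₂ ℂ))) f := by
  let L := MvPolynomial ((κ₂ ⊕ ι₂) × Fin r₂ × Fin r₂) ℂ
  refine ⟨evK (tenK e P Q (fun k => (Y₁ k).map MvPolynomial.C)
    (fun k => Matrix.of fun i j => (MvPolynomial.X (k, i, j) : L))) f, ?_⟩
  intro y₂
  have h1 : ∀ g : L, evalG y₂ g = MvPolynomial.aeval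
      (fun p => (y₂ (FreeGroup.of p.1) : Mat r₂ ℂ) p.2.1 p.2.2) g := fun g => evalG_eqn y₂ g
  rw [h1, evK_map]
  refine congrArg (fun X => evK X f) (funext fun k => ?_)
  rw [tenK_map]
  congr 1
  · funext k
    ext i j
    simp
  · funext k
    ext i j
    simp

/-- The restrictions of an irreducible representation of the product generate the matrix algebra. -/
theorem adjoin_union_top {n : ℕ} (x : FreeGroup ((κ₁ ⊕ κ₂) ⊕ (ι₁ ⊕ ι₂)) →* (Mat n ℂ)ˣ)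
    (hxtop : Algebra.adjoin ℂ (Set.range fun w => (x w : Mat n ℂ)) = ⊤) :
    Algebra.adjoin ℂ ((Set.range fun w => (x.comp (FreeGroup.map inc₁) w : Mat n ℂ)) ∪
      Set.range fun w => (x.comp (FreeGroup.map inc₂) w : Mat n ℂ)) = ⊤ := by
  rw [eq_top_iff, ← hxtop, adjoin_gen, Algebra.adjoin_le_iff]
  rintro _ ⟨k, rfl⟩
  apply Algebra.subset_adjoin
  rcases inc_cases k with ⟨l, rfl⟩ | ⟨l, rfl⟩
  · refine Or.inl ⟨FreeGroup.of l, ?_⟩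
    simp only [MonoidHom.comp_apply, FreeGroup.map.of]
  · refine Or.inr ⟨FreeGroup.of l, ?_⟩
    simp only [MonoidHom.comp_apply, FreeGroup.map.of]

theorem commute_of_prodRel {G : Type*} [Group G] {Rel₁ : Set (FreeGroup (κ₁ ⊕ ι₁))}
    {Rel₂ : Set (FreeGroup (κ₂ ⊕ ι₂))} (x : FreeGroup ((κ₁ ⊕ κ₂) ⊕ (ι₁ ⊕ ι₂)) →* G)
    (hrel : ∀ w ∈ prodRel Rel₁ Rel₂, x w = 1) (a : FreeGroup (κ₁ ⊕ ι₁))
    (b : FreeGroup (κ₂ ⊕ ι₂)) :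
    Commute (x.comp (FreeGroup.map inc₁) a) (x.comp (FreeGroup.map inc₂) b) := by
  refine commute_of_gen (x.comp (FreeGroup.map inc₁)) _ (fun k => ?_) a
  refine (commute_of_gen (x.comp (FreeGroup.map inc₂)) _ (fun l => ?_) b).symm
  rw [MonoidHom.comp_apply, MonoidHom.comp_apply, FreeGroup.map.of, FreeGroup.map.of]
  have h3 := hrel (FreeGroup.of (inc₁ k) * FreeGroup.of (inc₂ l) * (FreeGroup.of (inc₁ k))⁻¹ *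
      (FreeGroup.of (inc₂ l))⁻¹) ((prodRel_eqn _ _ _).2 (Or.inr (Or.inr ⟨k, l, rfl⟩)))
  rw [map_mul, map_mul, map_mul, map_inv, map_inv, mul_inv_eq_one, mul_inv_eq_iff_eq_mul] at h3
  exact h3.symm

/-- An irreducible representation of the product is a tensor product. -/
theorem exists_ten {Rel₁ : Set (FreeGroup (κ₁ ⊕ ι₁))}
    {Rel₂ : Set (FreeGroup (κ₂ ⊕ ι₂))} {n : ℕ} (hpos : 0 < n)
    (x : FreeGroup ((κ₁ ⊕ κ₂) ⊕ (ι₁ ⊕ ι₂)) →* (Mat n ℂ)ˣ)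
    (hrel : ∀ w ∈ prodRel Rel₁ Rel₂, x w = 1)
    (hxtop : Algebra.adjoin ℂ (Set.range fun w => (x w : Mat n ℂ)) = ⊤) :
    ∃ (r₁ r₂ : ℕ) (e : Fin r₁ × Fin r₂ ≃ Fin n) (P : (Mat n ℂ)ˣ)
      (z₁ : FreeGroup (κ₁ ⊕ ι₁) →* (Mat r₁ ℂ)ˣ) (z₂ : FreeGroup (κ₂ ⊕ ι₂) →* (Mat r₂ ℂ)ˣ),
      0 < r₁ ∧ 0 < r₂ ∧
      Algebra.adjoin ℂ (Set.range fun w => (z₁ w : Mat r₁ ℂ)) = ⊤ ∧
      Algebra.adjoin ℂ (Set.range fun w => (z₂ w : Mat r₂ ℂ)) = ⊤ ∧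
      (∀ w ∈ Rel₁, z₁ w = 1) ∧ (∀ w ∈ Rel₂, z₂ w = 1) ∧ x = conjH P (ten e z₁ z₂) := by
  obtain ⟨r₁, r₂, e, P, z₁, z₂, hr₁, hr₂, ht₁, ht₂, hz₁, hz₂⟩ :=
    tensor_decomp hpos (x.comp (FreeGroup.map inc₁)) (x.comp (FreeGroup.map inc₂))
      (commute_of_prodRel x hrel) (adjoin_union_top x hxtop)
  have hz₁' : ∀ a, x (FreeGroup.map inc₁ a) = P * krU₁ e (z₁ a) * P⁻¹ := by
    intro a
    apply Units.ext
    rw [Units.val_mul, Units.val_mul, krU₁_coe, kr]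
    exact hz₁ a
  have hz₂' : ∀ b, x (FreeGroup.map inc₂ b) = P * krU₂ e (z₂ b) * P⁻¹ := by
    intro a
    apply Units.ext
    rw [Units.val_mul, Units.val_mul, krU₂_coe, kr]
    exact hz₂ a
  refine ⟨r₁, r₂, e, P, z₁, z₂, hr₁, hr₂, ht₁, ht₂, fun w hw => ?_, fun w hw => ?_, ?_⟩
  · apply krU₁_inj e hr₂
    have h3 := hz₁' w
    rw [hrel _ ((prodRel_eqn _ _ _).2 (Or.inl ⟨w, hw, rfl⟩)), eq_mul_inv_iff_mul_eq, one_mul]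
      at h3
    exact mul_left_cancel (by rw [mul_one]; exact h3.symm)
  · apply krU₂_inj e hr₁
    have h3 := hz₂' w
    rw [hrel _ ((prodRel_eqn _ _ _).2 (Or.inr (Or.inl ⟨w, hw, rfl⟩))),
      eq_mul_inv_iff_mul_eq, one_mul] at h3
    exact mul_left_cancel (by rw [mul_one]; exact h3.symm)
  · ext1 k
    rw [conjH_apply]
    rcases inc_cases k with ⟨l, rfl⟩ | ⟨l, rfl⟩
    · rw [ten_of₁, ← hz₁', FreeGroup.map.of]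
    · rw [ten_of₂, ← hz₂', FreeGroup.map.of]

theorem conjH_mem_DGT {κ ι : Type} {Rel : Set (FreeGroup (κ ⊕ ι))} {R : Type*} [CommRing R]
    (φ : R →+* ℂ) {n : ℕ} {C : ι → (Mat n ℂ)ˣ} {y : FreeGroup (κ ⊕ ι) →* (Mat n ℂ)ˣ}
    (hy : y ∈ DGT Rel φ C) (X : SpecialLinearGroup (Fin n) ℤ) :
    conjH (slU (Int.castRingHom ℂ) X) y ∈ DGT Rel φ C :=
  ⟨conjH_mem_DG φ hy.1 X, adjoin_conj_top _ _ hy.2⟩

theorem conj_vanish_DGT {κ ι : Type} {Rel : Set (FreeGroup (κ ⊕ ι))} {R : Type*} [CommRing R]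
    (φ : R →+* ℂ) {n : ℕ} {C : ι → (Mat n ℂ)ˣ} (f : MvPolynomial ((κ ⊕ ι) × Fin n × Fin n) ℂ)
    (hf : ∀ y ∈ DGT Rel φ C, evalG y f = 0) (y : FreeGroup (κ ⊕ ι) →* (Mat n ℂ)ˣ)
    (hy : y ∈ DGT Rel φ C) (P : (Mat n ℂ)ˣ) : evalG (conjH P y) f = 0 :=
  conj_vanish_gen (DGT Rel φ C) (fun _ hy X => conjH_mem_DGT φ hy X) f hf y hy P

theorem evalG_conjH_ten {n : ℕ} (e : Fin r₁ × Fin r₂ ≃ Fin n) (P : (Mat n ℂ)ˣ)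
    (f : MvPolynomial (((κ₁ ⊕ κ₂) ⊕ (ι₁ ⊕ ι₂)) × Fin n × Fin n) ℂ)
    (y₁ : FreeGroup (κ₁ ⊕ ι₁) →* (Mat r₁ ℂ)ˣ) (y₂ : FreeGroup (κ₂ ⊕ ι₂) →* (Mat r₂ ℂ)ˣ) :
    evalG (conjH P (ten e y₁ y₂)) f =
      evK (tenK e (P : Mat n ℂ) ((P⁻¹ : (Mat n ℂ)ˣ) : Mat n ℂ)
        (fun k => (y₁ (FreeGroup.of k) : Mat r₁ ℂ))
        (fun k => (y₂ (FreeGroup.of k) : Mat r₂ ℂ))) f := by
  rw [evalG_eq_evK]
  exact congrArg (fun X => evK X f) (funext fun k => conjH_ten e P y₁ y₂ k)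

/-- Density for tensor products, first factor. -/
theorem ten_dense₁ {R : Type*} [CommRing R] (φ : R →+* ℂ) (E : Subgroup ℂˣ)
    (Rel₁ : Set (FreeGroup (κ₁ ⊕ ι₁)))
    {n : ℕ} (h₁ : IrrDense Rel₁ φ E r₁) (e : Fin r₁ × Fin r₂ ≃ Fin n) (P : (Mat n ℂ)ˣ)
    (z₁ : FreeGroup (κ₁ ⊕ ι₁) →* (Mat r₁ ℂ)ˣ) (y₂ : FreeGroup (κ₂ ⊕ ι₂) →* (Mat r₂ ℂ)ˣ)
    (ht₁ : Algebra.adjoin ℂ (Set.range fun w => (z₁ w : Mat r₁ ℂ)) = ⊤)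
    (C₁ : ι₁ → (Mat r₁ ℂ)ˣ) (hE₁ : ∀ j, EigIn E (C₁ j : Mat r₁ ℂ)) (hY₁ : z₁ ∈ YG Rel₁ C₁)
    (f : MvPolynomial (((κ₁ ⊕ κ₂) ⊕ (ι₁ ⊕ ι₂)) × Fin n × Fin n) ℂ)
    (hf : ∀ y₁ ∈ DGT Rel₁ φ C₁, evalG (conjH P (ten e y₁ y₂)) f = 0) :
    evalG (conjH P (ten e z₁ y₂)) f = 0 := by
  obtain ⟨f₁, hf₁⟩ := exists_polyT₁ e (P : Mat n ℂ) ((P⁻¹ : (Mat n ℂ)ˣ) : Mat n ℂ) f
    (fun k => (y₂ (FreeGroup.of k) : Mat r₂ ℂ))
  rw [evalG_conjH_ten, ← hf₁]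
  refine h₁ C₁ hE₁ z₁ hY₁ (fun M hM => scalar_of_adjoin z₁ ht₁ M hM) f₁ ?_
  intro y₁ hy₁
  rw [hf₁, ← evalG_conjH_ten]
  exact hf y₁ hy₁

/-- Density for tensor products, second factor. -/
theorem ten_dense₂ {R : Type*} [CommRing R] (φ : R →+* ℂ) (E : Subgroup ℂˣ)
    (Rel₂ : Set (FreeGroup (κ₂ ⊕ ι₂)))
    {n : ℕ} (h₂ : IrrDense Rel₂ φ E r₂) (e : Fin r₁ × Fin r₂ ≃ Fin n) (P : (Mat n ℂ)ˣ)
    (y₁ : FreeGroup (κ₁ ⊕ ι₁) →* (Mat r₁ ℂ)ˣ) (z₂ : FreeGroup (κ₂ ⊕ ι₂) →* (Mat r₂ ℂ)ˣ)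
    (ht₂ : Algebra.adjoin ℂ (Set.range fun w => (z₂ w : Mat r₂ ℂ)) = ⊤)
    (C₂ : ι₂ → (Mat r₂ ℂ)ˣ) (hE₂ : ∀ j, EigIn E (C₂ j : Mat r₂ ℂ)) (hY₂ : z₂ ∈ YG Rel₂ C₂)
    (f : MvPolynomial (((κ₁ ⊕ κ₂) ⊕ (ι₁ ⊕ ι₂)) × Fin n × Fin n) ℂ)
    (hf : ∀ y₂ ∈ DGT Rel₂ φ C₂, evalG (conjH P (ten e y₁ y₂)) f = 0) :
    evalG (conjH P (ten e y₁ z₂)) f = 0 := by
  obtain ⟨f₂, hf₂⟩ := exists_polyT₂ e (P : Mat n ℂ) ((P⁻¹ : (Mat n ℂ)ˣ) : Mat n ℂ) f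
    (fun k => (y₁ (FreeGroup.of k) : Mat r₁ ℂ))
  rw [evalG_conjH_ten, ← hf₂]
  refine h₂ C₂ hE₂ z₂ hY₂ (fun M hM => scalar_of_adjoin z₂ ht₂ M hM) f₂ ?_
  intro y₂ hy₂
  rw [hf₂, ← evalG_conjH_ten]
  exact hf y₂ hy₂

theorem conj_boundary₁ {n : ℕ} (e : Fin r₁ × Fin r₂ ≃ Fin n) (P : (Mat n ℂ)ˣ)
    (z₁ : FreeGroup (κ₁ ⊕ ι₁) →* (Mat r₁ ℂ)ˣ) (z₂ : FreeGroup (κ₂ ⊕ ι₂) →* (Mat r₂ ℂ)ˣ)
    (j : ι₁) : IsConj (conjH P (ten e z₁ z₂) (FreeGroup.of (Sum.inr (Sum.inl j))))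
      (krU₁ e (z₁ (FreeGroup.of (Sum.inr j)))) := by
  have h1 : (Sum.inr (Sum.inl j) : (κ₁ ⊕ κ₂) ⊕ (ι₁ ⊕ ι₂)) = inc₁ (Sum.inr j) := rfl
  rw [h1, conjH_apply, ten_of₁]
  exact (isConj_iff.2 ⟨P, rfl⟩).symm

theorem conj_boundary₂ {n : ℕ} (e : Fin r₁ × Fin r₂ ≃ Fin n) (P : (Mat n ℂ)ˣ)
    (z₁ : FreeGroup (κ₁ ⊕ ι₁) →* (Mat r₁ ℂ)ˣ) (z₂ : FreeGroup (κ₂ ⊕ ι₂) →* (Mat r₂ ℂ)ˣ)
    (j : ι₂) : IsConj (conjH P (ten e z₁ z₂) (FreeGroup.of (Sum.inr (Sum.inr j))))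
      (krU₂ e (z₂ (FreeGroup.of (Sum.inr j)))) := by
  have h1 : (Sum.inr (Sum.inr j) : (κ₁ ⊕ κ₂) ⊕ (ι₁ ⊕ ι₂)) = inc₂ (Sum.inr j) := rfl
  rw [h1, conjH_apply, ten_of₂]
  exact (isConj_iff.2 ⟨P, rfl⟩).symm

/-- Density for tensor products. -/
theorem ten_dense {R : Type*} [CommRing R] (φ : R →+* ℂ) (E : Subgroup ℂˣ)
    (Rel₁ : Set (FreeGroup (κ₁ ⊕ ι₁))) (Rel₂ : Set (FreeGroup (κ₂ ⊕ ι₂)))
    {n : ℕ} (h₁ : IrrDense Rel₁ φ E r₁) (h₂ : IrrDense Rel₂ φ E r₂)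
    (hr₁ : 0 < r₁) (hr₂ : 0 < r₂) (e : Fin r₁ × Fin r₂ ≃ Fin n) (P : (Mat n ℂ)ˣ)
    (z₁ : FreeGroup (κ₁ ⊕ ι₁) →* (Mat r₁ ℂ)ˣ) (z₂ : FreeGroup (κ₂ ⊕ ι₂) →* (Mat r₂ ℂ)ˣ)
    (ht₁ : Algebra.adjoin ℂ (Set.range fun w => (z₁ w : Mat r₁ ℂ)) = ⊤)
    (ht₂ : Algebra.adjoin ℂ (Set.range fun w => (z₂ w : Mat r₂ ℂ)) = ⊤)
    (hz₁ : ∀ w ∈ Rel₁, z₁ w = 1) (hz₂ : ∀ w ∈ Rel₂, z₂ w = 1)
    (C : ι₁ ⊕ ι₂ → (Mat n ℂ)ˣ) (hC : ∀ j, EigIn E (C j : Mat n ℂ))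
    (hconj : ∀ j, IsConj (C j) (conjH P (ten e z₁ z₂) (FreeGroup.of (Sum.inr j))))
    (f : MvPolynomial (((κ₁ ⊕ κ₂) ⊕ (ι₁ ⊕ ι₂)) × Fin n × Fin n) ℂ)
    (hf : ∀ y ∈ DGT (prodRel Rel₁ Rel₂) φ C, evalG y f = 0) :
    evalG (conjH P (ten e z₁ z₂)) f = 0 := by
  obtain ⟨C₁, hC₁⟩ : ∃ C₁ : ι₁ → (Mat r₁ ℂ)ˣ, ∀ j, C₁ j = z₁ (FreeGroup.of (Sum.inr j)) :=
    ⟨_, fun j => rfl⟩
  obtain ⟨C₂, hC₂⟩ : ∃ C₂ : ι₂ → (Mat r₂ ℂ)ˣ, ∀ j, C₂ j = z₂ (FreeGroup.of (Sum.inr j)) :=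
    ⟨_, fun j => rfl⟩
  have hCC₁ : ∀ j, IsConj (C (Sum.inl j)) (krU₁ e (C₁ j)) := fun j => by
    rw [hC₁]
    exact (hconj (Sum.inl j)).trans (conj_boundary₁ e P z₁ z₂ j)
  have hCC₂ : ∀ j, IsConj (C (Sum.inr j)) (krU₂ e (C₂ j)) := fun j => by
    rw [hC₂]
    exact (hconj (Sum.inr j)).trans (conj_boundary₂ e P z₁ z₂ j)
  have hE₁ : ∀ j, EigIn E (C₁ j : Mat r₁ ℂ) := by
    intro j
    have h := (hC (Sum.inl j)).conj (hCC₁ j)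
    rw [krU₁_coe] at h
    exact h.kr₁ hr₂
  have hE₂ : ∀ j, EigIn E (C₂ j : Mat r₂ ℂ) := by
    intro j
    have h := (hC (Sum.inr j)).conj (hCC₂ j)
    rw [krU₂_coe] at h
    exact h.kr₂ hr₁
  have hY₁ : z₁ ∈ YG Rel₁ C₁ :=
    ⟨hz₁, fun j => by rw [hC₁], ss_of_adjoin z₁ ht₁⟩
  have hY₂ : z₂ ∈ YG Rel₂ C₂ :=
    ⟨hz₂, fun j => by rw [hC₂], ss_of_adjoin z₂ ht₂⟩
  refine ten_dense₂ φ E Rel₂ h₂ e P z₁ z₂ ht₂ C₂ hE₂ hY₂ f fun y₂ hy₂ => ?_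
  refine ten_dense₁ φ E Rel₁ h₁ e P z₁ y₂ ht₁ C₁ hE₁ hY₁ f fun y₁ hy₁ => ?_
  exact conj_vanish_DGT φ f hf (ten e y₁ y₂) (ten_mem_DGT φ e hCC₁ hCC₂ hy₁ hy₂) P

/-- TASK G6b -/
theorem prod_irrDense {R : Type*} [CommRing R] (φ : R →+* ℂ) (E : Subgroup ℂˣ)
    (Rel₁ : Set (FreeGroup (κ₁ ⊕ ι₁))) (Rel₂ : Set (FreeGroup (κ₂ ⊕ ι₂)))
    (h₁ : ∀ r' ≤ r, 0 < r' → IrrDense Rel₁ φ E r') (h₂ : ∀ r' ≤ r, 0 < r' → IrrDense Rel₂ φ E r') :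
    ∀ r' ≤ r, 0 < r' → IrrDense (prodRel Rel₁ Rel₂) φ E r' := by
  intro n hn hpos C hC x hx hcen f hf
  have hxtop := burnside_top x hx.2.2 hcen
  obtain ⟨r₁, r₂, e, P, z₁, z₂, hr₁, hr₂, ht₁, ht₂, hz₁, hz₂, rfl⟩ :=
    exists_ten hpos x hx.1 hxtop
  have hcard : r₁ * r₂ = n := by
    have := Fintype.card_congr e
    simpa using this
  have hle₁ : r₁ ≤ r := le_trans (by rw [← hcard]; exact Nat.le_mul_of_pos_right _ hr₂) hn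
  have hle₂ : r₂ ≤ r := le_trans (by rw [← hcard]; exact Nat.le_mul_of_pos_left _ hr₁) hn
  exact ten_dense φ E Rel₁ Rel₂ (h₁ r₁ hle₁ hr₁) (h₂ r₂ hle₂ hr₂) hr₁ hr₂ e P z₁ z₂ ht₁ ht₂
    hz₁ hz₂ C hC hx.2.1 f hf

/-- TASK G6b -/
theorem prod_charOK (Rel₁ : Set (FreeGroup (κ₁ ⊕ ι₁))) (Rel₂ : Set (FreeGroup (κ₂ ⊕ ι₂)))
    (h₁ : CharOK Rel₁) (h₂ : CharOK Rel₂) : CharOK (prodRel Rel₁ Rel₂) := by
  intro w hw A _ χ hχ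
  rw [prodRel_eqn] at hw
  rcases hw with ⟨w', hw', rfl⟩ | ⟨w', hw', rfl⟩ | ⟨k, l, rfl⟩
  · refine h₁ w' hw' A (χ.comp (FreeGroup.map inc₁)) fun j => ?_
    rw [MonoidHom.comp_apply, FreeGroup.map.of]
    exact hχ (Sum.inl j)
  · refine h₂ w' hw' A (χ.comp (FreeGroup.map inc₂)) fun j => ?_
    rw [MonoidHom.comp_apply, FreeGroup.map.of]
    exact hχ (Sum.inr j)
  · rw [map_mul, map_mul, map_mul, map_inv, map_inv, mul_right_comm, mul_assoc,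
      mul_comm (χ (FreeGroup.of (inc₁ k))), mul_assoc]
    simp

end Prod

end Vale.Agent.P002R
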