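import Vale.Agent.P002R.RDefs

/-!
# General groups and general coefficient rings: definitions
-/

namespace Vale.Agent.P002R

open Matrix

/-- Conditions on the coefficient ring. `E` is a group of complex numbers that contains `-1` and
all eigenvalues of the boundary classes; the ring contains all `k`-th roots of elements of `E`,
`k ≤ r`, and a unit which is free modulo `E`. -/
structure CoefOK {R : Type*} [CommRing R] (φ : R →+* ℂ) (E : Subgroup ℂˣ) (r : ℕ) : Prop where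
  inj : Function.Injective φ
  neg : (-1 : ℂˣ) ∈ E
  root : ∀ k : ℕ, 0 < k → k ≤ r → ∀ z : ℂˣ, z ^ k ∈ E → (z : ℂ) ∈ Set.range φ
  unit : ∃ u : Rˣ, ∀ k : ℕ, 0 < k → Units.map (φ : R →* ℂ) u ^ k ∉ E

/-- All eigenvalues are in `E`. -/
def EigIn (E : Subgroup ℂˣ) {r : ℕ} (M : Mat r ℂ) : Prop :=
  ∀ z : ℂ, M.charpoly.IsRoot z → ∃ e ∈ E, (e : ℂ) = z

variable {κ ι κ₁ ι₁ κ₂ ι₂ : Type} {r : ℕ}

/-- Semisimple representations of the group with generators `κ ⊕ ι` and relators `Rel`, with the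
boundary generator `j : ι` in the class of `C j`. -/
def YG (Rel : Set (FreeGroup (κ ⊕ ι))) (C : ι → (Mat r ℂ)ˣ) :
    Set (FreeGroup (κ ⊕ ι) →* (Mat r ℂ)ˣ) :=
  {x | (∀ w ∈ Rel, x w = 1) ∧ (∀ j, IsConj (C j) (x (FreeGroup.of (Sum.inr j)))) ∧ SS x}

/-- Those which are integral up to scalars. -/
def DG (Rel : Set (FreeGroup (κ ⊕ ι))) {R : Type*} [CommRing R] (φ : R →+* ℂ)
    (C : ι → (Mat r ℂ)ˣ) : Set (FreeGroup (κ ⊕ ι) →* (Mat r ℂ)ˣ) :=
  {x | x ∈ YG Rel C ∧ ∀ k, x (FreeGroup.of k) ∈ GR r φ}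

/-- Those which are integral up to scalars and absolutely irreducible. -/
def DGT (Rel : Set (FreeGroup (κ ⊕ ι))) {R : Type*} [CommRing R] (φ : R →+* ℂ)
    (C : ι → (Mat r ℂ)ˣ) : Set (FreeGroup (κ ⊕ ι) →* (Mat r ℂ)ˣ) :=
  {x | x ∈ DG Rel φ C ∧ Algebra.adjoin ℂ (Set.range fun w => (x w : Mat r ℂ)) = ⊤}

/-- Characters which are trivial on the boundary generators respect the relators. -/
def CharOK (Rel : Set (FreeGroup (κ ⊕ ι))) : Prop :=
  ∀ w ∈ Rel, ∀ (A : Type) [CommGroup A] (χ : FreeGroup (κ ⊕ ι) →* A),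
    (∀ j, χ (FreeGroup.of (Sum.inr j)) = 1) → χ w = 1

/-- Irreducible representations of dimension `r` are in the Zariski closure of the irreducible
integral ones (integral up to scalars), with the same boundary classes. -/
def IrrDense (Rel : Set (FreeGroup (κ ⊕ ι))) {R : Type*} [CommRing R] (φ : R →+* ℂ)
    (E : Subgroup ℂˣ) (r : ℕ) : Prop :=
  ∀ C : ι → (Mat r ℂ)ˣ, (∀ j, EigIn E (C j : Mat r ℂ)) → ∀ x ∈ YG Rel C,
    (∀ M : Mat r ℂ, (∀ w, Commute M (x w : Mat r ℂ)) → ∃ c : ℂ, M = c • (1 : Mat r ℂ)) →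
    ∀ f : MvPolynomial ((κ ⊕ ι) × Fin r × Fin r) ℂ, (∀ y ∈ DGT Rel φ C, evalG y f = 0) →
      evalG x f = 0

/-! ### Products -/

/-- Inclusion of the generators of the first factor. -/
def inc₁ : κ₁ ⊕ ι₁ → (κ₁ ⊕ κ₂) ⊕ (ι₁ ⊕ ι₂) := Sum.map Sum.inl Sum.inl

/-- Inclusion of the generators of the second factor. -/
def inc₂ : κ₂ ⊕ ι₂ → (κ₁ ⊕ κ₂) ⊕ (ι₁ ⊕ ι₂) := Sum.map Sum.inr Sum.inr

/-- The relators of the product of two groups. -/
def prodRel (Rel₁ : Set (FreeGroup (κ₁ ⊕ ι₁))) (Rel₂ : Set (FreeGroup (κ₂ ⊕ ι₂))) :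
    Set (FreeGroup ((κ₁ ⊕ κ₂) ⊕ (ι₁ ⊕ ι₂))) :=
  (FreeGroup.map inc₁ '' Rel₁) ∪ (FreeGroup.map inc₂ '' Rel₂) ∪
    {w | ∃ (k : κ₁ ⊕ ι₁) (l : κ₂ ⊕ ι₂), w =
      FreeGroup.of (inc₁ k) * FreeGroup.of (inc₂ l) * (FreeGroup.of (inc₁ k))⁻¹ *
        (FreeGroup.of (inc₂ l))⁻¹}

/-! ### Block data over a general coefficient ring -/

/-- Multiplicative independence modulo `E`, up to degree `D`. -/
def FreeMod (E : Subgroup ℂˣ) (D : ℕ) (τ : Fin r → ℂ) : Prop :=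
  ∀ e e' : Fin r → ℕ, ∑ i, e i = ∑ i, e' i → ∑ i, e i ≤ D →
    (∃ ε ∈ E, ∏ i, τ i ^ e i = (ε : ℂ) * ∏ i, τ i ^ e' i) → e = e'

/-- Block data: after conjugation by `U` the matrices `P q` are block upper triangular for the
block function `c`, the blocks are irreducible, `P q₀` is diagonal with distinct entries `α`, which
are the product of a block scalar `τ`, multiplicatively independent modulo `E`, and of elements of
`E`. -/
structure BlockDataE (E : Subgroup ℂˣ) {L : Type*} (P : L → (Mat r ℂ)ˣ) (q₀ : L) (U : (Mat r ℂ)ˣ)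
    (α : Fin r → ℂ) (c : Fin r → Fin r) (τ : Fin r → ℂ) : Prop where
  diag : (P q₀ : Mat r ℂ) = (U : Mat r ℂ) * diagonal α * ((U⁻¹ : (Mat r ℂ)ˣ) : Mat r ℂ)
  inj : Function.Injective α
  tri : ∀ q i j, c j < c i → ((U⁻¹ * P q * U : (Mat r ℂ)ˣ) : Mat r ℂ) i j = 0
  conn : ∀ i j, c i = c j → Relation.ReflTransGen
    (fun i j => ∃ q, ((U⁻¹ * P q * U : (Mat r ℂ)ˣ) : Mat r ℂ) i j ≠ 0) i j
  fac : ∀ i, ∃ ε ∈ E, α i = τ (c i) * (ε : ℂ)
  free : FreeMod E (2 * r + 3) τ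

end Vale.Agent.P002R
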