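import Vale.Agent.P002R.RBlockH
import Vale.Agent.P002R.RGDefs

/-!
# The dual lemma for block data over a general coefficient ring
-/

namespace Vale.Agent.P002R

open Matrix Filter Topology

variable {r : ℕ}

/-- Monomials in `α` of bounded degree determine their block degrees. -/
def BlockSep (D : ℕ) (α : Fin r → ℂ) (c : Fin r → Fin r) : Prop :=
  ∀ s s' : Fin r → ℕ, ∑ i, s i = ∑ i, s' i → ∑ i, s i ≤ D → ∏ i, α i ^ s i = ∏ i, α i ^ s' i →
    ∀ δ : Fin r → ℂ, ∏ i, δ (c i) ^ s i = ∏ i, δ (c i) ^ s' i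

theorem blockSep_of_fac (E : Subgroup ℂˣ) (D : ℕ) (α : Fin r → ℂ) (c : Fin r → Fin r)
    (τ : Fin r → ℂ) (hfac : ∀ i, ∃ ε ∈ E, α i = τ (c i) * (ε : ℂ)) (hfree : FreeMod E D τ) :
    BlockSep D α c := by
  classical
  intro s s' hs hD hprod δ
  choose ε hε hα using hfac
  have key : ∀ (t : Fin r → ℕ) (f : Fin r → ℂ), ∏ i, f (c i) ^ t i =
      ∏ b, f b ^ (∑ i with c i = b, t i) := by
    intro t f
    rw [← Finset.prod_fiberwise_of_maps_to (s := Finset.univ) (t := Finset.univ) (g := c)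
      (fun i _ => Finset.mem_univ _)]
    refine Finset.prod_congr rfl fun b _ => ?_
    rw [← Finset.prod_pow_eq_pow_sum]
    refine Finset.prod_congr rfl fun i hi => ?_
    rw [(Finset.mem_filter.1 hi).2]
  have hsum : ∀ t : Fin r → ℕ, ∑ b, (∑ i with c i = b, t i) = ∑ i, t i := fun t =>
    Finset.sum_fiberwise_of_maps_to (fun i _ => Finset.mem_univ _) _
  have hfac' : ∀ t : Fin r → ℕ, ∏ i, α i ^ t i =
      ((∏ i, ε i ^ t i : ℂˣ) : ℂ) * ∏ b, τ b ^ (∑ i with c i = b, t i) := by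
    intro t
    rw [← key t τ, Units.coe_prod, ← Finset.prod_mul_distrib]
    refine Finset.prod_congr rfl fun i _ => ?_
    rw [hα i, mul_pow, Units.val_pow_eq_pow_val, mul_comm]
  have he : (fun b => ∑ i with c i = b, s i) = fun b => ∑ i with c i = b, s' i := by
    apply hfree
    · rw [hsum, hsum, hs]
    · rw [hsum]; exact hD
    · refine ⟨(∏ i, ε i ^ s i)⁻¹ * ∏ i, ε i ^ s' i, ?_, ?_⟩
      · exact mul_mem (inv_mem (prod_mem fun i _ => pow_mem (hε i) _))
          (prod_mem fun i _ => pow_mem (hε i) _)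
      · have h1 := hfac' s
        rw [hprod, hfac' s'] at h1
        rw [Units.val_mul, mul_assoc, h1, ← mul_assoc, ← Units.val_mul, inv_mul_cancel,
          Units.val_one, one_mul]
  rw [key, key]
  refine Finset.prod_congr rfl fun b _ => ?_
  rw [congrFun he b]

/-- A homogeneous polynomial which vanishes at all powers of `α` vanishes at all block scalars. -/
theorem homog_block {d D : ℕ} (α : Fin r → ℂ) (c : Fin r → Fin r) (hα : BlockSep D α c)
    (hd : d ≤ D) (g : MvPolynomial (Fin r) ℂ) (hg : g.IsHomogeneous d)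
    (h : ∀ n : ℕ, MvPolynomial.eval (fun b => α b ^ n) g = 0) (δ : Fin r → ℂ) :
    MvPolynomial.eval (fun i => δ (c i)) g = 0 := by
  classical
  have hdeg : ∀ s : Fin r →₀ ℕ, s ∈ g.support → ∑ i, s i = d := by
    intro s hs
    by_contra hne
    rw [MvPolynomial.mem_support_iff] at hs
    apply hs
    apply hg.coeff_eq_zero
    rw [Finsupp.degree_eq_sum]
    exact hne
  have h1 := interp_zero (S := {s // s ∈ g.support}) (fun s => ∏ i, α i ^ (s : Fin r →₀ ℕ) i)
    (fun s => ∏ i, δ (c i) ^ (s : Fin r →₀ ℕ) i) (fun s => g.coeff s)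
    (by
      intro s s' hss
      exact hα s.1 s'.1 (by rw [hdeg _ s.2, hdeg _ s'.2]) (by rw [hdeg _ s.2]; exact hd) hss δ)
    (by
      intro n
      have h2 := MvPolynomial.eval_eq' (fun b => α b ^ n) g
      rw [h n] at h2
      have h3 := Finset.sum_coe_sort g.support
        (fun s : Fin r →₀ ℕ => g.coeff s * ∏ i, (α i ^ n) ^ s i)
      rw [h2, ← h3]
      refine Finset.sum_congr rfl fun s _ => ?_
      congr 1
      rw [← Finset.prod_pow]
      refine Finset.prod_congr rfl fun i _ => ?_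
      rw [← pow_mul, ← pow_mul, mul_comm])
  rw [MvPolynomial.eval_eq', ← Finset.sum_coe_sort]
  exact h1

/-- Extension from powers of `α` to all block scalars. -/
theorem extend_blockE {k D : ℕ} (hk : k + 1 ≤ D) (α : Fin r → ℂ)
    (c : Fin r → Fin r) (hα : BlockSep D α c) (μ A X Y : Mat r ℂ)
    (h : ∀ n : ℕ, Phi k μ A (X * diagonal (fun i => α i ^ n) * Y) = 0) (δ : Fin r → ℂ) :
    Phi k μ A (X * diagonal (fun i => δ (c i)) * Y) = 0 := by
  obtain ⟨C, hC⟩ : ∃ C : ℂ →+* MvPolynomial (Fin r) ℂ, C = MvPolynomial.C := ⟨_, rfl⟩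
  obtain ⟨Z, hZ⟩ : ∃ Z : Mat r (MvPolynomial (Fin r) ℂ), Z = X.map C * genD id * Y.map C :=
    ⟨_, rfl⟩
  have hZh : HomM 1 Z := by
    rw [hZ, hC]
    have h := ((HomM.const X).mul (HomM.genD id)).mul (HomM.const Y)
    simpa using h
  have hev : ∀ δ : Fin r → ℂ, MvPolynomial.eval δ (Phi k (μ.map C) (A.map C) Z) =
      Phi k μ A (X * diagonal δ * Y) := by
    intro δ
    have hid : ∀ U : Mat r ℂ, (U.map C).map (MvPolynomial.eval δ) = U := by
      intro U
      ext i j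
      simp [hC]
    rw [Phi_map, hid, hid, hZ, Matrix.map_mul, Matrix.map_mul, hid, hid]
    congr 3
    ext i j
    rw [Matrix.map_apply, genD]
    by_cases hij : i = j
    · subst hij; simp
    · simp [diagonal_apply_ne _ hij]
  rw [← hev]
  refine homog_block α c hα hk _ ?_ (fun n => ?_) δ
  · rw [hC]; exact Phi_homog k μ A hZh
  · rw [hev]
    exact h n

section

variable {L : Type*} (P : L → (Mat r ℂ)ˣ)

/-- `Phi` vanishes at all block scalar multiples of the block diagonal parts. -/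
theorem Phi_blockE (A μ : Mat r ℂ) (q₀ : L) (α : Fin r → ℂ)
    (hq₀ : (P q₀ : Mat r ℂ) = diagonal α)
    (c : Fin r → Fin r) (htri : ∀ q i j, c j < c i → (P q : Mat r ℂ) i j = 0)
    (D : ℕ) (hα : BlockSep D α c)
    (h : ∀ (p : List L) (k : ℕ), Phi k μ A (wP P p : Mat r ℂ) = 0) (p : List L) (k : ℕ)
    (hk : k + 1 ≤ D) (δ : Fin r → ℂ) :
    Phi k μ A (diagonal (fun i => δ (c i)) * blkD c (wP P p : Mat r ℂ)) = 0 := by
  have hT : ∀ n : ℕ, (wP P (List.replicate n q₀) : Mat r ℂ) =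
      diagonal fun i => α i ^ n := wP_replicate P q₀ α hq₀
  have h1 : ∀ (p : List L) (δ : Fin r → ℂ),
      Phi k μ A (diagonal (fun i => δ (c i)) * (wP P p : Mat r ℂ)) = 0 := by
    intro p δ
    have := extend_blockE hk α c hα μ A 1 (wP P p : Mat r ℂ) (fun n => by
      rw [← hT n, one_mul, ← Units.val_mul, ← wP_append]
      exact h _ k) δ
    rwa [one_mul] at this
  have h2 : ∀ (δ δ' : Fin r → ℂ), Phi k μ A (diagonal (fun i => δ (c i)) * (wP P p : Mat r ℂ) *
      diagonal (fun i => δ' (c i))) = 0 := by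
    intro δ δ'
    have := extend_blockE hk α c hα μ A (diagonal (fun i => δ (c i)) * (wP P p : Mat r ℂ)) 1
      (fun n => by
        rw [← hT n, mul_one, mul_assoc, ← Units.val_mul, ← wP_append]
        exact h1 _ δ) δ'
    rwa [mul_one] at this
  -- the degeneration
  obtain ⟨W, hW⟩ : ∃ W : ℂ → Mat r ℂ, W = fun t => Matrix.of fun i j =>
    if c i ≤ c j then t ^ ((c j : ℕ) - (c i : ℕ)) * (wP P p : Mat r ℂ) i j else 0 := ⟨_, rfl⟩
  have hWc : Continuous W := by
    rw [hW]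
    apply continuous_matrix
    intro i j
    simp only [Matrix.of_apply]
    split_ifs
    · exact (continuous_id.pow _).mul continuous_const
    · exact continuous_const
  have hW0 : W 0 = blkD c (wP P p : Mat r ℂ) := by
    rw [hW]
    ext i j
    simp only [blkD, Matrix.of_apply]
    by_cases h3 : c i = c j
    · rw [if_pos h3, if_pos h3.le, h3, Nat.sub_self, pow_zero, one_mul]
    · rw [if_neg h3]
      split_ifs with h4
      · rw [zero_pow, zero_mul]
        have : (c i : ℕ) ≠ (c j : ℕ) := fun h => h3 (Fin.ext h)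
        have : (c i : ℕ) ≤ (c j : ℕ) := h4
        omega
      · rfl
  have hWt : ∀ t : ℂ, t ≠ 0 → diagonal (fun i => δ (c i)) * W t =
      diagonal (fun i => (fun b : Fin r => δ b * (t⁻¹) ^ (b : ℕ)) (c i)) * (wP P p : Mat r ℂ) *
        diagonal (fun i => (fun b : Fin r => t ^ (b : ℕ)) (c i)) := by
    intro t ht
    ext i j
    rw [mul_diagonal, diagonal_mul, diagonal_mul, hW]
    simp only [Matrix.of_apply]
    split_ifs with h4
    · have h5 : t ^ ((c j : ℕ)) = t ^ ((c j : ℕ) - (c i : ℕ)) * t ^ (c i : ℕ) := by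
        rw [← pow_add, Nat.sub_add_cancel h4]
      rw [h5, inv_pow]
      have h6 : t ^ (c i : ℕ) ≠ 0 := pow_ne_zero _ ht
      field_simp
    · rw [wP_tri P c htri p i j (not_le.1 h4)]
      ring
  have hcl : (fun t => Phi k μ A (diagonal (fun i => δ (c i)) * W t)) = fun _ => 0 := by
    apply Continuous.ext_on (dense_compl_singleton (0 : ℂ))
      (Phi_continuous k μ A (continuous_const.matrix_mul hWc)) continuous_const
    intro t ht
    simp only
    rw [hWt t ht]
    exact h2 (fun b : Fin r => δ b * (t⁻¹) ^ (b : ℕ)) (fun b : Fin r => t ^ (b : ℕ))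
  have h5 : Phi k μ A (diagonal (fun i => δ (c i)) * W 0) = 0 := congrFun hcl 0
  rwa [hW0] at h5

/-- The main lemma when `P q₀` is diagonal. -/
theorem exists_dual_diagE (K₀ : Subfield ℂ) [Countable K₀] (hr : 1 ≤ r) (q₀ : L) (α : Fin r → ℂ)
    (hα : Function.Injective α) (hq₀ : (P q₀ : Mat r ℂ) = diagonal α) (c : Fin r → Fin r)
    (htri : ∀ q i j, c j < c i → (P q : Mat r ℂ) i j = 0)
    (hconn : ∀ i j, c i = c j →
      Relation.ReflTransGen (fun i j => ∃ q, (P q : Mat r ℂ) i j ≠ 0) i j)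
    (hsep : BlockSep (2 * r + 3) α c) :
    ∃ A : (Mat r ℂ)ˣ, AlgebraicIndependent K₀ (fun p : Fin r × Fin r => (A : Mat r ℂ) p.1 p.2) ∧
      DualProp P A := by
  classical
  have hconn' : ∀ i j, c i = c j → ∃ p, (wP P p : Mat r ℂ) i j ≠ 0 := fun i j hij =>
    exists_word P q₀ α hα hq₀ i j (hconn i j hij)
  choose A B hA hAB hB using exists_generic_near K₀ (Bsp c)
  by_contra hcon
  push Not at hcon
  have hnot : ∀ n, ¬ DualProp P (A n) := fun n => hcon (A n) (hA n)
  let i₀ : Fin r := ⟨0, hr⟩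
  have : Nonempty (Fin r) := ⟨i₀⟩
  let rep : Fin r → Fin r := fun i => Function.invFun c (c i)
  have hrep : ∀ i, c (rep i) = c i := fun i => Function.invFun_eq ⟨i, rfl⟩
  have hrep' : ∀ i j, c i = c j → rep i = rep j := fun i j h => by simp only [rep, h]
  have hmu : ∀ n, ∃ f : Fin r → Fin r → ℂ, MuOK P (A n : Mat r ℂ) (Matrix.of f) ∧
      (∀ i j, c i = c j → f i j = 0) ∧ (∀ i, f (rep i) i₀ = 0) ∧ ‖f‖ = 1 := by
    intro n
    by_contra hcon2
    apply hnot n
    apply dual_of_mu P (A n) q₀ α hα hq₀ (generic_gen3 (hA n)).1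
    intro μ hμ
    by_contra hne
    exact hcon2 (hμ.normalize hne c rep hrep hrep' i₀ hconn')
  choose f hf1 hf2 hf3 hf4 using hmu
  obtain ⟨f', hf', φ, hφ, hlim⟩ := (isCompact_sphere (0 : Fin r → Fin r → ℂ) 1).tendsto_subseq
    (x := f) (fun n => by rw [mem_sphere_zero_iff_norm]; exact hf4 n)
  rw [mem_sphere_zero_iff_norm] at hf'
  have hlim' : Tendsto (fun n => (Matrix.of (f (φ n)) : Mat r ℂ)) atTop (𝓝 (Matrix.of f')) := hlim
  have hε0 : Tendsto (fun n : ℕ => (((n : ℂ) + 1)⁻¹)) atTop (𝓝 0) := by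
    have h1 : Tendsto (fun n : ℕ => ‖(((n : ℂ) + 1)⁻¹)‖) atTop (𝓝 0) := by
      have h2 : (fun n : ℕ => ‖(((n : ℂ) + 1)⁻¹)‖) = fun n : ℕ => 1 / ((n : ℝ) + 1) := by
        funext n
        have : ((n : ℂ) + 1) = (((n : ℝ) + 1 : ℝ) : ℂ) := by push_cast; rfl
        rw [norm_inv, this, Complex.norm_real, Real.norm_of_nonneg (by positivity), one_div]
      rw [h2]
      exact tendsto_one_div_add_atTop_nhds_zero_nat
    exact tendsto_zero_iff_norm_tendsto_zero.2 h1
  have hBlim : Tendsto B atTop (𝓝 (Bsp c)) := by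
    refine tendsto_pi_nhds.2 fun i => tendsto_pi_nhds.2 fun j => ?_
    rw [tendsto_iff_norm_sub_tendsto_zero]
    exact squeeze_zero (fun n => norm_nonneg _) (fun n => (hB n i j).le)
      tendsto_one_div_add_atTop_nhds_zero_nat
  have hL := limOK_of_seq P c (2 * r + 3) (by omega) (fun n => Matrix.of (f (φ n)))
    (fun n => B (φ n)) (fun n => ((((φ n : ℕ) : ℂ) + 1)⁻¹))
    (fun n => inv_ne_zero (by exact_mod_cast Nat.succ_ne_zero (φ n))) (Matrix.of f') (Bsp c) hlim'
    (hBlim.comp hφ.tendsto_atTop) (hε0.comp hφ.tendsto_atTop) (fun n i j hij => hf2 (φ n) i j hij)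
    (fun n p k hk δ => by
      have := Phi_blockE P (A (φ n) : Mat r ℂ) (Matrix.of (f (φ n))) q₀ α hq₀ c htri (2 * r + 3)
        hsep (hf1 (φ n)).2 p k hk δ
      rw [hAB] at this
      exact this)
  have hcoc := hL.cocycle (by omega) (by omega) q₀ α hα hq₀ htri hconn'
  have hz : ∀ i, f' i i₀ = 0 := by
    intro i
    have h1 := hcoc i (rep i) i₀
    have h2 : f' i (rep i) = 0 := hL.zero i (rep i) (hrep i).symm
    have h3 : f' (rep i) i₀ = 0 := by
      have h4 : Tendsto (fun n => f (φ n) (rep i) i₀) atTop (𝓝 (f' (rep i) i₀)) :=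
        tendsto_pi_nhds.1 (tendsto_pi_nhds.1 hlim (rep i)) i₀
      have h5 : (fun n => f (φ n) (rep i) i₀) = fun _ => 0 := funext fun n => hf3 (φ n) i
      rw [h5] at h4
      exact tendsto_nhds_unique h4 tendsto_const_nhds
    simp only [Matrix.of_apply] at h1
    rw [h1, h2, h3, add_zero]
  have hf0 : f' = 0 := by
    funext i j
    have h1 := hcoc i j i₀
    simp only [Matrix.of_apply] at h1
    rw [hz, hz] at h1
    rw [Pi.zero_apply, Pi.zero_apply]
    linear_combination -h1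
  rw [hf0, norm_zero] at hf'
  exact zero_ne_one hf'

end

/-- BLOCK DUAL LEMMA. -/
theorem exists_dualE {L : Type*} (E : Subgroup ℂˣ) (K₀ : Subfield ℂ) [Countable K₀] (hr : 1 ≤ r)
    (P : L → (Mat r ℂ)ˣ) (q₀ : L) (U : (Mat r ℂ)ˣ) (α : Fin r → ℂ) (c : Fin r → Fin r)
    (τ : Fin r → ℂ) (hB : BlockDataE E P q₀ U α c τ)
    (hU : ∀ i j, (U : Mat r ℂ) i j ∈ K₀) (hU' : ∀ i j, ((U⁻¹ : (Mat r ℂ)ˣ) : Mat r ℂ) i j ∈ K₀) :
    ∃ A : (Mat r ℂ)ˣ, AlgebraicIndependent K₀ (fun p : Fin r × Fin r => (A : Mat r ℂ) p.1 p.2) ∧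
      DualProp P A := by
  have hU2 : ((U⁻¹ : (Mat r ℂ)ˣ) : Mat r ℂ) * (U : Mat r ℂ) = 1 := U.inv_mul
  obtain ⟨A', h1, h2⟩ := exists_dual_diagE (fun q => U⁻¹ * P q * U) K₀ hr q₀ α hB.inj (by
    simp only [Units.val_mul, hB.diag]
    calc _ = (((U⁻¹ : (Mat r ℂ)ˣ) : Mat r ℂ) * (U : Mat r ℂ)) * diagonal α *
          (((U⁻¹ : (Mat r ℂ)ˣ) : Mat r ℂ) * (U : Mat r ℂ)) := by simp only [mul_assoc]
      _ = _ := by rw [hU2, one_mul, mul_one]) c hB.tri hB.conn
    (blockSep_of_fac E _ α c τ hB.fac hB.free)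
  refine ⟨U * A' * U⁻¹, ?_, ?_⟩
  · have := generic_mul h1 (U : Mat r ℂ) ((U⁻¹ : (Mat r ℂ)ˣ) : Mat r ℂ) hU hU' U.isUnit
      U⁻¹.isUnit
    exact this
  · apply DualProp.conj P _ U
    have : U⁻¹ * (U * A' * U⁻¹) * U = A' := by group
    rw [this]
    exact h2

end Vale.Agent.P002R
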