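import Vale.Agent.P002R.RDefs

/-!
# P002R TASK G1: generic matrices over a countable subfield
-/

namespace Vale.Agent.P002R

open Matrix

variable {g m n r : ℕ}

theorem generic_mul {K₀ : Subfield ℂ} {A : Mat r ℂ}
    (hA : AlgebraicIndependent K₀ fun p : Fin r × Fin r => A p.1 p.2) (P Q : Mat r ℂ)
    (hP : ∀ i j, P i j ∈ K₀) (hQ : ∀ i j, Q i j ∈ K₀) (hPu : IsUnit P) (hQu : IsUnit Q) :
    AlgebraicIndependent K₀ fun p : Fin r × Fin r => (P * A * Q) p.1 p.2 := by
  obtain ⟨P', hP'⟩ : ∃ P' : Mat r K₀, P'.map K₀.subtype = P :=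
    ⟨Matrix.of fun i j => ⟨P i j, hP i j⟩, by ext i j; rfl⟩
  obtain ⟨Q', hQ'⟩ : ∃ Q' : Mat r K₀, Q'.map K₀.subtype = Q :=
    ⟨Matrix.of fun i j => ⟨Q i j, hQ i j⟩, by ext i j; rfl⟩
  have hdet : ∀ (M' : Mat r K₀) (M : Mat r ℂ), M'.map K₀.subtype = M → IsUnit M →
      IsUnit M'.det := by
    intro M' M h hM
    rw [Matrix.isUnit_iff_isUnit_det, isUnit_iff_ne_zero] at hM
    rw [isUnit_iff_ne_zero]
    intro h0
    apply hM
    rw [← h]
    have : (M'.map K₀.subtype).det = K₀.subtype M'.det := (K₀.subtype.map_det M').symm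
    rw [this, h0, map_zero]
  have hP'u := hdet P' P hP' hPu
  have hQ'u := hdet Q' Q hQ' hQu
  rw [algebraicIndependent_iff]
  intro f hf
  -- the substituted polynomial
  obtain ⟨G, hG⟩ : ∃ G : MvPolynomial (Fin r × Fin r) K₀, G =
      MvPolynomial.aeval (fun p : Fin r × Fin r =>
        (P'.map (algebraMap K₀ (MvPolynomial (Fin r × Fin r) K₀)) *
          mvPolynomialX (Fin r) (Fin r) K₀ *
          Q'.map (algebraMap K₀ (MvPolynomial (Fin r × Fin r) K₀)) :
            Mat r (MvPolynomial (Fin r × Fin r) K₀)) p.1 p.2) f := ⟨_, rfl⟩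
  have key : ∀ {S : Type} [CommRing S] [Algebra K₀ S] (M : Mat r S),
      MvPolynomial.aeval (fun p : Fin r × Fin r => M p.1 p.2) G =
        MvPolynomial.aeval (fun p : Fin r × Fin r =>
          (P'.map (algebraMap K₀ S) * M * Q'.map (algebraMap K₀ S)) p.1 p.2) f := by
    intro S _ _ M
    rw [hG]
    rw [← AlgHom.comp_apply, MvPolynomial.comp_aeval]
    congr 2
    funext p
    simp only [Matrix.mul_apply, mvPolynomialX_apply, Matrix.map_apply, map_sum, map_mul,
      MvPolynomial.aeval_X, AlgHom.commutes]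
  have hG0 : G = 0 := by
    refine (algebraicIndependent_iff.1 hA) G ((key A).trans ?_)
    rw [← hf]
    congr 2
    funext p
    rw [← hP', ← hQ']
    rfl
  refine MvPolynomial.funext fun x => ?_
  obtain ⟨N, hN⟩ : ∃ N : Mat r K₀, N = Matrix.of fun i j => x (i, j) := ⟨_, rfl⟩
  have h1 := key (P'⁻¹ * N * Q'⁻¹)
  have hid : ∀ M : Mat r K₀, M.map (algebraMap K₀ K₀) = M := by
    intro M
    ext i j
    rfl
  have hcancel : P' * (P'⁻¹ * N * Q'⁻¹) * Q' = N := by
    calc P' * (P'⁻¹ * N * Q'⁻¹) * Q' = (P' * P'⁻¹) * N * (Q'⁻¹ * Q') := by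
          simp only [Matrix.mul_assoc]
      _ = N := by
          rw [Matrix.mul_nonsing_inv _ hP'u, Matrix.nonsing_inv_mul _ hQ'u, Matrix.one_mul,
            Matrix.mul_one]
  rw [hid, hid, hcancel, hG0, map_zero] at h1
  rw [map_zero]
  have h2 : (fun p : Fin r × Fin r => N p.1 p.2) = x := by
    funext p; rw [hN]; rfl
  rw [h2] at h1
  rw [h1]
  rfl

theorem generic_gen3 {K₀ : Subfield ℂ} {A : Mat r ℂ}
    (hA : AlgebraicIndependent K₀ fun p : Fin r × Fin r => A p.1 p.2) : Gen3 A := by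
  classical
  constructor
  · intro i j h
    exact hA.ne_zero (i, j) h
  · intro i j k hij hjk hik h
    have h1 : (MvPolynomial.aeval fun p : Fin r × Fin r => A p.1 p.2)
        ((MvPolynomial.X (i, j) * MvPolynomial.X (j, k) * MvPolynomial.X (k, i) -
          MvPolynomial.X (i, k) * MvPolynomial.X (k, j) * MvPolynomial.X (j, i) :
            MvPolynomial (Fin r × Fin r) K₀)) = 0 := by
      simp only [map_sub, map_mul, MvPolynomial.aeval_X]
      rw [h, sub_self]
    have h2 := (algebraicIndependent_iff.1 hA) _ h1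
    have h3 := congrArg (MvPolynomial.eval (fun p : Fin r × Fin r =>
      if p = (i, j) ∨ p = (j, k) ∨ p = (k, i) then (1 : K₀) else 0)) h2
    have hji : j ≠ i := fun h => hij h.symm
    have hkj : k ≠ j := fun h => hjk h.symm
    have hki : k ≠ i := fun h => hik h.symm
    simp [hij, hjk, hik, hji, hkj, hki] at h3

theorem exists_generic_over (K₀ : Subfield ℂ) [Countable K₀] (r : ℕ) :
    ∃ A : (Mat r ℂ)ˣ, AlgebraicIndependent K₀ fun p : Fin r × Fin r => (A : Mat r ℂ) p.1 p.2 := by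
  obtain ⟨s, hs⟩ := exists_isTranscendenceBasis K₀ ℂ
  have hR : Cardinal.mk K₀ ≤ Cardinal.aleph0 := Cardinal.mk_le_aleph0
  have hK : Cardinal.aleph0 < Cardinal.mk ℂ := by
    rw [Cardinal.mk_complex]; exact Cardinal.aleph0_lt_continuum
  have h1 := IsAlgClosed.cardinal_eq_cardinal_transcendence_basis_of_aleph0_lt' _ hs hR hK
  have h2 : Infinite s := by
    rw [Cardinal.infinite_iff, ← h1]
    exact hK.le
  obtain ⟨n, ⟨e⟩⟩ := Finite.exists_equiv_fin (Fin r × Fin r)
  obtain ⟨c, hc⟩ : ∃ c : Fin r × Fin r → ℂ, AlgebraicIndependent K₀ c := by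
    refine ⟨fun x => ((Infinite.natEmbedding s (e x : ℕ) : s) : ℂ), ?_⟩
    exact hs.1.comp (fun x => Infinite.natEmbedding s (e x : ℕ)) fun x y hxy =>
      e.injective (Fin.ext ((Infinite.natEmbedding s).injective hxy))
  have hC : AlgebraicIndependent K₀ fun p : Fin r × Fin r =>
      (Matrix.of fun i j => c (i, j) : Mat r ℂ) p.1 p.2 := hc
  have hu : IsUnit (Matrix.of fun i j => c (i, j) : Mat r ℂ) := by
    rw [Matrix.isUnit_iff_isUnit_det, isUnit_iff_ne_zero]
    intro h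
    have h1 : (MvPolynomial.aeval fun p : Fin r × Fin r =>
        (Matrix.of fun i j => c (i, j) : Mat r ℂ) p.1 p.2)
        (det (mvPolynomialX (Fin r) (Fin r) K₀)) = 0 := by
      rw [AlgHom.map_det, mvPolynomialX_mapMatrix_aeval, h]
    exact det_mvPolynomialX_ne_zero (Fin r) K₀ (hC (h1.trans (map_zero _).symm))
  obtain ⟨A, hA⟩ := hu
  refine ⟨A, ?_⟩
  rw [hA]
  exact hC

theorem exists_countable_subfield (s : Set ℂ) (hs : s.Countable) :
    ∃ K₀ : Subfield ℂ, Countable K₀ ∧ s ⊆ (K₀ : Set ℂ) := by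
  refine ⟨Subfield.closure s, ?_, Subfield.subset_closure⟩
  rw [← Cardinal.mk_le_aleph0_iff]
  refine (Subfield.cardinalMk_closure_le_max s).trans ?_
  exact max_le (Cardinal.le_aleph0_iff_set_countable.2 hs) le_rfl

end Vale.Agent.P002R
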