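import Vale.Agent.P002R.RBlockG
import Vale.Agent.P002R.RGeneric
import Vale.Agent.P002.GenDer

/-!
# The dual lemma for block data, part H: existence of generic matrices with the dual property
-/

namespace Vale.Agent.P002R

open Matrix Filter Topology

variable {r : ℕ}

section

variable {L : Type*} (P : L → (Mat r ℂ)ˣ)

/-- Connectedness of the blocks gives words with nonzero entries. -/
theorem exists_word (q₀ : L) (α : Fin r → ℂ) (hα : Function.Injective α)
    (hq₀ : (P q₀ : Mat r ℂ) = diagonal α) (i j : Fin r)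
    (h : Relation.ReflTransGen (fun i j => ∃ q, (P q : Mat r ℂ) i j ≠ 0) i j) :
    ∃ p, (wP P p : Mat r ℂ) i j ≠ 0 := by
  induction h with
  | refl => exact ⟨[], by rw [wP, Units.val_one, Matrix.one_apply_eq]; exact one_ne_zero⟩
  | @tail j k _ hjk ih =>
    obtain ⟨p, hp⟩ := ih
    obtain ⟨q, hq⟩ := hjk
    by_contra hcon
    push Not at hcon
    have h1 := single_interp hα (fun l => (wP P p : Mat r ℂ) i l * (P q : Mat r ℂ) l k) (by
      intro n
      have h2 := hcon (p ++ (List.replicate n q₀ ++ [q]))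
      rw [wP_append, wP_append, Units.val_mul, Units.val_mul, wP_replicate P q₀ α hq₀,
        Matrix.mul_apply] at h2
      refine Eq.trans ?_ h2
      refine Finset.sum_congr rfl fun l _ => ?_
      rw [diagonal_mul]
      have : wP P [q] = P q := by simp [wP]
      rw [this]
      ring) j
    exact mul_ne_zero hp hq h1

/-- The coboundary of `η`. -/
def cobM (η : Fin r → ℂ) : Mat r ℂ := Matrix.of fun i j => η i - η j

theorem Phi_cob (k : ℕ) (A X : Mat r ℂ) (η : Fin r → ℂ) : Phi k (cobM η) A X = 0 := by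
  have h1 : cobM η ⊙ X = diagonal η * X - X * diagonal η := by
    ext i j
    rw [Matrix.hadamard_apply, cobM, Matrix.of_apply, Matrix.sub_apply, diagonal_mul, mul_diagonal]
    ring
  have h2 : (cobM η)ᵀ ⊙ A = A * diagonal η - diagonal η * A := by
    ext i j
    rw [Matrix.hadamard_apply, Matrix.transpose_apply, cobM, Matrix.of_apply, Matrix.sub_apply,
      diagonal_mul, mul_diagonal]
    ring
  have e1 : trace (X * diagonal η * A * (X * A) ^ k) = trace (diagonal η * A * X * (A * X) ^ k) := by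
    have h3 : (X * A) ^ k * X = X * (A * X) ^ k := pow_shift A X k
    calc trace (X * diagonal η * A * (X * A) ^ k) = trace (X * (diagonal η * A * (X * A) ^ k)) := by
          simp only [mul_assoc]
      _ = trace (diagonal η * A * ((X * A) ^ k * X)) := by
          rw [Matrix.trace_mul_comm]; simp only [mul_assoc]
      _ = _ := by rw [h3]; simp only [mul_assoc]
  have e2 : trace (A * diagonal η * X * (A * X) ^ k) = trace (diagonal η * X * A * (X * A) ^ k) := by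
    have h3 : (A * X) ^ k * A = A * (X * A) ^ k := pow_shift X A k
    calc trace (A * diagonal η * X * (A * X) ^ k) = trace (A * (diagonal η * X * (A * X) ^ k)) := by
          simp only [mul_assoc]
      _ = trace (diagonal η * X * ((A * X) ^ k * A)) := by
          rw [Matrix.trace_mul_comm]; simp only [mul_assoc]
      _ = _ := by rw [h3]; simp only [mul_assoc]
  unfold Phi
  rw [h1, h2, sub_mul, sub_mul, sub_mul, sub_mul, trace_sub, trace_sub, e1, e2]
  ring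

theorem Phi_add (k : ℕ) (A X μ ν : Mat r ℂ) : Phi k (μ + ν) A X = Phi k μ A X + Phi k ν A X := by
  have h1 : ∀ Y : Mat r ℂ, (μ + ν) ⊙ Y = μ ⊙ Y + ν ⊙ Y := by
    intro Y
    ext i j
    simp only [Matrix.hadamard_apply, Matrix.add_apply]
    ring
  have h2 : ∀ Y : Mat r ℂ, (μ + ν)ᵀ ⊙ Y = μᵀ ⊙ Y + νᵀ ⊙ Y := by
    intro Y
    ext i j
    simp only [Matrix.hadamard_apply, Matrix.add_apply, Matrix.transpose_apply]
    ring
  unfold Phi
  rw [h1, h2]
  simp only [add_mul, trace_add]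
  ring

theorem Phi_smul (k : ℕ) (A X μ : Mat r ℂ) (a : ℂ) : Phi k (a • μ) A X = a * Phi k μ A X := by
  have h1 : ∀ Y : Mat r ℂ, (a • μ) ⊙ Y = a • (μ ⊙ Y) := by
    intro Y
    ext i j
    simp only [Matrix.hadamard_apply, Matrix.smul_apply, smul_eq_mul]
    ring
  have h2 : ∀ Y : Mat r ℂ, (a • μ)ᵀ ⊙ Y = a • (μᵀ ⊙ Y) := by
    intro Y
    ext i j
    simp only [Matrix.hadamard_apply, Matrix.smul_apply, Matrix.transpose_apply, smul_eq_mul]
    ring
  unfold Phi
  rw [h1, h2]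
  simp only [Matrix.smul_mul, trace_smul, smul_eq_mul]
  ring

theorem MuOK.sub_cob {P : L → (Mat r ℂ)ˣ} {A μ : Mat r ℂ} (h : MuOK P A μ) (η : Fin r → ℂ) :
    MuOK P A (μ - cobM η) := by
  constructor
  · intro p p' i j k h1 h2
    have := h.1 p p' i j k h1 h2
    simp only [Matrix.sub_apply, cobM, Matrix.of_apply, this]
    ring
  · intro p k
    have h1 : μ - cobM η = μ + (-1 : ℂ) • cobM η := by
      rw [neg_one_smul, sub_eq_add_neg]
    rw [h1, Phi_add, Phi_smul, Phi_cob, h.2 p k]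
    ring

theorem MuOK.smul {P : L → (Mat r ℂ)ˣ} {A μ : Mat r ℂ} (h : MuOK P A μ) (a : ℂ) :
    MuOK P A (a • μ) := by
  constructor
  · intro p p' i j k h1 h2
    have := h.1 p p' i j k h1 h2
    simp only [Matrix.smul_apply, smul_eq_mul, this]
    ring
  · intro p k
    rw [Phi_smul, h.2 p k, mul_zero]

/-- Normalization. -/
theorem MuOK.normalize {P : L → (Mat r ℂ)ˣ} {A μ : Mat r ℂ} (h : MuOK P A μ)
    (hne : ¬ ∃ η : Fin r → ℂ, ∀ i j, μ i j = η i - η j) (c rep : Fin r → Fin r)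
    (hrep : ∀ i, c (rep i) = c i) (hrep' : ∀ i j, c i = c j → rep i = rep j) (i₀ : Fin r)
    (hconn : ∀ i j, c i = c j → ∃ p, (wP P p : Mat r ℂ) i j ≠ 0) :
    ∃ f : Fin r → Fin r → ℂ, MuOK P A (Matrix.of f) ∧ (∀ i j, c i = c j → f i j = 0) ∧
      (∀ i, f (rep i) i₀ = 0) ∧ ‖f‖ = 1 := by
  have hrr : ∀ i, rep (rep i) = rep i := fun i => hrep' _ _ (hrep i)
  have hcoc : ∀ i j k, c i = c j → c j = c k → μ i k = μ i j + μ j k := by
    intro i j k hij hjk
    obtain ⟨p, hp⟩ := hconn i j hij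
    obtain ⟨p', hp'⟩ := hconn j k hjk
    exact h.1 p p' i j k hp hp'
  have h1 := h.sub_cob fun i => μ i (rep i)
  obtain ⟨μ₁, hμ₁⟩ : ∃ μ₁, μ₁ = μ - cobM fun i => μ i (rep i) := ⟨_, rfl⟩
  have hz1 : ∀ i j, c i = c j → μ₁ i j = 0 := by
    intro i j hij
    have h2 := hcoc i j (rep j) hij (hrep j).symm
    rw [hμ₁, Matrix.sub_apply, cobM, Matrix.of_apply, hrep' i j hij, h2]
    ring
  rw [← hμ₁] at h1
  have h2 := h1.sub_cob fun i => μ₁ (rep i) i₀
  obtain ⟨μ₂, hμ₂⟩ : ∃ μ₂, μ₂ = μ₁ - cobM fun i => μ₁ (rep i) i₀ := ⟨_, rfl⟩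
  have hz2 : ∀ i j, c i = c j → μ₂ i j = 0 := by
    intro i j hij
    rw [hμ₂, Matrix.sub_apply, cobM, Matrix.of_apply, hrep' i j hij, hz1 i j hij]
    ring
  have hz3 : ∀ i, μ₂ (rep i) i₀ = 0 := by
    intro i
    rw [hμ₂, Matrix.sub_apply, cobM, Matrix.of_apply, hrr, hz1 (rep i₀) i₀ (hrep i₀)]
    ring
  rw [← hμ₂] at h2
  obtain ⟨f, hf⟩ : ∃ f : Fin r → Fin r → ℂ, f = fun i j => μ₂ i j := ⟨_, rfl⟩
  have hfμ : Matrix.of f = μ₂ := by rw [hf]; rfl
  have hf0 : f ≠ 0 := by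
    intro h0
    apply hne
    refine ⟨fun i => μ i (rep i) + μ₁ (rep i) i₀, fun i j => ?_⟩
    have h3 : μ₂ i j = 0 := by
      have := congrFun (congrFun h0 i) j
      rw [hf] at this
      exact this
    rw [hμ₂, Matrix.sub_apply, cobM, Matrix.of_apply] at h3
    have h4 : μ₁ i j = μ i j - (μ i (rep i) - μ j (rep j)) := by
      rw [hμ₁, Matrix.sub_apply, cobM, Matrix.of_apply]
    rw [h4] at h3
    linear_combination h3
  have hn : ‖f‖ ≠ 0 := norm_ne_zero_iff.2 hf0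
  refine ⟨((‖f‖⁻¹ : ℝ) : ℂ) • f, ?_, ?_, ?_, ?_⟩
  · have : Matrix.of (((‖f‖⁻¹ : ℝ) : ℂ) • f) = ((‖f‖⁻¹ : ℝ) : ℂ) • μ₂ := by
      rw [← hfμ]; rfl
    rw [this]
    exact h2.smul _
  · intro i j hij
    have : f i j = 0 := by rw [hf]; exact hz2 i j hij
    simp [this]
  · intro i
    have : f (rep i) i₀ = 0 := by rw [hf]; exact hz3 i
    simp [this]
  · rw [norm_smul, Complex.norm_real, norm_inv, norm_norm, inv_mul_cancel₀ hn]

/-- Generic matrices near `1 + ε B`. -/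
theorem exists_generic_near (K₀ : Subfield ℂ) [Countable K₀] (B : Mat r ℂ) (n : ℕ) :
    ∃ (A : (Mat r ℂ)ˣ) (B' : Mat r ℂ),
      AlgebraicIndependent K₀ (fun p : Fin r × Fin r => (A : Mat r ℂ) p.1 p.2) ∧
      (A : Mat r ℂ) = 1 + (((n : ℂ) + 1)⁻¹) • B' ∧
      ∀ i j, ‖B' i j - B i j‖ < 1 / ((n : ℝ) + 1) := by
  have hn : (0 : ℝ) < (n : ℝ) + 1 := by positivity
  have hnc : ((n : ℂ) + 1) ≠ 0 := by exact_mod_cast hn.ne'
  obtain ⟨t, ht1, ht2⟩ := P002.exists_dense_algIndep K₀ inferInstance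
    (fun p : Fin r × Fin r => Metric.ball ((1 + (((n : ℂ) + 1)⁻¹) • B) p.1 p.2)
      (1 / ((n : ℝ) + 1) / ((n : ℝ) + 1))) (fun p => Metric.isOpen_ball)
    (fun p => Metric.nonempty_ball.2 (by positivity))
  obtain ⟨A', hA'⟩ : ∃ A' : Mat r ℂ, A' = Matrix.of fun i j => t (i, j) := ⟨_, rfl⟩
  have hgen : AlgebraicIndependent K₀ (fun p : Fin r × Fin r => A' p.1 p.2) := by
    rw [hA']; exact ht2
  have hu : IsUnit A' := by
    rw [Matrix.isUnit_iff_isUnit_det, isUnit_iff_ne_zero]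
    intro h
    have h1 : (MvPolynomial.aeval fun p : Fin r × Fin r => A' p.1 p.2)
        (det (mvPolynomialX (Fin r) (Fin r) K₀)) = 0 := by
      rw [AlgHom.map_det, mvPolynomialX_mapMatrix_aeval, h]
    exact det_mvPolynomialX_ne_zero (Fin r) K₀ (hgen (h1.trans (map_zero _).symm))
  obtain ⟨A, hA⟩ := hu
  refine ⟨A, ((n : ℂ) + 1) • (A' - 1), by rw [hA]; exact hgen, ?_, fun i j => ?_⟩
  · rw [hA, smul_smul, inv_mul_cancel₀ hnc, one_smul]
    abel
  · have h1 := ht1 (i, j)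
    rw [Metric.mem_ball, dist_eq_norm] at h1
    have h2 : (((n : ℂ) + 1) • (A' - 1)) i j - B i j =
        ((n : ℂ) + 1) * (t (i, j) - (1 + (((n : ℂ) + 1)⁻¹) • B) (i, j).1 (i, j).2) := by
      simp only [Matrix.smul_apply, Matrix.sub_apply, Matrix.add_apply, smul_eq_mul, hA',
        Matrix.of_apply]
      field_simp
      ring
    rw [h2, norm_mul]
    have h3 : ‖((n : ℂ) + 1)‖ = (n : ℝ) + 1 := by
      have : ((n : ℂ) + 1) = (((n : ℝ) + 1 : ℝ) : ℂ) := by push_cast; rfl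
      rw [this, Complex.norm_real, Real.norm_of_nonneg hn.le]
    rw [h3]
    calc ((n : ℝ) + 1) * ‖t (i, j) - (1 + (((n : ℂ) + 1)⁻¹) • B) (i, j).1 (i, j).2‖ <
          ((n : ℝ) + 1) * (1 / ((n : ℝ) + 1) / ((n : ℝ) + 1)) := mul_lt_mul_of_pos_left h1 hn
      _ = 1 / ((n : ℝ) + 1) := by field_simp

/-- The main lemma when `P q₀` is diagonal. -/
theorem exists_dual_diag (K₀ : Subfield ℂ) [Countable K₀] (hr : 1 ≤ r) (q₀ : L) (α : Fin r → ℂ)
    (hα : Function.Injective α) (hq₀ : (P q₀ : Mat r ℂ) = diagonal α) (c : Fin r → Fin r)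
    (htri : ∀ q i j, c j < c i → (P q : Mat r ℂ) i j = 0)
    (hconn : ∀ i j, c i = c j →
      Relation.ReflTransGen (fun i j => ∃ q, (P q : Mat r ℂ) i j ≠ 0) i j)
    (M : ℕ) (τ : Fin r → ℂ) (hpow : ∀ i, α i ^ M = τ (c i)) (hτ : FreeUpTo (2 * r + 3) τ) :
    ∃ A : (Mat r ℂ)ˣ, AlgebraicIndependent K₀ (fun p : Fin r × Fin r => (A : Mat r ℂ) p.1 p.2) ∧
      DualProp P A := by
  classical
  have hconn' : ∀ i j, c i = c j → ∃ p, (wP P p : Mat r ℂ) i j ≠ 0 := fun i j hij =>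
    exists_word P q₀ α hα hq₀ i j (hconn i j hij)
  choose A B hA hAB hB using exists_generic_near K₀ (Bsp c)
  by_contra hcon
  push Not at hcon
  have hnot : ∀ n, ¬ DualProp P (A n) := fun n => hcon (A n) (hA n)
  let i₀ : Fin r := ⟨0, hr⟩
  have : Nonempty (Fin r) := ⟨i₀⟩
  let rep : Fin r → Fin r := fun i => Function.invFun c (c i)
  have hrep : ∀ i, c (rep i) = c i := fun i => Function.invFun_eq ⟨i, rfl⟩
  have hrep' : ∀ i j, c i = c j → rep i = rep j := fun i j h => by simp only [rep, h]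
  have hmu : ∀ n, ∃ f : Fin r → Fin r → ℂ, MuOK P (A n : Mat r ℂ) (Matrix.of f) ∧
      (∀ i j, c i = c j → f i j = 0) ∧ (∀ i, f (rep i) i₀ = 0) ∧ ‖f‖ = 1 := by
    intro n
    by_contra hcon2
    apply hnot n
    apply dual_of_mu P (A n) q₀ α hα hq₀ (generic_gen3 (hA n)).1
    intro μ hμ
    by_contra hne
    exact hcon2 (hμ.normalize hne c rep hrep hrep' i₀ hconn')
  choose f hf1 hf2 hf3 hf4 using hmu
  obtain ⟨f', hf', φ, hφ, hlim⟩ := (isCompact_sphere (0 : Fin r → Fin r → ℂ) 1).tendsto_subseq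
    (x := f) (fun n => by rw [mem_sphere_zero_iff_norm]; exact hf4 n)
  rw [mem_sphere_zero_iff_norm] at hf'
  have hlim' : Tendsto (fun n => (Matrix.of (f (φ n)) : Mat r ℂ)) atTop (𝓝 (Matrix.of f')) := hlim
  have hε0 : Tendsto (fun n : ℕ => (((n : ℂ) + 1)⁻¹)) atTop (𝓝 0) := by
    have h1 : Tendsto (fun n : ℕ => ‖(((n : ℂ) + 1)⁻¹)‖) atTop (𝓝 0) := by
      have h2 : (fun n : ℕ => ‖(((n : ℂ) + 1)⁻¹)‖) = fun n : ℕ => 1 / ((n : ℝ) + 1) := by
        funext n
        have : ((n : ℂ) + 1) = (((n : ℝ) + 1 : ℝ) : ℂ) := by push_cast; rfl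
        rw [norm_inv, this, Complex.norm_real, Real.norm_of_nonneg (by positivity), one_div]
      rw [h2]
      exact tendsto_one_div_add_atTop_nhds_zero_nat
    exact tendsto_zero_iff_norm_tendsto_zero.2 h1
  have hBlim : Tendsto B atTop (𝓝 (Bsp c)) := by
    refine tendsto_pi_nhds.2 fun i => tendsto_pi_nhds.2 fun j => ?_
    rw [tendsto_iff_norm_sub_tendsto_zero]
    exact squeeze_zero (fun n => norm_nonneg _) (fun n => (hB n i j).le)
      tendsto_one_div_add_atTop_nhds_zero_nat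
  have hL := limOK_of_seq P c (2 * r + 3) (by omega) (fun n => Matrix.of (f (φ n)))
    (fun n => B (φ n)) (fun n => ((((φ n : ℕ) : ℂ) + 1)⁻¹))
    (fun n => inv_ne_zero (by exact_mod_cast Nat.succ_ne_zero (φ n))) (Matrix.of f') (Bsp c) hlim'
    (hBlim.comp hφ.tendsto_atTop) (hε0.comp hφ.tendsto_atTop) (fun n i j hij => hf2 (φ n) i j hij)
    (fun n p k hk δ => by
      have := Phi_block P (A (φ n) : Mat r ℂ) (Matrix.of (f (φ n))) q₀ α hq₀ c htri M (2 * r + 3) τ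
        hpow hτ (hf1 (φ n)).2 p k hk δ
      rw [hAB] at this
      exact this)
  have hcoc := hL.cocycle (by omega) (by omega) q₀ α hα hq₀ htri hconn'
  have hz : ∀ i, f' i i₀ = 0 := by
    intro i
    have h1 := hcoc i (rep i) i₀
    have h2 : f' i (rep i) = 0 := hL.zero i (rep i) (hrep i).symm
    have h3 : f' (rep i) i₀ = 0 := by
      have h4 : Tendsto (fun n => f (φ n) (rep i) i₀) atTop (𝓝 (f' (rep i) i₀)) :=
        tendsto_pi_nhds.1 (tendsto_pi_nhds.1 hlim (rep i)) i₀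
      have h5 : (fun n => f (φ n) (rep i) i₀) = fun _ => 0 := funext fun n => hf3 (φ n) i
      rw [h5] at h4
      exact tendsto_nhds_unique h4 tendsto_const_nhds
    simp only [Matrix.of_apply] at h1
    rw [h1, h2, h3, add_zero]
  have hf0 : f' = 0 := by
    funext i j
    have h1 := hcoc i j i₀
    simp only [Matrix.of_apply] at h1
    rw [hz, hz] at h1
    rw [Pi.zero_apply, Pi.zero_apply]
    linear_combination -h1
  rw [hf0, norm_zero] at hf'
  exact zero_ne_one hf'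

end

/-- Conjugation invariance of the dual property. -/
theorem DualProp.conj {L : Type*} (P : L → (Mat r ℂ)ˣ) (A U : (Mat r ℂ)ˣ)
    (h : DualProp (fun q => U⁻¹ * P q * U) (U⁻¹ * A * U)) : DualProp P A := by
  intro R Q H
  have hU1 : (U : Mat r ℂ) * iv U = 1 := U.mul_inv
  obtain ⟨P', hP'⟩ : ∃ P' : L → (Mat r ℂ)ˣ, P' = fun q => U⁻¹ * P q * U := ⟨_, rfl⟩
  obtain ⟨R', hR'⟩ : ∃ R' : L → Mat r ℂ, R' = fun q => iv U * R q * (U : Mat r ℂ) := ⟨_, rfl⟩
  obtain ⟨Q', hQ'⟩ : ∃ Q' : Mat r ℂ, Q' = iv U * Q * (U : Mat r ℂ) := ⟨_, rfl⟩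
  obtain ⟨A', hA'⟩ : ∃ A' : (Mat r ℂ)ˣ, A' = U⁻¹ * A * U := ⟨_, rfl⟩
  rw [← hP', ← hA'] at h
  have hP'q : ∀ q, P' q = U⁻¹ * P q * U := fun q => by rw [hP']
  have hR'q : ∀ q, R' q = iv U * R q * (U : Mat r ℂ) := fun q => by rw [hR']
  have e1 : ∀ q, (P' q : Mat r ℂ) = iv U * (P q : Mat r ℂ) * (U : Mat r ℂ) := fun q => by
    rw [hP'q]; simp [iv]
  have e2 : ∀ q, iv (P' q) = iv U * iv (P q) * (U : Mat r ℂ) := fun q => by
    rw [hP'q]; simp [iv, mul_assoc]
  have hwP' : ∀ p, wP P' p = U⁻¹ * wP P p * U := by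
    intro p
    induction p with
    | nil => simp [wP]
    | cons q p ih =>
      rw [wP, wP, ih, hP'q]
      group
  have hth' : ∀ p, theta P' R' p = iv U * theta P R p * (U : Mat r ℂ) := by
    intro p
    induction p with
    | nil => simp [theta]
    | cons q p ih =>
      rw [theta, theta]
      change R' q + (P' q : Mat r ℂ) * theta P' R' p * iv (P' q) =
        iv U * (R q + (P q : Mat r ℂ) * theta P R p * iv (P q)) * (U : Mat r ℂ)
      rw [ih, e1, e2, hR'q, mul_add, add_mul]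
      congr 1
      calc _ = iv U * (P q : Mat r ℂ) * ((U : Mat r ℂ) * iv U) * theta P R p *
            ((U : Mat r ℂ) * iv U) * iv (P q) * (U : Mat r ℂ) := by simp only [mul_assoc]
        _ = _ := by rw [hU1, mul_one, mul_one]; simp only [mul_assoc]
  have hpow : ∀ (M : (Mat r ℂ)ˣ) (k : ℕ), ((U⁻¹ * M * U : (Mat r ℂ)ˣ) : Mat r ℂ) ^ k =
      iv U * (M : Mat r ℂ) ^ k * (U : Mat r ℂ) := by
    intro M k
    induction k with
    | zero => simp
    | succ k ih =>
      rw [pow_succ, ih, pow_succ]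
      have e1 : ((U⁻¹ * M * U : (Mat r ℂ)ˣ) : Mat r ℂ) = iv U * (M : Mat r ℂ) * (U : Mat r ℂ) := by
        simp [iv]
      rw [e1]
      calc _ = iv U * (M : Mat r ℂ) ^ k * ((U : Mat r ℂ) * iv U) * (M : Mat r ℂ) *
            (U : Mat r ℂ) := by simp only [mul_assoc]
        _ = _ := by rw [hU1, mul_one]; simp only [mul_assoc]
  obtain ⟨η, h1, h2⟩ := h R' Q' (by
      intro p k hk1
      have e1 : wP P' p * A' = U⁻¹ * (wP P p * A) * U := by
        rw [hwP', hA']; group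
      rw [e1, hth', hpow]
      have e2 : (Q' + iv U * theta P R p * (U : Mat r ℂ)) *
          (iv U * ((wP P p * A : (Mat r ℂ)ˣ) : Mat r ℂ) ^ k * (U : Mat r ℂ)) =
          iv U * ((Q + theta P R p) * ((wP P p * A : (Mat r ℂ)ˣ) : Mat r ℂ) ^ k) *
            (U : Mat r ℂ) := by
        have e3 : Q' + iv U * theta P R p * (U : Mat r ℂ) = iv U * (Q + theta P R p) *
            (U : Mat r ℂ) := by
          rw [hQ', mul_add, add_mul]
        rw [e3]
        calc _ = iv U * (Q + theta P R p) * ((U : Mat r ℂ) * iv U) *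
              ((wP P p * A : (Mat r ℂ)ˣ) : Mat r ℂ) ^ k * (U : Mat r ℂ) := by
              simp only [mul_assoc]
          _ = _ := by rw [hU1, mul_one]; simp only [mul_assoc]
      rw [e2, mul_assoc, Matrix.trace_mul_comm, mul_assoc, hU1, mul_one]
      exact H p k hk1)
  refine ⟨(U : Mat r ℂ) * η * iv U, ?_, ?_⟩
  · intro q
    have h3 := h1 q
    have h4 : R q = (U : Mat r ℂ) * R' q * iv U := by
      rw [hR'q]
      calc R q = ((U : Mat r ℂ) * iv U) * R q * ((U : Mat r ℂ) * iv U) := by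
            rw [hU1, one_mul, mul_one]
        _ = _ := by simp only [mul_assoc]
    change R q = _ - (P q : Mat r ℂ) * _ * iv (P q)
    change R' q = _ - (P' q : Mat r ℂ) * _ * iv (P' q) at h3
    rw [h4, h3, e1, e2, mul_sub, sub_mul]
    congr 1
    calc _ = ((U : Mat r ℂ) * iv U) * (P q : Mat r ℂ) * (U : Mat r ℂ) * η * iv U * iv (P q) *
          ((U : Mat r ℂ) * iv U) := by simp only [mul_assoc]
      _ = _ := by rw [hU1, one_mul, mul_one]; simp only [mul_assoc, iv]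
  · have e2 : iv A' = iv U * iv A * (U : Mat r ℂ) := by rw [hA']; simp [iv, mul_assoc]
    have e1 : (A' : Mat r ℂ) = iv U * (A : Mat r ℂ) * (U : Mat r ℂ) := by rw [hA']; simp [iv]
    have h4 : Q = (U : Mat r ℂ) * Q' * iv U := by
      rw [hQ']
      calc Q = ((U : Mat r ℂ) * iv U) * Q * ((U : Mat r ℂ) * iv U) := by
            rw [hU1, one_mul, mul_one]
        _ = _ := by simp only [mul_assoc]
    change Q = iv A * _ * (A : Mat r ℂ) - _
    change Q' = iv A' * _ * (A' : Mat r ℂ) - _ at h2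
    rw [h4, h2, e1, e2, mul_sub, sub_mul]
    congr 1
    calc _ = ((U : Mat r ℂ) * iv U) * iv A * (U : Mat r ℂ) * η * iv U * (A : Mat r ℂ) *
          ((U : Mat r ℂ) * iv U) := by simp only [mul_assoc]
      _ = _ := by rw [hU1, one_mul, mul_one]; simp only [mul_assoc, iv]

/-- BLOCK DUAL LEMMA. -/
theorem exists_dual {L : Type*} (K₀ : Subfield ℂ) [Countable K₀] (hr : 1 ≤ r)
    (P : L → (Mat r ℂ)ˣ) (q₀ : L) (U : (Mat r ℂ)ˣ) (α : Fin r → ℂ) (c : Fin r → Fin r) (M : ℕ)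
    (τ : Fin r → ℂ) (hB : BlockData P q₀ U α c M τ)
    (hU : ∀ i j, (U : Mat r ℂ) i j ∈ K₀) (hU' : ∀ i j, ((U⁻¹ : (Mat r ℂ)ˣ) : Mat r ℂ) i j ∈ K₀) :
    ∃ A : (Mat r ℂ)ˣ, AlgebraicIndependent K₀ (fun p : Fin r × Fin r => (A : Mat r ℂ) p.1 p.2) ∧
      DualProp P A := by
  have hU2 : ((U⁻¹ : (Mat r ℂ)ˣ) : Mat r ℂ) * (U : Mat r ℂ) = 1 := U.inv_mul
  obtain ⟨A', h1, h2⟩ := exists_dual_diag (fun q => U⁻¹ * P q * U) K₀ hr q₀ α hB.inj (by
    simp only [Units.val_mul, hB.diag]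
    calc _ = (((U⁻¹ : (Mat r ℂ)ˣ) : Mat r ℂ) * (U : Mat r ℂ)) * diagonal α *
          (((U⁻¹ : (Mat r ℂ)ˣ) : Mat r ℂ) * (U : Mat r ℂ)) := by simp only [mul_assoc]
      _ = _ := by rw [hU2, one_mul, mul_one]) c hB.tri hB.conn M τ hB.pow hB.free
  refine ⟨U * A' * U⁻¹, ?_, ?_⟩
  · have := generic_mul h1 (U : Mat r ℂ) ((U⁻¹ : (Mat r ℂ)ˣ) : Mat r ℂ) hU hU' U.isUnit
      U⁻¹.isUnit
    exact this
  · apply DualProp.conj P _ U
    have : U⁻¹ * (U * A' * U⁻¹) * U = A' := by group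
    rw [this]
    exact h2

end Vale.Agent.P002R
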