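import Vale.Agent.P002R.RIrred2
import Vale.Agent.P002R.RBlockH

/-!
# Irreducible representations are limits of integral ones: the theorem for block data
-/

namespace Vale.Agent.P002R

open Matrix

variable {g m n r : ℕ}

theorem loopW_mem_Fc (q : Loop m n) : loopW q ∈ Fc (m + 1) n :=
  mul_mem (mul_mem (inv_mem (Slides.kap_mem q)) (Slides.loop0_mem q)) (Slides.kap_mem q)

/-- Irreducible representations with prescribed boundary classes are in the Zariski closure of the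
semisimple integral ones (integral up to scalars), if there is an integral base point with block
data. -/
theorem irreducible_of_block {R : Type*} [CommRing R] (φ : R →+* ℂ) (hr : 1 ≤ r)
    (C : Fin n → (Mat r ℂ)ˣ) (hm : 1 ≤ m)
    (J : Fin n → (Mat r ℂ)ˣ) (hJ : ∀ j, IsConj (C j) (J j))
    (ρ : FF (m + 1) n →* (Mat r ℂ)ˣ) (hρ : ρ ∈ DFr (g := m + 1) φ J)
    (hρB : ρ (gB (Fin.last m)) = 1) (q₀ : Loop m n) (U : (Mat r ℂ)ˣ) (α : Fin r → ℂ)
    (c : Fin r → Fin r) (M₀ : ℕ) (τ : Fin r → ℂ)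
    (hblock : BlockData (fun q : Loop m n => ρ (loopW q)) q₀ U α c M₀ τ)
    (x : FU (m + 1) n →* (Mat r ℂ)ˣ) (hx : x (relatorU (m + 1) n) = 1)
    (hxC : ∀ j, IsConj (C j) (x (FreeGroup.of (Sum.inr j))))
    (hirr : ∀ M : Mat r ℂ, (∀ w, Commute M (x w : Mat r ℂ)) → ∃ c : ℂ, M = c • (1 : Mat r ℂ))
    (f : MvPolynomial (GenU (m + 1) n × Fin r × Fin r) ℂ)
    (hf : ∀ y ∈ DU (m + 1) φ C, evalG y f = 0) : evalG x f = 0 :=
  irreducible_of_base φ hr hm C J hJ ρ hρ hρB (loopW q₀) (loopW_mem_Fc q₀) (loopW_mem q₀) U α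
    hblock.inj hblock.diag
    (fun K₀ hK₀ _ hUK => by
      have := hK₀
      exact exists_dual K₀ hr (fun q : Loop m n => ρ (loopW q)) q₀ U α c M₀ τ hblock hUK.1 hUK.2)
    x hx hxC hirr f hf

end Vale.Agent.P002R
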