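import Vale.Agent.P002R.RDefs

/-! Elementary lemmas for the final statement: orders of quasi-unipotent matrices and number fields
with enough roots of unity and units. -/

namespace Vale.Agent.P002R

open Matrix Polynomial NumberField

section nilp

variable {r n : ℕ}

/-- A matrix all whose eigenvalues are `N`-th roots of unity has unipotent `N`-th power. -/
theorem isNilpotent_pow_sub_one_of_roots (C : Mat r ℂ) (N : ℕ)
    (h : ∀ μ ∈ C.charpoly.roots, μ ^ N = 1) : IsNilpotent (C ^ N - 1) := by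
  have hsplit : C.charpoly.Splits := IsAlgClosed.splits _
  have hprod : C.charpoly = (C.charpoly.roots.map fun a => X - Polynomial.C a).prod :=
    hsplit.eq_prod_roots_of_monic C.charpoly_monic
  have hdvd : ∀ s : Multiset ℂ, (∀ μ ∈ s, μ ^ N = 1) →
      (s.map fun a => X - Polynomial.C a).prod ∣ (X ^ N - 1 : ℂ[X]) ^ s.card := by
    intro s
    induction s using Multiset.induction_on with
    | empty => intro _; simp
    | cons a s ih =>
      intro hs
      rw [Multiset.map_cons, Multiset.prod_cons, Multiset.card_cons, pow_succ, mul_comm]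
      refine mul_dvd_mul (ih fun μ hμ => hs μ (Multiset.mem_cons_of_mem hμ)) ?_
      rw [Polynomial.dvd_iff_isRoot]
      simp [hs a (Multiset.mem_cons_self a s)]
  obtain ⟨q, hq⟩ := hdvd _ h
  rw [← hprod] at hq
  refine ⟨C.charpoly.roots.card, ?_⟩
  have h1 := congrArg (Polynomial.aeval C) hq
  rw [map_mul, Matrix.aeval_self_charpoly, zero_mul] at h1
  simpa using h1

/-- A matrix all whose eigenvalues are roots of unity has a unipotent power. -/
theorem exists_isNilpotent_pow_sub_one (C : Mat r ℂ)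
    (h : ∀ μ ∈ C.charpoly.roots, ∃ k : ℕ, 0 < k ∧ μ ^ k = 1) :
    ∃ N : ℕ, 0 < N ∧ IsNilpotent (C ^ N - 1) := by
  have key : ∀ s : Multiset ℂ, (∀ μ ∈ s, ∃ k : ℕ, 0 < k ∧ μ ^ k = 1) →
      ∃ N : ℕ, 0 < N ∧ ∀ μ ∈ s, μ ^ N = 1 := by
    intro s
    induction s using Multiset.induction_on with
    | empty => intro _; exact ⟨1, one_pos, by simp⟩
    | cons a s ih =>
      intro hs
      obtain ⟨N, hN, hN'⟩ := ih fun μ hμ => hs μ (Multiset.mem_cons_of_mem hμ)
      obtain ⟨k, hk, hk'⟩ := hs a (Multiset.mem_cons_self a s)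
      refine ⟨k * N, Nat.mul_pos hk hN, fun μ hμ => ?_⟩
      rcases Multiset.mem_cons.1 hμ with rfl | hμ
      · rw [pow_mul, hk', one_pow]
      · rw [mul_comm, pow_mul, hN' μ hμ, one_pow]
  obtain ⟨N, hN, hN'⟩ := key _ h
  exact ⟨N, hN, isNilpotent_pow_sub_one_of_roots C N hN'⟩

/-- The exponent can be multiplied. -/
theorem isNilpotent_pow_mul_sub_one {C : Mat r ℂ} {N : ℕ} (h : IsNilpotent (C ^ N - 1)) (k : ℕ) :
    IsNilpotent (C ^ (N * k) - 1) := by
  obtain ⟨q, hq⟩ : (X ^ N - 1 : ℂ[X]) ∣ X ^ (N * k) - 1 := by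
    have := sub_dvd_pow_sub_pow (X ^ N : ℂ[X]) 1 k
    rwa [one_pow, ← pow_mul] at this
  have h1 := congrArg (Polynomial.aeval C) hq
  simp only [map_sub, map_pow, Polynomial.aeval_X, map_one, map_mul] at h1
  rw [h1]
  refine Commute.isNilpotent_mul_right ?_ h
  have : (C ^ N - 1 : Mat r ℂ) = Polynomial.aeval C (X ^ N - 1 : ℂ[X]) := by simp
  rw [this]
  exact Commute.map (Commute.all _ _) (Polynomial.aeval C)

/-- A common exponent for finitely many quasi-unipotent matrices. -/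
theorem exists_common_exponent (C : Fin n → Mat r ℂ)
    (h : ∀ j, ∀ μ ∈ (C j).charpoly.roots, ∃ k : ℕ, 0 < k ∧ μ ^ k = 1) :
    ∃ N : ℕ, 0 < N ∧ ∀ j, IsNilpotent (C j ^ N - 1) := by
  choose N hN hN' using fun j => exists_isNilpotent_pow_sub_one (C j) (h j)
  refine ⟨∏ j, N j, Finset.prod_pos fun j _ => hN j, fun j => ?_⟩
  rw [← Finset.mul_prod_erase _ _ (Finset.mem_univ j)]
  exact isNilpotent_pow_mul_sub_one (hN' j) _

/-- The same with the roots of the characteristic polynomial. -/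
theorem exists_common_exponent_isRoot (C : Fin n → Mat r ℂ)
    (h : ∀ j, ∀ μ : ℂ, (C j).charpoly.IsRoot μ → ∃ k : ℕ, 0 < k ∧ μ ^ k = 1) :
    ∃ N : ℕ, 0 < N ∧ ∀ j, IsNilpotent (C j ^ N - 1) :=
  exists_common_exponent C fun j μ hμ => h j μ (isRoot_of_mem_roots hμ)

/-- The same with eigenvectors. -/
theorem exists_common_exponent_eigenvector (C : Fin n → Mat r ℂ)
    (h : ∀ j, ∀ (μ : ℂ) (v : Fin r → ℂ), v ≠ 0 → C j *ᵥ v = μ • v → ∃ k : ℕ, 0 < k ∧ μ ^ k = 1) :
    ∃ N : ℕ, 0 < N ∧ ∀ j, IsNilpotent (C j ^ N - 1) := by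
  refine exists_common_exponent_isRoot C fun j μ hμ => ?_
  have hdet : (scalar (Fin r) μ - C j).det = 0 := by
    rw [← Matrix.eval_charpoly]
    exact hμ
  obtain ⟨v, hv, hv'⟩ := Matrix.exists_mulVec_eq_zero_iff.2 hdet
  refine h j μ v hv ?_
  rw [Matrix.sub_mulVec, sub_eq_zero] at hv'
  rw [← hv', Matrix.scalar_apply, ← Matrix.smul_one_eq_diagonal, Matrix.smul_mulVec,
    Matrix.one_mulVec]

/-- The same with the spectrum. -/
theorem exists_common_exponent_spectrum (C : Fin n → Mat r ℂ)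
    (h : ∀ j, ∀ μ ∈ spectrum ℂ (C j), ∃ k : ℕ, 0 < k ∧ μ ^ k = 1) :
    ∃ N : ℕ, 0 < N ∧ ∀ j, IsNilpotent (C j ^ N - 1) :=
  exists_common_exponent_isRoot C fun j μ hμ =>
    h j μ (Matrix.mem_spectrum_iff_isRoot_charpoly.2 hμ)

end nilp

section field

variable {L : Type*} [Field L]

/-- The embedding of the ring of integers of a subfield of the complex numbers. -/
noncomputable def phiO (σ : L →+* ℂ) : 𝓞 L →+* ℂ := σ.comp (algebraMap (𝓞 L) L)

theorem phiO_injective (σ : L →+* ℂ) : Function.Injective (phiO σ) := by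
  unfold phiO
  rw [RingHom.coe_comp]
  exact σ.injective.comp RingOfIntegers.coe_injective

/-- Roots of unity are integral. -/
theorem mem_range_phiO (σ : L →+* ℂ) {M : ℕ} (hM : 0 < M) {z : ℂ} (hz : z ^ M = 1)
    (h : z ∈ Set.range σ) : z ∈ Set.range (phiO σ) := by
  obtain ⟨w, rfl⟩ := h
  have hw : w ^ M = 1 := by
    apply σ.injective
    rw [map_pow, hz, map_one]
  have hint : IsIntegral ℤ w := by
    refine ⟨X ^ M - 1, monic_X_pow_sub_C 1 hM.ne', ?_⟩
    simp [hw]
  exact ⟨⟨w, hint⟩, rfl⟩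

/-- If the unit group is infinite, there is a unit of infinite order. -/
theorem exists_unit_infinite_order [NumberField L] (σ : L →+* ℂ) [Infinite (𝓞 L)ˣ] :
    ∃ u : (𝓞 L)ˣ, ∀ k : ℕ, 0 < k → phiO σ (u : 𝓞 L) ^ k ≠ 1 := by
  by_contra hcon
  push Not at hcon
  have hfin : Finite (CommGroup.torsion (𝓞 L)ˣ) :=
    inferInstanceAs (Finite (NumberField.Units.torsion L))
  have htop : CommGroup.torsion (𝓞 L)ˣ = ⊤ := by
    rw [eq_top_iff]
    intro u _
    rw [CommGroup.mem_torsion, isOfFinOrder_iff_pow_eq_one]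
    obtain ⟨k, hk, hk'⟩ := hcon u
    refine ⟨k, hk, ?_⟩
    ext1
    apply phiO_injective σ
    rw [Units.val_pow_eq_pow_val, map_pow, hk', Units.val_one, map_one]
  have : Finite (𝓞 L)ˣ := by
    rw [htop] at hfin
    exact Finite.of_equiv _ (Subgroup.topEquiv (G := (𝓞 L)ˣ)).toEquiv
  exact not_finite (𝓞 L)ˣ

/-- A number field with given roots of unity and a unit of infinite order. -/
theorem exists_numberField (M : ℕ) (hM : 0 < M) :
    ∃ L : IntermediateField ℚ ℂ, FiniteDimensional ℚ L ∧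
      (∀ z : ℂ, z ^ M = 1 → z ∈ Set.range (phiO (algebraMap L ℂ))) ∧
      ∃ u : (𝓞 L)ˣ, ∀ k : ℕ, 0 < k → phiO (algebraMap L ℂ) (u : 𝓞 L) ^ k ≠ 1 := by
  classical
  let S : Set ℂ := {z | z ^ M = 1} ∪ {((Real.sqrt 2 : ℝ) : ℂ)}
  have hs2 : (((Real.sqrt 2 : ℝ) : ℂ)) ^ 2 = 2 := by
    rw [← Complex.ofReal_pow, Real.sq_sqrt (by norm_num)]
    norm_num
  have hSfin : S.Finite := by
    refine Set.Finite.union ?_ (Set.finite_singleton _)
    have : {z : ℂ | z ^ M = 1} ⊆ ((X ^ M - 1 : ℂ[X]).roots.toFinset : Set ℂ) := by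
      intro z hz
      have hne : (X ^ M - 1 : ℂ[X]) ≠ 0 := (monic_X_pow_sub_C 1 hM.ne').ne_zero
      simp only [Finset.mem_coe, Multiset.mem_toFinset, mem_roots hne]
      have hz' : z ^ M = 1 := hz
      simp [hz']
    exact (Finset.finite_toSet _).subset this
  have hSint : ∀ x ∈ S, IsIntegral ℚ x := by
    rintro x (hx | hx)
    · refine ⟨X ^ M - 1, monic_X_pow_sub_C 1 hM.ne', ?_⟩
      have hx' : x ^ M = 1 := hx
      simp [hx']
    · rw [Set.mem_singleton_iff] at hx
      subst hx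
      refine ⟨X ^ 2 - Polynomial.C 2, monic_X_pow_sub_C 2 two_ne_zero, ?_⟩
      simp [hs2]
  let L : IntermediateField ℚ ℂ := IntermediateField.adjoin ℚ S
  have hLfin : FiniteDimensional ℚ L := by
    have : Finite S := hSfin
    exact IntermediateField.finiteDimensional_adjoin fun x hx => hSint x hx
  have hmem : ∀ z ∈ S, z ∈ L := fun z hz => IntermediateField.subset_adjoin ℚ S hz
  refine ⟨L, hLfin, ?_, ?_⟩
  · intro z hz
    exact mem_range_phiO _ hM hz ⟨⟨z, hmem z (Or.inl hz)⟩, rfl⟩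
  · let s : L := ⟨((Real.sqrt 2 : ℝ) : ℂ), hmem _ (Or.inr rfl)⟩
    have hs : s ^ 2 = 2 := by
      apply Subtype.ext
      exact hs2
    have hsint : IsIntegral ℤ s := by
      refine ⟨X ^ 2 - Polynomial.C 2, monic_X_pow_sub_C 2 two_ne_zero, ?_⟩
      simp [hs]
    let s' : 𝓞 L := ⟨s, hsint⟩
    have hs' : s' * s' = 2 := by
      apply RingOfIntegers.coe_injective
      have : s * s = 2 := by rw [← sq, hs]
      exact this
    let u : (𝓞 L)ˣ := ⟨s' + 1, s' - 1, by linear_combination hs', by linear_combination hs'⟩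
    refine ⟨u, fun k hk hone => ?_⟩
    have hu : phiO (algebraMap L ℂ) (u : 𝓞 L) = (((Real.sqrt 2 + 1 : ℝ)) : ℂ) := by
      change phiO (algebraMap L ℂ) (s' + 1) = _
      rw [map_add, map_one, Complex.ofReal_add, Complex.ofReal_one]
      rfl
    rw [hu] at hone
    have h1 : (Real.sqrt 2 + 1) ^ k = 1 := by exact_mod_cast hone
    have h2 : (1 : ℝ) < Real.sqrt 2 + 1 := by
      have : 0 < Real.sqrt 2 := Real.sqrt_pos.2 (by norm_num)
      linarith
    exact absurd h1 (one_lt_pow₀ h2 hk.ne').ne'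

end field

end Vale.Agent.P002R
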