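import Vale.Agent.P002R.RBase
import Vale.Agent.P002.Reducible

/-! TASK L: relative reducible case. -/

namespace Vale.Agent.P002R

open Matrix

section Eval

variable {κ : Type*} {r : ℕ} {S T : Type*} [CommRing S] [CommRing T] [Algebra ℂ S] [Algebra ℂ T]

/-- evaluation of a polynomial at a tuple of matrices over an algebra -/
noncomputable def evK (X : κ → Mat r S) : MvPolynomial (κ × Fin r × Fin r) ℂ →ₐ[ℂ] S :=
  MvPolynomial.aeval fun p => X p.1 p.2.1 p.2.2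

theorem evK_map (θ : S →ₐ[ℂ] T) (X : κ → Mat r S) (f : MvPolynomial (κ × Fin r × Fin r) ℂ) :
    θ (evK X f) = evK (fun k => (X k).map θ) f := by
  unfold evK
  rw [← AlgHom.comp_apply, MvPolynomial.comp_aeval]
  rfl

theorem evalG_eq_evK (x : FreeGroup κ →* (Mat r ℂ)ˣ) (f : MvPolynomial (κ × Fin r × Fin r) ℂ) :
    evalG x f = evK (fun k => (x (FreeGroup.of k) : Mat r ℂ)) f := rfl

end Eval

section Conj

variable {κ : Type*} {g n r : ℕ}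

/-- conjugate of a representation -/
noncomputable def conjH (U : (Mat r ℂ)ˣ) (y : FreeGroup κ →* (Mat r ℂ)ˣ) :
    FreeGroup κ →* (Mat r ℂ)ˣ :=
  (MulAut.conj U).toMonoidHom.comp y

theorem conjH_apply (U : (Mat r ℂ)ˣ) (y : FreeGroup κ →* (Mat r ℂ)ˣ) (w : FreeGroup κ) :
    conjH U y w = U * y w * U⁻¹ := by
  simp [conjH, MulAut.conj_apply]

theorem conjH_mem_YU {C : Fin n → (Mat r ℂ)ˣ} {y : FU g n →* (Mat r ℂ)ˣ} (hy : y ∈ YU g C)
    (U : (Mat r ℂ)ˣ) : conjH U y ∈ YU g C := by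
  obtain ⟨h1, h2, h3⟩ := hy
  refine ⟨?_, ?_, ?_⟩
  · rw [conjH_apply, h1, mul_one, mul_inv_cancel]
  · intro j
    refine (h2 j).trans ?_
    rw [isConj_iff]
    exact ⟨U, (conjH_apply _ _ _).symm⟩
  · exact P002.SS.conj U (fun w => conjH_apply _ _ w) h3

theorem slU_int_mem_GR {R : Type*} [CommRing R] (φ : R →+* ℂ) (X : SpecialLinearGroup (Fin r) ℤ) :
    slU (Int.castRingHom ℂ) X ∈ GR r φ := by
  refine ⟨1, SpecialLinearGroup.map (Int.castRingHom R) X, ?_⟩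
  rw [map_one, one_mul]
  apply Units.ext
  ext i j
  simp [slU]

theorem conjH_mem_DU {R : Type*} [CommRing R] (φ : R →+* ℂ) {C : Fin n → (Mat r ℂ)ˣ}
    {y : FU g n →* (Mat r ℂ)ˣ} (hy : y ∈ DU g φ C) (X : SpecialLinearGroup (Fin r) ℤ) :
    conjH (slU (Int.castRingHom ℂ) X) y ∈ DU g φ C := by
  refine ⟨conjH_mem_YU hy.1 _, fun k => ?_⟩
  rw [conjH_apply]
  exact (GR r φ).mul_mem ((GR r φ).mul_mem (slU_int_mem_GR φ X) (hy.2 k))
    ((GR r φ).inv_mem (slU_int_mem_GR φ X))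

theorem conj_vanish {R : Type*} [CommRing R] (φ : R →+* ℂ) {C : Fin n → (Mat r ℂ)ˣ}
    (f : MvPolynomial (GenU g n × Fin r × Fin r) ℂ)
    (hf : ∀ y ∈ DU g φ C, evalG y f = 0) (y : FU g n →* (Mat r ℂ)ˣ)
    (hy : y ∈ DU g φ C) (U : (Mat r ℂ)ˣ) : evalG (conjH U y) f = 0 := by
  classical
  obtain ⟨N, H, hH⟩ := P002.exists_homog f
  let XX : Mat r (MvPolynomial (Fin r × Fin r) ℂ) := Matrix.of fun i j => MvPolynomial.X (i, j)
  let Y : GenU g n → Mat r ℂ := fun k => (y (FreeGroup.of k) : Mat r ℂ)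
  let Z : GenU g n → Mat r (MvPolynomial (Fin r × Fin r) ℂ) := fun k =>
    XX * (Y k).map MvPolynomial.C * XX.adjugate
  let G : MvPolynomial (Fin r × Fin r) ℂ :=
    MvPolynomial.aeval (fun o : Option (GenU g n × Fin r × Fin r) =>
      o.elim XX.det fun p => Z p.1 p.2.1 p.2.2) H
  have key : ∀ U : (Mat r ℂ)ˣ, MvPolynomial.eval (fun p => (U : Mat r ℂ) p.1 p.2) G =
      (U : Mat r ℂ).det ^ N * evalG (conjH U y) f := by
    intro U
    let ev : MvPolynomial (Fin r × Fin r) ℂ →ₐ[ℂ] ℂ :=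
      MvPolynomial.aeval fun p => (U : Mat r ℂ) p.1 p.2
    have hev : ∀ q, MvPolynomial.eval (fun p => (U : Mat r ℂ) p.1 p.2) q = ev q := by
      intro q
      rw [← MvPolynomial.coe_aeval_eq_eval]
      rfl
    have h1 : XX.map ev = (U : Mat r ℂ) := by
      ext i j
      simp [XX, ev]
    have hdet : ev XX.det = (U : Mat r ℂ).det := by
      rw [← h1]
      exact AlgHom.map_det ev XX
    have hadj : XX.adjugate.map ev = (U : Mat r ℂ).adjugate := by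
      rw [← h1]
      exact AlgHom.map_adjugate ev XX
    have hY : ∀ k, ((Y k).map MvPolynomial.C).map ev = Y k := by
      intro k
      ext i j
      simp [ev]
    have hd0 : (U : Mat r ℂ).det ≠ 0 := by
      have := (Matrix.isUnit_iff_isUnit_det _).mp U.isUnit
      exact this.ne_zero
    rw [hev]
    simp only [G]
    rw [← AlgHom.comp_apply, MvPolynomial.comp_aeval]
    have h2 : (fun o : Option (GenU g n × Fin r × Fin r) =>
        ev (o.elim XX.det fun p => Z p.1 p.2.1 p.2.2)) =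
        fun o => o.elim (U : Mat r ℂ).det
          fun p => ((U : Mat r ℂ) * Y p.1 * (U : Mat r ℂ).adjugate) p.2.1 p.2.2 := by
      funext o
      cases o with
      | none => simpa using hdet
      | some p =>
        simp only [Option.elim_some]
        have h3 : (Z p.1).map ev =
            (U : Mat r ℂ) * Y p.1 * (U : Mat r ℂ).adjugate := by
          simp only [Z]
          rw [Matrix.map_mul, Matrix.map_mul, h1, hY, hadj]
        rw [← h3]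
        rfl
    have h4 := hH (U : Mat r ℂ).det hd0
      (fun p => ((U : Mat r ℂ) * Y p.1 * (U : Mat r ℂ).adjugate) p.2.1 p.2.2)
    rw [← MvPolynomial.coe_aeval_eq_eval] at h4
    rw [h2]
    refine h4.trans ?_
    congr 1
    rw [evalG_eq_evK, ← MvPolynomial.coe_aeval_eq_eval]
    unfold evK
    have h5 : (fun p : GenU g n × Fin r × Fin r => (U : Mat r ℂ).det⁻¹ *
        ((U : Mat r ℂ) * Y p.1 * (U : Mat r ℂ).adjugate) p.2.1 p.2.2) =
        fun p => ((conjH U y (FreeGroup.of p.1) : (Mat r ℂ)ˣ) : Mat r ℂ) p.2.1 p.2.2 := by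
      funext p
      have h6 : ((U⁻¹ : (Mat r ℂ)ˣ) : Mat r ℂ) =
          (U : Mat r ℂ).det⁻¹ • (U : Mat r ℂ).adjugate := by
        rw [Matrix.coe_units_inv, Matrix.inv_def, Ring.inverse_eq_inv']
      rw [conjH_apply, Units.val_mul, Units.val_mul, h6, Matrix.mul_smul, Matrix.smul_apply,
        smul_eq_mul]
    rw [h5]
    rfl
  have hG : G = 0 := by
    apply P002.scaledSL_dense
    intro c X
    let U : (Mat r ℂ)ˣ := scalarU c * slU (Int.castRingHom ℂ) X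
    have hU : (fun p : Fin r × Fin r => (c : ℂ) * ((X.1 p.1 p.2 : ℤ) : ℂ)) =
        fun p => (U : Mat r ℂ) p.1 p.2 := by
      funext p
      simp only [U]
      rw [scalarU_mul_coe, Matrix.smul_apply, smul_eq_mul]
      simp [slU]
    rw [hU, key]
    have hc : conjH U y = conjH (slU (Int.castRingHom ℂ) X) y := by
      ext1 w
      rw [conjH_apply, conjH_apply]
      have : U * y (FreeGroup.of w) * U⁻¹ = scalarU c * (slU (Int.castRingHom ℂ) X *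
          y (FreeGroup.of w) * (slU (Int.castRingHom ℂ) X)⁻¹) * (scalarU c)⁻¹ := by
        simp only [U]
        group
      rw [this, scalarU_comm]
      group
    rw [hc, hf _ (conjH_mem_DU φ hy X), mul_zero]
  have h := key U
  rw [hG, map_zero] at h
  have hd0 : (U : Mat r ℂ).det ≠ 0 := by
    have := (Matrix.isUnit_iff_isUnit_det _).mp U.isUnit
    exact this.ne_zero
  rcases mul_eq_zero.mp h.symm with h | h
  · exact absurd h (pow_ne_zero _ hd0)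
  · exact h

end Conj

section Blocks

variable {r r₁ r₂ : ℕ} {G : Type*} [Group G]

/-- block sum of units -/
noncomputable def blkU (D : P002.Dec r r₁ r₂) : (Mat r₁ ℂ)ˣ × (Mat r₂ ℂ)ˣ →* (Mat r ℂ)ˣ where
  toFun p :=
    { val := D.blk (p.1 : Mat r₁ ℂ) (p.2 : Mat r₂ ℂ)
      inv := D.blk ((p.1⁻¹ : (Mat r₁ ℂ)ˣ) : Mat r₁ ℂ) ((p.2⁻¹ : (Mat r₂ ℂ)ˣ) : Mat r₂ ℂ)
      val_inv := by
        rw [D.blk_mul, ← Units.val_mul, ← Units.val_mul, mul_inv_cancel, mul_inv_cancel,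
          Units.val_one, Units.val_one, D.blk_one]
      inv_val := by
        rw [D.blk_mul, ← Units.val_mul, ← Units.val_mul, inv_mul_cancel, inv_mul_cancel,
          Units.val_one, Units.val_one, D.blk_one] }
  map_one' := by
    apply Units.ext
    exact D.blk_one
  map_mul' p q := by
    apply Units.ext
    exact (D.blk_mul _ _ _ _).symm

theorem blkU_coe (D : P002.Dec r r₁ r₂) (A : (Mat r₁ ℂ)ˣ) (B : (Mat r₂ ℂ)ˣ) :
    (blkU D (A, B) : Mat r ℂ) = D.blk (A : Mat r₁ ℂ) (B : Mat r₂ ℂ) := rfl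

theorem blkU_conj (D D' : P002.Dec r r₁ r₂) {A A' : (Mat r₁ ℂ)ˣ} {B B' : (Mat r₂ ℂ)ˣ}
    (hA : IsConj A A') (hB : IsConj B B') : IsConj (blkU D (A, B)) (blkU D' (A', B')) := by
  have h1 : IsConj (blkU D (A, B)) (blkU D' (A, B)) := by
    rw [isConj_iff]
    refine ⟨D'.change D, ?_⟩
    apply Units.ext
    rw [Units.val_mul, Units.val_mul, blkU_coe, blkU_coe]
    exact P002.Dec.change_conj D' D _ _
  refine h1.trans ?_
  obtain ⟨X, rfl⟩ := isConj_iff.mp hA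
  obtain ⟨Y, rfl⟩ := isConj_iff.mp hB
  rw [isConj_iff]
  refine ⟨blkU D' (X, Y), ?_⟩
  rw [← map_inv, ← map_mul, ← map_mul]
  rfl

/-- twist of a representation by a character -/
noncomputable def tw (χ : G →* ℂˣ) (y : G →* (Mat r ℂ)ˣ) : G →* (Mat r ℂ)ˣ where
  toFun w := scalarU (χ w) * y w
  map_one' := by simp
  map_mul' a b := by
    rw [map_mul, map_mul, map_mul, mul_assoc, mul_assoc, ← mul_assoc (y a), ← scalarU_comm,
      mul_assoc]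

theorem tw_apply (χ : G →* ℂˣ) (y : G →* (Mat r ℂ)ˣ) (w : G) :
    tw χ y w = scalarU (χ w) * y w := rfl

/-- block sum of representations -/
noncomputable def bs (D : P002.Dec r r₁ r₂) (y₁ : G →* (Mat r₁ ℂ)ˣ) (y₂ : G →* (Mat r₂ ℂ)ˣ) :
    G →* (Mat r ℂ)ˣ :=
  (blkU D).comp (y₁.prod y₂)

theorem bs_apply (D : P002.Dec r r₁ r₂) (y₁ : G →* (Mat r₁ ℂ)ˣ) (y₂ : G →* (Mat r₂ ℂ)ˣ) (w : G) :
    bs D y₁ y₂ w = blkU D (y₁ w, y₂ w) := rfl

theorem bs_ss (D : P002.Dec r r₁ r₂) (y₁ : G →* (Mat r₁ ℂ)ˣ) (y₂ : G →* (Mat r₂ ℂ)ˣ)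
    (χ₁ χ₂ : G →* ℂˣ) (h₁ : SS y₁) (h₂ : SS y₂) : SS (bs D (tw χ₁ y₁) (tw χ₂ y₂)) := by
  refine P002.Dec.ss D _ y₁ y₂ (fun w => (χ₁ w : ℂ)) (fun w => (χ₂ w : ℂ)) (fun w => (χ₁ w).ne_zero)
    (fun w => (χ₂ w).ne_zero) ?_ h₁ h₂
  intro w
  rw [bs_apply, blkU_coe, tw_apply, tw_apply, scalarU_mul_coe, scalarU_mul_coe]

end Blocks

section TwoBlock

variable {g n r r₁ r₂ : ℕ} {R : Type*} [CommRing R]

theorem char_relatorU_red {A : Type*} [CommGroup A] (χ : FU g n →* A)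
    (h : ∀ j, χ (FreeGroup.of (Sum.inr j)) = 1) : χ (relatorU g n) = 1 := by
  unfold relatorU
  rw [map_mul, map_list_prod, map_list_prod, List.map_ofFn, List.map_ofFn]
  have h1 : (List.ofFn (⇑χ ∘ fun j : Fin n => (FreeGroup.of (Sum.inr j) : FU g n))).prod = 1 := by
    apply List.prod_eq_one
    intro a ha
    rw [List.mem_ofFn] at ha
    obtain ⟨j, rfl⟩ := ha
    exact h j
  have h2 : (List.ofFn (⇑χ ∘ fun i : Fin g => (FreeGroup.of (Sum.inl (i, false)) *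
      FreeGroup.of (Sum.inl (i, true)) * (FreeGroup.of (Sum.inl (i, false)))⁻¹ *
      (FreeGroup.of (Sum.inl (i, true)))⁻¹ : FU g n))).prod = 1 := by
    apply List.prod_eq_one
    intro a ha
    rw [List.mem_ofFn] at ha
    obtain ⟨i, rfl⟩ := ha
    simp only [Function.comp_apply, map_mul, map_inv]
    rw [mul_right_comm (χ (FreeGroup.of (Sum.inl (i, false)))), mul_inv_cancel, one_mul,
      mul_inv_cancel]
  rw [h1, h2, one_mul]

/-- a twisted block sum of points is a point -/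
theorem bs_mem_YU {C : Fin n → (Mat r ℂ)ˣ} {C₁ : Fin n → (Mat r₁ ℂ)ˣ} {C₂ : Fin n → (Mat r₂ ℂ)ˣ}
    (D₀ : P002.Dec r r₁ r₂) (hC : ∀ j, IsConj (C j) (blkU D₀ (C₁ j, C₂ j)))
    {y₁ : FU g n →* (Mat r₁ ℂ)ˣ} {y₂ : FU g n →* (Mat r₂ ℂ)ˣ} (h₁ : y₁ ∈ YU g C₁)
    (h₂ : y₂ ∈ YU g C₂) (χ₁ χ₂ : FU g n →* ℂˣ) (hχ₁ : ∀ j, χ₁ (FreeGroup.of (Sum.inr j)) = 1)
    (hχ₂ : ∀ j, χ₂ (FreeGroup.of (Sum.inr j)) = 1) (D : P002.Dec r r₁ r₂) :
    bs D (tw χ₁ y₁) (tw χ₂ y₂) ∈ YU g C := by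
  refine ⟨?_, ?_, ?_⟩
  · rw [bs_apply, tw_apply, tw_apply, h₁.1, h₂.1, char_relatorU_red χ₁ hχ₁, char_relatorU_red χ₂ hχ₂,
      map_one, map_one, one_mul, one_mul]
    exact map_one (blkU D)
  · intro j
    refine (hC j).trans ?_
    rw [bs_apply, tw_apply, tw_apply, hχ₁, hχ₂, map_one, map_one, one_mul, one_mul]
    exact blkU_conj D₀ D (h₁.2.1 j) (h₂.2.1 j)
  · exact bs_ss D y₁ y₂ χ₁ χ₂ h₁.2.2 h₂.2.2

theorem slU_slBlk (φ : R →+* ℂ) (e : Fin r₁ ⊕ Fin r₂ ≃ Fin r) (u : Rˣ) (m : Multiplicative ℤ)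
    (A : SpecialLinearGroup (Fin r₁) R) (B : SpecialLinearGroup (Fin r₂) R) :
    (slU φ (P002.slBlk e u m A B) : Mat r ℂ) = (P002.stdDec e).blk
      (φ (u ^ (m.toAdd * (r₂ : ℤ)) : Rˣ) • (slU φ A : Mat r₁ ℂ))
      (φ (u ^ (-(m.toAdd * (r₁ : ℤ))) : Rˣ) • (slU φ B : Mat r₂ ℂ)) :=
  P002.slU_slBlk φ e u m A B

/-- determinant of a matrix whose `N`-th power is unipotent -/
theorem det_pow_eq_one (X : Mat r ℂ) (N : ℕ) (h : IsNilpotent (X ^ N - 1)) : X.det ^ N = 1 := by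
  have h1 : ∀ M : Mat r ℂ, IsNilpotent M → (1 + M).det = 1 := by
    intro M hM
    have h2 := Matrix.isNilpotent_charpoly_sub_pow_of_isNilpotent hM
    have h3 : M.charpoly = Polynomial.X ^ r := by
      have := h2.eq_zero
      rw [Fintype.card_fin, sub_eq_zero] at this
      exact this
    have h4 := congrArg (Polynomial.eval (-1)) h3
    rw [Matrix.eval_charpoly, Polynomial.eval_pow, Polynomial.eval_X] at h4
    have h5 : Matrix.scalar (Fin r) (-1 : ℂ) - M = -(1 + M) := by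
      rw [map_neg, map_one]
      abel
    rw [h5, Matrix.det_neg, Fintype.card_fin] at h4
    have h6 : ((-1 : ℂ)) ^ r ≠ 0 := pow_ne_zero _ (by norm_num)
    exact mul_left_cancel₀ h6 (by rw [h4, mul_one])
  rw [← Matrix.det_pow]
  have := h1 _ h
  rwa [add_sub_cancel] at this

theorem nilp_conj {X Y : (Mat r ℂ)ˣ} (h : IsConj X Y) (N : ℕ)
    (hX : IsNilpotent ((X : Mat r ℂ) ^ N - 1)) : IsNilpotent ((Y : Mat r ℂ) ^ N - 1) := by
  obtain ⟨U, rfl⟩ := isConj_iff.mp h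
  obtain ⟨k, hk⟩ := hX
  refine ⟨k, ?_⟩
  have hpow : ∀ (M : Mat r ℂ) (k : ℕ), ((U : Mat r ℂ) * M * ((U⁻¹ : (Mat r ℂ)ˣ) : Mat r ℂ)) ^ k =
      (U : Mat r ℂ) * M ^ k * ((U⁻¹ : (Mat r ℂ)ˣ) : Mat r ℂ) := by
    intro M k
    exact Units.conj_pow U M k
  have h1 : ((U * X * U⁻¹ : (Mat r ℂ)ˣ) : Mat r ℂ) ^ N - 1 =
      (U : Mat r ℂ) * ((X : Mat r ℂ) ^ N - 1) * ((U⁻¹ : (Mat r ℂ)ˣ) : Mat r ℂ) := by
    rw [Units.val_mul, Units.val_mul, hpow, mul_sub, sub_mul, mul_one, ← Units.val_mul,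
      mul_inv_cancel, Units.val_one]
  rw [h1, hpow, hk, mul_zero, zero_mul]

/-- the block sum of the boundary matrices of two integral representations is integral -/
theorem blk_mem_GR (φ : R →+* ℂ) (hφ : Function.Injective φ) (N : ℕ) (hN : 0 < N)
    (hr1 : 0 < r₁) (hr2 : 0 < r₂) (hr : r₁ + r₂ = r)
    (hμ : ∀ k : ℕ, 0 < k → k ≤ r → ∀ z : ℂ, z ^ (N * k) = 1 → z ∈ Set.range φ)
    (e : Fin r₁ ⊕ Fin r₂ ≃ Fin r) {A : (Mat r₁ ℂ)ˣ} {B : (Mat r₂ ℂ)ˣ}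
    (hA : A ∈ GR r₁ φ) (hB : B ∈ GR r₂ φ) (nA : IsNilpotent ((A : Mat r₁ ℂ) ^ N - 1))
    (nB : IsNilpotent ((B : Mat r₂ ℂ) ^ N - 1)) : blkU (P002.stdDec e) (A, B) ∈ GR r φ := by
  have hlift : ∀ (k : ℕ) (_ : 0 < k) (_ : k ≤ r) (A : (Mat k ℂ)ˣ) (_ : A ∈ GR k φ)
      (_ : IsNilpotent ((A : Mat k ℂ) ^ N - 1)), ∃ Y : Mat k R, (A : Mat k ℂ) = Y.map φ ∧
        Y.det ^ N = 1 := by
    intro k hk hkr A hA nA
    obtain ⟨c, z, rfl⟩ := hA
    have hdet := det_pow_eq_one _ N nA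
    rw [scalarU_mul_coe] at hdet nA ⊢
    have hz : (slU φ z : Mat k ℂ).det = 1 := by
      rw [slU_coe, ← RingHom.mapMatrix_apply, ← RingHom.map_det, z.det_coe, map_one]
    rw [Matrix.det_smul, Fintype.card_fin, hz, mul_one, ← pow_mul, mul_comm] at hdet
    obtain ⟨γ, hγ⟩ := hμ k hk hkr _ hdet
    refine ⟨γ • (z : Mat k R), ?_, ?_⟩
    · rw [slU_coe]
      ext i j
      simp [hγ]
    · rw [Matrix.det_smul, Fintype.card_fin, z.det_coe, mul_one, ← pow_mul, mul_comm]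
      apply hφ
      rw [map_pow, hγ, hdet, map_one]
  obtain ⟨Y, hY, hYd⟩ := hlift r₁ hr1 (by omega) A hA nA
  obtain ⟨Z, hZ, hZd⟩ := hlift r₂ hr2 (by omega) B hB nB
  obtain ⟨c, hc⟩ := exists_root (r := r) φ hφ (by omega) N hN (hμ r (by omega) le_rfl)
    (Y.det * Z.det) (by rw [mul_pow, hYd, hZd, one_mul])
  refine mem_GR_of φ _ (Matrix.reindex e e (fromBlocks Y 0 0 Z)) ?_ c ?_
  · rw [blkU_coe, P002.stdDec_blk, hY, hZ]
    ext i j
    obtain ⟨i, rfl⟩ := e.surjective i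
    obtain ⟨j, rfl⟩ := e.surjective j
    rcases i with i | i <;> rcases j with j | j <;> simp
  · rw [Matrix.det_reindex_self, Matrix.det_fromBlocks_zero₂₁, hc]

/-- the tuple of block matrices with parameters -/
noncomputable def tup {S : Type*} [CommRing S] [Algebra ℂ S] (D : P002.Dec r r₁ r₂)
    (Z₁ : Fin g × Bool → Mat r₁ ℂ) (Z₂ : Fin g × Bool → Mat r₂ ℂ) (W₁ : Fin n → Mat r₁ ℂ)
    (W₂ : Fin n → Mat r₂ ℂ) (s t : Fin g × Bool → S) : GenU g n → Mat r S :=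
  Sum.elim (fun k => D.blk (s k • (Z₁ k).map (algebraMap ℂ S)) (t k • (Z₂ k).map (algebraMap ℂ S)))
    fun j => D.blk ((W₁ j).map (algebraMap ℂ S)) ((W₂ j).map (algebraMap ℂ S))

theorem tup_map {S T : Type*} [CommRing S] [Algebra ℂ S] [CommRing T] [Algebra ℂ T]
    (θ : S →ₐ[ℂ] T) (D : P002.Dec r r₁ r₂)
    (Z₁ : Fin g × Bool → Mat r₁ ℂ) (Z₂ : Fin g × Bool → Mat r₂ ℂ) (W₁ : Fin n → Mat r₁ ℂ)
    (W₂ : Fin n → Mat r₂ ℂ) (s t : Fin g × Bool → S) (k : GenU g n) :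
    (tup D Z₁ Z₂ W₁ W₂ s t k).map θ =
      tup D Z₁ Z₂ W₁ W₂ (fun k => θ (s k)) (fun k => θ (t k)) k := by
  rcases k with k | j
  · simp only [tup, Sum.elim_inl]
    rw [P002.Dec.blk_map]
    congr 1
    · ext i j
      simp
    · ext i j
      simp
  · simp only [tup, Sum.elim_inr]
    rw [P002.Dec.blk_map]
    congr 1
    · ext i j
      simp
    · ext i j
      simp

theorem tup_complex (D : P002.Dec r r₁ r₂)
    (Z₁ : Fin g × Bool → Mat r₁ ℂ) (Z₂ : Fin g × Bool → Mat r₂ ℂ) (W₁ : Fin n → Mat r₁ ℂ)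
    (W₂ : Fin n → Mat r₂ ℂ) (s t : Fin g × Bool → ℂ) : tup D Z₁ Z₂ W₁ W₂ s t =
      Sum.elim (fun k => D.blk (s k • Z₁ k) (t k • Z₂ k)) (fun j => D.blk (W₁ j) (W₂ j)) := by
  have h : ∀ {a b : ℕ} (M : Matrix (Fin a) (Fin b) ℂ), M.map (algebraMap ℂ ℂ) = M := by
    intro a b M
    ext i j
    simp
  unfold tup
  simp only [h]

/-- data of two integral pieces -/
structure TwoData (φ : R →+* ℂ) (g n r r₁ r₂ : ℕ) (C : Fin n → (Mat r ℂ)ˣ) where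
  N : ℕ
  hN : 0 < N
  hr1 : 0 < r₁
  hr2 : 0 < r₂
  hr : r₁ + r₂ = r
  hμ : ∀ k : ℕ, 0 < k → k ≤ r → ∀ z : ℂ, z ^ (N * k) = 1 → z ∈ Set.range φ
  C₁ : Fin n → (Mat r₁ ℂ)ˣ
  C₂ : Fin n → (Mat r₂ ℂ)ˣ
  D₀ : P002.Dec r r₁ r₂
  hC : ∀ j, IsConj (C j) (blkU D₀ (C₁ j, C₂ j))
  nC₁ : ∀ j, IsNilpotent ((C₁ j : Mat r₁ ℂ) ^ N - 1)
  nC₂ : ∀ j, IsNilpotent ((C₂ j : Mat r₂ ℂ) ^ N - 1)
  y₁ : FU g n →* (Mat r₁ ℂ)ˣ
  y₂ : FU g n →* (Mat r₂ ℂ)ˣ
  h₁ : y₁ ∈ DU g φ C₁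
  h₂ : y₂ ∈ DU g φ C₂

theorem two_block_special (φ : R →+* ℂ) (hφ : Function.Injective φ) (u : Rˣ)
    {C : Fin n → (Mat r ℂ)ˣ} (d : TwoData φ g n r r₁ r₂ C) (D : P002.Dec r r₁ r₂)
    (f : MvPolynomial (GenU g n × Fin r × Fin r) ℂ)
    (hf : ∀ y ∈ DU g φ C, evalG y f = 0)
    (c₁ c₂ : Fin g × Bool → ℂˣ) (z₁ : Fin g × Bool → SpecialLinearGroup (Fin r₁) R)
    (z₂ : Fin g × Bool → SpecialLinearGroup (Fin r₂) R)
    (hz₁ : ∀ k, d.y₁ (FreeGroup.of (Sum.inl k)) = scalarU (c₁ k) * slU φ (z₁ k))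
    (hz₂ : ∀ k, d.y₂ (FreeGroup.of (Sum.inl k)) = scalarU (c₂ k) * slU φ (z₂ k))
    (m : Fin g × Bool → ℤ) (c : Fin g × Bool → ℂˣ) :
    evK (tup D (fun k => (slU φ (z₁ k) : Mat r₁ ℂ)) (fun k => (slU φ (z₂ k) : Mat r₂ ℂ))
      (fun j => (d.y₁ (FreeGroup.of (Sum.inr j)) : Mat r₁ ℂ))
      (fun j => (d.y₂ (FreeGroup.of (Sum.inr j)) : Mat r₂ ℂ))
      (fun k => (c k : ℂ) * φ (u ^ (m k * (r₂ : ℤ)) : Rˣ))
      (fun k => (c k : ℂ) * φ (u ^ (-(m k * (r₁ : ℤ))) : Rˣ))) f = 0 := by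
  let e : Fin r₁ ⊕ Fin r₂ ≃ Fin r := finSumFinEquiv.trans (finCongr d.hr)
  let v : ℂˣ := Units.map (φ : R →* ℂ) u
  have hv : ∀ a : ℤ, ((v ^ a : ℂˣ) : ℂ) = φ ((u ^ a : Rˣ) : R) := by
    intro a
    simp only [v]
    rw [← map_zpow]
    rfl
  let χ₁ : FU g n →* ℂˣ := FreeGroup.lift
    (Sum.elim (fun k => c k * v ^ (m k * (r₂ : ℤ)) * (c₁ k)⁻¹) fun _ => 1)
  let χ₂ : FU g n →* ℂˣ := FreeGroup.lift
    (Sum.elim (fun k => c k * v ^ (-(m k * (r₁ : ℤ))) * (c₂ k)⁻¹) fun _ => 1)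
  have hχ₁ : ∀ j, χ₁ (FreeGroup.of (Sum.inr j)) = 1 := fun j => by simp [χ₁]
  have hχ₂ : ∀ j, χ₂ (FreeGroup.of (Sum.inr j)) = 1 := fun j => by simp [χ₂]
  have hχ₁' : ∀ k, χ₁ (FreeGroup.of (Sum.inl k)) = c k * v ^ (m k * (r₂ : ℤ)) * (c₁ k)⁻¹ :=
    fun k => by simp [χ₁]
  have hχ₂' : ∀ k, χ₂ (FreeGroup.of (Sum.inl k)) = c k * v ^ (-(m k * (r₁ : ℤ))) * (c₂ k)⁻¹ :=
    fun k => by simp [χ₂]
  set y : FU g n →* (Mat r ℂ)ˣ := bs (P002.stdDec e) (tw χ₁ d.y₁) (tw χ₂ d.y₂) with hy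
  have hyl : ∀ k, (y (FreeGroup.of (Sum.inl k)) : Mat r ℂ) = (P002.stdDec e).blk
      (((c k : ℂ) * φ (u ^ (m k * (r₂ : ℤ)) : Rˣ)) • (slU φ (z₁ k) : Mat r₁ ℂ))
      (((c k : ℂ) * φ (u ^ (-(m k * (r₁ : ℤ))) : Rˣ)) • (slU φ (z₂ k) : Mat r₂ ℂ)) := by
    intro k
    rw [hy, bs_apply, blkU_coe, tw_apply, tw_apply, hz₁, hz₂, ← mul_assoc, ← mul_assoc,
      ← map_mul, ← map_mul, hχ₁', hχ₂', inv_mul_cancel_right, inv_mul_cancel_right,
      scalarU_mul_coe, scalarU_mul_coe, Units.val_mul, Units.val_mul, hv, hv]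
  have hyr : ∀ j, y (FreeGroup.of (Sum.inr j)) = blkU (P002.stdDec e)
      (d.y₁ (FreeGroup.of (Sum.inr j)), d.y₂ (FreeGroup.of (Sum.inr j))) := by
    intro j
    rw [hy, bs_apply, tw_apply, tw_apply, hχ₁, hχ₂, map_one, map_one, one_mul, one_mul]
  have hyD : y ∈ DU g φ C := by
    refine ⟨bs_mem_YU d.D₀ d.hC d.h₁.1 d.h₂.1 χ₁ χ₂ hχ₁ hχ₂ _, ?_⟩
    rintro (k | j)
    · refine ⟨c k, P002.slBlk e u (Multiplicative.ofAdd (m k)) (z₁ k) (z₂ k), ?_⟩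
      apply Units.ext
      rw [hyl, scalarU_mul_coe, slU_slBlk, P002.Dec.blk_complex, P002.Dec.blk_complex, smul_add]
      simp only [Matrix.mul_smul, Matrix.smul_mul, smul_smul, toAdd_ofAdd]
    · rw [hyr]
      exact blk_mem_GR φ hφ d.N d.hN d.hr1 d.hr2 d.hr d.hμ e (d.h₁.2 _) (d.h₂.2 _)
        (nilp_conj (d.h₁.1.2.1 j) d.N (d.nC₁ j)) (nilp_conj (d.h₂.1.2.1 j) d.N (d.nC₂ j))
  have h := conj_vanish φ f hf y hyD (D.change (P002.stdDec e))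
  rw [evalG_eq_evK] at h
  refine Eq.trans (congrArg (fun X => evK X f) (funext fun k => ?_)) h
  rw [tup_complex, conjH_apply, Units.val_mul, Units.val_mul]
  rcases k with k | j
  · rw [hyl, P002.Dec.change_conj]
    rfl
  · rw [hyr, blkU_coe, P002.Dec.change_conj]
    rfl

theorem two_block_all (φ : R →+* ℂ) (hφ : Function.Injective φ) (u : Rˣ)
    (hu : ∀ k : ℕ, 0 < k → φ (u : R) ^ k ≠ 1)
    {C : Fin n → (Mat r ℂ)ˣ} (d : TwoData φ g n r r₁ r₂ C) (D : P002.Dec r r₁ r₂)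
    (f : MvPolynomial (GenU g n × Fin r × Fin r) ℂ)
    (hf : ∀ y ∈ DU g φ C, evalG y f = 0)
    (c₁ c₂ : Fin g × Bool → ℂˣ) (z₁ : Fin g × Bool → SpecialLinearGroup (Fin r₁) R)
    (z₂ : Fin g × Bool → SpecialLinearGroup (Fin r₂) R)
    (hz₁ : ∀ k, d.y₁ (FreeGroup.of (Sum.inl k)) = scalarU (c₁ k) * slU φ (z₁ k))
    (hz₂ : ∀ k, d.y₂ (FreeGroup.of (Sum.inl k)) = scalarU (c₂ k) * slU φ (z₂ k))
    (s t : Fin g × Bool → ℂˣ) :
    evK (tup D (fun k => (slU φ (z₁ k) : Mat r₁ ℂ)) (fun k => (slU φ (z₂ k) : Mat r₂ ℂ))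
      (fun j => (d.y₁ (FreeGroup.of (Sum.inr j)) : Mat r₁ ℂ))
      (fun j => (d.y₂ (FreeGroup.of (Sum.inr j)) : Mat r₂ ℂ))
      (fun k => (s k : ℂ)) (fun k => (t k : ℂ))) f = 0 := by
  have hr0 : 0 < r := by have := d.hr1; have := d.hr; omega
  have hr := d.hr
  let L := MvPolynomial (Fin g × Bool) ℂ
  let G : L := evK (tup D (fun k => (slU φ (z₁ k) : Mat r₁ ℂ)) (fun k => (slU φ (z₂ k) : Mat r₂ ℂ))
      (fun j => (d.y₁ (FreeGroup.of (Sum.inr j)) : Mat r₁ ℂ))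
      (fun j => (d.y₂ (FreeGroup.of (Sum.inr j)) : Mat r₂ ℂ))
      (fun k => (MvPolynomial.X k * MvPolynomial.C (t k : ℂ) : L))
      (fun k => (MvPolynomial.C (t k : ℂ) : L))) f
  have hG : ∀ ρ : Fin g × Bool → ℂ, MvPolynomial.eval ρ G =
      evK (tup D (fun k => (slU φ (z₁ k) : Mat r₁ ℂ)) (fun k => (slU φ (z₂ k) : Mat r₂ ℂ))
      (fun j => (d.y₁ (FreeGroup.of (Sum.inr j)) : Mat r₁ ℂ))
      (fun j => (d.y₂ (FreeGroup.of (Sum.inr j)) : Mat r₂ ℂ))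
      (fun k => ρ k * (t k : ℂ)) (fun k => (t k : ℂ))) f := by
    intro ρ
    have h0 : MvPolynomial.eval ρ G = (MvPolynomial.aeval ρ : L →ₐ[ℂ] ℂ) G := by
      rw [← MvPolynomial.coe_aeval_eq_eval]
      rfl
    rw [h0]
    simp only [G]
    rw [evK_map]
    refine congrArg (fun X => evK X f) (funext fun k => ?_)
    rw [tup_map]
    congr 1
    · funext k
      simp
    · funext k
      simp
  have hφu : φ (u : R) ≠ 0 := (u.isUnit.map φ).ne_zero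
  let Λ : Set ℂ := Set.range fun m : ℕ => φ (u : R) ^ (r * m)
  have hΛ : Λ.Infinite := by
    apply Set.infinite_range_of_injective
    intro a b h
    have := phi_pow_inj φ u hu h
    exact Nat.eq_of_mul_eq_mul_left hr0 this
  have hG0 : G = 0 := by
    refine MvPolynomial.funext_set (fun _ => Λ) (fun _ => hΛ) ?_
    intro ρ hρ
    rw [map_zero, hG]
    choose m hm using fun k => hρ k (Set.mem_univ k)
    let c : Fin g × Bool → ℂˣ := fun k =>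
      t k * (Units.map (φ : R →* ℂ) u) ^ ((m k : ℤ) * (r₁ : ℤ))
    have h := two_block_special φ hφ u d D f hf c₁ c₂ z₁ z₂ hz₁ hz₂ (fun k => (m k : ℤ)) c
    have hpow : ∀ a : ℤ, φ ((u ^ a : Rˣ) : R) = (((Units.map (φ : R →* ℂ) u) ^ a : ℂˣ) : ℂ) := by
      intro a
      rw [← map_zpow]
      rfl
    have e1 : (fun k => ρ k * (t k : ℂ)) =
        fun k => (c k : ℂ) * φ ((u ^ ((m k : ℤ) * (r₂ : ℤ)) : Rˣ) : R) := by
      funext k
      rw [hpow]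
      simp only [c]
      rw [← Units.val_mul, mul_assoc, ← _root_.zpow_add]
      have : (m k : ℤ) * (r₁ : ℤ) + (m k : ℤ) * (r₂ : ℤ) = ((r * m k : ℕ) : ℤ) := by
        push_cast [← hr]
        ring
      have hmk : ρ k = φ (u : R) ^ (r * m k) := (hm k).symm
      rw [this, zpow_natCast, hmk, Units.val_mul, Units.val_pow_eq_pow_val, mul_comm]
      rfl
    have e2 : (fun k => (t k : ℂ)) =
        fun k => (c k : ℂ) * φ ((u ^ (-((m k : ℤ) * (r₁ : ℤ))) : Rˣ) : R) := by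
      funext k
      rw [hpow]
      simp only [c]
      rw [← Units.val_mul, mul_assoc, ← _root_.zpow_add, add_neg_cancel, zpow_zero, mul_one]
    rw [e1, e2]
    exact h
  have h := hG fun k => (s k : ℂ) * ((t k)⁻¹ : ℂˣ)
  rw [hG0, map_zero] at h
  have e3 : (fun k => (s k : ℂ) * (((t k)⁻¹ : ℂˣ) : ℂ) * (t k : ℂ)) = fun k => (s k : ℂ) := by
    funext k
    rw [mul_assoc, ← Units.val_mul, inv_mul_cancel, Units.val_one, mul_one]
  rw [e3] at h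
  exact h.symm

theorem two_block_DU (φ : R →+* ℂ) (hφ : Function.Injective φ) (u : Rˣ)
    (hu : ∀ k : ℕ, 0 < k → φ (u : R) ^ k ≠ 1)
    {C : Fin n → (Mat r ℂ)ˣ} (d : TwoData φ g n r r₁ r₂ C) (D : P002.Dec r r₁ r₂)
    (f : MvPolynomial (GenU g n × Fin r × Fin r) ℂ)
    (hf : ∀ y ∈ DU g φ C, evalG y f = 0) :
    evK (fun k => D.blk (d.y₁ (FreeGroup.of k) : Mat r₁ ℂ) (d.y₂ (FreeGroup.of k) : Mat r₂ ℂ)) f
      = 0 := by
  choose c₁ z₁ hz₁ using fun k : Fin g × Bool => d.h₁.2 (Sum.inl k)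
  choose c₂ z₂ hz₂ using fun k : Fin g × Bool => d.h₂.2 (Sum.inl k)
  have h := two_block_all φ hφ u hu d D f hf c₁ c₂ z₁ z₂ hz₁ hz₂ c₁ c₂
  refine Eq.trans (congrArg (fun X => evK X f) (funext fun k => ?_)) h
  rw [tup_complex]
  rcases k with k | j
  · rw [Sum.elim_inl, hz₁, hz₂, scalarU_mul_coe, scalarU_mul_coe]
  · rfl

/-- the polynomial in the first block -/
theorem exists_poly₁ {κ : Type*} (D : P002.Dec r r₁ r₂) (f : MvPolynomial (κ × Fin r × Fin r) ℂ)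
    (Y₂ : κ → Mat r₂ ℂ) :
    ∃ f₁ : MvPolynomial (κ × Fin r₁ × Fin r₁) ℂ, ∀ y₁ : FreeGroup κ →* (Mat r₁ ℂ)ˣ,
      evalG y₁ f₁ = evK (fun k => D.blk (y₁ (FreeGroup.of k) : Mat r₁ ℂ) (Y₂ k)) f := by
  let L := MvPolynomial (κ × Fin r₁ × Fin r₁) ℂ
  refine ⟨evK (fun k => D.blk (Matrix.of fun i j => (MvPolynomial.X (k, i, j) : L))
    ((Y₂ k).map MvPolynomial.C)) f, ?_⟩
  intro y₁
  unfold evalG
  rw [evK_map]
  refine congrArg (fun X => evK X f) (funext fun k => ?_)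
  rw [P002.Dec.blk_map]
  congr 1
  · ext i j
    simp
  · ext i j
    simp

theorem exists_poly₂ {κ : Type*} (D : P002.Dec r r₁ r₂) (f : MvPolynomial (κ × Fin r × Fin r) ℂ)
    (Y₁ : κ → Mat r₁ ℂ) :
    ∃ f₂ : MvPolynomial (κ × Fin r₂ × Fin r₂) ℂ, ∀ y₂ : FreeGroup κ →* (Mat r₂ ℂ)ˣ,
      evalG y₂ f₂ = evK (fun k => D.blk (Y₁ k) (y₂ (FreeGroup.of k) : Mat r₂ ℂ)) f := by
  let L := MvPolynomial (κ × Fin r₂ × Fin r₂) ℂ
  refine ⟨evK (fun k => D.blk ((Y₁ k).map MvPolynomial.C)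
    (Matrix.of fun i j => (MvPolynomial.X (k, i, j) : L))) f, ?_⟩
  intro y₂
  unfold evalG
  rw [evK_map]
  refine congrArg (fun X => evK X f) (funext fun k => ?_)
  rw [P002.Dec.blk_map]
  congr 1
  · ext i j
    simp
  · ext i j
    simp

end TwoBlock

section Main

variable {g n : ℕ} {R : Type*} [CommRing R]

/-- TASK L (file RReducible.lean) -/
theorem partIV (φ : R →+* ℂ) (hφ : Function.Injective φ) (u : Rˣ)
    (hu : ∀ k : ℕ, 0 < k → φ (u : R) ^ k ≠ 1) (N : ℕ) (hN : 0 < N) (r : ℕ)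
    (hμ : ∀ k : ℕ, 0 < k → k ≤ r → ∀ z : ℂ, z ^ (N * k) = 1 → z ∈ Set.range φ)
    (hirr : ∀ r' ≤ r, 0 < r' → ∀ C : Fin n → (Mat r' ℂ)ˣ,
      (∀ j, IsNilpotent ((C j : Mat r' ℂ) ^ N - 1)) → ∀ x ∈ YU g C,
      (∀ M : Mat r' ℂ, (∀ w, Commute M (x w : Mat r' ℂ)) → ∃ c : ℂ, M = c • (1 : Mat r' ℂ)) →
      ∀ f : MvPolynomial (GenU g n × Fin r' × Fin r') ℂ,
        (∀ y ∈ DU g φ C, evalG y f = 0) → evalG x f = 0)
    (C : Fin n → (Mat r ℂ)ˣ) (hC : ∀ j, IsNilpotent ((C j : Mat r ℂ) ^ N - 1))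
    (x : FU g n →* (Mat r ℂ)ˣ) (hx : x ∈ YU g C)
    (f : MvPolynomial (GenU g n × Fin r × Fin r) ℂ)
    (hf : ∀ y ∈ DU g φ C, evalG y f = 0) : evalG x f = 0 := by
  induction r using Nat.strong_induction_on with
  | _ r ih =>
  rcases Nat.eq_zero_or_pos r with rfl | hr0
  · refine hf x ⟨hx, fun k => ?_⟩
    have h1 : x (FreeGroup.of k) = 1 := by
      apply Units.ext
      exact Subsingleton.elim _ _
    rw [h1]
    exact (GR 0 φ).one_mem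
  by_cases hc : ∀ M : Mat r ℂ, (∀ w, Commute M (x w : Mat r ℂ)) → ∃ c : ℂ, M = c • (1 : Mat r ℂ)
  · exact hirr r le_rfl hr0 C hC x hx hc f hf
  push Not at hc
  obtain ⟨M, hM, hMs⟩ := hc
  obtain ⟨hrel, hconj, hss⟩ := hx
  have : Nonempty (Fin r) := ⟨⟨0, hr0⟩⟩
  obtain ⟨μ, hμM⟩ := Module.End.exists_eigenvalue (Matrix.mulVecLin M)
  let E₁ : Submodule ℂ (Fin r → ℂ) := Module.End.eigenspace (Matrix.mulVecLin M) μ
  have hE1 : E₁ ≠ ⊥ := hμM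
  have hE1' : E₁ ≠ ⊤ := by
    intro htop
    apply hMs μ
    ext i j
    have hm : (Pi.single j 1 : Fin r → ℂ) ∈ E₁ := by rw [htop]; trivial
    rw [Module.End.mem_eigenspace_iff, Matrix.mulVecLin_apply] at hm
    have := congrFun hm i
    simpa [Matrix.one_apply, Pi.single_apply, eq_comm] using this
  have hinv1 : P002.InvS x E₁ := by
    intro w v hv
    rw [Module.End.mem_eigenspace_iff, Matrix.mulVecLin_apply] at hv ⊢
    rw [mulVec_mulVec, (hM w).eq, ← mulVec_mulVec, hv, mulVec_smul]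
  obtain ⟨E₂, hinv2, hcompl⟩ := hss E₁ hinv1
  obtain ⟨D, hD1, hD2⟩ := P002.exists_dec E₁ E₂ hcompl
  have hsum : Module.finrank ℂ E₁ + Module.finrank ℂ E₂ = r := by
    rw [Submodule.finrank_add_eq_of_isCompl hcompl]
    simp
  have hlt1 : Module.finrank ℂ E₁ < r := by
    have := Submodule.finrank_lt hE1'
    simpa using this
  have hpos1 : 0 < Module.finrank ℂ E₁ := by
    rw [Module.finrank_pos_iff]
    exact Submodule.nontrivial_iff_ne_bot.mpr hE1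
  have hlt2 : Module.finrank ℂ E₂ < r := by omega
  have hpos2 : 0 < Module.finrank ℂ E₂ := by omega
  have hm1 : ∀ w, (x w : Mat r ℂ) * D.P₁ = D.P₁ * (D.Q₁ * (x w : Mat r ℂ) * D.P₁) := by
    intro w
    apply D.mul_P₁
    rw [hD1]
    exact hinv1 w
  have hm2 : ∀ w, (x w : Mat r ℂ) * D.P₂ = D.P₂ * (D.Q₂ * (x w : Mat r ℂ) * D.P₂) := by
    intro w
    apply D.mul_P₂
    rw [hD2]
    exact hinv2 w
  set x₁ := P002.compr x D.P₁ D.Q₁ D.h11 hm1 with hx1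
  set x₂ := P002.compr x D.P₂ D.Q₂ D.h22 hm2 with hx2
  have hs1 : SS x₁ := P002.compr_ss x hss _ _ _ _
  have hs2 : SS x₂ := P002.compr_ss x hss _ _ _ _
  have hrel1 : x₁ (relatorU g n) = 1 := by
    apply Units.ext
    rw [hx1, P002.compr_apply, hrel]
    simp [D.h11]
  have hrel2 : x₂ (relatorU g n) = 1 := by
    apply Units.ext
    rw [hx2, P002.compr_apply, hrel]
    simp [D.h22]
  have hblk : ∀ w, (x w : Mat r ℂ) = D.blk (x₁ w : Mat _ ℂ) (x₂ w : Mat _ ℂ) := by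
    intro w
    rw [P002.Dec.blk_complex, hx1, hx2, P002.compr_apply, P002.compr_apply, ← hm1, ← hm2,
      Matrix.mul_assoc, Matrix.mul_assoc, ← Matrix.mul_add, D.hs, Matrix.mul_one]
  -- the boundary classes of the pieces
  let C₁ : Fin n → (Mat (Module.finrank ℂ E₁) ℂ)ˣ := fun j => x₁ (FreeGroup.of (Sum.inr j))
  let C₂ : Fin n → (Mat (Module.finrank ℂ E₂) ℂ)ˣ := fun j => x₂ (FreeGroup.of (Sum.inr j))
  have hCblk : ∀ j, IsConj (C j) (blkU D (C₁ j, C₂ j)) := by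
    intro j
    have : blkU D (C₁ j, C₂ j) = x (FreeGroup.of (Sum.inr j)) := by
      apply Units.ext
      rw [blkU_coe, hblk]
    rw [this]
    exact hconj j
  have hnil : ∀ j, IsNilpotent ((C₁ j : Mat (Module.finrank ℂ E₁) ℂ) ^ N - 1) ∧
      IsNilpotent ((C₂ j : Mat (Module.finrank ℂ E₂) ℂ) ^ N - 1) := by
    intro j
    obtain ⟨k, hk⟩ := nilp_conj (hCblk j) N (hC j)
    rw [blkU_coe] at hk
    have hpow : ∀ (A : Mat (Module.finrank ℂ E₁) ℂ) (B : Mat (Module.finrank ℂ E₂) ℂ) (k : ℕ),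
        (D.blk A B) ^ k = D.blk (A ^ k) (B ^ k) := by
      intro A B k
      induction k with
      | zero => rw [pow_zero, pow_zero, pow_zero, P002.Dec.blk_one]
      | succ k ih => rw [pow_succ, ih, P002.Dec.blk_mul, pow_succ, pow_succ]
    have hsub : ∀ (A : Mat (Module.finrank ℂ E₁) ℂ) (B : Mat (Module.finrank ℂ E₂) ℂ),
        D.blk A B - 1 = D.blk (A - 1) (B - 1) := by
      intro A B
      rw [← P002.Dec.blk_one D]
      simp only [P002.Dec.blk_complex, Matrix.mul_sub, Matrix.sub_mul]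
      abel
    rw [hpow, hsub, hpow] at hk
    have hQ1 : ∀ (A : Mat (Module.finrank ℂ E₁) ℂ) (B : Mat (Module.finrank ℂ E₂) ℂ),
        D.Q₁ * D.blk A B * D.P₁ = A := by
      intro A B
      rw [P002.Dec.blk_complex, Matrix.mul_add, Matrix.add_mul]
      have e1 : D.Q₁ * (D.P₁ * A * D.Q₁) * D.P₁ = (D.Q₁ * D.P₁) * A * (D.Q₁ * D.P₁) := by
        simp only [Matrix.mul_assoc]
      have e2 : D.Q₁ * (D.P₂ * B * D.Q₂) * D.P₁ = (D.Q₁ * D.P₂) * B * (D.Q₂ * D.P₁) := by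
        simp only [Matrix.mul_assoc]
      rw [e1, e2, D.h11, D.h12]
      simp
    have hQ2 : ∀ (A : Mat (Module.finrank ℂ E₁) ℂ) (B : Mat (Module.finrank ℂ E₂) ℂ),
        D.Q₂ * D.blk A B * D.P₂ = B := by
      intro A B
      rw [P002.Dec.blk_complex, Matrix.mul_add, Matrix.add_mul]
      have e1 : D.Q₂ * (D.P₁ * A * D.Q₁) * D.P₂ = (D.Q₂ * D.P₁) * A * (D.Q₁ * D.P₂) := by
        simp only [Matrix.mul_assoc]
      have e2 : D.Q₂ * (D.P₂ * B * D.Q₂) * D.P₂ = (D.Q₂ * D.P₂) * B * (D.Q₂ * D.P₂) := by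
        simp only [Matrix.mul_assoc]
      rw [e1, e2, D.h21, D.h22]
      simp
    refine ⟨⟨k, ?_⟩, ⟨k, ?_⟩⟩
    · have := hQ1 (((C₁ j : Mat (Module.finrank ℂ E₁) ℂ) ^ N - 1) ^ k)
        (((C₂ j : Mat (Module.finrank ℂ E₂) ℂ) ^ N - 1) ^ k)
      rw [hk, Matrix.mul_zero, Matrix.zero_mul] at this
      exact this.symm
    · have := hQ2 (((C₁ j : Mat (Module.finrank ℂ E₁) ℂ) ^ N - 1) ^ k)
        (((C₂ j : Mat (Module.finrank ℂ E₂) ℂ) ^ N - 1) ^ k)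
      rw [hk, Matrix.mul_zero, Matrix.zero_mul] at this
      exact this.symm
  have hY1 : x₁ ∈ YU g C₁ := ⟨hrel1, fun j => IsConj.refl _, hs1⟩
  have hY2 : x₂ ∈ YU g C₂ := ⟨hrel2, fun j => IsConj.refl _, hs2⟩
  have step1 : ∀ y₂ ∈ DU g φ C₂,
      evK (fun k => D.blk (x₁ (FreeGroup.of k) : Mat _ ℂ) (y₂ (FreeGroup.of k) : Mat _ ℂ)) f
        = 0 := by
    intro y₂ hy₂
    obtain ⟨f₁, hf₁⟩ := exists_poly₁ D f (fun k => (y₂ (FreeGroup.of k) : Mat _ ℂ))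
    rw [← hf₁]
    refine ih _ hlt1 (fun k hk hk' => hμ k hk (hk'.trans hlt1.le))
      (fun r' hr' => hirr r' (hr'.trans hlt1.le)) C₁ (fun j => (hnil j).1) x₁ hY1 f₁ ?_
    intro y₁ hy₁
    rw [hf₁]
    exact two_block_DU φ hφ u hu
      { N := N, hN := hN, hr1 := hpos1, hr2 := hpos2, hr := hsum, hμ := hμ, C₁ := C₁, C₂ := C₂,
        D₀ := D, hC := hCblk, nC₁ := fun j => (hnil j).1, nC₂ := fun j => (hnil j).2, y₁ := y₁,
        y₂ := y₂, h₁ := hy₁, h₂ := hy₂ } D f hf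
  have step2 : evK (fun k => D.blk (x₁ (FreeGroup.of k) : Mat _ ℂ)
      (x₂ (FreeGroup.of k) : Mat _ ℂ)) f = 0 := by
    obtain ⟨f₂, hf₂⟩ := exists_poly₂ D f (fun k => (x₁ (FreeGroup.of k) : Mat _ ℂ))
    rw [← hf₂]
    refine ih _ hlt2 (fun k hk hk' => hμ k hk (hk'.trans hlt2.le))
      (fun r' hr' => hirr r' (hr'.trans hlt2.le)) C₂ (fun j => (hnil j).2) x₂ hY2 f₂ ?_
    intro y₂ hy₂
    rw [hf₂]
    exact step1 y₂ hy₂
  rw [evalG_eq_evK]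
  refine Eq.trans (congrArg (fun X => evK X f) (funext fun k => ?_)) step2
  exact hblk _

end Main

end Vale.Agent.P002R
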