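import Vale.Agent.P002R.RIrred2
import Vale.Agent.P002R.RReducible
import Vale.Agent.P002R.RUnscale
import Vale.Agent.P002R.RFinalLemmas

/-!
# Density of integral points: the main theorem for framed free groups
-/

namespace Vale.Agent.P002R

open Matrix

variable {g n r : ℕ}

/-- Irreducible representations of abelian groups have dimension at most one. -/
theorem abelian_case (hg : g ≤ 1) {R : Type*} [CommRing R] (φ : R →+* ℂ)
    (C : Fin 0 → (Mat r ℂ)ˣ) (x : FU g 0 →* (Mat r ℂ)ˣ) (hx : x ∈ YU g C)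
    (hirr : ∀ M : Mat r ℂ, (∀ w, Commute M (x w : Mat r ℂ)) → ∃ c : ℂ, M = c • (1 : Mat r ℂ)) :
    x ∈ DU g φ C := by
  have hcomm : ∀ k l : GenU g 0, Commute (x (FreeGroup.of k)) (x (FreeGroup.of l)) := by
    intro k l
    rcases k with ⟨i, b⟩ | j
    swap
    · exact j.elim0
    rcases l with ⟨i', b'⟩ | j
    swap
    · exact j.elim0
    have hg1 : g = 1 := by
      have := i.isLt
      omega
    subst hg1
    have hi : i = 0 := Subsingleton.elim _ _
    have hi' : i' = 0 := Subsingleton.elim _ _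
    subst hi hi'
    have h1 := hx.1
    unfold relatorU at h1
    simp only [List.ofFn_zero, List.prod_nil, one_mul, List.ofFn_succ, List.prod_cons,
      mul_one, map_mul, map_inv] at h1
    have h2 : x (FreeGroup.of (Sum.inl (0, false))) * x (FreeGroup.of (Sum.inl (0, true))) =
        x (FreeGroup.of (Sum.inl (0, true))) * x (FreeGroup.of (Sum.inl (0, false))) := by
      rw [mul_inv_eq_one, mul_inv_eq_iff_eq_mul] at h1
      exact h1
    cases b <;> cases b'
    · exact Commute.refl _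
    · exact h2
    · exact h2.symm
    · exact Commute.refl _
  have hall : ∀ w w' : FU g 0, Commute (x w) (x w') := by
    have step : ∀ y : (Mat r ℂ)ˣ, (∀ k, Commute y (x (FreeGroup.of k))) → ∀ w, Commute y (x w) := by
      intro y hy w
      have : (⊤ : Subgroup (FU g 0)) ≤ (Subgroup.centralizer {y}).comap x := by
        rw [← FreeGroup.closure_range_of, Subgroup.closure_le]
        rintro _ ⟨k, rfl⟩
        rw [SetLike.mem_coe, Subgroup.mem_comap, Subgroup.mem_centralizer_singleton_iff]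
        exact (hy k).symm
      have h := this (Subgroup.mem_top w)
      rw [Subgroup.mem_comap, Subgroup.mem_centralizer_singleton_iff] at h
      exact h.symm
    intro w w'
    exact (step (x w') (fun k => (step _ (fun l => hcomm k l) w').symm) w).symm
  refine ⟨hx, fun k => ?_⟩
  -- each value is scalar
  obtain ⟨c, hc⟩ := hirr (x (FreeGroup.of k) : Mat r ℂ) fun w =>
    congrArg Units.val (hall (FreeGroup.of k) w)
  rcases Nat.eq_zero_or_pos r with hr | hr
  · subst hr
    have : x (FreeGroup.of k) = 1 := Units.ext (Subsingleton.elim _ _)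
    rw [this]
    exact one_mem _
  · have hc0 : c ≠ 0 := by
      rintro rfl
      have := (x (FreeGroup.of k)).isUnit
      rw [hc, zero_smul] at this
      have : Nonempty (Fin r) := ⟨⟨0, hr⟩⟩
      exact not_isUnit_zero ‹_›
    refine ⟨Units.mk0 c hc0, 1, Units.ext ?_⟩
    rw [scalarU_mul_coe, hc, map_one, Units.val_one, Units.val_mk0]

/-- Density of the representations which are integral up to scalars. -/
theorem main_DU {R : Type*} [CommRing R] (φ : R →+* ℂ) (hφ : Function.Injective φ) (u : Rˣ)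
    (hu : ∀ k : ℕ, 0 < k → φ (u : R) ^ k ≠ 1) (N : ℕ) (hN : 0 < N)
    (hμ : ∀ k : ℕ, 0 < k → k ≤ r → ∀ z : ℂ, z ^ (2 * N * k) = 1 → z ∈ Set.range φ)
    (hg : 3 ≤ g ∨ n = 0 ∨ (2 ≤ g ∧ N = 1))
    (C : Fin n → (Mat r ℂ)ˣ) (hC : ∀ j, IsNilpotent ((C j : Mat r ℂ) ^ N - 1))
    (x : FU g n →* (Mat r ℂ)ˣ) (hx : x ∈ YU g C)
    (f : MvPolynomial (GenU g n × Fin r × Fin r) ℂ)
    (hf : ∀ y ∈ DU g φ C, evalG y f = 0) : evalG x f = 0 := by
  refine partIV φ hφ u hu N hN r (fun k hk hkr z hz => hμ k hk hkr z ?_) ?_ C hC x hx f hf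
  · rw [mul_assoc, mul_comm 2, pow_mul, hz, one_pow]
  intro r' hr' hr'0 C hC x hx hirr f hf
  by_cases hg2 : 2 ≤ g
  · obtain ⟨m, rfl⟩ : ∃ m, g = m + 1 := ⟨g - 1, by omega⟩
    refine irreducible_case φ hφ u hu hr'0 N hN (hμ r' hr'0 hr') C hC (by omega) ?_ x hx.1 hx.2.1
      hirr f hf
    rcases hg with h | h | h
    · exact Or.inl (by omega)
    · subst h
      exact Or.inr fun j => j.elim0
    · refine Or.inr fun j => ?_
      have := hC j
      rwa [h.2, pow_one] at this
  · have hn : n = 0 := by omega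
    subst hn
    exact hf x (abelian_case (by omega) φ C x hx hirr)

/-- Density of the representations into `SL_r(R)`. -/
theorem main_SL {R : Type*} [CommRing R] (φ : R →+* ℂ) (hφ : Function.Injective φ) (u : Rˣ)
    (hu : ∀ k : ℕ, 0 < k → φ (u : R) ^ k ≠ 1) (N : ℕ) (hN : 0 < N)
    (hμ : ∀ k : ℕ, 0 < k → k ≤ r → ∀ z : ℂ, z ^ (2 * N * k) = 1 → z ∈ Set.range φ)
    (hg : 3 ≤ g ∨ n = 0 ∨ (2 ≤ g ∧ N = 1))
    (C : Fin n → (Mat r ℂ)ˣ) (hC : ∀ j, IsNilpotent ((C j : Mat r ℂ) ^ N - 1))
    (hCdet : ∀ j, (C j : Mat r ℂ).det = 1)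
    (f : MvPolynomial (GenU g n × Fin r × Fin r) ℂ)
    (hf : ∀ y : FU g n →* SpecialLinearGroup (Fin r) R, y (relatorU g n) = 1 →
      (∀ j, IsConj (C j) (slU φ (y (FreeGroup.of (Sum.inr j))))) →
      SS ((slU φ).comp y) → evalG ((slU φ).comp y) f = 0)
    (x : FU g n →* (Mat r ℂ)ˣ) (hx : x ∈ YU g C) (hdet : ∀ w, (x w : Mat r ℂ).det = 1) :
    evalG x f = 0 := by
  rcases Nat.eq_zero_or_pos r with hr | hr
  · subst hr
    have h1 : x = (slU φ).comp 1 := by
      ext w i
      exact i.elim0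
    rw [h1]
    refine hf 1 (by simp) (fun j => ?_) ?_
    · have : C j = slU φ ((1 : FU g n →* SpecialLinearGroup (Fin 0) R) (FreeGroup.of (Sum.inr j))) :=
        Units.ext (Subsingleton.elim _ _)
      rw [← this]
    · rw [← h1]; exact hx.2.2
  · obtain ⟨ζ, hζ⟩ := hμ r hr le_rfl (Complex.exp (2 * Real.pi * Complex.I / r)) (by
      rw [mul_comm (2 * N) r, pow_mul, (Complex.isPrimitiveRoot_exp r hr.ne').pow_eq_one, one_pow])
    have hζp : IsPrimitiveRoot (φ ζ) r := by
      rw [hζ]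
      exact Complex.isPrimitiveRoot_exp r hr.ne'
    refine unscale φ hφ ζ (hφ ?_) hζp hr C hCdet f hf x hdet
      (fun f' hf' => main_DU φ hφ u hu N hN hμ hg C hC x hx f' hf')
    rw [map_pow, map_one]
    exact hζp.pow_eq_one

end Vale.Agent.P002R
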