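import Vale.Agent.P002R.RGDefs
import Vale.Agent.P002R.RReducible

/-! TASK G1: reducible case, general groups and coefficients. -/

namespace Vale.Agent.P002R

open Matrix

section ConjG

variable {r : ℕ}

theorem conj_vanish_gen {K : Type} (D : Set (FreeGroup K →* (Mat r ℂ)ˣ))
    (hD : ∀ y ∈ D, ∀ X : SpecialLinearGroup (Fin r) ℤ,
      conjH (slU (Int.castRingHom ℂ) X) y ∈ D)
    (f : MvPolynomial (K × Fin r × Fin r) ℂ) (hf : ∀ y ∈ D, evalG y f = 0)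
    (y : FreeGroup K →* (Mat r ℂ)ˣ) (hy : y ∈ D) (U : (Mat r ℂ)ˣ) :
    evalG (conjH U y) f = 0 := by
  classical
  obtain ⟨N, H, hH⟩ := P002.exists_homog f
  let XX : Mat r (MvPolynomial (Fin r × Fin r) ℂ) := Matrix.of fun i j => MvPolynomial.X (i, j)
  let Y : K → Mat r ℂ := fun k => (y (FreeGroup.of k) : Mat r ℂ)
  let Z : K → Mat r (MvPolynomial (Fin r × Fin r) ℂ) := fun k =>
    XX * (Y k).map MvPolynomial.C * XX.adjugate
  let G : MvPolynomial (Fin r × Fin r) ℂ :=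
    MvPolynomial.aeval (fun o : Option (K × Fin r × Fin r) =>
      o.elim XX.det fun p => Z p.1 p.2.1 p.2.2) H
  have key : ∀ U : (Mat r ℂ)ˣ, MvPolynomial.eval (fun p => (U : Mat r ℂ) p.1 p.2) G =
      (U : Mat r ℂ).det ^ N * evalG (conjH U y) f := by
    intro U
    let ev : MvPolynomial (Fin r × Fin r) ℂ →ₐ[ℂ] ℂ :=
      MvPolynomial.aeval fun p => (U : Mat r ℂ) p.1 p.2
    have hev : ∀ q, MvPolynomial.eval (fun p => (U : Mat r ℂ) p.1 p.2) q = ev q := by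
      intro q
      rw [← MvPolynomial.coe_aeval_eq_eval]
      rfl
    have h1 : XX.map ev = (U : Mat r ℂ) := by
      ext i j
      simp [XX, ev]
    have hdet : ev XX.det = (U : Mat r ℂ).det := by
      rw [← h1]
      exact AlgHom.map_det ev XX
    have hadj : XX.adjugate.map ev = (U : Mat r ℂ).adjugate := by
      rw [← h1]
      exact AlgHom.map_adjugate ev XX
    have hY : ∀ k, ((Y k).map MvPolynomial.C).map ev = Y k := by
      intro k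
      ext i j
      simp [ev]
    have hd0 : (U : Mat r ℂ).det ≠ 0 := by
      have := (Matrix.isUnit_iff_isUnit_det _).mp U.isUnit
      exact this.ne_zero
    rw [hev]
    simp only [G]
    rw [← AlgHom.comp_apply, MvPolynomial.comp_aeval]
    have h2 : (fun o : Option (K × Fin r × Fin r) =>
        ev (o.elim XX.det fun p => Z p.1 p.2.1 p.2.2)) =
        fun o => o.elim (U : Mat r ℂ).det
          fun p => ((U : Mat r ℂ) * Y p.1 * (U : Mat r ℂ).adjugate) p.2.1 p.2.2 := by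
      funext o
      cases o with
      | none => simpa using hdet
      | some p =>
        simp only [Option.elim_some]
        have h3 : (Z p.1).map ev =
            (U : Mat r ℂ) * Y p.1 * (U : Mat r ℂ).adjugate := by
          simp only [Z]
          rw [Matrix.map_mul, Matrix.map_mul, h1, hY, hadj]
        rw [← h3]
        rfl
    have h4 := hH (U : Mat r ℂ).det hd0
      (fun p => ((U : Mat r ℂ) * Y p.1 * (U : Mat r ℂ).adjugate) p.2.1 p.2.2)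
    rw [← MvPolynomial.coe_aeval_eq_eval] at h4
    rw [h2]
    refine h4.trans ?_
    congr 1
    rw [evalG_eqn, ← MvPolynomial.coe_aeval_eq_eval]
    have h5 : (fun p : K × Fin r × Fin r => (U : Mat r ℂ).det⁻¹ *
        ((U : Mat r ℂ) * Y p.1 * (U : Mat r ℂ).adjugate) p.2.1 p.2.2) =
        fun p => ((conjH U y (FreeGroup.of p.1) : (Mat r ℂ)ˣ) : Mat r ℂ) p.2.1 p.2.2 := by
      funext p
      have h6 : ((U⁻¹ : (Mat r ℂ)ˣ) : Mat r ℂ) =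
          (U : Mat r ℂ).det⁻¹ • (U : Mat r ℂ).adjugate := by
        rw [Matrix.coe_units_inv, Matrix.inv_def, Ring.inverse_eq_inv']
      rw [conjH_apply, Units.val_mul, Units.val_mul, h6, Matrix.mul_smul, Matrix.smul_apply,
        smul_eq_mul]
    rw [h5]
    rfl
  have hG : G = 0 := by
    apply P002.scaledSL_dense
    intro c X
    let U : (Mat r ℂ)ˣ := scalarU c * slU (Int.castRingHom ℂ) X
    have hU : (fun p : Fin r × Fin r => (c : ℂ) * ((X.1 p.1 p.2 : ℤ) : ℂ)) =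
        fun p => (U : Mat r ℂ) p.1 p.2 := by
      funext p
      simp only [U]
      rw [scalarU_mul_coe, Matrix.smul_apply, smul_eq_mul, slU_coe]
      simp
    rw [hU, key]
    have hc : conjH U y = conjH (slU (Int.castRingHom ℂ) X) y := by
      ext1 w
      rw [conjH_apply, conjH_apply]
      have : U * y (FreeGroup.of w) * U⁻¹ = scalarU c * (slU (Int.castRingHom ℂ) X *
          y (FreeGroup.of w) * (slU (Int.castRingHom ℂ) X)⁻¹) * (scalarU c)⁻¹ := by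
        simp only [U]
        group
      rw [this, scalarU_comm]
      group
    rw [hc, hf _ (hD y hy X), mul_zero]
  have h := key U
  rw [hG, map_zero] at h
  have hd0 : (U : Mat r ℂ).det ≠ 0 := by
    have := (Matrix.isUnit_iff_isUnit_det _).mp U.isUnit
    exact this.ne_zero
  rcases mul_eq_zero.mp h.symm with h | h
  · exact absurd h (pow_ne_zero _ hd0)
  · exact h

variable {κ ι : Type} {Rel : Set (FreeGroup (κ ⊕ ι))}

theorem conjH_mem_YG {C : ι → (Mat r ℂ)ˣ} {y : FreeGroup (κ ⊕ ι) →* (Mat r ℂ)ˣ}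
    (hy : y ∈ YG Rel C) (U : (Mat r ℂ)ˣ) : conjH U y ∈ YG Rel C := by
  obtain ⟨h1, h2, h3⟩ := hy
  refine ⟨?_, ?_, ?_⟩
  · intro w hw
    rw [conjH_apply, h1 w hw, mul_one, mul_inv_cancel]
  · intro j
    refine (h2 j).trans ?_
    rw [isConj_iff]
    exact ⟨U, (conjH_apply _ _ _).symm⟩
  · exact P002.SS.conj U (fun w => conjH_apply _ _ w) h3

theorem conjH_mem_DG {R : Type*} [CommRing R] (φ : R →+* ℂ) {C : ι → (Mat r ℂ)ˣ}
    {y : FreeGroup (κ ⊕ ι) →* (Mat r ℂ)ˣ} (hy : y ∈ DG Rel φ C)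
    (X : SpecialLinearGroup (Fin r) ℤ) :
    conjH (slU (Int.castRingHom ℂ) X) y ∈ DG Rel φ C := by
  refine ⟨conjH_mem_YG hy.1 _, fun k => ?_⟩
  rw [conjH_apply]
  exact (GR r φ).mul_mem ((GR r φ).mul_mem (slU_int_mem_GR φ X) (hy.2 k))
    ((GR r φ).inv_mem (slU_int_mem_GR φ X))

end ConjG

section EigE

variable {r r₁ r₂ : ℕ} {E : Subgroup ℂˣ}

/-- Conditions on the coefficient ring, without `-1 ∈ E`. -/
structure CoefOK' {R : Type*} [CommRing R] (φ : R →+* ℂ) (E : Subgroup ℂˣ) (r : ℕ) : Prop where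
  inj : Function.Injective φ
  root : ∀ k : ℕ, 0 < k → k ≤ r → ∀ z : ℂˣ, z ^ k ∈ E → (z : ℂ) ∈ Set.range φ
  unit : ∃ u : Rˣ, ∀ k : ℕ, 0 < k → Units.map (φ : R →* ℂ) u ^ k ∉ E

theorem CoefOK.weak {R : Type*} [CommRing R] {φ : R →+* ℂ} (hc : CoefOK φ E r) :
    CoefOK' φ E r where
  inj := hc.inj
  root := hc.root
  unit := hc.unit

theorem CoefOK'.mono {R : Type*} [CommRing R] {φ : R →+* ℂ} {r' : ℕ} (hc : CoefOK' φ E r)
    (h : r' ≤ r) : CoefOK' φ E r' where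
  inj := hc.inj
  root := fun k hk hk' z hz => hc.root k hk (hk'.trans h) z hz
  unit := hc.unit

theorem EigIn.det {M : Mat r ℂ} (h : EigIn E M) : ∃ e ∈ E, (e : ℂ) = M.det := by
  rw [Matrix.det_eq_prod_roots_charpoly]
  have key : ∀ s : Multiset ℂ, (∀ z ∈ s, ∃ e ∈ E, (e : ℂ) = z) → ∃ e ∈ E, (e : ℂ) = s.prod := by
    intro s
    induction s using Multiset.induction_on with
    | empty => exact fun _ => ⟨1, E.one_mem, by simp⟩
    | cons a s ih =>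
      intro hs
      obtain ⟨e, he, he'⟩ := hs a (Multiset.mem_cons_self a s)
      obtain ⟨e₁, he₁, he₁'⟩ := ih fun z hz => hs z (Multiset.mem_cons_of_mem hz)
      exact ⟨e * e₁, E.mul_mem he he₁, by rw [Units.val_mul, he', he₁', Multiset.prod_cons]⟩
  apply key
  intro z hz
  exact h z (Polynomial.isRoot_of_mem_roots hz)

theorem EigIn.conj {X Y : (Mat r ℂ)ˣ} (h : IsConj X Y) (hX : EigIn E (X : Mat r ℂ)) :
    EigIn E (Y : Mat r ℂ) := by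
  obtain ⟨U, rfl⟩ := isConj_iff.mp h
  intro z hz
  apply hX z
  rwa [Units.val_mul, Units.val_mul, Matrix.coe_units_inv, Matrix.charpoly_units_conj] at hz

theorem isRoot_charpoly_of_mulVec {M : Mat r ℂ} {z : ℂ} {v : Fin r → ℂ} (hv : v ≠ 0)
    (h : M *ᵥ v = z • v) : M.charpoly.IsRoot z := by
  rw [Polynomial.IsRoot.def, Matrix.eval_charpoly, ← Matrix.exists_mulVec_eq_zero_iff]
  refine ⟨v, hv, ?_⟩
  rw [Matrix.sub_mulVec, h, Matrix.scalar_apply, Matrix.diagonal_const_mulVec]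
  simp

theorem exists_mulVec_of_isRoot {M : Mat r ℂ} {z : ℂ} (h : M.charpoly.IsRoot z) :
    ∃ v : Fin r → ℂ, v ≠ 0 ∧ M *ᵥ v = z • v := by
  rw [Polynomial.IsRoot.def, Matrix.eval_charpoly, ← Matrix.exists_mulVec_eq_zero_iff] at h
  obtain ⟨v, hv, hv'⟩ := h
  refine ⟨v, hv, ?_⟩
  rw [Matrix.sub_mulVec, Matrix.scalar_apply, Matrix.diagonal_const_mulVec, sub_eq_zero] at hv'
  exact hv'.symm

theorem EigIn.blk {D : P002.Dec r r₁ r₂} {A : (Mat r₁ ℂ)ˣ} {B : (Mat r₂ ℂ)ˣ}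
    (h : EigIn E (blkU D (A, B) : Mat r ℂ)) :
    EigIn E (A : Mat r₁ ℂ) ∧ EigIn E (B : Mat r₂ ℂ) := by
  rw [blkU_coe] at h
  constructor
  · intro z hz
    obtain ⟨v, hv, hv'⟩ := exists_mulVec_of_isRoot hz
    refine h z (isRoot_charpoly_of_mulVec (v := D.P₁ *ᵥ v) ?_ ?_)
    · intro h0
      apply hv
      apply D.inj₁
      rw [Matrix.mulVecLin_apply, h0, map_zero]
    · rw [P002.Dec.blk_mulVec₁, hv', Matrix.mulVec_smul]
  · intro z hz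
    obtain ⟨v, hv, hv'⟩ := exists_mulVec_of_isRoot hz
    refine h z (isRoot_charpoly_of_mulVec (v := D.P₂ *ᵥ v) ?_ ?_)
    · intro h0
      apply hv
      apply D.inj₂
      rw [Matrix.mulVecLin_apply, h0, map_zero]
    · rw [P002.Dec.blk_mulVec₂, hv', Matrix.mulVec_smul]

variable {R : Type*} [CommRing R]

/-- Elements of the ring which lie in `E` have `r`-th roots which are units. -/
theorem exists_rootE (φ : R →+* ℂ) (hc : CoefOK' φ E r) (hr : 0 < r) (z : R)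
    (hz : ∃ ε ∈ E, (ε : ℂ) = φ z) : ∃ c : Rˣ, z = (c : R) ^ r := by
  obtain ⟨ε, hε, hε'⟩ := hz
  obtain ⟨w, hw⟩ := IsAlgClosed.exists_pow_nat_eq (φ z) hr
  have hw0 : w ≠ 0 := by
    rintro rfl
    rw [zero_pow hr.ne', ← hε'] at hw
    exact ε.ne_zero hw.symm
  have h1 : (Units.mk0 w hw0) ^ r = ε := by
    apply Units.ext
    rw [Units.val_pow_eq_pow_val, Units.val_mk0, hw, hε']
  obtain ⟨γ, hγ⟩ := hc.root r hr le_rfl (Units.mk0 w hw0) (by rw [h1]; exact hε)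
  obtain ⟨γ', hγ'⟩ := hc.root r hr le_rfl (Units.mk0 w hw0)⁻¹
    (by rw [inv_pow, h1]; exact E.inv_mem hε)
  have h2 : γ * γ' = 1 := by
    apply hc.inj
    rw [map_mul, hγ, hγ', map_one, ← Units.val_mul, mul_inv_cancel, Units.val_one]
  refine ⟨⟨γ, γ', h2, by rw [mul_comm]; exact h2⟩, ?_⟩
  apply hc.inj
  rw [map_pow]
  change φ z = φ γ ^ r
  rw [hγ, Units.val_mk0, hw]

/-- A matrix of `GR` with eigenvalues in `E` has entries in the ring. -/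
theorem exists_liftE (φ : R →+* ℂ) (hc : CoefOK' φ E r) {k : ℕ} (hk : 0 < k) (hkr : k ≤ r)
    (A : (Mat k ℂ)ˣ) (hA : A ∈ GR k φ) (nA : EigIn E (A : Mat k ℂ)) :
    ∃ Y : Mat k R, (A : Mat k ℂ) = Y.map φ ∧ ∃ ε ∈ E, (ε : ℂ) = φ Y.det := by
  obtain ⟨c, z, rfl⟩ := hA
  obtain ⟨ε, hε, hε'⟩ := nA.det
  have hz : (slU φ z : Mat k ℂ).det = 1 := by
    rw [slU_coe, ← RingHom.mapMatrix_apply, ← RingHom.map_det, z.det_coe, map_one]
  rw [scalarU_mul_coe, Matrix.det_smul, Fintype.card_fin, hz, mul_one] at hε'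
  have hck : c ^ k = ε := by
    apply Units.ext
    rw [Units.val_pow_eq_pow_val, hε']
  obtain ⟨γ, hγ⟩ := hc.root k hk hkr c (by rw [hck]; exact hε)
  refine ⟨γ • (z : Mat k R), ?_, ε, hε, ?_⟩
  · rw [scalarU_mul_coe, slU_coe]
    ext i j
    simp [hγ]
  · rw [Matrix.det_smul, Fintype.card_fin, z.det_coe, mul_one, map_pow, hγ, hε']

/-- the block sum of the boundary matrices of two integral representations is integral -/
theorem blk_mem_GR_E (φ : R →+* ℂ) (hc : CoefOK' φ E r)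
    (hr1 : 0 < r₁) (hr2 : 0 < r₂) (hr : r₁ + r₂ = r)
    (e : Fin r₁ ⊕ Fin r₂ ≃ Fin r) {A : (Mat r₁ ℂ)ˣ} {B : (Mat r₂ ℂ)ˣ}
    (hA : A ∈ GR r₁ φ) (hB : B ∈ GR r₂ φ) (nA : EigIn E (A : Mat r₁ ℂ))
    (nB : EigIn E (B : Mat r₂ ℂ)) : blkU (P002.stdDec e) (A, B) ∈ GR r φ := by
  obtain ⟨Y, hY, ε₁, hε₁, hYd⟩ := exists_liftE φ hc hr1 (by omega) A hA nA
  obtain ⟨Z, hZ, ε₂, hε₂, hZd⟩ := exists_liftE φ hc hr2 (by omega) B hB nB
  obtain ⟨c, hc⟩ := exists_rootE φ hc (by omega) (Y.det * Z.det)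
    ⟨ε₁ * ε₂, E.mul_mem hε₁ hε₂, by rw [map_mul, ← hYd, ← hZd, Units.val_mul]⟩
  refine mem_GR_of φ _ (Matrix.reindex e e (fromBlocks Y 0 0 Z)) ?_ c ?_
  · rw [blkU_coe, P002.stdDec_blk, hY, hZ]
    ext i j
    obtain ⟨i, rfl⟩ := e.surjective i
    obtain ⟨j, rfl⟩ := e.surjective j
    rcases i with i | i <;> rcases j with j | j <;> simp
  · rw [Matrix.det_reindex_self, Matrix.det_fromBlocks_zero₂₁, hc]

end EigE

section TwoBlockG

variable {κ ι : Type} {r r₁ r₂ : ℕ} {R : Type*} [CommRing R] {Rel : Set (FreeGroup (κ ⊕ ι))}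
  {E : Subgroup ℂˣ}

/-- a twisted block sum of points is a point -/
theorem bs_mem_YG (hchar : CharOK Rel) {C : ι → (Mat r ℂ)ˣ} {C₁ : ι → (Mat r₁ ℂ)ˣ}
    {C₂ : ι → (Mat r₂ ℂ)ˣ}
    (D₀ : P002.Dec r r₁ r₂) (hC : ∀ j, IsConj (C j) (blkU D₀ (C₁ j, C₂ j)))
    {y₁ : FreeGroup (κ ⊕ ι) →* (Mat r₁ ℂ)ˣ} {y₂ : FreeGroup (κ ⊕ ι) →* (Mat r₂ ℂ)ˣ}
    (h₁ : y₁ ∈ YG Rel C₁) (h₂ : y₂ ∈ YG Rel C₂) (χ₁ χ₂ : FreeGroup (κ ⊕ ι) →* ℂˣ)
    (hχ₁ : ∀ j, χ₁ (FreeGroup.of (Sum.inr j)) = 1)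
    (hχ₂ : ∀ j, χ₂ (FreeGroup.of (Sum.inr j)) = 1) (D : P002.Dec r r₁ r₂) :
    bs D (tw χ₁ y₁) (tw χ₂ y₂) ∈ YG Rel C := by
  refine ⟨?_, ?_, ?_⟩
  · intro w hw
    rw [bs_apply, tw_apply, tw_apply, h₁.1 w hw, h₂.1 w hw, hchar w hw ℂˣ χ₁ hχ₁,
      hchar w hw ℂˣ χ₂ hχ₂, map_one, map_one, one_mul, one_mul]
    exact map_one (blkU D)
  · intro j
    refine (hC j).trans ?_
    rw [bs_apply, tw_apply, tw_apply, hχ₁, hχ₂, map_one, map_one, one_mul, one_mul]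
    exact blkU_conj D₀ D (h₁.2.1 j) (h₂.2.1 j)
  · exact bs_ss D y₁ y₂ χ₁ χ₂ h₁.2.2 h₂.2.2

/-- the tuple of block matrices with parameters -/
noncomputable def tupG {S : Type*} [CommRing S] [Algebra ℂ S] (D : P002.Dec r r₁ r₂)
    (Z₁ : κ → Mat r₁ ℂ) (Z₂ : κ → Mat r₂ ℂ) (W₁ : ι → Mat r₁ ℂ)
    (W₂ : ι → Mat r₂ ℂ) (s t : κ → S) : κ ⊕ ι → Mat r S :=
  Sum.elim (fun k => D.blk (s k • (Z₁ k).map (algebraMap ℂ S)) (t k • (Z₂ k).map (algebraMap ℂ S)))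
    fun j => D.blk ((W₁ j).map (algebraMap ℂ S)) ((W₂ j).map (algebraMap ℂ S))

theorem tupG_map {S T : Type*} [CommRing S] [Algebra ℂ S] [CommRing T] [Algebra ℂ T]
    (θ : S →ₐ[ℂ] T) (D : P002.Dec r r₁ r₂)
    (Z₁ : κ → Mat r₁ ℂ) (Z₂ : κ → Mat r₂ ℂ) (W₁ : ι → Mat r₁ ℂ)
    (W₂ : ι → Mat r₂ ℂ) (s t : κ → S) (k : κ ⊕ ι) :
    (tupG D Z₁ Z₂ W₁ W₂ s t k).map θ =
      tupG D Z₁ Z₂ W₁ W₂ (fun k => θ (s k)) (fun k => θ (t k)) k := by
  rcases k with k | j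
  · simp only [tupG, Sum.elim_inl]
    rw [P002.Dec.blk_map]
    congr 1
    · ext i j
      simp
    · ext i j
      simp
  · simp only [tupG, Sum.elim_inr]
    rw [P002.Dec.blk_map]
    congr 1
    · ext i j
      simp
    · ext i j
      simp

theorem tupG_complex (D : P002.Dec r r₁ r₂)
    (Z₁ : κ → Mat r₁ ℂ) (Z₂ : κ → Mat r₂ ℂ) (W₁ : ι → Mat r₁ ℂ)
    (W₂ : ι → Mat r₂ ℂ) (s t : κ → ℂ) : tupG D Z₁ Z₂ W₁ W₂ s t =
      Sum.elim (fun k => D.blk (s k • Z₁ k) (t k • Z₂ k)) (fun j => D.blk (W₁ j) (W₂ j)) := by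
  have h : ∀ {a b : ℕ} (M : Matrix (Fin a) (Fin b) ℂ), M.map (algebraMap ℂ ℂ) = M := by
    intro a b M
    ext i j
    simp
  unfold tupG
  simp only [h]

/-- data of two integral pieces -/
structure TwoDataG (φ : R →+* ℂ) (E : Subgroup ℂˣ) (Rel : Set (FreeGroup (κ ⊕ ι)))
    (r r₁ r₂ : ℕ) (C : ι → (Mat r ℂ)ˣ) where
  hc : CoefOK' φ E r
  hchar : CharOK Rel
  hr1 : 0 < r₁
  hr2 : 0 < r₂
  hr : r₁ + r₂ = r
  C₁ : ι → (Mat r₁ ℂ)ˣ
  C₂ : ι → (Mat r₂ ℂ)ˣ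
  D₀ : P002.Dec r r₁ r₂
  hC : ∀ j, IsConj (C j) (blkU D₀ (C₁ j, C₂ j))
  nC₁ : ∀ j, EigIn E (C₁ j : Mat r₁ ℂ)
  nC₂ : ∀ j, EigIn E (C₂ j : Mat r₂ ℂ)
  y₁ : FreeGroup (κ ⊕ ι) →* (Mat r₁ ℂ)ˣ
  y₂ : FreeGroup (κ ⊕ ι) →* (Mat r₂ ℂ)ˣ
  h₁ : y₁ ∈ DG Rel φ C₁
  h₂ : y₂ ∈ DG Rel φ C₂

theorem two_block_specialG (φ : R →+* ℂ) (u : Rˣ)
    {C : ι → (Mat r ℂ)ˣ} (d : TwoDataG φ E Rel r r₁ r₂ C) (D : P002.Dec r r₁ r₂)
    (f : MvPolynomial ((κ ⊕ ι) × Fin r × Fin r) ℂ)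
    (hf : ∀ y ∈ DG Rel φ C, evalG y f = 0)
    (c₁ c₂ : κ → ℂˣ) (z₁ : κ → SpecialLinearGroup (Fin r₁) R)
    (z₂ : κ → SpecialLinearGroup (Fin r₂) R)
    (hz₁ : ∀ k, d.y₁ (FreeGroup.of (Sum.inl k)) = scalarU (c₁ k) * slU φ (z₁ k))
    (hz₂ : ∀ k, d.y₂ (FreeGroup.of (Sum.inl k)) = scalarU (c₂ k) * slU φ (z₂ k))
    (m : κ → ℤ) (c : κ → ℂˣ) :
    evK (tupG D (fun k => (slU φ (z₁ k) : Mat r₁ ℂ)) (fun k => (slU φ (z₂ k) : Mat r₂ ℂ))
      (fun j => (d.y₁ (FreeGroup.of (Sum.inr j)) : Mat r₁ ℂ))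
      (fun j => (d.y₂ (FreeGroup.of (Sum.inr j)) : Mat r₂ ℂ))
      (fun k => (c k : ℂ) * φ (u ^ (m k * (r₂ : ℤ)) : Rˣ))
      (fun k => (c k : ℂ) * φ (u ^ (-(m k * (r₁ : ℤ))) : Rˣ))) f = 0 := by
  let e : Fin r₁ ⊕ Fin r₂ ≃ Fin r := finSumFinEquiv.trans (finCongr d.hr)
  let v : ℂˣ := Units.map (φ : R →* ℂ) u
  have hv : ∀ a : ℤ, ((v ^ a : ℂˣ) : ℂ) = φ ((u ^ a : Rˣ) : R) := by
    intro a
    simp only [v]
    rw [← map_zpow]
    rfl
  let χ₁ : FreeGroup (κ ⊕ ι) →* ℂˣ := FreeGroup.lift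
    (Sum.elim (fun k => c k * v ^ (m k * (r₂ : ℤ)) * (c₁ k)⁻¹) fun _ => 1)
  let χ₂ : FreeGroup (κ ⊕ ι) →* ℂˣ := FreeGroup.lift
    (Sum.elim (fun k => c k * v ^ (-(m k * (r₁ : ℤ))) * (c₂ k)⁻¹) fun _ => 1)
  have hχ₁ : ∀ j, χ₁ (FreeGroup.of (Sum.inr j)) = 1 := fun j => by simp [χ₁]
  have hχ₂ : ∀ j, χ₂ (FreeGroup.of (Sum.inr j)) = 1 := fun j => by simp [χ₂]
  have hχ₁' : ∀ k, χ₁ (FreeGroup.of (Sum.inl k)) = c k * v ^ (m k * (r₂ : ℤ)) * (c₁ k)⁻¹ :=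
    fun k => by simp [χ₁]
  have hχ₂' : ∀ k, χ₂ (FreeGroup.of (Sum.inl k)) = c k * v ^ (-(m k * (r₁ : ℤ))) * (c₂ k)⁻¹ :=
    fun k => by simp [χ₂]
  set y : FreeGroup (κ ⊕ ι) →* (Mat r ℂ)ˣ :=
    bs (P002.stdDec e) (tw χ₁ d.y₁) (tw χ₂ d.y₂) with hy
  have hyl : ∀ k, (y (FreeGroup.of (Sum.inl k)) : Mat r ℂ) = (P002.stdDec e).blk
      (((c k : ℂ) * φ (u ^ (m k * (r₂ : ℤ)) : Rˣ)) • (slU φ (z₁ k) : Mat r₁ ℂ))
      (((c k : ℂ) * φ (u ^ (-(m k * (r₁ : ℤ))) : Rˣ)) • (slU φ (z₂ k) : Mat r₂ ℂ)) := by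
    intro k
    rw [hy, bs_apply, blkU_coe, tw_apply, tw_apply, hz₁, hz₂, ← mul_assoc, ← mul_assoc,
      ← map_mul, ← map_mul, hχ₁', hχ₂', inv_mul_cancel_right, inv_mul_cancel_right,
      scalarU_mul_coe, scalarU_mul_coe, Units.val_mul, Units.val_mul, hv, hv]
  have hyr : ∀ j, y (FreeGroup.of (Sum.inr j)) = blkU (P002.stdDec e)
      (d.y₁ (FreeGroup.of (Sum.inr j)), d.y₂ (FreeGroup.of (Sum.inr j))) := by
    intro j
    rw [hy, bs_apply, tw_apply, tw_apply, hχ₁, hχ₂, map_one, map_one, one_mul, one_mul]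
  have hyD : y ∈ DG Rel φ C := by
    refine ⟨bs_mem_YG d.hchar d.D₀ d.hC d.h₁.1 d.h₂.1 χ₁ χ₂ hχ₁ hχ₂ _, ?_⟩
    rintro (k | j)
    · refine ⟨c k, P002.slBlk e u (Multiplicative.ofAdd (m k)) (z₁ k) (z₂ k), ?_⟩
      apply Units.ext
      rw [hyl, scalarU_mul_coe, slU_slBlk, P002.Dec.blk_complex, P002.Dec.blk_complex, smul_add]
      simp only [Matrix.mul_smul, Matrix.smul_mul, smul_smul, toAdd_ofAdd]
    · rw [hyr]
      exact blk_mem_GR_E φ d.hc d.hr1 d.hr2 d.hr e (d.h₁.2 _) (d.h₂.2 _)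
        ((d.nC₁ j).conj (d.h₁.1.2.1 j)) ((d.nC₂ j).conj (d.h₂.1.2.1 j))
  have h := conj_vanish_gen (DG Rel φ C) (fun y hy X => conjH_mem_DG φ hy X) f hf y hyD
    (D.change (P002.stdDec e))
  rw [evalG_eq_evK] at h
  refine Eq.trans (congrArg (fun X => evK X f) (funext fun k => ?_)) h
  rw [tupG_complex, conjH_apply, Units.val_mul, Units.val_mul]
  rcases k with k | j
  · rw [hyl, P002.Dec.change_conj]
    rfl
  · rw [hyr, blkU_coe, P002.Dec.change_conj]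
    rfl

theorem two_block_allG [Finite κ] (φ : R →+* ℂ) (u : Rˣ)
    (hu : ∀ k : ℕ, 0 < k → φ (u : R) ^ k ≠ 1)
    {C : ι → (Mat r ℂ)ˣ} (d : TwoDataG φ E Rel r r₁ r₂ C) (D : P002.Dec r r₁ r₂)
    (f : MvPolynomial ((κ ⊕ ι) × Fin r × Fin r) ℂ)
    (hf : ∀ y ∈ DG Rel φ C, evalG y f = 0)
    (c₁ c₂ : κ → ℂˣ) (z₁ : κ → SpecialLinearGroup (Fin r₁) R)
    (z₂ : κ → SpecialLinearGroup (Fin r₂) R)
    (hz₁ : ∀ k, d.y₁ (FreeGroup.of (Sum.inl k)) = scalarU (c₁ k) * slU φ (z₁ k))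
    (hz₂ : ∀ k, d.y₂ (FreeGroup.of (Sum.inl k)) = scalarU (c₂ k) * slU φ (z₂ k))
    (s t : κ → ℂˣ) :
    evK (tupG D (fun k => (slU φ (z₁ k) : Mat r₁ ℂ)) (fun k => (slU φ (z₂ k) : Mat r₂ ℂ))
      (fun j => (d.y₁ (FreeGroup.of (Sum.inr j)) : Mat r₁ ℂ))
      (fun j => (d.y₂ (FreeGroup.of (Sum.inr j)) : Mat r₂ ℂ))
      (fun k => (s k : ℂ)) (fun k => (t k : ℂ))) f = 0 := by
  have hr0 : 0 < r := by have := d.hr1; have := d.hr; omega
  have hr := d.hr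
  let L := MvPolynomial κ ℂ
  let G : L := evK (tupG D (fun k => (slU φ (z₁ k) : Mat r₁ ℂ)) (fun k => (slU φ (z₂ k) : Mat r₂ ℂ))
      (fun j => (d.y₁ (FreeGroup.of (Sum.inr j)) : Mat r₁ ℂ))
      (fun j => (d.y₂ (FreeGroup.of (Sum.inr j)) : Mat r₂ ℂ))
      (fun k => (MvPolynomial.X k * MvPolynomial.C (t k : ℂ) : L))
      (fun k => (MvPolynomial.C (t k : ℂ) : L))) f
  have hG : ∀ ρ : κ → ℂ, MvPolynomial.eval ρ G =
      evK (tupG D (fun k => (slU φ (z₁ k) : Mat r₁ ℂ)) (fun k => (slU φ (z₂ k) : Mat r₂ ℂ))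
      (fun j => (d.y₁ (FreeGroup.of (Sum.inr j)) : Mat r₁ ℂ))
      (fun j => (d.y₂ (FreeGroup.of (Sum.inr j)) : Mat r₂ ℂ))
      (fun k => ρ k * (t k : ℂ)) (fun k => (t k : ℂ))) f := by
    intro ρ
    have h0 : MvPolynomial.eval ρ G = (MvPolynomial.aeval ρ : L →ₐ[ℂ] ℂ) G := by
      rw [← MvPolynomial.coe_aeval_eq_eval]
      rfl
    rw [h0]
    simp only [G]
    rw [evK_map]
    refine congrArg (fun X => evK X f) (funext fun k => ?_)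
    rw [tupG_map]
    congr 1
    · funext k
      simp
    · funext k
      simp
  have hφu : φ (u : R) ≠ 0 := (u.isUnit.map φ).ne_zero
  let Λ : Set ℂ := Set.range fun m : ℕ => φ (u : R) ^ (r * m)
  have hΛ : Λ.Infinite := by
    apply Set.infinite_range_of_injective
    intro a b h
    have := phi_pow_inj φ u hu h
    exact Nat.eq_of_mul_eq_mul_left hr0 this
  have hG0 : G = 0 := by
    refine MvPolynomial.funext_set (fun _ => Λ) (fun _ => hΛ) ?_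
    intro ρ hρ
    rw [map_zero, hG]
    choose m hm using fun k => hρ k (Set.mem_univ k)
    let c : κ → ℂˣ := fun k =>
      t k * (Units.map (φ : R →* ℂ) u) ^ ((m k : ℤ) * (r₁ : ℤ))
    have h := two_block_specialG φ u d D f hf c₁ c₂ z₁ z₂ hz₁ hz₂ (fun k => (m k : ℤ)) c
    have hpow : ∀ a : ℤ, φ ((u ^ a : Rˣ) : R) = (((Units.map (φ : R →* ℂ) u) ^ a : ℂˣ) : ℂ) := by
      intro a
      rw [← map_zpow]
      rfl
    have e1 : (fun k => ρ k * (t k : ℂ)) =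
        fun k => (c k : ℂ) * φ ((u ^ ((m k : ℤ) * (r₂ : ℤ)) : Rˣ) : R) := by
      funext k
      rw [hpow]
      simp only [c]
      rw [← Units.val_mul, mul_assoc, ← _root_.zpow_add]
      have : (m k : ℤ) * (r₁ : ℤ) + (m k : ℤ) * (r₂ : ℤ) = ((r * m k : ℕ) : ℤ) := by
        push_cast [← hr]
        ring
      have hmk : ρ k = φ (u : R) ^ (r * m k) := (hm k).symm
      rw [this, zpow_natCast, hmk, Units.val_mul, Units.val_pow_eq_pow_val, mul_comm]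
      rfl
    have e2 : (fun k => (t k : ℂ)) =
        fun k => (c k : ℂ) * φ ((u ^ (-((m k : ℤ) * (r₁ : ℤ))) : Rˣ) : R) := by
      funext k
      rw [hpow]
      simp only [c]
      rw [← Units.val_mul, mul_assoc, ← _root_.zpow_add, add_neg_cancel, zpow_zero, mul_one]
    rw [e1, e2]
    exact h
  have h := hG fun k => (s k : ℂ) * ((t k)⁻¹ : ℂˣ)
  rw [hG0, map_zero] at h
  have e3 : (fun k => (s k : ℂ) * (((t k)⁻¹ : ℂˣ) : ℂ) * (t k : ℂ)) = fun k => (s k : ℂ) := by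
    funext k
    rw [mul_assoc, ← Units.val_mul, inv_mul_cancel, Units.val_one, mul_one]
  rw [e3] at h
  exact h.symm

theorem two_block_DG [Finite κ] (φ : R →+* ℂ) (u : Rˣ)
    (hu : ∀ k : ℕ, 0 < k → φ (u : R) ^ k ≠ 1)
    {C : ι → (Mat r ℂ)ˣ} (d : TwoDataG φ E Rel r r₁ r₂ C) (D : P002.Dec r r₁ r₂)
    (f : MvPolynomial ((κ ⊕ ι) × Fin r × Fin r) ℂ)
    (hf : ∀ y ∈ DG Rel φ C, evalG y f = 0) :
    evK (fun k => D.blk (d.y₁ (FreeGroup.of k) : Mat r₁ ℂ) (d.y₂ (FreeGroup.of k) : Mat r₂ ℂ)) f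
      = 0 := by
  choose c₁ z₁ hz₁ using fun k : κ => d.h₁.2 (Sum.inl k)
  choose c₂ z₂ hz₂ using fun k : κ => d.h₂.2 (Sum.inl k)
  have h := two_block_allG φ u hu d D f hf c₁ c₂ z₁ z₂ hz₁ hz₂ c₁ c₂
  refine Eq.trans (congrArg (fun X => evK X f) (funext fun k => ?_)) h
  rw [tupG_complex]
  rcases k with k | j
  · rw [Sum.elim_inl, hz₁, hz₂, scalarU_mul_coe, scalarU_mul_coe]
  · rfl

end TwoBlockG

section MainG

variable {κ ι : Type} {r : ℕ}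

/-- Reducible representations, without `-1 ∈ E`. -/
theorem partIVG' [Finite κ] [Finite ι] {R : Type*} [CommRing R] (φ : R →+* ℂ) (E : Subgroup ℂˣ)
    (hc : CoefOK' φ E r) (Rel : Set (FreeGroup (κ ⊕ ι))) (hchar : CharOK Rel)
    (hirr : ∀ r' ≤ r, 0 < r' → IrrDense Rel φ E r')
    (C : ι → (Mat r ℂ)ˣ) (hC : ∀ j, EigIn E (C j : Mat r ℂ))
    (x : FreeGroup (κ ⊕ ι) →* (Mat r ℂ)ˣ) (hx : x ∈ YG Rel C)
    (f : MvPolynomial ((κ ⊕ ι) × Fin r × Fin r) ℂ)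
    (hf : ∀ y ∈ DG Rel φ C, evalG y f = 0) : evalG x f = 0 := by
  induction r using Nat.strong_induction_on with
  | _ r ih =>
  rcases Nat.eq_zero_or_pos r with rfl | hr0
  · refine hf x ⟨hx, fun k => ?_⟩
    have h1 : x (FreeGroup.of k) = 1 := by
      apply Units.ext
      exact Subsingleton.elim _ _
    rw [h1]
    exact (GR 0 φ).one_mem
  by_cases hcen : ∀ M : Mat r ℂ, (∀ w, Commute M (x w : Mat r ℂ)) →
      ∃ c : ℂ, M = c • (1 : Mat r ℂ)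
  · exact hirr r le_rfl hr0 C hC x hx hcen f fun y hy => hf y hy.1
  push Not at hcen
  obtain ⟨M, hM, hMs⟩ := hcen
  obtain ⟨hrel, hconj, hss⟩ := hx
  obtain ⟨u, hu⟩ := hc.unit
  have hu' : ∀ k : ℕ, 0 < k → φ (u : R) ^ k ≠ 1 := by
    intro k hk h1
    apply hu k hk
    have h2 : Units.map (φ : R →* ℂ) u ^ k = 1 := by
      apply Units.ext
      rw [Units.val_pow_eq_pow_val, Units.val_one]
      exact h1
    rw [h2]
    exact E.one_mem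
  have : Nonempty (Fin r) := ⟨⟨0, hr0⟩⟩
  obtain ⟨μ, hμM⟩ := Module.End.exists_eigenvalue (Matrix.mulVecLin M)
  let E₁ : Submodule ℂ (Fin r → ℂ) := Module.End.eigenspace (Matrix.mulVecLin M) μ
  have hE1 : E₁ ≠ ⊥ := hμM
  have hE1' : E₁ ≠ ⊤ := by
    intro htop
    apply hMs μ
    ext i j
    have hm : (Pi.single j 1 : Fin r → ℂ) ∈ E₁ := by rw [htop]; trivial
    rw [Module.End.mem_eigenspace_iff, Matrix.mulVecLin_apply] at hm
    have := congrFun hm i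
    simpa [Matrix.one_apply, Pi.single_apply, eq_comm] using this
  have hinv1 : P002.InvS x E₁ := by
    intro w v hv
    rw [Module.End.mem_eigenspace_iff, Matrix.mulVecLin_apply] at hv ⊢
    rw [mulVec_mulVec, (hM w).eq, ← mulVec_mulVec, hv, mulVec_smul]
  obtain ⟨E₂, hinv2, hcompl⟩ := hss E₁ hinv1
  obtain ⟨D, hD1, hD2⟩ := P002.exists_dec E₁ E₂ hcompl
  have hsum : Module.finrank ℂ E₁ + Module.finrank ℂ E₂ = r := by
    rw [Submodule.finrank_add_eq_of_isCompl hcompl]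
    simp
  have hlt1 : Module.finrank ℂ E₁ < r := by
    have := Submodule.finrank_lt hE1'
    simpa using this
  have hpos1 : 0 < Module.finrank ℂ E₁ := by
    rw [Module.finrank_pos_iff]
    exact Submodule.nontrivial_iff_ne_bot.mpr hE1
  have hlt2 : Module.finrank ℂ E₂ < r := by omega
  have hpos2 : 0 < Module.finrank ℂ E₂ := by omega
  have hm1 : ∀ w, (x w : Mat r ℂ) * D.P₁ = D.P₁ * (D.Q₁ * (x w : Mat r ℂ) * D.P₁) := by
    intro w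
    apply D.mul_P₁
    rw [hD1]
    exact hinv1 w
  have hm2 : ∀ w, (x w : Mat r ℂ) * D.P₂ = D.P₂ * (D.Q₂ * (x w : Mat r ℂ) * D.P₂) := by
    intro w
    apply D.mul_P₂
    rw [hD2]
    exact hinv2 w
  set x₁ := P002.compr x D.P₁ D.Q₁ D.h11 hm1 with hx1
  set x₂ := P002.compr x D.P₂ D.Q₂ D.h22 hm2 with hx2
  have hs1 : SS x₁ := P002.compr_ss x hss _ _ _ _
  have hs2 : SS x₂ := P002.compr_ss x hss _ _ _ _
  have hrel1 : ∀ w ∈ Rel, x₁ w = 1 := by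
    intro w hw
    apply Units.ext
    rw [hx1, P002.compr_apply, hrel w hw]
    simp [D.h11]
  have hrel2 : ∀ w ∈ Rel, x₂ w = 1 := by
    intro w hw
    apply Units.ext
    rw [hx2, P002.compr_apply, hrel w hw]
    simp [D.h22]
  have hblk : ∀ w, (x w : Mat r ℂ) = D.blk (x₁ w : Mat _ ℂ) (x₂ w : Mat _ ℂ) := by
    intro w
    rw [P002.Dec.blk_complex, hx1, hx2, P002.compr_apply, P002.compr_apply, ← hm1, ← hm2,
      Matrix.mul_assoc, Matrix.mul_assoc, ← Matrix.mul_add, D.hs, Matrix.mul_one]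
  -- the boundary classes of the pieces
  let C₁ : ι → (Mat (Module.finrank ℂ E₁) ℂ)ˣ := fun j => x₁ (FreeGroup.of (Sum.inr j))
  let C₂ : ι → (Mat (Module.finrank ℂ E₂) ℂ)ˣ := fun j => x₂ (FreeGroup.of (Sum.inr j))
  have hCblk : ∀ j, IsConj (C j) (blkU D (C₁ j, C₂ j)) := by
    intro j
    have : blkU D (C₁ j, C₂ j) = x (FreeGroup.of (Sum.inr j)) := by
      apply Units.ext
      rw [blkU_coe, hblk]
    rw [this]
    exact hconj j
  have heig : ∀ j, EigIn E (C₁ j : Mat (Module.finrank ℂ E₁) ℂ) ∧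
      EigIn E (C₂ j : Mat (Module.finrank ℂ E₂) ℂ) := fun j =>
    ((hC j).conj (hCblk j)).blk
  have hY1 : x₁ ∈ YG Rel C₁ := ⟨hrel1, fun j => IsConj.refl _, hs1⟩
  have hY2 : x₂ ∈ YG Rel C₂ := ⟨hrel2, fun j => IsConj.refl _, hs2⟩
  have step1 : ∀ y₂ ∈ DG Rel φ C₂,
      evK (fun k => D.blk (x₁ (FreeGroup.of k) : Mat _ ℂ) (y₂ (FreeGroup.of k) : Mat _ ℂ)) f
        = 0 := by
    intro y₂ hy₂
    obtain ⟨f₁, hf₁⟩ := exists_poly₁ D f (fun k => (y₂ (FreeGroup.of k) : Mat _ ℂ))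
    rw [← hf₁]
    refine ih _ hlt1 (hc.mono hlt1.le)
      (fun r' hr' => hirr r' (hr'.trans hlt1.le)) C₁ (fun j => (heig j).1) x₁ hY1 f₁ ?_
    intro y₁ hy₁
    rw [hf₁]
    exact two_block_DG φ u hu'
      { hc := hc, hchar := hchar, hr1 := hpos1, hr2 := hpos2, hr := hsum, C₁ := C₁, C₂ := C₂,
        D₀ := D, hC := hCblk, nC₁ := fun j => (heig j).1, nC₂ := fun j => (heig j).2, y₁ := y₁,
        y₂ := y₂, h₁ := hy₁, h₂ := hy₂ } D f hf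
  have step2 : evK (fun k => D.blk (x₁ (FreeGroup.of k) : Mat _ ℂ)
      (x₂ (FreeGroup.of k) : Mat _ ℂ)) f = 0 := by
    obtain ⟨f₂, hf₂⟩ := exists_poly₂ D f (fun k => (x₁ (FreeGroup.of k) : Mat _ ℂ))
    rw [← hf₂]
    refine ih _ hlt2 (hc.mono hlt2.le)
      (fun r' hr' => hirr r' (hr'.trans hlt2.le)) C₂ (fun j => (heig j).2) x₂ hY2 f₂ ?_
    intro y₂ hy₂
    rw [hf₂]
    exact step1 y₂ hy₂
  rw [evalG_eq_evK]
  refine Eq.trans (congrArg (fun X => evK X f) (funext fun k => ?_)) step2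
  exact hblk _

/-- TASK G1 -/
theorem partIVG [Finite κ] [Finite ι] {R : Type*} [CommRing R] (φ : R →+* ℂ) (E : Subgroup ℂˣ)
    (hc : CoefOK φ E r) (Rel : Set (FreeGroup (κ ⊕ ι))) (hchar : CharOK Rel)
    (hirr : ∀ r' ≤ r, 0 < r' → IrrDense Rel φ E r')
    (C : ι → (Mat r ℂ)ˣ) (hC : ∀ j, EigIn E (C j : Mat r ℂ))
    (x : FreeGroup (κ ⊕ ι) →* (Mat r ℂ)ˣ) (hx : x ∈ YG Rel C)
    (f : MvPolynomial ((κ ⊕ ι) × Fin r × Fin r) ℂ)
    (hf : ∀ y ∈ DG Rel φ C, evalG y f = 0) : evalG x f = 0 :=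
  partIVG' φ E hc.weak Rel hchar hirr C hC x hx f hf

end MainG

end Vale.Agent.P002R
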