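import Vale.Agent.P002R.RBaseE
import Vale.Agent.P002R.RBlockE2
import Vale.Agent.P002R.RIrred3
import Vale.Agent.P002R.RFreeE
import Vale.Agent.P002R.RUp
import Vale.Agent.P002R.RReducibleG
import Vale.Agent.P002R.RMain

/-!
# Irreducible representations of surface groups
-/

namespace Vale.Agent.P002R

open Matrix

variable {r : ℕ}

theorem surface_irrDense {g n : ℕ} {R : Type*} [CommRing R] (φ : R →+* ℂ) (E : Subgroup ℂˣ)
    (hc : CoefOK φ E r) (hg : 2 ≤ g ∨ n = 0) :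
    ∀ r' ≤ r, 0 < r' →
      IrrDense ({relatorU g n} : Set (FreeGroup ((Fin g × Bool) ⊕ Fin n))) φ E r' := by
  intro r' hr' hr'0 C hC x hx hirr f hf
  have hxr : x (relatorU g n) = 1 := hx.1 _ rfl
  have hDU : ∀ y, y ∈ DG ({relatorU g n} : Set (FreeGroup ((Fin g × Bool) ⊕ Fin n))) φ C ↔
      y ∈ DU g φ C := by
    intro y
    constructor
    · intro h
      exact ⟨⟨h.1.1 _ rfl, h.1.2⟩, h.2⟩
    · intro h
      refine ⟨⟨fun w hw => ?_, h.1.2⟩, h.2⟩
      rw [Set.mem_singleton_iff.1 hw]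
      exact h.1.1
  refine upgrade x (burnside_top x hx.2.2 hirr) (DG {relatorU g n} φ C) ?_ f
    (fun y hy htop => hf y ⟨hy, htop⟩)
  intro f' hf'
  have hf'' : ∀ y ∈ DU g φ C, evalG y f' = 0 := fun y hy => hf' y ((hDU y).2 hy)
  by_cases hg2 : 2 ≤ g
  · obtain ⟨m, rfl⟩ : ∃ m, g = m + 1 := ⟨g - 1, by omega⟩
    have hm : 1 ≤ m := by omega
    obtain ⟨J, hJ, ρ, hρ, hρB, -, q₀, U, α, c, τ, hB⟩ := exists_baseE φ E
      ⟨hc.inj, hc.neg, fun k hk hkr => hc.root k hk (hkr.trans hr'), hc.unit⟩ hr'0 C hC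
      (prod_det_eq_one C x hxr hx.2.1) hm
    refine irreducible_of_base φ hr'0 hm C J hJ ρ hρ hρB (loopW q₀) (loopW_mem_Fc q₀)
      (loopW_mem q₀) U α hB.inj hB.diag ?_ x hxr hx.2.1 hirr f' hf''
    intro K₀ hK₀ _ hUK
    exact exists_dualE E K₀ hr'0 (fun q : Loop m n => ρ (loopW q)) q₀ U α c τ hB hUK.1 hUK.2
  · have hn : n = 0 := by omega
    subst hn
    exact hf'' x (abelian_case (by omega) φ C x ⟨hxr, hx.2⟩ hirr)

end Vale.Agent.P002R
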