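import Vale.Agent.P002R.RDefs

/-!
# P002, genus 0: the cell of products (upper unitriangular) * (lower triangular)
-/

namespace Vale.Agent.P002R

open Matrix

variable {n : ℕ} {S T : Type*} [CommRing S] [CommRing T]

/-- The upper unitriangular matrix with the strict upper entries of `X`. -/
def uU (X : Matrix (Fin n) (Fin n) S) : Matrix (Fin n) (Fin n) S :=
  Matrix.of fun i j => if i = j then 1 else if i < j then X i j else 0

/-- The lower triangular part of `X`. -/
def lL (X : Matrix (Fin n) (Fin n) S) : Matrix (Fin n) (Fin n) S :=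
  Matrix.of fun i j => if j ≤ i then X i j else 0

/-- The element of the cell with coordinates `X`. -/
def zZ (X : Matrix (Fin n) (Fin n) S) : Matrix (Fin n) (Fin n) S := uU X * lL X

theorem uU_eqn (X : Matrix (Fin n) (Fin n) S) :
    uU X = Matrix.of fun i j => if i = j then 1 else if i < j then X i j else 0 := rfl

theorem lL_eqn (X : Matrix (Fin n) (Fin n) S) :
    lL X = Matrix.of fun i j => if j ≤ i then X i j else 0 := rfl

theorem zZ_eqn (X : Matrix (Fin n) (Fin n) S) : zZ X = uU X * lL X := rfl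

theorem uU_apply (X : Matrix (Fin n) (Fin n) S) (i j : Fin n) :
    uU X i j = if i = j then 1 else if i < j then X i j else 0 := rfl

theorem lL_apply (X : Matrix (Fin n) (Fin n) S) (i j : Fin n) :
    lL X i j = if j ≤ i then X i j else 0 := rfl

/-- Upper triangular matrices. -/
def UpT (A : Matrix (Fin n) (Fin n) S) : Prop := ∀ i j, j < i → A i j = 0

/-- Lower triangular matrices. -/
def LoT (A : Matrix (Fin n) (Fin n) S) : Prop := ∀ i j, i < j → A i j = 0

theorem upT_uU (X : Matrix (Fin n) (Fin n) S) : UpT (uU X) := by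
  intro i j h
  rw [uU_apply, if_neg h.ne', if_neg h.not_gt]

theorem loT_lL (X : Matrix (Fin n) (Fin n) S) : LoT (lL X) := by
  intro i j h
  rw [lL_apply, if_neg h.not_ge]

theorem uU_diag (X : Matrix (Fin n) (Fin n) S) (i : Fin n) : uU X i i = 1 := by
  rw [uU_apply, if_pos rfl]

theorem lL_diag (X : Matrix (Fin n) (Fin n) S) (i : Fin n) : lL X i i = X i i := by
  rw [lL_apply, if_pos le_rfl]

theorem UpT.mul {A B : Matrix (Fin n) (Fin n) S} (hA : UpT A) (hB : UpT B) : UpT (A * B) := by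
  intro i j h
  rw [Matrix.mul_apply]
  refine Finset.sum_eq_zero fun k _ => ?_
  rcases lt_or_ge k i with hk | hk
  · rw [hA i k hk, zero_mul]
  · rw [hB k j (h.trans_le hk), mul_zero]

theorem LoT.mul {A B : Matrix (Fin n) (Fin n) S} (hA : LoT A) (hB : LoT B) : LoT (A * B) := by
  intro i j h
  rw [Matrix.mul_apply]
  refine Finset.sum_eq_zero fun k _ => ?_
  rcases lt_or_ge i k with hk | hk
  · rw [hA i k hk, zero_mul]
  · rw [hB k j (hk.trans_lt h), mul_zero]

theorem UpT.mul_diag {A B : Matrix (Fin n) (Fin n) S} (hA : UpT A) (hB : UpT B) (i : Fin n) :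
    (A * B) i i = A i i * B i i := by
  rw [Matrix.mul_apply, Finset.sum_eq_single i]
  · intro k _ hk
    rcases lt_or_gt_of_ne hk with h | h
    · rw [hA i k h, zero_mul]
    · rw [hB k i h, mul_zero]
  · intro h; exact absurd (Finset.mem_univ i) h

theorem LoT.mul_diag {A B : Matrix (Fin n) (Fin n) S} (hA : LoT A) (hB : LoT B) (i : Fin n) :
    (A * B) i i = A i i * B i i := by
  rw [Matrix.mul_apply, Finset.sum_eq_single i]
  · intro k _ hk
    rcases lt_or_gt_of_ne hk with h | h
    · rw [hB k i h, mul_zero]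
    · rw [hA i k h, zero_mul]
  · intro h; exact absurd (Finset.mem_univ i) h

theorem UpT.det {A : Matrix (Fin n) (Fin n) S} (hA : UpT A) : A.det = ∏ i, A i i :=
  Matrix.det_of_isUpperTriangular fun i j h => hA i j h

theorem LoT.det {A : Matrix (Fin n) (Fin n) S} (hA : LoT A) : A.det = ∏ i, A i i :=
  Matrix.det_of_isLowerTriangular A fun i j h => hA i j (by simpa using h)

theorem UpT.transpose {A : Matrix (Fin n) (Fin n) S} (hA : UpT A) : LoT Aᵀ :=
  fun i j h => hA j i h

theorem LoT.transpose {A : Matrix (Fin n) (Fin n) S} (hA : LoT A) : UpT Aᵀ :=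
  fun i j h => hA j i h

theorem upT_one : UpT (1 : Matrix (Fin n) (Fin n) S) := fun _ _ h => Matrix.one_apply_ne h.ne'

theorem loT_one : LoT (1 : Matrix (Fin n) (Fin n) S) := fun _ _ h => Matrix.one_apply_ne h.ne

theorem upT_diagonal (d : Fin n → S) : UpT (diagonal d) := fun _ _ h =>
  Matrix.diagonal_apply_ne _ h.ne'

theorem loT_diagonal (d : Fin n → S) : LoT (diagonal d) := fun _ _ h =>
  Matrix.diagonal_apply_ne _ h.ne

theorem det_uU (X : Matrix (Fin n) (Fin n) S) : (uU X).det = 1 := by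
  rw [(upT_uU X).det]
  exact Finset.prod_eq_one fun i _ => uU_diag X i

theorem det_lL (X : Matrix (Fin n) (Fin n) S) : (lL X).det = ∏ i, X i i := by
  rw [(loT_lL X).det]
  exact Finset.prod_congr rfl fun i _ => lL_diag X i

theorem det_zZ (X : Matrix (Fin n) (Fin n) S) : (zZ X).det = ∏ i, X i i := by
  rw [zZ, det_mul, det_uU, det_lL, one_mul]

theorem uU_map (φ : S →+* T) (X : Matrix (Fin n) (Fin n) S) : (uU X).map φ = uU (X.map φ) := by
  ext i j
  simp only [Matrix.map_apply, uU_apply]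
  split_ifs
  · exact map_one φ
  · rfl
  · exact map_zero φ

theorem lL_map (φ : S →+* T) (X : Matrix (Fin n) (Fin n) S) : (lL X).map φ = lL (X.map φ) := by
  ext i j
  simp only [Matrix.map_apply, lL_apply]
  split_ifs
  · rfl
  · exact map_zero φ

theorem zZ_map (φ : S →+* T) (X : Matrix (Fin n) (Fin n) S) : (zZ X).map φ = zZ (X.map φ) := by
  rw [zZ, Matrix.map_mul, uU_map, lL_map, zZ]

/-- The coordinates of a pair of triangular matrices. -/
theorem exists_coord (U L : Matrix (Fin n) (Fin n) S) (hU : UpT U) (hU1 : ∀ i, U i i = 1)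
    (hL : LoT L) : ∃ X : Matrix (Fin n) (Fin n) S, uU X = U ∧ lL X = L ∧ ∀ i, X i i = L i i := by
  refine ⟨Matrix.of fun i j => if i < j then U i j else L i j, ?_, ?_, fun i => ?_⟩
  · ext i j
    rw [uU_apply, Matrix.of_apply]
    split_ifs with h1 h2
    · rw [← h1, hU1]
    · rfl
    · exact (hU i j (lt_of_le_of_ne (not_lt.1 h2) (Ne.symm h1))).symm
  · ext i j
    rw [lL_apply, Matrix.of_apply]
    split_ifs with h1 h2
    · exact absurd h2 (not_lt.2 h1)
    · rfl
    · exact (hL i j (not_le.1 h1)).symm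
  · rw [Matrix.of_apply, if_neg (lt_irrefl i)]

/-! ### Inverses of triangular matrices over a field -/

section field

variable {F : Type*} [Field F]

theorem UpT.inv {A : Matrix (Fin n) (Fin n) F} (hA : UpT A) (hd : ∀ i, A i i ≠ 0) : UpT A⁻¹ := by
  have hdet : IsUnit A.det := by
    rw [hA.det, isUnit_iff_ne_zero, Finset.prod_ne_zero_iff]
    exact fun i _ => hd i
  have := Matrix.invertibleOfIsUnitDet A hdet
  intro i j h
  exact Matrix.blockTriangular_inv_of_blockTriangular (M := A) (b := id)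
    (fun i j h => hA i j h) h

theorem inv_diag {A : Matrix (Fin n) (Fin n) F} (hA : UpT A) (hd : ∀ i, A i i ≠ 0) (i : Fin n) :
    A⁻¹ i i = (A i i)⁻¹ := by
  have hdet : IsUnit A.det := by
    rw [hA.det, isUnit_iff_ne_zero, Finset.prod_ne_zero_iff]
    exact fun i _ => hd i
  have h1 := (hA.inv hd).mul_diag hA i
  rw [Matrix.nonsing_inv_mul _ hdet, Matrix.one_apply_eq] at h1
  exact eq_inv_of_mul_eq_one_left h1.symm

theorem LoT.inv {A : Matrix (Fin n) (Fin n) F} (hA : LoT A) (hd : ∀ i, A i i ≠ 0) : LoT A⁻¹ := by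
  have h1 : UpT (Aᵀ)⁻¹ := hA.transpose.inv hd
  rw [← Matrix.transpose_nonsing_inv] at h1
  exact h1.transpose

theorem LoT.inv_diag {A : Matrix (Fin n) (Fin n) F} (hA : LoT A) (hd : ∀ i, A i i ≠ 0)
    (i : Fin n) : A⁻¹ i i = (A i i)⁻¹ := by
  have hdet : IsUnit A.det := by
    rw [hA.det, isUnit_iff_ne_zero, Finset.prod_ne_zero_iff]
    exact fun i _ => hd i
  have h1 := (hA.inv hd).mul_diag hA i
  rw [Matrix.nonsing_inv_mul _ hdet, Matrix.one_apply_eq] at h1
  exact eq_inv_of_mul_eq_one_left h1.symm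

/-- Existence of the decomposition (upper unitriangular) * (lower triangular). -/
theorem exists_UL : ∀ {n : ℕ} (Z : Matrix (Fin n) (Fin n) F),
    (∀ k : ℕ, k ≤ n → (Z.submatrix (fun i : {i : Fin n // k ≤ (i : ℕ)} => (i : Fin n))
      (fun i : {i : Fin n // k ≤ (i : ℕ)} => (i : Fin n))).det ≠ 0) →
    ∃ X : Matrix (Fin n) (Fin n) F, Z = zZ X ∧ ∀ i, X i i ≠ 0 := by
  intro n
  induction n with
  | zero => exact fun Z _ => ⟨Z, Matrix.ext fun i => i.elim0, fun i => i.elim0⟩
  | succ n ih =>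
    intro Z hZ
    obtain ⟨N, hN⟩ : ∃ N : Matrix (Fin n) (Fin n) F, N = Z.submatrix Fin.succ Fin.succ := ⟨_, rfl⟩
    obtain ⟨XN, hXN, hXN0⟩ := ih N (by
      intro k hk
      have h1 := hZ (k + 1) (by omega)
      obtain ⟨e, he⟩ : ∃ e : {i : Fin n // k ≤ (i : ℕ)} ≃ {i : Fin (n + 1) // k + 1 ≤ (i : ℕ)},
          ∀ i, ((e i : {i : Fin (n + 1) // k + 1 ≤ (i : ℕ)}) : Fin (n + 1)) =
            Fin.succ (i : Fin n) := by
        refine ⟨{
          toFun := fun i => ⟨Fin.succ i.1, by rw [Fin.val_succ]; exact Nat.succ_le_succ i.2⟩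
          invFun := fun i => ⟨⟨(i.1 : ℕ) - 1, by have := i.1.2; have := i.2; omega⟩, by
            have := i.2; simp only; omega⟩
          left_inv := fun i => by ext; simp
          right_inv := fun i => by
            have := i.2
            ext
            simp only [Fin.val_succ]
            omega }, fun i => rfl⟩
      rw [← Matrix.det_submatrix_equiv_self e] at h1
      have h2 : ((Z.submatrix (fun i : {i : Fin (n + 1) // k + 1 ≤ (i : ℕ)} => (i : Fin (n + 1)))
          (fun i : {i : Fin (n + 1) // k + 1 ≤ (i : ℕ)} => (i : Fin (n + 1)))).submatrix e e) =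
          N.submatrix (fun i : {i : Fin n // k ≤ (i : ℕ)} => (i : Fin n))
            (fun i : {i : Fin n // k ≤ (i : ℕ)} => (i : Fin n)) := by
        ext i j
        rw [hN]
        simp only [Matrix.submatrix_apply, he]
      rw [h2] at h1
      exact h1)
    have hLu : IsUnit (lL XN).det := by
      rw [det_lL, isUnit_iff_ne_zero, Finset.prod_ne_zero_iff]
      exact fun i _ => hXN0 i
    have hUu : IsUnit (uU XN).det := by rw [det_uU]; exact isUnit_one
    obtain ⟨u, hu⟩ : ∃ u : Fin n → F, u ᵥ* lL XN = fun j => Z 0 j.succ :=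
      ⟨(fun j => Z 0 j.succ) ᵥ* (lL XN)⁻¹, by
        rw [Matrix.vecMul_vecMul, Matrix.nonsing_inv_mul _ hLu, Matrix.vecMul_one]⟩
    obtain ⟨l, hl⟩ : ∃ l : Fin n → F, uU XN *ᵥ l = fun i => Z i.succ 0 :=
      ⟨(uU XN)⁻¹ *ᵥ (fun i => Z i.succ 0), by
        rw [Matrix.mulVec_mulVec, Matrix.mul_nonsing_inv _ hUu, Matrix.one_mulVec]⟩
    obtain ⟨X, hX⟩ : ∃ X : Matrix (Fin (n + 1)) (Fin (n + 1)) F, X =
        Matrix.of (Fin.cons (Fin.cons (Z 0 0 - u ⬝ᵥ l) u) fun i => Fin.cons (l i) (XN i)) :=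
      ⟨_, rfl⟩
    have hX00 : X 0 0 = Z 0 0 - u ⬝ᵥ l := by rw [hX]; rfl
    have hX0s : ∀ j, X 0 (Fin.succ j) = u j := fun j => by rw [hX]; rfl
    have hXs0 : ∀ i, X (Fin.succ i) 0 = l i := fun i => by rw [hX]; rfl
    have hXss : ∀ i j, X (Fin.succ i) (Fin.succ j) = XN i j := fun i j => by rw [hX]; rfl
    have hU00 : uU X 0 0 = 1 := uU_diag X 0
    have hU0s : ∀ j, uU X 0 (Fin.succ j) = u j := fun j => by
      rw [uU_apply, if_neg (Fin.succ_ne_zero j).symm, if_pos (Fin.succ_pos j), hX0s]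
    have hUs0 : ∀ i, uU X (Fin.succ i) 0 = 0 := fun i => upT_uU X _ _ (Fin.succ_pos i)
    have hUss : ∀ i j, uU X (Fin.succ i) (Fin.succ j) = uU XN i j := fun i j => by
      rw [uU_apply, uU_apply, hXss]
      simp only [Fin.succ_inj, Fin.succ_lt_succ_iff]
    have hL00 : lL X 0 0 = Z 0 0 - u ⬝ᵥ l := by rw [lL_diag, hX00]
    have hL0s : ∀ j, lL X 0 (Fin.succ j) = 0 := fun j => loT_lL X _ _ (Fin.succ_pos j)
    have hLs0 : ∀ i, lL X (Fin.succ i) 0 = l i := fun i => by
      rw [lL_apply, if_pos (Fin.zero_le _), hXs0]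
    have hLss : ∀ i j, lL X (Fin.succ i) (Fin.succ j) = lL XN i j := fun i j => by
      rw [lL_apply, lL_apply, hXss]
      simp only [Fin.succ_le_succ_iff]
    have hZX : Z = zZ X := by
      ext i j
      rw [zZ, Matrix.mul_apply, Fin.sum_univ_succ]
      refine Fin.cases ?_ (fun i => ?_) i
      · refine Fin.cases ?_ (fun j => ?_) j
        · rw [hU00, hL00]
          simp only [hU0s, hLs0]
          rw [one_mul]
          exact (sub_add_cancel _ _).symm
        · rw [hU00, hL0s]
          simp only [hU0s, hLss]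
          rw [mul_zero, zero_add]
          exact (congrFun hu j).symm
      · refine Fin.cases ?_ (fun j => ?_) j
        · rw [hUs0, zero_mul, zero_add]
          simp only [hUss, hLs0]
          exact (congrFun hl i).symm
        · rw [hUs0, zero_mul, zero_add]
          simp only [hUss, hLss]
          have h1 := congrFun (congrFun hXN i) j
          rw [zZ, Matrix.mul_apply] at h1
          rw [← h1, hN, Matrix.submatrix_apply]
    refine ⟨X, hZX, fun i => ?_⟩
    have hdet : Z.det ≠ 0 := by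
      have h1 := hZ 0 (Nat.zero_le _)
      obtain ⟨e, he⟩ : ∃ e : Fin (n + 1) ≃ {i : Fin (n + 1) // 0 ≤ (i : ℕ)}, ∀ i,
          ((e i : {i : Fin (n + 1) // 0 ≤ (i : ℕ)}) : Fin (n + 1)) = i :=
        ⟨(Equiv.subtypeUnivEquiv fun i => Nat.zero_le _).symm, fun i => rfl⟩
      rw [← Matrix.det_submatrix_equiv_self e] at h1
      have h2 : ((Z.submatrix (fun i : {i : Fin (n + 1) // 0 ≤ (i : ℕ)} => (i : Fin (n + 1)))
          (fun i : {i : Fin (n + 1) // 0 ≤ (i : ℕ)} => (i : Fin (n + 1)))).submatrix e e) = Z := by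
        ext i j
        simp only [Matrix.submatrix_apply, he]
      rw [h2] at h1
      exact h1
    rw [hZX, det_zZ, Finset.prod_ne_zero_iff] at hdet
    exact hdet i (Finset.mem_univ i)

end field

end Vale.Agent.P002R
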