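import Vale.Agent.P002R.ZInt

/-!
# P002, genus 0: density of the integral points in the space of parameters of the chart
-/

namespace Vale.Agent.P002R

open Matrix

/-- Density for rational functions, with respect to a general dense set. -/
theorem ratAt_dense' {σ : Type*} {x₀ : σ → ℂ} (A : Set (σ → ℂ))
    (hA : ∀ P : MvPolynomial σ ℂ, (∀ x ∈ A, MvPolynomial.eval x P = 0) →
      MvPolynomial.eval x₀ P = 0) (g κ : ratAt x₀) (hκ : rev x₀ x₀ κ ≠ 0)
    (h : ∀ x ∈ A, rev x₀ x κ ≠ 0 → rev x₀ x g = 0) : rev x₀ x₀ g = 0 := by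
  obtain ⟨d₀, hd₀, hd₀'⟩ := ratAt_ne κ hκ
  obtain ⟨g, d, P, h1, h2⟩ := g
  have h3 : MvPolynomial.eval x₀ (P * d * d₀) = 0 := by
    refine hA _ fun x hx => ?_
    rw [map_mul, map_mul]
    by_cases h4 : MvPolynomial.eval x d₀ = 0
    · rw [h4, mul_zero]
    by_cases h5 : MvPolynomial.eval x d = 0
    · rw [h5, mul_zero, zero_mul]
    have h6 := h x hx (hd₀' x h4)
    rw [rev_apply] at h6
    simp only at h6
    rw [← h2 x h5, h6]
    ring
  rw [map_mul, map_mul] at h3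
  have h4 : MvPolynomial.eval x₀ P = 0 := by
    rcases mul_eq_zero.1 h3 with h | h
    · exact (mul_eq_zero.1 h).resolve_right h1
    · exact absurd h hd₀
  have h5 := h2 x₀ h1
  rw [h4] at h5
  rw [rev_apply]
  exact (mul_eq_zero.1 h5).resolve_right h1

/-- Total density of the integral points of the cell in the conjugacy class of `J`. -/
def TotD {r : ℕ} {R : Type*} [CommRing R] (φ : R →+* ℂ) (J : Mat r ℂ) : Prop :=
  ∀ F : MvPolynomial (Fin r × Fin r) ℂ,
    (∀ X : Mat r R, (∀ i, IsUnit (X i i)) → CjM J (zZ (X.map φ)) →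
      MvPolynomial.eval (fun p => φ (X p.1 p.2)) F = 0) →
    ∀ X : Mat r ℂ, (∀ i, X i i ≠ 0) → CjM J (zZ X) → MvPolynomial.eval (fun p => X p.1 p.2) F = 0

/-- Fibrewise density (Lemma B). -/
def FibD {R : Type*} [CommRing R] (φ : R →+* ℂ) (n : ℕ) : Prop :=
  ∀ (q : Fin (n + 1) → Rˣ) (χ : Polynomial R), χ.Monic → χ.natDegree = n + 1 →
  ∀ F : MvPolynomial (Fin (n + 1) × Fin (n + 1)) ℂ,
    (∀ X : Mat (n + 1) R, (∀ i, X i i = q i) → (zZ X).charpoly = χ →
      P002G.Cyc (zZ X) (P002G.e0 n R) → MvPolynomial.eval (fun p => φ (X p.1 p.2)) F = 0) →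
    ∀ X : Mat (n + 1) ℂ, (∀ i, X i i = φ (q i)) → (zZ X).charpoly = χ.map φ →
      P002G.Cyc (zZ X) (P002G.e0 n ℂ) → MvPolynomial.eval (fun p => X p.1 p.2) F = 0

theorem bcons_map {n : ℕ} {S T : Type*} [CommRing S] [CommRing T] (ψ : S →+* T) (q : S)
    (u l : Fin n → S) (X : Mat n S) :
    (P002G.bcons q u l X).map ψ = P002G.bcons (ψ q) (fun j => ψ (u j)) (fun i => ψ (l i))
      (X.map ψ) := by
  ext i j
  refine Fin.cases ?_ (fun i => ?_) i <;> refine Fin.cases ?_ (fun j => ?_) j <;> rfl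

theorem core_density {R : Type*} [CommRing R] (φ : R →+* ℂ) {n m : ℕ} (hB : FibD φ n)
    (J : Fin m → Mat (n + 1) ℂ) (hT : ∀ k, TotD φ (J k))
    (χ : Polynomial R) (hχ : χ.Monic) (hχd : χ.natDegree = n + 1) (θ : Fin (n + 1) → Rˣ)
    (F : MvPolynomial (Fin (m + 1) × Fin (n + 1) × Fin (n + 1)) ℂ)
    (hF : ∀ Y : Fin (m + 1) → Mat (n + 1) R, (∀ k i, IsUnit (Y k i i)) →
      (∀ k : Fin m, CjM (J k) (zZ ((Y k.castSucc).map φ))) →
      (zZ (Y (Fin.last m))).charpoly = χ → P002G.Cyc (zZ (Y (Fin.last m))) (P002G.e0 n R) →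
      (∀ i, ∏ l, Y l i i = θ i) →
      MvPolynomial.aeval (fun p => φ (Y p.1 p.2.1 p.2.2)) F = (0 : ℂ))
    (Y : Fin (m + 1) → Mat (n + 1) ℂ) (hY0 : ∀ k i, Y k i i ≠ 0)
    (hY1 : ∀ k : Fin m, CjM (J k) (zZ (Y k.castSucc)))
    (hY2 : (zZ (Y (Fin.last m))).charpoly = χ.map φ)
    (hY3 : P002G.Cyc (zZ (Y (Fin.last m))) (P002G.e0 n ℂ))
    (hY4 : ∀ i, ∏ l, Y l i i = φ (θ i)) :
    MvPolynomial.aeval (fun p => Y p.1 p.2.1 p.2.2) F = (0 : ℂ) := by
  -- (A) integral first elements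
  have hA : ∀ Yi : Fin m → Mat (n + 1) R, (∀ k i, IsUnit (Yi k i i)) →
      (∀ k : Fin m, CjM (J k) (zZ ((Yi k).map φ))) →
      ∀ X : Mat (n + 1) ℂ, (∀ i, (∏ l, φ (Yi l i i)) * X i i = φ (θ i)) →
      (zZ X).charpoly = χ.map φ → P002G.Cyc (zZ X) (P002G.e0 n ℂ) →
      MvPolynomial.aeval (fun p => (Fin.snoc (α := fun _ => Mat (n + 1) ℂ)
        (fun k => (Yi k).map φ) X : Fin (m + 1) → Mat (n + 1) ℂ) p.1 p.2.1 p.2.2) F = (0 : ℂ) := by
    intro Yi hYi hYJ X hX1 hX2 hX3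
    have hu : ∀ i, IsUnit (∏ l, Yi l i i) := fun i => by
      rw [IsUnit.prod_univ_iff]
      exact fun l => hYi l i
    choose w hw using hu
    obtain ⟨G, hG⟩ : ∃ G : MvPolynomial (Fin (n + 1) × Fin (n + 1)) ℂ, ∀ Z : Mat (n + 1) ℂ,
        MvPolynomial.eval (fun p => Z p.1 p.2) G =
        MvPolynomial.aeval (fun p => (Fin.snoc (α := fun _ => Mat (n + 1) ℂ)
          (fun k => (Yi k).map φ) Z : Fin (m + 1) → Mat (n + 1) ℂ) p.1 p.2.1 p.2.2) F := by
      obtain ⟨Zg, hZg⟩ : ∃ Zg : Mat (n + 1) (MvPolynomial (Fin (n + 1) × Fin (n + 1)) ℂ),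
        Zg = Matrix.of fun i j => MvPolynomial.X (i, j) := ⟨_, rfl⟩
      refine ⟨MvPolynomial.aeval (fun p => (Fin.snoc (α := fun _ => Mat (n + 1)
        (MvPolynomial (Fin (n + 1) × Fin (n + 1)) ℂ))
        (fun k => ((Yi k).map φ).map MvPolynomial.C) Zg : Fin (m + 1) → _) p.1 p.2.1 p.2.2) F,
        fun Z => ?_⟩
      rw [← MvPolynomial.coe_aeval_eq_eval]
      change (MvPolynomial.aeval (fun p : Fin (n + 1) × Fin (n + 1) => Z p.1 p.2))
        ((MvPolynomial.aeval _) F) = _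
      rw [← AlgHom.comp_apply, MvPolynomial.comp_aeval]
      congr 2
      funext p
      obtain ⟨k, i, j⟩ := p
      refine Fin.lastCases ?_ (fun k => ?_) k
      · simp only [Fin.snoc_last]
        rw [hZg, Matrix.of_apply, MvPolynomial.aeval_X]
      · simp only [Fin.snoc_castSucc]
        rw [Matrix.map_apply, Matrix.map_apply]
        simp
    rw [← hG]
    refine hB (fun i => θ i * (w i)⁻¹) χ hχ hχd G (fun X' hX1' hX2' hX3' => ?_) X (fun i => ?_) hX2 hX3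
    · have h1 := hG (X'.map φ)
      simp only [Matrix.map_apply] at h1
      rw [h1]
      have h2 := hF (Fin.snoc (α := fun _ => Mat (n + 1) R) Yi X') (fun k i => by
        refine Fin.lastCases ?_ (fun k => ?_) k
        · rw [Fin.snoc_last, hX1']; exact (θ i * (w i)⁻¹).isUnit
        · rw [Fin.snoc_castSucc]; exact hYi k i) (fun k => by
          rw [Fin.snoc_castSucc]; exact hYJ k) (by rw [Fin.snoc_last]; exact hX2')
        (by rw [Fin.snoc_last]; exact hX3') (fun i => by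
          rw [Fin.prod_univ_castSucc]
          simp only [Fin.snoc_last, Fin.snoc_castSucc]
          rw [hX1', ← hw i, ← Units.val_mul, mul_comm (w i), mul_assoc, inv_mul_cancel, mul_one])
      rw [← h2]
      congr 2
      funext p
      obtain ⟨k, i, j⟩ := p
      refine Fin.lastCases ?_ (fun k => ?_) k
      · simp only [Fin.snoc_last]
        rfl
      · simp only [Fin.snoc_castSucc]
        rfl
    · have h3 := hX1 i
      have h4 : (∏ l, φ (Yi l i i)) = φ (w i) := by rw [hw, map_prod]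
      rw [h4] at h3
      have h5 : φ ((w i)⁻¹ : Rˣ) * φ (w i) = 1 := by rw [← map_mul, Units.inv_mul, map_one]
      rw [Units.val_mul, map_mul, ← h3, mul_comm (φ (w i)), mul_assoc, mul_comm (φ (w i)), h5,
        mul_one]
  -- (B) rational dependence on the first elements
  obtain ⟨x₀, hx₀⟩ : ∃ x₀ : Fin m × (Fin (n + 1) × Fin (n + 1)) → ℂ,
    x₀ = fun p => Y p.1.castSucc p.2.1 p.2.2 := ⟨_, rfl⟩
  obtain ⟨YS, hYS⟩ : ∃ YS : Fin m → Mat (n + 1) (ratAt x₀),
    YS = fun k => Matrix.of fun i j => rX x₀ (k, (i, j)) := ⟨_, rfl⟩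
  have hYSr : ∀ x k i j, rev x₀ x (YS k i j) = x (k, (i, j)) := by
    intro x k i j
    rw [hYS]
    exact rev_rX x₀ x (k, (i, j))
  have hden : ∀ i, rev x₀ x₀ (∏ k, YS k i i) ≠ 0 := by
    intro i
    rw [map_prod, Finset.prod_ne_zero_iff]
    intro k _
    rw [hYSr, hx₀]
    exact hY0 _ i
  have hinv := fun i => exists_rinv (∏ k, YS k i i) (hden i)
  choose inv hinv using hinv
  obtain ⟨q, hq⟩ : ∃ q : Fin (n + 1) → ratAt x₀, q = fun i => algebraMap ℂ _ (φ (θ i)) * inv i :=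
    ⟨_, rfl⟩
  have hqr : ∀ x i, rev x₀ x (q i) = φ (θ i) * (∏ k, x (k, (i, i)))⁻¹ := by
    intro x i
    rw [hq]
    simp only
    rw [map_mul, hinv, map_prod, AlgHom.commutes]
    simp only [hYSr]
    rfl
  obtain ⟨XN, hXN⟩ : ∃ XN : Mat n (ratAt x₀), XN = Matrix.of fun i j => if i = j then q i.succ
    else algebraMap ℂ _ (Y (Fin.last m) i.succ j.succ) := ⟨_, rfl⟩
  obtain ⟨l, hl⟩ : ∃ l : Fin n → ratAt x₀, l = fun i => algebraMap ℂ _ (Y (Fin.last m) i.succ 0) :=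
    ⟨_, rfl⟩
  obtain ⟨N, hN⟩ : ∃ N : Mat n (ratAt x₀), N = P002G.zZ XN := ⟨_, rfl⟩
  obtain ⟨b, hb⟩ : ∃ b : Fin n → ratAt x₀, b = P002G.uU XN *ᵥ l := ⟨_, rfl⟩
  -- the evaluations
  obtain ⟨rv, hrv⟩ : ∃ rv : (Fin m × (Fin (n + 1) × Fin (n + 1)) → ℂ) → ratAt x₀ →+* ℂ,
    rv = fun x => (rev x₀ x).toRingHom := ⟨_, rfl⟩
  have hrv' : ∀ x s, rv x s = rev x₀ x s := by
    intro x s
    rw [hrv]
    rfl
  have hlr : ∀ x i, rv x (l i) = Y (Fin.last m) i.succ 0 := by
    intro x i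
    rw [hrv', hl]
    exact AlgHom.commutes _ _
  have hNr : ∀ x, N.map (rv x) = P002G.zZ (XN.map (rv x)) := fun x => by
    rw [hN, P002G.zZ_map]
  have hbr : ∀ x, (fun i => rv x (b i)) = P002G.uU (XN.map (rv x)) *ᵥ fun i => rv x (l i) := by
    intro x
    funext i
    rw [hb, RingHom.map_mulVec, ← P002G.uU_map]
    rfl
  have hWr : ∀ x, (P002G.WW N b).map (rv x) = P002G.WW (N.map (rv x)) fun i => rv x (b i) :=
    fun x => P002G.WW_map (rv x) N b
  have hXNr : ∀ x i j, (XN.map (rv x)) i j = if i = j then rv x (q i.succ) else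
      Y (Fin.last m) i.succ j.succ := by
    intro x i j
    rw [hXN, Matrix.map_apply, Matrix.of_apply]
    split_ifs
    · rfl
    · rw [hrv']
      exact AlgHom.commutes _ _
  -- the base point
  have hq0 : ∀ i, rv x₀ (q i) = Y (Fin.last m) i i := by
    intro i
    rw [hrv', hqr, ← hY4 i, Fin.prod_univ_castSucc, hx₀]
    simp only
    rw [mul_comm (∏ l : Fin m, Y l.castSucc i i), mul_assoc, mul_inv_cancel₀, mul_one]
    rw [Finset.prod_ne_zero_iff]
    exact fun k _ => hY0 _ i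
  obtain ⟨ψ, hψ⟩ : ∃ ψ : Polynomial ℂ, ψ = χ.map φ := ⟨_, rfl⟩
  have hψ1 : ψ.Monic := by rw [hψ]; exact hχ.map φ
  have hψ2 : ψ.natDegree = n + 1 := by rw [hψ, hχ.natDegree_map, hχd]
  have hXN0 : XN.map (rv x₀) = Matrix.of fun i j => Y (Fin.last m) i.succ j.succ := by
    ext i j
    rw [hXNr, Matrix.of_apply]
    split_ifs with h
    · rw [h, hq0]
    · rfl
  have hYm : P002G.bcons (Y (Fin.last m) 0 0) (fun j => Y (Fin.last m) 0 j.succ)
      (fun i => rv x₀ (l i)) (XN.map (rv x₀)) = Y (Fin.last m) := by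
    rw [hXN0]
    have h1 : (fun i => rv x₀ (l i)) = fun i : Fin n => Y (Fin.last m) i.succ 0 :=
      funext fun i => hlr x₀ i
    rw [h1]
    exact P002G.bcons_eta _
  obtain ⟨a0, ha0⟩ : ∃ a0 : Fin n → ℂ, a0 ᵥ* P002G.uU (XN.map (rv x₀)) =
      fun j => Y (Fin.last m) 0 j.succ := ⟨_, P002G.exists_vecMul_uU _ _⟩
  have hbrd0 : P002G.zZ (Y (Fin.last m)) = P002G.brd (Y (Fin.last m) 0 0) (N.map (rv x₀))
      (fun i => rv x₀ (b i)) a0 := by
    rw [hNr, hbr, ← P002G.zZ_bcons, ha0, hYm]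
  have hcyc0 : P002G.Cyc (N.map (rv x₀)) fun i => rv x₀ (b i) := by
    have h1 : P002G.Cyc (P002G.zZ (Y (Fin.last m))) (P002G.e0 n ℂ) := hY3
    rw [hbrd0, P002G.cyc_brd] at h1
    exact h1
  have hdW : rev x₀ x₀ (P002G.WW N b).det ≠ 0 := by
    rw [← hrv', RingHom.map_det]
    change ((P002G.WW N b).map (rv x₀)).det ≠ 0
    rw [hWr, ← isUnit_iff_ne_zero, ← Matrix.isUnit_iff_isUnit_det, P002G.isUnit_WW]
    exact hcyc0
  obtain ⟨winv, hwinv⟩ := exists_rinv (P002G.WW N b).det hdW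
  obtain ⟨a, ha⟩ : ∃ a : Fin n → ratAt x₀, a = winv • ((P002G.WW N b).adjugate *ᵥ fun j : Fin n =>
    (N.charpoly * (Polynomial.X - Polynomial.C (q 0)) -
      ψ.map (algebraMap ℂ (ratAt x₀))).coeff ((j : ℕ) + 1)) := ⟨_, rfl⟩
  have har : ∀ x, (fun i => rv x (a i)) = P002G.aOf ψ (rv x (q 0)) (N.map (rv x))
      fun i => rv x (b i) := by
    intro x
    funext i
    rw [ha, P002G.aOf, ← hWr, Matrix.inv_def, Ring.inverse_eq_inv', Matrix.smul_mulVec,
      Pi.smul_apply, Pi.smul_apply, smul_eq_mul, smul_eq_mul, map_mul, hrv' x winv, hwinv x,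
      ← hrv' x, RingHom.map_det, RingHom.map_mulVec]
    congr 1
    have h1 : ((P002G.WW N b).adjugate.map (rv x)) = ((P002G.WW N b).map (rv x)).adjugate :=
      RingHom.map_adjugate (rv x) _
    rw [h1]
    refine congrArg (fun v => (((P002G.WW N b).map (rv x)).adjugate *ᵥ v) i) ?_
    funext j
    have h2 : (N.map (rv x)).charpoly = N.charpoly.map (rv x) := Matrix.charpoly_map N (rv x)
    have h3 : (ψ.map (algebraMap ℂ (ratAt x₀))).map (rv x) = ψ := by
      rw [Polynomial.map_map]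
      have h4 : (rv x).comp (algebraMap ℂ (ratAt x₀)) = RingHom.id ℂ := by
        ext1 z
        rw [RingHom.comp_apply, hrv', AlgHom.commutes]
        rfl
      rw [h4, Polynomial.map_id]
    rw [Function.comp_apply, ← Polynomial.coeff_map, Polynomial.map_sub, Polynomial.map_mul,
      Polynomial.map_sub, Polynomial.map_X, Polynomial.map_C, h2, h3]
  obtain ⟨Yt, hYt⟩ : ∃ Yt : Mat (n + 1) (ratAt x₀),
    Yt = P002G.bcons (q 0) (a ᵥ* P002G.uU XN) l XN := ⟨_, rfl⟩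
  have hYtr : ∀ x, Yt.map (rv x) = P002G.bcons (rv x (q 0))
      ((fun i => rv x (a i)) ᵥ* P002G.uU (XN.map (rv x))) (fun i => rv x (l i))
      (XN.map (rv x)) := by
    intro x
    rw [hYt, bcons_map]
    congr 1
    funext j
    rw [← P002G.uU_map, RingHom.map_vecMul]
    rfl
  have hzZt : ∀ x, P002G.zZ (Yt.map (rv x)) = P002G.brd (rv x (q 0)) (N.map (rv x))
      (fun i => rv x (b i)) (fun i => rv x (a i)) := by
    intro x
    rw [hYtr, P002G.zZ_bcons, ← hNr, ← hbr]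
  -- the constant coefficient
  have hdetx : ∀ x, (∏ i, ∏ k, x (k, (i, i))) = ∏ k, (J k).det →
      ψ.coeff 0 = -(rv x (q 0) * (N.map (rv x)).charpoly.coeff 0) := by
    intro x hx
    have h1 : ∏ i, rv x (q i) = ∏ i, Y (Fin.last m) i i := by
      have h2 : ∀ x, (∏ i, ∏ k, x (k, (i, i))) = ∏ k, (J k).det →
          ∏ i, rv x (q i) = (∏ i, φ (θ i)) * (∏ k, (J k).det)⁻¹ := by
        intro x hx
        simp only [hrv', hqr]
        rw [Finset.prod_mul_distrib, Finset.prod_inv_distrib, hx]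
      rw [h2 x hx, ← h2 x₀ ?_]
      · exact Finset.prod_congr rfl fun i _ => hq0 i
      · rw [Finset.prod_comm]
        refine Finset.prod_congr rfl fun k _ => ?_
        rw [← (hY1 k).det, det_zZ, hx₀]
    have h3 : ψ.coeff 0 = (-1) ^ (n + 1) * ∏ i, Y (Fin.last m) i i := by
      have h4 : ψ = (P002G.zZ (Y (Fin.last m))).charpoly := by
        rw [hψ]
        exact hY2.symm
      rw [h4, P002G.charpoly_zZ_coeff_zero]
    rw [h3, ← h1, hNr, P002G.charpoly_zZ_coeff_zero, Fin.prod_univ_succ]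
    have h5 : ∏ i, (XN.map (rv x)) i i = ∏ i : Fin n, rv x (q i.succ) :=
      Finset.prod_congr rfl fun i _ => by rw [hXNr, if_pos rfl]
    rw [h5]
    ring
  have hx₀det : (∏ i, ∏ k, x₀ (k, (i, i))) = ∏ k, (J k).det := by
    rw [Finset.prod_comm]
    refine Finset.prod_congr rfl fun k _ => ?_
    rw [← (hY1 k).det, det_zZ, hx₀]
  -- the value at the base point
  have hYt0 : Yt.map (rv x₀) = Y (Fin.last m) := by
    have h1 : a0 = fun i => rv x₀ (a i) := by
      rw [har]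
      have h2 := P002G.charpoly_brd_iff hψ1 hψ2 hcyc0 (hdetx x₀ hx₀det) a0
      apply h2.1
      rw [hq0, ← hbrd0, hψ]
      exact hY2
    rw [hYtr, ← h1, ha0, hq0, hYm]
  -- the function
  obtain ⟨g, hg⟩ : ∃ g : ratAt x₀, g = MvPolynomial.aeval (fun p => (Fin.snoc
    (α := fun _ => Mat (n + 1) (ratAt x₀)) YS Yt : Fin (m + 1) → _) p.1 p.2.1 p.2.2) F := ⟨_, rfl⟩
  have hgr : ∀ x, rev x₀ x g = MvPolynomial.aeval (fun p => (Fin.snoc
      (α := fun _ => Mat (n + 1) ℂ) (fun k => (YS k).map (rv x)) (Yt.map (rv x)) :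
        Fin (m + 1) → Mat (n + 1) ℂ) p.1 p.2.1 p.2.2) F := by
    intro x
    rw [hg, ← AlgHom.comp_apply, MvPolynomial.comp_aeval]
    congr 2
    funext p
    obtain ⟨k, i, j⟩ := p
    refine Fin.lastCases ?_ (fun k => ?_) k
    · simp only [Fin.snoc_last]
      rw [Matrix.map_apply, hrv']
    · simp only [Fin.snoc_castSucc]
      rw [Matrix.map_apply, hrv']
  obtain ⟨A, hAdef⟩ : ∃ A : Set (Fin m × (Fin (n + 1) × Fin (n + 1)) → ℂ), A =
    {x | ∃ Yi : Fin m → Mat (n + 1) R, (∀ k i, IsUnit (Yi k i i)) ∧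
      (∀ k, CjM (J k) (zZ ((Yi k).map φ))) ∧ x = fun p => φ (Yi p.1 p.2.1 p.2.2)} := ⟨_, rfl⟩
  have hdense : ∀ P : MvPolynomial (Fin m × (Fin (n + 1) × Fin (n + 1))) ℂ,
      (∀ x ∈ A, MvPolynomial.eval x P = 0) → MvPolynomial.eval x₀ P = 0 := by
    intro P hP
    have h1 := dense_pi
      (fun k => {v | ∃ X : Mat (n + 1) R, (∀ i, IsUnit (X i i)) ∧ CjM (J k) (zZ (X.map φ)) ∧
        v = fun p => φ (X p.1 p.2)})
      (fun k => {v | ∃ X : Mat (n + 1) ℂ, (∀ i, X i i ≠ 0) ∧ CjM (J k) (zZ X) ∧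
        v = fun p => X p.1 p.2})
      (fun k F hF v hv => by
        obtain ⟨X, hX1, hX2, rfl⟩ := hv
        exact hT k F (fun X' h1 h2 => hF _ ⟨X', h1, h2, rfl⟩) X hX1 hX2) P
      (fun v hv => by
        choose Yi h1 h2 h3 using hv
        apply hP
        rw [hAdef]
        refine ⟨Yi, h1, h2, ?_⟩
        funext p
        rw [h3 p.1])
      (fun k p => Y k.castSucc p.1 p.2)
      (fun k => ⟨Y k.castSucc, hY0 _, hY1 k, rfl⟩)
    rw [hx₀]
    exact h1
  have hfin := ratAt_dense' A hdense g (P002G.WW N b).det hdW (fun x hx hκ => by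
    rw [hAdef] at hx
    obtain ⟨Yi, h1, h2, h3⟩ := hx
    rw [hgr]
    have h4 : (fun k => (YS k).map (rv x)) = fun k => (Yi k).map φ := by
      funext k
      ext i j
      rw [Matrix.map_apply, Matrix.map_apply, hrv', hYSr, h3]
    rw [h4]
    have h5 : (∏ i, ∏ k, x (k, (i, i))) = ∏ k, (J k).det := by
      rw [Finset.prod_comm]
      refine Finset.prod_congr rfl fun k _ => ?_
      rw [← (h2 k).det, det_zZ, h3]
      rfl
    have h6 : P002G.Cyc (N.map (rv x)) fun i => rv x (b i) := by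
      rw [← P002G.isUnit_WW, Matrix.isUnit_iff_isUnit_det, isUnit_iff_ne_zero, ← hWr]
      have h7 := RingHom.map_det (rv x) (P002G.WW N b)
      rw [hrv'] at h7
      rw [h7] at hκ
      exact hκ
    have h8 := (P002G.charpoly_brd_iff hψ1 hψ2 h6 (hdetx x h5) (fun i => rv x (a i))).2 (har x)
    rw [← hzZt, hψ] at h8
    refine hA Yi h1 h2 (Yt.map (rv x)) (fun i => ?_) h8 ?_
    · have h9 : (Yt.map (rv x)) i i = rv x (q i) := by
        rw [hYtr]
        refine Fin.cases ?_ (fun i => ?_) i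
        · rfl
        · rw [P002G.bcons_succ_succ, hXNr, if_pos rfl]
      have h10 : (∏ k, x (k, (i, i))) = ∏ l, φ (Yi l i i) := by rw [h3]
      rw [h9, hrv', hqr, h10, mul_comm (φ (θ i)), ← mul_assoc, mul_inv_cancel₀, one_mul]
      rw [Finset.prod_ne_zero_iff]
      exact fun k _ => ((h1 k i).map φ).ne_zero
    · have h11 : P002G.Cyc (P002G.zZ (Yt.map (rv x))) (P002G.e0 n ℂ) := by
        rw [hzZt, P002G.cyc_brd]
        exact h6
      exact h11)
  rw [hgr, hYt0] at hfin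
  rw [← hfin]
  congr 2
  funext p
  obtain ⟨k, i, j⟩ := p
  refine Fin.lastCases ?_ (fun k => ?_) k
  · simp only [Fin.snoc_last]
  · simp only [Fin.snoc_castSucc]
    rw [Matrix.map_apply, hrv', hYSr, hx₀]

end Vale.Agent.P002R
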