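import Vale.Agent.P002R.ZChart
import Vale.Agent.P002G.LemmaB

/-!
# P002, genus 0: the fibrewise density (from Lemma B)
-/

namespace Vale.Agent.P002R

open Matrix

theorem isPoly_entries {m n : ℕ} (F : MvPolynomial (Fin m × Fin n) ℂ) :
    P002G.IsPoly fun X : Matrix (Fin m) (Fin n) ℂ => MvPolynomial.eval (fun p => X p.1 p.2) F := by
  have h1 : P002G.PolyMap fun X : Matrix (Fin m) (Fin n) ℂ => fun p : Fin m × Fin n => X p.1 p.2 :=
    P002G.polyMap_pi fun p => ((P002G.polyMap_linear LinearMap.id).entry p.1 p.2).polyMap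
  exact h1.comp (P002G.isPoly_mvPoly F)

theorem fibD_of_QQ {R : Type*} [CommRing R] (φ : R →+* ℂ) (n : ℕ) (h : P002G.QQ φ (n + 1)) :
    FibD φ n := by
  intro q χ hχ hχd F hF X hX1 hX2 hX3
  obtain ⟨F', hF'⟩ : ∃ F' : Matrix (Fin (n + 1)) (Fin (n + 1)) ℂ → ℂ, ∀ X, F' X =
    MvPolynomial.eval (fun p => X p.1 p.2) F := ⟨_, fun _ => rfl⟩
  have hP : P002G.IsPoly F' := (isPoly_entries F).congr fun X => (hF' X).symm
  have h10 : (1 : R) ≠ 0 := by
    intro h0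
    have := congrArg φ h0
    rw [map_one, map_zero] at this
    exact one_ne_zero this
  have hint : ∀ X : Mat (n + 1) R, (∀ i, X i i = q i) → P002G.Bi 1 X →
      (P002G.zZ X).charpoly = χ → P002G.Cyc (P002G.zZ X) (P002G.en (n + 1) R) →
      F' (X.map φ) = 0 := by
    intro X' h1 _ h3 h4
    rw [hF']
    rw [P002G.en_eq_e0] at h4
    exact hF X' h1 h3 h4
  rw [← P002G.en_eq_e0] at hX3
  rw [← hF']
  exact h 1 h10 q χ hχ hχd F' hP hint X hX1 hX2 hX3

/-- Lemma B. -/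
theorem fibD {R : Type*} [CommRing R] (φ : R →+* ℂ) (E : Subgroup ℂˣ) {r : ℕ} (hc : CoefOK φ E r)
    (hUP : ∀ (u : Rˣ) (D : R), D ≠ 0 → ∃ M : ℕ, 0 < M ∧ D ∣ (u : R) ^ M - 1) (n : ℕ) :
    FibD φ n := by
  obtain ⟨u, hu⟩ := hc.unit
  refine fibD_of_QQ φ n (P002G.QQ_all φ hc.inj u (fun k hk h => hu k hk ?_) (hUP u) n)
  have h1 : Units.map (φ : R →* ℂ) u ^ k = 1 := by
    apply Units.ext
    rw [Units.val_pow_eq_pow_val, Units.val_one, Units.coe_map]
    exact h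
  rw [h1]
  exact E.one_mem

end Vale.Agent.P002R
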