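import Vale.Agent.P002R.ZCore

/-!
# P002, genus 0: the chart
-/

namespace Vale.Agent.P002R

open Matrix

/-- The matrices of the boundary generators (and `1` beyond the last one). -/
noncomputable def cseq {r N : ℕ} (x : FU 0 N →* (Mat r ℂ)ˣ) (j : ℕ) : Mat r ℂ :=
  if h : j < N then (x (FreeGroup.of (Sum.inr ⟨j, h⟩)) : Mat r ℂ) else 1

theorem cseq_of {r N : ℕ} (x : FU 0 N →* (Mat r ℂ)ˣ) (j : Fin N) :
    cseq x j = (x (FreeGroup.of (Sum.inr j)) : Mat r ℂ) := by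
  rw [cseq, dif_pos j.2]

theorem cseq_prod {r N : ℕ} (x : FU 0 N →* (Mat r ℂ)ˣ) (hx : x (relatorU 0 N) = 1) :
    (List.ofFn fun j : Fin N => cseq x j).prod = 1 := by
  have h1 : ((x (relatorU 0 N) : (Mat r ℂ)ˣ) : Mat r ℂ) = 1 := by rw [hx, Units.val_one]
  rw [relatorU_eqn] at h1
  simp only [List.ofFn_zero, List.prod_nil, mul_one] at h1
  rw [map_list_prod, List.map_ofFn, ← Units.coeHom_apply, map_list_prod, List.map_ofFn] at h1
  rw [← h1]
  congr 2
  funext j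
  exact cseq_of x j

/-- Extension of a finite sequence. -/
def extY {r M : ℕ} {S : Type*} [CommRing S] (Y : Fin M → Mat r S) (k : ℕ) : Mat r S :=
  if h : k < M then Y ⟨k, h⟩ else 0

theorem extY_of {r M : ℕ} {S : Type*} [CommRing S] (Y : Fin M → Mat r S) (k : ℕ) (h : k < M) :
    extY Y k = Y ⟨k, h⟩ := by
  rw [extY, dif_pos h]

theorem extY_map {r M : ℕ} {S T : Type*} [CommRing S] [CommRing T] (φ : S →+* T)
    (Y : Fin M → Mat r S) : (fun k => (extY Y k).map φ) = extY fun k => (Y k).map φ := by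
  funext k
  by_cases h : k < M
  · rw [extY_of _ k h, extY_of _ k h]
  · rw [extY, extY, dif_neg h, dif_neg h]
    ext i j
    exact map_zero φ

/-- Evaluation of a polynomial at a sequence. -/
noncomputable def evalT {r N : ℕ} {S : Type*} [CommRing S] [Algebra ℂ S] (c : ℕ → Mat r S)
    (f : MvPolynomial (GenU 0 N × Fin r × Fin r) ℂ) : S :=
  MvPolynomial.aeval (fun p : GenU 0 N × Fin r × Fin r =>
    (Sum.elim (fun _ => (0 : Mat r S)) (fun j : Fin N => c j) p.1 : Mat r S) p.2.1 p.2.2) f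

theorem evalG_eq_evalT {r N : ℕ} (y : FU 0 N →* (Mat r ℂ)ˣ) (c : ℕ → Mat r ℂ)
    (h : ∀ j : Fin N, (y (FreeGroup.of (Sum.inr j)) : Mat r ℂ) = c j)
    (f : MvPolynomial (GenU 0 N × Fin r × Fin r) ℂ) : evalG y f = evalT c f := by
  rw [evalG_eqn, evalT]
  congr 2
  funext p
  obtain ⟨k | k, i, j⟩ := p
  · exact k.1.elim0
  · rw [h]
    rfl

theorem evalT_map {r N : ℕ} {S T : Type*} [CommRing S] [Algebra ℂ S] [CommRing T] [Algebra ℂ T]
    (ψ : S →ₐ[ℂ] T) (c : ℕ → Mat r S) (f : MvPolynomial (GenU 0 N × Fin r × Fin r) ℂ) :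
    ψ (evalT c f) = evalT (fun j => (c j).map ψ) f := by
  rw [evalT, evalT, ← AlgHom.comp_apply, MvPolynomial.comp_aeval]
  congr 2
  funext p
  obtain ⟨k | k, i, j⟩ := p
  · exact k.1.elim0
  · rfl

theorem kry_map' {r : ℕ} {S T : Type*} [CommRing S] [CommRing T] (φ : S →+* T) (A : Mat r S)
    (v : Fin r → S) : φ (P002.kry A v).det = (P002.kry (A.map φ) fun i => φ (v i)).det := by
  rw [RingHom.map_det]
  congr 1
  ext i j
  simp only [P002.kry, Matrix.of_apply, RingHom.mapMatrix_apply, Matrix.map_apply]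
  have h2 : (A.map φ) ^ (j : ℕ) = (A ^ (j : ℕ)).map φ := by
    have := map_pow φ.mapMatrix A (j : ℕ)
    exact this.symm
  rw [h2, RingHom.map_mulVec]
  rfl

/-- The polynomial of the chart. -/
theorem exists_chart_poly {r m : ℕ} (t t' : Fin r → ℂ) (κ : ℕ → ℂ) (v v' : Fin r → ℂ)
    (f : MvPolynomial (GenU 0 (m + 3) × Fin r × Fin r) ℂ) :
    ∃ F : MvPolynomial (Fin (m + 1) × Fin r × Fin r) ℂ, ∀ Y : Fin (m + 1) → Mat r ℂ,
      MvPolynomial.aeval (fun p => Y p.1 p.2.1 p.2.2) F =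
        evalT (ctup (m + 1) t t' κ (extY Y)) f *
        (P002.kry (ctup (m + 1) t t' κ (extY Y) 0) v).det *
        (P002.kry (ctup (m + 1) t t' κ (extY Y) (m + 2)) v').det := by
  obtain ⟨Yg, hYg⟩ : ∃ Yg : Fin (m + 1) → Mat r (MvPolynomial (Fin (m + 1) × Fin r × Fin r) ℂ),
    Yg = fun k => Matrix.of fun i j => MvPolynomial.X (k, (i, j)) := ⟨_, rfl⟩
  obtain ⟨cg, hcg⟩ : ∃ cg : ℕ → Mat r (MvPolynomial (Fin (m + 1) × Fin r × Fin r) ℂ),
    cg = ctup (m + 1) (fun i => MvPolynomial.C (t i)) (fun i => MvPolynomial.C (t' i))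
      (fun k => MvPolynomial.C (κ k)) (extY Yg) := ⟨_, rfl⟩
  refine ⟨evalT cg f * (P002.kry (cg 0) fun i => MvPolynomial.C (v i)).det *
    (P002.kry (cg (m + 2)) fun i => MvPolynomial.C (v' i)).det, fun Y => ?_⟩
  obtain ⟨ev, hev⟩ : ∃ ev : MvPolynomial (Fin (m + 1) × Fin r × Fin r) ℂ →ₐ[ℂ] ℂ,
    ev = MvPolynomial.aeval (fun p => Y p.1 p.2.1 p.2.2) := ⟨_, rfl⟩
  rw [← hev]
  have h1 : ∀ j, (cg j).map ev = ctup (m + 1) t t' κ (extY Y) j := by
    intro j
    have h2 := ctup_map (ev : MvPolynomial (Fin (m + 1) × Fin r × Fin r) ℂ →+* ℂ) (m + 1)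
      (fun i => MvPolynomial.C (t i)) (fun i => MvPolynomial.C (t' i))
      (fun k => MvPolynomial.C (κ k)) (extY Yg) j
    have h3 : ∀ z : ℂ, (ev : MvPolynomial (Fin (m + 1) × Fin r × Fin r) ℂ →+* ℂ)
        (MvPolynomial.C z) = z := fun z => ev.commutes z
    simp only [h3] at h2
    rw [extY_map] at h2
    have h4 : (fun k => (Yg k).map (ev : MvPolynomial (Fin (m + 1) × Fin r × Fin r) ℂ →+* ℂ)) =
        Y := by
      funext k
      ext i j
      rw [hYg, Matrix.map_apply]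
      change ev (MvPolynomial.X (k, (i, j))) = _
      rw [hev, MvPolynomial.aeval_X]
    rw [h4] at h2
    rw [← h2, hcg]
    rfl
  have h5 : ∀ (A : Mat r (MvPolynomial (Fin (m + 1) × Fin r × Fin r) ℂ)) (w : Fin r → ℂ),
      ev (P002.kry A fun i => MvPolynomial.C (w i)).det = (P002.kry (A.map ev) w).det := by
    intro A w
    have h6 := kry_map' (ev : MvPolynomial (Fin (m + 1) × Fin r × Fin r) ℂ →+* ℂ) A
      fun i => MvPolynomial.C (w i)
    have h3 : ∀ z : ℂ, (ev : MvPolynomial (Fin (m + 1) × Fin r × Fin r) ℂ →+* ℂ)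
        (MvPolynomial.C z) = z := fun z => ev.commutes z
    simp only [h3] at h6
    exact h6
  rw [map_mul, map_mul, h5, h5, h1, h1, evalT_map]
  simp only [h1]

theorem chart_density {R : Type*} [CommRing R] (φ : R →+* ℂ) (E : Subgroup ℂˣ) {n m : ℕ}
    (hc : CoefOK φ E (n + 1)) (hB : FibD φ n)
    (C : Fin (m + 3) → (Mat (n + 1) ℂ)ˣ) (hE : ∀ j, EigIn E (C j : Mat (n + 1) ℂ))
    (hT : ∀ j : Fin (m + 3), 1 ≤ (j : ℕ) → (j : ℕ) ≤ m → TotD φ (C j : Mat (n + 1) ℂ))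
    (h0 : ∃ v, P002G.Cyc (C 0 : Mat (n + 1) ℂ) v)
    (hl : ∃ v, P002G.Cyc (C (Fin.last (m + 2)) : Mat (n + 1) ℂ) v)
    (x : FU 0 (m + 3) →* (Mat (n + 1) ℂ)ˣ) (hx1 : x (relatorU 0 (m + 3)) = 1)
    (hxC : ∀ j, IsConj (C j) (x (FreeGroup.of (Sum.inr j))))
    (hup : UpT (cseq x 0)) (hlo : LoT (cseq x (m + 2)))
    (hcell : ∀ k ≤ m + 1, ∃ X : Mat (n + 1) ℂ,
      (List.ofFn fun j : Fin k => cseq x ((j : ℕ) + 1)).prod = zZ X ∧ ∀ i, X i i ≠ 0)
    (hcyc : P002G.Cyc (cseq x (m + 1))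
      (((List.ofFn fun j : Fin m => cseq x ((j : ℕ) + 1)).prod)⁻¹ *ᵥ P002G.e0 n ℂ))
    (f : MvPolynomial (GenU 0 (m + 3) × Fin (n + 1) × Fin (n + 1)) ℂ)
    (hf : ∀ y : FU 0 (m + 3) →* (Mat (n + 1) ℂ)ˣ, y (relatorU 0 (m + 3)) = 1 →
      (∀ j, IsConj (C j) (y (FreeGroup.of (Sum.inr j)))) →
      (∀ k, y (FreeGroup.of k) ∈ GR (n + 1) φ) → evalG y f = 0) :
    evalG x f = 0 := by
  -- the tuple in the chart
  have hXex : ∀ k, ∃ X : Mat (n + 1) ℂ, k ≤ m + 1 →
      (List.ofFn fun j : Fin k => cseq x ((j : ℕ) + 1)).prod = zZ X ∧ ∀ i, X i i ≠ 0 := by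
    intro k
    by_cases hk : k ≤ m + 1
    · obtain ⟨X, hX⟩ := hcell k hk
      exact ⟨X, fun _ => hX⟩
    · exact ⟨0, fun h => absurd h hk⟩
  choose X hX using hXex
  obtain ⟨Y, κ, t, hκ, ht, hctup, hLc, hY0⟩ := exists_ctup (m + 1) (cseq x) X
    (fun k hk => (hX k hk).1) (fun k hk => (hX k hk).2) hup hlo (cseq_prod x hx1)
  obtain ⟨t', ht'⟩ : ∃ t' : Fin (n + 1) → ℂ, t' = fun i => cseq x 0 i i := ⟨_, rfl⟩
  rw [← ht'] at hctup
  have hcx : ∀ j (hj : j < m + 3), CjM (C ⟨j, hj⟩ : Mat (n + 1) ℂ) (cseq x j) := by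
    intro j hj
    have h1 : cseq x j = _ := cseq_of x ⟨j, hj⟩
    rw [h1]
    exact cjM_of_isConj (hxC ⟨j, hj⟩)
  -- eigenvalues
  have hξ0 : ∀ i, ∃ u : Rˣ, φ (u : R) = cseq x 0 i i := by
    intro i
    apply exists_unit_of_mem φ hc (Nat.succ_pos n)
    apply hE 0
    have h1 : (C 0 : Mat (n + 1) ℂ).charpoly = (cseq x 0).charpoly :=
      ((hcx 0 (by omega)).charpoly).symm
    rw [h1, charpoly_upT hup, Polynomial.IsRoot.def, Polynomial.eval_prod]
    exact Finset.prod_eq_zero (Finset.mem_univ i) (by simp)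
  choose ξ hξ using hξ0
  have hξ0' : ∀ i, ∃ u : Rˣ, φ (u : R) = cseq x (m + 2) i i := by
    intro i
    apply exists_unit_of_mem φ hc (Nat.succ_pos n)
    apply hE (Fin.last (m + 2))
    have h1 : (C (Fin.last (m + 2)) : Mat (n + 1) ℂ).charpoly = (cseq x (m + 2)).charpoly :=
      ((hcx (m + 2) (by omega)).charpoly).symm
    rw [h1, charpoly_loT hlo, Polynomial.IsRoot.def, Polynomial.eval_prod]
    exact Finset.prod_eq_zero (Finset.mem_univ i) (by simp)
  choose ξ' hξ' using hξ0'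
  have hδ0 : ∀ l, ∃ u : Rˣ, ∀ hl : l < m + 1, φ (u : R) =
      (C ⟨l + 1, by omega⟩ : Mat (n + 1) ℂ).det := by
    intro l
    by_cases hl : l < m + 1
    · obtain ⟨u, hu⟩ := exists_unit_of_mem φ hc (Nat.succ_pos n) _
        (hE ⟨l + 1, by omega⟩).det
      exact ⟨u, fun _ => hu⟩
    · exact ⟨1, fun h => absurd h hl⟩
  choose δ hδ using hδ0
  obtain ⟨χ, hχ1, hχ2, hχ3⟩ := exists_charpoly_lift φ hc (Nat.succ_pos n) _
    (hE (⟨m + 1, by omega⟩ : Fin (m + 3)))
  -- the elements of the cell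
  have hYC : ∀ k (hk : k < m + 1), CjM (C ⟨k + 1, by omega⟩ : Mat (n + 1) ℂ) (zZ (Y k)) := by
    intro k hk
    obtain ⟨L, -, hL⟩ := ctup_mid_cjM (m + 1) t t' κ Y k hk (hκ k hk.le)
    refine (hcx (k + 1) (by omega)).trans ⟨L, ?_⟩
    rw [hctup (k + 1) (by omega)]
    exact hL
  have hκ' : ∀ k ≤ m + 1, κ k = φ (kap' δ k) := by
    intro k hk
    have h1 := kap'_mul δ φ Y k fun l hlk => by
      rw [(hYC l (by omega)).det, hδ l (by omega)]
    have h2 := hκ k hk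
    have h3 : (Lc Y k).det ≠ 0 := right_ne_zero_of_mul (by rw [h2]; exact one_ne_zero)
    exact mul_right_cancel₀ h3 (h2.trans h1.symm)
  have htt : t = fun i => φ ((ξ i)⁻¹ : Rˣ) := by
    funext i
    have h1 := ht i
    have h2 : φ (ξ i) * φ ((ξ i)⁻¹ : Rˣ) = 1 := by rw [← map_mul, Units.mul_inv, map_one]
    rw [hξ] at h2
    exact mul_left_cancel₀ (left_ne_zero_of_mul (by rw [h1]; exact one_ne_zero)) (h1.trans h2.symm)
  have htt' : t' = fun i => φ (ξ i) := by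
    rw [ht']
    funext i
    rw [hξ]
  have hlast : ∀ i, (∏ l ∈ Finset.range (m + 1), Y l i i) * φ (ξ i) * φ (ξ' i) = 1 := by
    intro i
    have h1 := (ctup_last_loT (m + 1) t t' κ Y (hκ (m + 1) le_rfl)).2 i
    rw [← hctup (m + 1 + 1) (by omega), Lc_diag] at h1
    have h2 := ht i
    rw [hξ, hξ', mul_comm (∏ l ∈ Finset.range (m + 1), Y l i i), mul_assoc,
      mul_comm (∏ l ∈ Finset.range (m + 1), Y l i i), h1, h2]
  -- cyclicity
  have hcycY : P002G.Cyc (zZ (Y m)) (P002G.e0 n ℂ) := by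
    obtain ⟨L, hL1, hL2⟩ := ctup_mid_cjM (m + 1) t t' κ Y m (Nat.lt_succ_self m)
      (hκ m (Nat.le_succ m))
    rw [← hctup (m + 1) (by omega)] at hL2
    rw [hL2]
    have h1 := P002G.cyc_conj L hcyc
    have h2 : (L : Mat (n + 1) ℂ) *ᵥ (((List.ofFn fun j : Fin m => cseq x ((j : ℕ) + 1)).prod)⁻¹ *ᵥ
        P002G.e0 n ℂ) = P002G.e0 n ℂ := by
      have h3 := (hX m (Nat.le_succ m)).1
      have hdU : IsUnit (uU (X m)).det := by rw [det_uU]; exact isUnit_one
      have hdL : IsUnit (lL (X m)).det := by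
        rw [det_lL, isUnit_iff_ne_zero, Finset.prod_ne_zero_iff]
        exact fun i _ => (hX m (Nat.le_succ m)).2 i
      rw [h3, zZ, Matrix.mul_inv_rev, hL1, hLc m (Nat.le_succ m), mulVec_mulVec, ← mul_assoc,
        Matrix.mul_nonsing_inv _ hdL, one_mul]
      have h4 : uU (X m) *ᵥ P002G.e0 n ℂ = P002G.e0 n ℂ := by
        funext i
        rw [mulVec, dotProduct, Fin.sum_univ_succ]
        have h5 : ∀ j : Fin n, P002G.e0 n ℂ j.succ = 0 := fun j => rfl
        have h6 : P002G.e0 n ℂ 0 = 1 := rfl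
        simp only [h5, mul_zero, Finset.sum_const_zero, add_zero, h6, mul_one]
        refine Fin.cases ?_ (fun i => ?_) i
        · rw [uU_diag, h6]
        · rw [h5, upT_uU _ _ _ (Fin.succ_pos i)]
      calc (uU (X m))⁻¹ *ᵥ P002G.e0 n ℂ = (uU (X m))⁻¹ *ᵥ (uU (X m) *ᵥ P002G.e0 n ℂ) := by rw [h4]
        _ = P002G.e0 n ℂ := by rw [mulVec_mulVec, Matrix.nonsing_inv_mul _ hdU, one_mulVec]
    rw [h2] at h1
    exact h1
  -- the polynomial
  obtain ⟨v, hv⟩ := (hcx 0 (by omega)).cyc h0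
  obtain ⟨v', hv'⟩ := (hcx (m + 2) (by omega)).cyc hl
  obtain ⟨F, hF⟩ := exists_chart_poly (m := m) t t' κ v v' f
  have hext : ∀ j, ctup (m + 1) t t' κ (extY fun k : Fin (m + 1) => Y k) j =
      ctup (m + 1) t t' κ Y j := fun j =>
    ctup_congr (fun l hl => extY_of _ l hl) (fun _ _ => rfl) j
  have hmain := core_density φ hB (fun k : Fin m => (C ⟨k + 1, by omega⟩ : Mat (n + 1) ℂ))
    (fun k => hT _ (Nat.succ_le_succ (Nat.zero_le _)) (Nat.succ_le_of_lt k.2)) χ hχ1 hχ2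
    (fun i => (ξ i * ξ' i)⁻¹) F
    (fun Y' hY1 hY2 hY3 hY4 hY5 => by
      obtain ⟨Z, hZ⟩ : ∃ Z : ℕ → Mat (n + 1) R, Z = extY Y' := ⟨_, rfl⟩
      have hZk : ∀ k (hk : k < m + 1), Z k = Y' ⟨k, hk⟩ := fun k hk => by
        rw [hZ, extY_of _ k hk]
      have hZm : Z m = Y' (Fin.last m) := hZk m (Nat.lt_succ_self m)
      have hchm : (zZ ((Z m).map φ)).charpoly = (C ⟨m + 1, by omega⟩ : Mat (n + 1) ℂ).charpoly := by
        rw [← zZ_map, hZm]
        have h1 : ((zZ (Y' (Fin.last m))).map φ).charpoly = (zZ (Y' (Fin.last m))).charpoly.map φ :=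
          Matrix.charpoly_map _ φ
        rw [h1, hY3, hχ3]
      obtain ⟨hκZ, y, hy1, hy2, hy3⟩ := chart_integral φ hc (Nat.succ_pos n) C hE h0
        ((hcx (m + 1) (by omega)).symm.cyc ⟨_, hcyc⟩) hl δ ξ ξ' (fun l hl => hδ l hl)
        (by
          have h1 : (C 0 : Mat (n + 1) ℂ).charpoly = (cseq x 0).charpoly :=
            ((hcx 0 (by omega)).charpoly).symm
          rw [h1, charpoly_upT hup]
          exact Finset.prod_congr rfl fun i _ => by rw [hξ])
        (by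
          have h1 : (C (Fin.last (m + 2)) : Mat (n + 1) ℂ).charpoly = (cseq x (m + 2)).charpoly :=
            ((hcx (m + 2) (by omega)).charpoly).symm
          rw [h1, charpoly_loT hlo]
          exact Finset.prod_congr rfl fun i _ => by rw [hξ'])
        Z (fun k hk => by
          rw [hZk k (by omega)]
          exact hY2 ⟨k, hk⟩) hchm
        ⟨_, by
          rw [← zZ_map, hZm]
          exact hY4.map φ⟩
        (fun i => by
          have h1 : (∏ l ∈ Finset.range (m + 1), φ (Z l i i)) = φ ((ξ i * ξ' i)⁻¹ : Rˣ) := by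
            rw [← hY5 i, map_prod, ← Fin.prod_univ_eq_prod_range (fun l => φ (Z l i i))]
            exact Finset.prod_congr rfl fun l _ => by rw [hZk l l.2]
          rw [h1, mul_assoc, ← map_mul, ← map_mul, ← Units.val_mul, ← Units.val_mul,
            inv_mul_cancel, Units.val_one, map_one])
      have hcc : ∀ j, ctup (m + 1) (fun i => φ ((ξ i)⁻¹ : Rˣ)) (fun i => φ (ξ i))
          (fun k => φ (kap' δ k)) (fun k => (Z k).map φ) j =
          ctup (m + 1) t t' κ (extY fun k => (Y' k).map φ) j := by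
        intro j
        rw [htt, htt', ← extY_map, ← hZ]
        exact ctup_congr (fun _ _ => rfl) (fun l hl => (hκ' l hl).symm) j
      have hFY := hF fun k => (Y' k).map φ
      simp only [Matrix.map_apply] at hFY
      rw [hFY]
      by_cases hk1 : (P002.kry (ctup (m + 1) t t' κ (extY fun k => (Y' k).map φ) 0) v).det = 0
      · rw [hk1, mul_zero, zero_mul]
      by_cases hk2 : (P002.kry (ctup (m + 1) t t' κ (extY fun k => (Y' k).map φ) (m + 2)) v').det = 0
      · rw [hk2, mul_zero]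
      obtain ⟨hy4, hy5⟩ := hy3
        ⟨v, by
          rw [hcc, P002G.cyc_iff, Matrix.isUnit_iff_isUnit_det, isUnit_iff_ne_zero]
          exact hk1⟩
        ⟨v', by
          rw [hcc, P002G.cyc_iff, Matrix.isUnit_iff_isUnit_det, isUnit_iff_ne_zero]
          exact hk2⟩
      have hy6 := hf y hy1 hy4 hy5
      rw [evalG_eq_evalT y _ hy2] at hy6
      have hcc' : (fun j => ctup (m + 1) (fun i => φ ((ξ i)⁻¹ : Rˣ)) (fun i => φ (ξ i))
          (fun k => φ (kap' δ k)) (fun k => (Z k).map φ) j) =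
          fun j => ctup (m + 1) t t' κ (extY fun k => (Y' k).map φ) j := funext hcc
      have hy7 : evalT (ctup (m + 1) t t' κ (extY fun k => (Y' k).map φ)) f = 0 := by
        rw [← hy6]
        exact congrArg (fun c => evalT c f) hcc'.symm
      rw [hy7, zero_mul, zero_mul])
    (fun k : Fin (m + 1) => Y k) (fun k i => hY0 k k.2 i) (fun k => hYC k (by omega))
    (by
      rw [hχ3]
      exact (hYC m (Nat.lt_succ_self m)).charpoly) hcycY
    (fun i => by
      have h1 := hlast i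
      have h2 : φ ((ξ i * ξ' i)⁻¹ : Rˣ) * (φ (ξ i) * φ (ξ' i)) = 1 := by
        rw [← map_mul, ← map_mul, ← Units.val_mul, ← Units.val_mul, inv_mul_cancel, Units.val_one,
          map_one]
      rw [Fin.prod_univ_eq_prod_range (fun l => Y l i i)]
      rw [mul_assoc] at h1
      exact mul_right_cancel₀ (right_ne_zero_of_mul (by rw [h2]; exact one_ne_zero))
        (h1.trans h2.symm))
  have hmain' := (hF fun k : Fin (m + 1) => Y k).symm.trans hmain
  rw [hext, hext] at hmain'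
  have hkv : (P002.kry (ctup (m + 1) t t' κ Y 0) v).det ≠ 0 := by
    rw [← hctup 0 (by omega), ← isUnit_iff_ne_zero, ← Matrix.isUnit_iff_isUnit_det,
      ← P002G.cyc_iff]
    exact hv
  have hkv' : (P002.kry (ctup (m + 1) t t' κ Y (m + 2)) v').det ≠ 0 := by
    rw [← hctup (m + 1 + 1) le_rfl, ← isUnit_iff_ne_zero, ← Matrix.isUnit_iff_isUnit_det,
      ← P002G.cyc_iff]
    exact hv'
  have hev : evalT (N := m + 3) (ctup (m + 1) t t' κ (extY fun k : Fin (m + 1) => Y k)) f = 0 := by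
    rcases mul_eq_zero.1 hmain' with h | h
    · exact (mul_eq_zero.1 h).resolve_right hkv
    · exact absurd h hkv'
  rw [evalG_eq_evalT x _ fun j => ?_]
  · exact hev
  · rw [hext, ← hctup j (by omega), cseq_of]

end Vale.Agent.P002R
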