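import Vale.Agent.P002R.ZFam
import Vale.Agent.P002R.ZChart
import Vale.Agent.P002G.Lagrange

/-!
# P002, genus 1: density of the integral points in the space of parameters of the chart
-/

namespace Vale.Agent.P002R

open Matrix

/-- Total density with units in `V` and congruences. -/
def TotV {r : ℕ} {R : Type*} [CommRing R] (φ : R →+* ℂ) (V : Subgroup Rˣ) (J : Mat r ℂ) : Prop :=
  ∀ D : R, D ≠ 0 → ∀ F : MvPolynomial (Fin r × Fin r) ℂ,
    (∀ X : Mat r R, (∀ i, ∃ w ∈ V, (w : R) = X i i) → (∀ i j, j < i → D ∣ X i j) →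
      CjM J (zZ (X.map φ)) → MvPolynomial.eval (fun p => φ (X p.1 p.2)) F = 0) →
    ∀ X : Mat r ℂ, (∀ i, X i i ≠ 0) → CjM J (zZ X) → MvPolynomial.eval (fun p => X p.1 p.2) F = 0

/-- Fibrewise density with units in `V` and congruences. -/
def FibV {R : Type*} [CommRing R] (φ : R →+* ℂ) (V : Subgroup Rˣ) (n : ℕ) : Prop :=
  ∀ D : R, D ≠ 0 → ∀ (q : Fin (n + 1) → Rˣ) (χ : Polynomial R), χ.Monic → χ.natDegree = n + 1 →
  ∀ F : MvPolynomial (Fin (n + 1) × Fin (n + 1)) ℂ,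
    (∀ X : Mat (n + 1) R, (∀ i, X i i = q i) → P002G.Bi D X → (zZ X).charpoly = χ →
      (∃ w ∈ V, (w : R) = (P002.kry (zZ X) (P002G.e0 n R)).det) →
      MvPolynomial.eval (fun p => φ (X p.1 p.2)) F = 0) →
    ∀ X : Mat (n + 1) ℂ, (∀ i, X i i = φ (q i)) → (zZ X).charpoly = χ.map φ →
      P002G.Cyc (zZ X) (P002G.e0 n ℂ) → MvPolynomial.eval (fun p => X p.1 p.2) F = 0

/-- The integral cyclic vectors are dense, for triangular matrices with diagonal `ν` which are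
congruent to bidiagonal ones modulo `D`. -/
def GoodD {R : Type*} [CommRing R] (φ : R →+* ℂ) (V : Subgroup Rˣ) {r : ℕ} (ν : Fin r → Rˣ)
    (D : R) : Prop :=
  ∀ A : Mat r R, LoT A →
    (∀ i, A i i = ν i) → (∀ i j : Fin r, (j : ℕ) + 1 < i → D ∣ A i j) →
    (∀ i j : Fin r, (i : ℕ) = j + 1 → ∃ s ∈ V, D ∣ A i j - (s : R)) →
    ∀ G : MvPolynomial (Fin r) ℂ,
      (∀ y : Fin r → R, (∃ w ∈ V, (w : R) = (P002.kry A y).det) →
        MvPolynomial.eval (fun i => φ (y i)) G = 0) →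
      ∀ y : Fin r → ℂ, MvPolynomial.eval y G = 0

/-- Density of the cyclic vectors of triangular matrices. -/
def VecV {R : Type*} [CommRing R] (φ : R →+* ℂ) (V : Subgroup Rˣ) (r : ℕ) : Prop :=
  ∀ ν : Fin r → Rˣ, Function.Injective ν → (∀ i, ν i ∈ V) → ∃ D : R, D ≠ 0 ∧ GoodD φ V ν D

section congr

variable {R : Type*} [CommRing R] {r : ℕ}

theorem Lc_congr_diag {D : R} {Y : ℕ → Mat r R} {k : ℕ}
    (h : ∀ l < k, ∀ i j, j < i → D ∣ Y l i j) : ∀ i j, j < i → D ∣ Lc Y k i j := by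
  induction k with
  | zero =>
    intro i j hij
    rw [Lc_zero, Matrix.one_apply_ne hij.ne']
    exact dvd_zero D
  | succ k ih =>
    intro i j hij
    rw [Lc_succ, Matrix.mul_apply]
    refine Finset.dvd_sum fun a _ => ?_
    rcases lt_trichotomy a j with ha | ha | ha
    · rw [loT_Lc Y k a j ha, mul_zero]
      exact dvd_zero D
    · subst ha
      apply Dvd.dvd.mul_right
      rw [lL_apply, if_pos hij.le]
      exact h k (Nat.lt_succ_self k) i a hij
    · exact Dvd.dvd.mul_left (ih (fun l hl => h l (hl.trans (Nat.lt_succ_self k))) a j ha) _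

/-- The product of a matrix which is congruent to a bidiagonal one and a matrix which is congruent
to a diagonal one. -/
theorem bidiag_mul {D : R} {X P : Mat r R} (hX : P002G.Bi D X) (hP : LoT P)
    (hPD : ∀ i j, j < i → D ∣ P i j) :
    (∀ i j : Fin r, (j : ℕ) + 1 < i → D ∣ (lL X * P) i j) ∧
    (∀ i j : Fin r, (i : ℕ) = j + 1 → D ∣ (lL X * P) i j - P j j) := by
  have key : ∀ i j : Fin r, j < i → D ∣ (lL X * P) i j - X i j * P j j := by
    intro i j hij
    rw [Matrix.mul_apply, ← Finset.add_sum_erase _ _ (Finset.mem_univ j), lL_apply,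
      if_pos hij.le, add_sub_cancel_left]
    refine Finset.dvd_sum fun a ha => ?_
    rw [Finset.mem_erase] at ha
    rcases lt_or_gt_of_ne ha.1 with h | h
    · rw [hP a j h, mul_zero]
      exact dvd_zero D
    · exact Dvd.dvd.mul_left (hPD a j h) _
  constructor
  · intro i j hij
    have hij' : j < i := by
      rw [Fin.lt_def]
      omega
    have h1 := hX i j hij'
    rw [if_neg (by omega), sub_zero] at h1
    have h2 := dvd_add (key i j hij') (Dvd.dvd.mul_right h1 (P j j))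
    rwa [sub_add_cancel] at h2
  · intro i j hij
    have hij' : j < i := by
      rw [Fin.lt_def]
      omega
    have h1 := hX i j hij'
    rw [if_pos hij] at h1
    have h2 := dvd_add (key i j hij') (Dvd.dvd.mul_right h1 (P j j))
    have h3 : (lL X * P) i j - X i j * P j j + (X i j - 1) * P j j = (lL X * P) i j - P j j := by
      ring
    rwa [h3] at h2

end congr

theorem unit_aux {G : Type*} [CommGroup G] (a b c : G) : b * (a * (b * c)⁻¹ * c) = a := by
  rw [mul_left_comm, inv_mul_cancel_right]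

section coreOne

variable {R : Type*} [CommRing R]

/-- Partial evaluation: polynomials with values at three blocks of variables. -/
theorem extY_snoc_lt {r m : ℕ} {S : Type*} [CommRing S] (Y : Fin m → Mat r S) (X : Mat r S)
    (k : ℕ) (hk : k < m) : extY (Fin.snoc (α := fun _ => Mat r S) Y X) k = extY Y k := by
  rw [extY_of _ k (by omega), extY_of _ k hk]
  have h1 : (⟨k, by omega⟩ : Fin (m + 1)) = Fin.castSucc ⟨k, hk⟩ := rfl
  rw [h1, Fin.snoc_castSucc]

theorem extY_snoc_last {r m : ℕ} {S : Type*} [CommRing S] (Y : Fin m → Mat r S) (X : Mat r S) :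
    extY (Fin.snoc (α := fun _ => Mat r S) Y X) m = X := by
  rw [extY_of _ m (Nat.lt_succ_self m)]
  have h1 : (⟨m, Nat.lt_succ_self m⟩ : Fin (m + 1)) = Fin.last m := rfl
  rw [h1, Fin.snoc_last]

theorem Lc_snoc {r m : ℕ} {S : Type*} [CommRing S] (Y : Fin m → Mat r S) (X : Mat r S) :
    Lc (extY (Fin.snoc (α := fun _ => Mat r S) Y X)) (m + 1) = lL X * Lc (extY Y) m := by
  rw [Lc_succ, extY_snoc_last]
  congr 1
  exact Lc_congr fun l hl => extY_snoc_lt Y X l hl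

/-- The hypothesis on the integral points. -/
def TestOne (φ : R →+* ℂ) (V : Subgroup Rˣ) {n m : ℕ} (J : Fin m → Mat (n + 1) ℂ)
    (ξ : Fin (n + 1) → Rˣ)
    (F : MvPolynomial ((Fin (m + 1) × Fin (n + 1) × Fin (n + 1)) ⊕ Fin (n + 1)) ℂ) : Prop :=
  ∀ (Y : Fin (m + 1) → Mat (n + 1) R) (y : Fin (n + 1) → R),
    (∀ k i, ∃ w ∈ V, (w : R) = Y k i i) →
    (∀ k : Fin m, CjM (J k) (zZ ((Y k.castSucc).map φ))) →
    (zZ (Y (Fin.last m))).charpoly =
      ∏ i, (Polynomial.X - Polynomial.C ((ξ i : R) * ∏ l, Y l i i)) →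
    (∃ w ∈ V, (w : R) = (P002.kry (zZ (Y (Fin.last m))) (P002G.e0 n R)).det) →
    (∃ w ∈ V, (w : R) = (P002.kry (diagonal (fun i => (ξ i : R)) * Lc (extY Y) (m + 1)) y).det) →
    MvPolynomial.aeval (Sum.elim (fun p => φ (Y p.1 p.2.1 p.2.2)) fun i => φ (y i)) F = (0 : ℂ)

theorem core1_A (φ : R →+* ℂ) (V : Subgroup Rˣ) {n m : ℕ} (hB : FibV φ V n)
    (J : Fin m → Mat (n + 1) ℂ) (ξ : Fin (n + 1) → Rˣ) (hξ : ∀ i, ξ i ∈ V)
    (F : MvPolynomial ((Fin (m + 1) × Fin (n + 1) × Fin (n + 1)) ⊕ Fin (n + 1)) ℂ)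
    (hF : TestOne φ V J ξ F) (ν : Fin (n + 1) → Rˣ) (hνV : ∀ i, ν i ∈ V) (D : R) (hD0 : D ≠ 0)
    (hD : GoodD φ V ν D)
    (Yi : Fin m → Mat (n + 1) R) (hYi : ∀ k i, ∃ w ∈ V, (w : R) = Yi k i i)
    (hYD : ∀ k i j, j < i → D ∣ Yi k i j)
    (hYJ : ∀ k : Fin m, CjM (J k) (zZ ((Yi k).map φ)))
    (X : Mat (n + 1) ℂ) (hX1 : ∀ i, φ (ξ i) * (∏ l, φ (Yi l i i)) * X i i = φ (ν i))
    (hX2 : (zZ X).charpoly = ∏ i, (Polynomial.X - Polynomial.C (φ (ν i))))
    (hX3 : P002G.Cyc (zZ X) (P002G.e0 n ℂ)) (y : Fin (n + 1) → ℂ) :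
    MvPolynomial.aeval (Sum.elim (fun p => (Fin.snoc (α := fun _ => Mat (n + 1) ℂ)
      (fun k => (Yi k).map φ) X : Fin (m + 1) → Mat (n + 1) ℂ) p.1 p.2.1 p.2.2) y) F = (0 : ℂ) := by
  have hw : ∀ i, ∃ w ∈ V, (w : R) = ∏ l, Yi l i i := by
    intro i
    choose w hw1 hw2 using fun l => hYi l i
    refine ⟨∏ l, w l, V.prod_mem fun l _ => hw1 l, ?_⟩
    rw [Units.coe_prod]
    exact Finset.prod_congr rfl fun l _ => hw2 l
  choose w hwV hw using hw
  obtain ⟨χ, hχ⟩ : ∃ χ : Polynomial R, χ = ∏ i, (Polynomial.X - Polynomial.C (ν i : R)) := ⟨_, rfl⟩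
  have hχ1 : χ.Monic := by
    rw [hχ]
    exact Polynomial.monic_prod_of_monic _ _ fun i _ => Polynomial.monic_X_sub_C _
  have hχ2 : χ.natDegree = n + 1 := by
    rcases subsingleton_or_nontrivial R with h | h
    · exact absurd (Subsingleton.elim D 0) hD0
    rw [hχ, Polynomial.natDegree_prod_of_monic _ _ fun i _ => Polynomial.monic_X_sub_C _]
    simp
  have hχ3 : χ.map φ = ∏ i, (Polynomial.X - Polynomial.C (φ (ν i))) := by
    rw [hχ, Polynomial.map_prod]
    exact Finset.prod_congr rfl fun i _ => by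
      rw [Polynomial.map_sub, Polynomial.map_X, Polynomial.map_C]
  -- polynomial in the last matrix, with fixed `y`
  obtain ⟨G, hG⟩ : ∃ G : MvPolynomial (Fin (n + 1) × Fin (n + 1)) ℂ, ∀ Z : Mat (n + 1) ℂ,
      MvPolynomial.eval (fun p => Z p.1 p.2) G =
      MvPolynomial.aeval (Sum.elim (fun p => (Fin.snoc (α := fun _ => Mat (n + 1) ℂ)
        (fun k => (Yi k).map φ) Z : Fin (m + 1) → Mat (n + 1) ℂ) p.1 p.2.1 p.2.2) y) F := by
    obtain ⟨Zg, hZg⟩ : ∃ Zg : Mat (n + 1) (MvPolynomial (Fin (n + 1) × Fin (n + 1)) ℂ),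
      Zg = Matrix.of fun i j => MvPolynomial.X (i, j) := ⟨_, rfl⟩
    refine ⟨MvPolynomial.aeval (Sum.elim (fun p => (Fin.snoc (α := fun _ => Mat (n + 1)
      (MvPolynomial (Fin (n + 1) × Fin (n + 1)) ℂ))
      (fun k => ((Yi k).map φ).map MvPolynomial.C) Zg : Fin (m + 1) → _) p.1 p.2.1 p.2.2)
        fun i => MvPolynomial.C (y i)) F, fun Z => ?_⟩
    rw [← MvPolynomial.coe_aeval_eq_eval]
    change (MvPolynomial.aeval (fun p : Fin (n + 1) × Fin (n + 1) => Z p.1 p.2))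
      ((MvPolynomial.aeval _) F) = _
    rw [← AlgHom.comp_apply, MvPolynomial.comp_aeval]
    congr 2
    funext p
    rcases p with p | i
    · obtain ⟨k, i, j⟩ := p
      refine Fin.lastCases ?_ (fun k => ?_) k
      · simp only [Sum.elim_inl, Fin.snoc_last]
        rw [hZg, Matrix.of_apply, MvPolynomial.aeval_X]
      · simp only [Sum.elim_inl, Fin.snoc_castSucc]
        rw [Matrix.map_apply, Matrix.map_apply]
        simp
    · simp
  -- polynomial in `y`, with fixed integral matrices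
  have hG2 : ∀ X' : Mat (n + 1) R, ∃ G' : MvPolynomial (Fin (n + 1)) ℂ, ∀ z : Fin (n + 1) → ℂ,
      MvPolynomial.eval z G' =
      MvPolynomial.aeval (Sum.elim (fun p => (Fin.snoc (α := fun _ => Mat (n + 1) ℂ)
        (fun k => (Yi k).map φ) (X'.map φ) : Fin (m + 1) → Mat (n + 1) ℂ) p.1 p.2.1 p.2.2) z) F := by
    intro X'
    refine ⟨MvPolynomial.aeval (Sum.elim (fun p => MvPolynomial.C
      ((Fin.snoc (α := fun _ => Mat (n + 1) ℂ)
        (fun k => (Yi k).map φ) (X'.map φ) : Fin (m + 1) → _) p.1 p.2.1 p.2.2))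
        fun i => MvPolynomial.X i) F, fun z => ?_⟩
    rw [← MvPolynomial.coe_aeval_eq_eval]
    change (MvPolynomial.aeval z) ((MvPolynomial.aeval _) F) = _
    rw [← AlgHom.comp_apply, MvPolynomial.comp_aeval]
    congr 2
    funext p
    rcases p with p | i
    · simp
    · simp
  rw [← hG]
  refine hB D hD0 (fun i => ν i * (ξ i * w i)⁻¹) χ hχ1 hχ2 G
    (fun X' hX1' hXB' hX2' hX3' => ?_) X (fun i => ?_) (by rw [hχ3, hX2]) hX3
  · obtain ⟨G', hG'⟩ := hG2 X'
    have h1 := hG (X'.map φ)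
    simp only [Matrix.map_apply] at h1
    rw [h1, ← hG']
    -- the triangular matrix
    have hPD : ∀ i j, j < i → D ∣ Lc (extY Yi) m i j := Lc_congr_diag fun l hl i j hij => by
      rw [extY_of _ l hl]
      exact hYD ⟨l, hl⟩ i j hij
    have hPd : ∀ i, Lc (extY Yi) m i i = w i := by
      intro i
      rw [Lc_diag, hw, ← Fin.prod_univ_eq_prod_range (fun l => extY Yi l i i)]
      exact Finset.prod_congr rfl fun l _ => by rw [extY_of _ _ l.2]
    have hlo : LoT (lL X' * Lc (extY Yi) m) := (loT_lL X').mul (loT_Lc _ m)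
    obtain ⟨hb1, hb2⟩ := bidiag_mul hXB' (loT_Lc (extY Yi) m) hPD
    have hAij : ∀ i j, (diagonal (fun i => (ξ i : R)) * (lL X' * Lc (extY Yi) m)) i j =
        (ξ i : R) * (lL X' * Lc (extY Yi) m) i j := fun i j => Matrix.diagonal_mul _ _ _ _
    refine hD (diagonal (fun i => (ξ i : R)) * (lL X' * Lc (extY Yi) m))
      ((loT_diagonal _).mul hlo) (fun i => ?_) (fun i j hij => ?_) (fun i j hij => ?_) G'
      (fun z hz => ?_) y
    · rw [hAij, (loT_lL X').mul_diag (loT_Lc _ m), lL_diag, hPd, hX1', ← Units.val_mul,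
        ← Units.val_mul, unit_aux]
    · rw [hAij]
      exact Dvd.dvd.mul_left (hb1 i j hij) _
    · refine ⟨ξ i * w j, V.mul_mem (hξ i) (hwV j), ?_⟩
      rw [hAij, Units.val_mul, ← hPd, ← mul_sub]
      exact Dvd.dvd.mul_left (hb2 i j hij) _
    · have h2 := hF (Fin.snoc (α := fun _ => Mat (n + 1) R) Yi X') z (fun k i => by
        refine Fin.lastCases ?_ (fun k => ?_) k
        · rw [Fin.snoc_last]
          exact ⟨ν i * (ξ i * w i)⁻¹, V.mul_mem (hνV i) (V.inv_mem (V.mul_mem (hξ i) (hwV i))),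
            (hX1' i).symm⟩
        · rw [Fin.snoc_castSucc]
          exact hYi k i) (fun k => by
          rw [Fin.snoc_castSucc]
          exact hYJ k) (by
          rw [Fin.snoc_last, hX2', hχ]
          refine Finset.prod_congr rfl fun i _ => ?_
          congr 2
          rw [Fin.prod_univ_castSucc]
          simp only [Fin.snoc_last, Fin.snoc_castSucc]
          rw [hX1', ← hw i, mul_comm ((w i : Rˣ) : R), ← Units.val_mul, ← Units.val_mul,
            unit_aux]) (by rw [Fin.snoc_last]; exact hX3') (by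
          rw [Lc_snoc]
          exact hz)
      rw [hG', ← h2]
      congr 2
      funext p
      rcases p with p | i
      · obtain ⟨k, i, j⟩ := p
        simp only [Sum.elim_inl]
        refine Fin.lastCases ?_ (fun k => ?_) k
        · simp only [Fin.snoc_last]
          rfl
        · simp only [Fin.snoc_castSucc]
          rfl
      · rfl
  · have h3 := hX1 i
    have h4 : (∏ l, φ (Yi l i i)) = φ (w i) := by rw [hw, map_prod]
    rw [h4, ← map_mul, ← Units.val_mul] at h3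
    have h5 : φ ((ξ i * w i)⁻¹ : Rˣ) * φ (ξ i * w i : Rˣ) = 1 := by
      rw [← map_mul, Units.inv_mul, map_one]
    rw [Units.val_mul, map_mul, ← h3, mul_comm (φ (ξ i * w i : Rˣ)), mul_assoc,
      mul_comm (φ (ξ i * w i : Rˣ)), h5, mul_one]

/-- Density of the parameters. -/
theorem core1_dense (φ : R →+* ℂ) (V : Subgroup Rˣ)
    (hVinf : {z : ℂ | ∃ w ∈ V, φ (w : R) = z}.Infinite) {n m : ℕ} (hy : VecV φ V (n + 1))
    (J : Fin m → Mat (n + 1) ℂ) (hT : ∀ k, TotV φ V (J k))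
    (Y : Fin m → Mat (n + 1) ℂ) (hY0 : ∀ k i, Y k i i ≠ 0) (hY1 : ∀ k, CjM (J k) (zZ (Y k)))
    (z : Fin (n + 1) → ℂ)
    (P : MvPolynomial ((Fin m × (Fin (n + 1) × Fin (n + 1))) ⊕ Fin (n + 1)) ℂ)
    (hP : ∀ (Yi : Fin m → Mat (n + 1) R) (ν : Fin (n + 1) → Rˣ) (D : R), D ≠ 0 → GoodD φ V ν D →
      (∀ i, ν i ∈ V) → (∀ k i, ∃ w ∈ V, (w : R) = Yi k i i) →
      (∀ k i j, j < i → D ∣ Yi k i j) → (∀ k, CjM (J k) (zZ ((Yi k).map φ))) →
      MvPolynomial.eval (Sum.elim (fun p => φ (Yi p.1 p.2.1 p.2.2)) fun i => φ (ν i)) P = 0) :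
    MvPolynomial.eval (Sum.elim (fun p => Y p.1 p.2.1 p.2.2) z) P = 0 := by
  -- fixed eigenvalues
  have h1 : ∀ ν : Fin (n + 1) → Rˣ, Function.Injective ν → (∀ i, ν i ∈ V) →
      MvPolynomial.eval (Sum.elim (fun p => Y p.1 p.2.1 p.2.2) fun i => φ (ν i)) P = 0 := by
    intro ν hν hνV
    obtain ⟨D, hD0, hD⟩ := hy ν hν hνV
    obtain ⟨P', hP'⟩ : ∃ P' : MvPolynomial (Fin m × (Fin (n + 1) × Fin (n + 1))) ℂ, ∀ v,
        MvPolynomial.eval v P' = MvPolynomial.eval (Sum.elim v fun i => φ (ν i)) P := by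
      refine ⟨MvPolynomial.aeval (Sum.elim (fun p => MvPolynomial.X p)
        fun i => MvPolynomial.C (φ (ν i))) P, fun v => ?_⟩
      rw [← MvPolynomial.coe_aeval_eq_eval, ← MvPolynomial.coe_aeval_eq_eval]
      change (MvPolynomial.aeval v) ((MvPolynomial.aeval _) P) = (MvPolynomial.aeval _) P
      rw [← AlgHom.comp_apply, MvPolynomial.comp_aeval]
      congr 2
      funext p
      rcases p with p | i
      · simp
      · simp
    rw [← hP']
    exact dense_pi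
      (fun k => {v | ∃ X : Mat (n + 1) R, (∀ i, ∃ w ∈ V, (w : R) = X i i) ∧
        (∀ i j, j < i → D ∣ X i j) ∧ CjM (J k) (zZ (X.map φ)) ∧ v = fun p => φ (X p.1 p.2)})
      (fun k => {v | ∃ X : Mat (n + 1) ℂ, (∀ i, X i i ≠ 0) ∧ CjM (J k) (zZ X) ∧
        v = fun p => X p.1 p.2})
      (fun k F hF v hv => by
        obtain ⟨X, hX1, hX2, rfl⟩ := hv
        exact hT k D hD0 F (fun X' h1 h2 h3 => hF _ ⟨X', h1, h2, h3, rfl⟩) X hX1 hX2) P'
      (fun v hv => by
        choose Yi h1 h2 h3 h4 using hv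
        rw [hP']
        have h5 := hP Yi ν D hD0 hD hνV h1 h2 h3
        rw [← h5]
        congr 2
        funext p
        rcases p with p | i
        · rw [Sum.elim_inl, Sum.elim_inl, h4 p.1]
        · rfl)
      (fun k p => Y k p.1 p.2)
      (fun k => ⟨Y k, hY0 k, hY1 k, rfl⟩)
  -- variation of the eigenvalues
  obtain ⟨Q, hQ⟩ : ∃ Q : MvPolynomial (Fin (n + 1)) ℂ, ∀ v,
      MvPolynomial.eval v Q = MvPolynomial.eval (Sum.elim (fun p => Y p.1 p.2.1 p.2.2) v) P := by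
    refine ⟨MvPolynomial.aeval (Sum.elim (fun p => MvPolynomial.C (Y p.1 p.2.1 p.2.2))
      fun i => MvPolynomial.X i) P, fun v => ?_⟩
    rw [← MvPolynomial.coe_aeval_eq_eval, ← MvPolynomial.coe_aeval_eq_eval]
    change (MvPolynomial.aeval v) ((MvPolynomial.aeval _) P) = (MvPolynomial.aeval _) P
    rw [← AlgHom.comp_apply, MvPolynomial.comp_aeval]
    congr 2
    funext p
    rcases p with p | i
    · simp
    · simp
  obtain ⟨disc, hdisc⟩ : ∃ disc : MvPolynomial (Fin (n + 1)) ℂ, disc =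
    ∏ p ∈ (Finset.univ : Finset (Fin (n + 1))).offDiag,
      (MvPolynomial.X p.1 - MvPolynomial.X p.2) := ⟨_, rfl⟩
  have hdisc0 : disc ≠ 0 := by
    rw [hdisc, Finset.prod_ne_zero_iff]
    intro p hp h
    rw [Finset.mem_offDiag] at hp
    have h2 := congrArg (MvPolynomial.eval fun i : Fin (n + 1) => ((i : ℕ) : ℂ)) h
    rw [map_sub, MvPolynomial.eval_X, MvPolynomial.eval_X, map_zero, sub_eq_zero] at h2
    exact hp.2.2 (Fin.ext (Nat.cast_injective h2))
  have hQ0 : Q * disc = 0 := by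
    refine MvPolynomial.funext_set (fun _ => {z : ℂ | ∃ w ∈ V, φ (w : R) = z}) (fun _ => hVinf)
      fun v hv => ?_
    rw [map_zero, map_mul]
    choose ν hνV hν using fun i => hv i (Set.mem_univ i)
    have hv' : v = fun i => φ (ν i) := funext fun i => (hν i).symm
    by_cases hinj : Function.Injective ν
    · rw [hQ, hv', h1 ν hinj hνV, zero_mul]
    · have h2 : MvPolynomial.eval v disc = 0 := by
        rw [Function.Injective] at hinj
        push Not at hinj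
        obtain ⟨i, j, hij, hne⟩ := hinj
        rw [hdisc, map_prod]
        refine Finset.prod_eq_zero (i := (i, j)) ?_ ?_
        · rw [Finset.mem_offDiag]
          exact ⟨Finset.mem_univ _, Finset.mem_univ _, hne⟩
        · rw [map_sub, MvPolynomial.eval_X, MvPolynomial.eval_X, hv']
          simp only [hij, sub_self]
      rw [h2, mul_zero]
  have hQ1 : Q = 0 := (mul_eq_zero.1 hQ0).resolve_right hdisc0
  rw [← hQ, hQ1, map_zero]

theorem core1 (φ : R →+* ℂ) (V : Subgroup Rˣ)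
    (hVinf : {z : ℂ | ∃ w ∈ V, φ (w : R) = z}.Infinite) {n m : ℕ} (hB : FibV φ V n)
    (hy : VecV φ V (n + 1)) (J : Fin m → Mat (n + 1) ℂ) (hT : ∀ k, TotV φ V (J k))
    (ξ : Fin (n + 1) → Rˣ) (hξ : ∀ i, ξ i ∈ V)
    (hdet : (∏ i, φ (ξ i)) * ∏ k, (J k).det = 1)
    (F : MvPolynomial ((Fin (m + 1) × Fin (n + 1) × Fin (n + 1)) ⊕ Fin (n + 1)) ℂ)
    (hF : TestOne φ V J ξ F)
    (Y : Fin (m + 1) → Mat (n + 1) ℂ) (hY0 : ∀ k i, Y k i i ≠ 0)
    (hY1 : ∀ k : Fin m, CjM (J k) (zZ (Y k.castSucc)))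
    (hY2 : (zZ (Y (Fin.last m))).charpoly =
      ∏ i, (Polynomial.X - Polynomial.C (φ (ξ i) * ∏ l, Y l i i)))
    (hY3 : P002G.Cyc (zZ (Y (Fin.last m))) (P002G.e0 n ℂ)) (y : Fin (n + 1) → ℂ) :
    MvPolynomial.aeval (Sum.elim (fun p => Y p.1 p.2.1 p.2.2) y) F = (0 : ℂ) := by
  obtain ⟨x₀, hx₀⟩ : ∃ x₀ : (Fin m × (Fin (n + 1) × Fin (n + 1))) ⊕ Fin (n + 1) → ℂ,
    x₀ = Sum.elim (fun p => Y p.1.castSucc p.2.1 p.2.2) fun i => φ (ξ i) * ∏ l, Y l i i := ⟨_, rfl⟩
  obtain ⟨YS, hYS⟩ : ∃ YS : Fin m → Mat (n + 1) (ratAt x₀),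
    YS = fun k => Matrix.of fun i j => rX x₀ (Sum.inl (k, (i, j))) := ⟨_, rfl⟩
  have hYSr : ∀ x k i j, rev x₀ x (YS k i j) = x (Sum.inl (k, (i, j))) := by
    intro x k i j
    rw [hYS]
    exact rev_rX x₀ x (Sum.inl (k, (i, j)))
  obtain ⟨den, hden⟩ : ∃ den : Fin (n + 1) → ratAt x₀, den =
    fun i => algebraMap ℂ _ (φ (ξ i)) * ∏ k, YS k i i := ⟨_, rfl⟩
  have hdenr : ∀ x i, rev x₀ x (den i) = φ (ξ i) * ∏ k, x (Sum.inl (k, (i, i))) := by
    intro x i
    rw [hden]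
    simp only
    rw [map_mul, map_prod, AlgHom.commutes]
    simp only [hYSr]
    rfl
  have hξ0 : ∀ i, φ (ξ i) ≠ 0 := fun i => ((ξ i).isUnit.map φ).ne_zero
  have hden0 : ∀ i, rev x₀ x₀ (den i) ≠ 0 := by
    intro i
    rw [hdenr, hx₀]
    exact mul_ne_zero (hξ0 i) (Finset.prod_ne_zero_iff.2 fun k _ => hY0 _ i)
  choose inv hinv using fun i => exists_rinv (den i) (hden0 i)
  obtain ⟨q, hq⟩ : ∃ q : Fin (n + 1) → ratAt x₀, q = fun i => rX x₀ (Sum.inr i) * inv i :=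
    ⟨_, rfl⟩
  have hqr : ∀ x i, rev x₀ x (q i) =
      x (Sum.inr i) * (φ (ξ i) * ∏ k, x (Sum.inl (k, (i, i))))⁻¹ := by
    intro x i
    rw [hq]
    simp only
    rw [map_mul, hinv, hdenr, rev_rX]
  obtain ⟨χ, hχ⟩ : ∃ χ : Polynomial (ratAt x₀), χ =
    ∏ i, (Polynomial.X - Polynomial.C (rX x₀ (Sum.inr i))) := ⟨_, rfl⟩
  have hnt : Nontrivial (ratAt x₀) := ⟨⟨0, 1, fun h => by
    have := congrArg (rev x₀ x₀) h
    rw [map_zero, map_one] at this
    exact zero_ne_one this⟩⟩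
  have hχ1 : χ.Monic := by
    rw [hχ]
    exact Polynomial.monic_prod_of_monic _ _ fun i _ => Polynomial.monic_X_sub_C _
  have hχ2 : χ.natDegree = n + 1 := by
    rw [hχ, Polynomial.natDegree_prod_of_monic _ _ fun i _ => Polynomial.monic_X_sub_C _]
    simp
  have hχr : ∀ x, χ.map ((rev x₀ x : ratAt x₀ →ₐ[ℂ] ℂ) : ratAt x₀ →+* ℂ) =
      ∏ i, (Polynomial.X - Polynomial.C (x (Sum.inr i))) := by
    intro x
    rw [hχ, Polynomial.map_prod]
    refine Finset.prod_congr rfl fun i _ => ?_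
    rw [Polynomial.map_sub, Polynomial.map_X, Polynomial.map_C]
    rfl
  obtain ⟨Yt, κ, hκ0, hYt0, hYt⟩ := exists_family q χ hχ1 hχ2 (Y (Fin.last m))
    (fun i => by
      rw [hqr, hx₀, Sum.elim_inr, Fin.prod_univ_castSucc]
      simp only [Sum.elim_inl]
      have h1 : φ (ξ i) * ∏ k : Fin m, Y k.castSucc i i ≠ 0 :=
        mul_ne_zero (hξ0 i) (Finset.prod_ne_zero_iff.2 fun k _ => hY0 _ i)
      rw [← mul_assoc, mul_comm (φ (ξ i) * ∏ k : Fin m, Y k.castSucc i i), mul_assoc,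
        mul_inv_cancel₀ h1, mul_one])
    (by rw [hχr, hY2, hx₀]; rfl) hY3
  obtain ⟨g, hg⟩ : ∃ g : ratAt x₀, g = MvPolynomial.aeval (Sum.elim (fun p => (Fin.snoc
    (α := fun _ => Mat (n + 1) (ratAt x₀)) YS Yt : Fin (m + 1) → _) p.1 p.2.1 p.2.2)
      fun i => algebraMap ℂ _ (y i)) F := ⟨_, rfl⟩
  have hgr : ∀ x, rev x₀ x g = MvPolynomial.aeval (Sum.elim (fun p => (Fin.snoc
      (α := fun _ => Mat (n + 1) ℂ) (fun k => (YS k).map (rev x₀ x)) (Yt.map (rev x₀ x)) :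
        Fin (m + 1) → Mat (n + 1) ℂ) p.1 p.2.1 p.2.2) y) F := by
    intro x
    rw [hg, ← AlgHom.comp_apply, MvPolynomial.comp_aeval]
    congr 2
    funext p
    rcases p with p | i
    · obtain ⟨k, i, j⟩ := p
      simp only [Sum.elim_inl]
      refine Fin.lastCases ?_ (fun k => ?_) k
      · simp only [Fin.snoc_last]
        rfl
      · simp only [Fin.snoc_castSucc]
        rfl
    · simp only [Sum.elim_inr]
      exact AlgHom.commutes _ _
  have hdense : ∀ P : MvPolynomial ((Fin m × (Fin (n + 1) × Fin (n + 1))) ⊕ Fin (n + 1)) ℂ,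
      (∀ x ∈ {x | ∃ (Yi : Fin m → Mat (n + 1) R) (ν : Fin (n + 1) → Rˣ) (D : R), D ≠ 0 ∧
        GoodD φ V ν D ∧ (∀ i, ν i ∈ V) ∧ (∀ k i, ∃ w ∈ V, (w : R) = Yi k i i) ∧
        (∀ k i j, j < i → D ∣ Yi k i j) ∧ (∀ k, CjM (J k) (zZ ((Yi k).map φ))) ∧
        x = Sum.elim (fun p => φ (Yi p.1 p.2.1 p.2.2)) fun i => φ (ν i)},
        MvPolynomial.eval x P = 0) → MvPolynomial.eval x₀ P = 0 := by
    intro P hP
    rw [hx₀]
    exact core1_dense φ V hVinf hy J hT (fun k => Y k.castSucc) (fun k i => hY0 _ i) hY1 _ P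
      fun Yi ν D h1 h2 h3 h4 h5 h6 => hP _ ⟨Yi, ν, D, h1, h2, h3, h4, h5, h6, rfl⟩
  have hfin := ratAt_dense' _ hdense g κ hκ0 (fun x hx hκ => by
    obtain ⟨Yi, ν, D, h1, h2, h3, h4, h5, h6, hx⟩ := hx
    rw [hgr]
    have h7 : (fun k => (YS k).map (rev x₀ x)) = fun k => (Yi k).map φ := by
      funext k
      ext i j
      rw [Matrix.map_apply, Matrix.map_apply, hYSr, hx]
      rfl
    rw [h7]
    have h8 : ∀ i, rev x₀ x (q i) = φ (ν i) * (φ (ξ i) * ∏ k, φ (Yi k i i))⁻¹ := by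
      intro i
      rw [hqr, hx]
      rfl
    have h9 : ∀ i, φ (ξ i) * ∏ k, φ (Yi k i i) ≠ 0 := by
      intro i
      refine mul_ne_zero (hξ0 i) (Finset.prod_ne_zero_iff.2 fun k _ => ?_)
      obtain ⟨w, -, hw⟩ := h4 k i
      rw [← hw]
      exact (w.isUnit.map φ).ne_zero
    have h10 : ∏ i, rev x₀ x (q i) = ∏ i, φ (ν i) := by
      simp only [h8]
      rw [Finset.prod_mul_distrib, Finset.prod_inv_distrib, Finset.prod_mul_distrib,
        Finset.prod_comm]
      have h11 : ∏ k, ∏ i, φ (Yi k i i) = ∏ k, (J k).det := by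
        refine Finset.prod_congr rfl fun k _ => ?_
        rw [← (h6 k).det, det_zZ]
        rfl
      rw [h11, hdet, inv_one, mul_one]
    have hχx : χ.map ((rev x₀ x : ratAt x₀ →ₐ[ℂ] ℂ) : ratAt x₀ →+* ℂ) =
        ∏ i, (Polynomial.X - Polynomial.C (φ (ν i))) := by
      rw [hχr, hx]
      rfl
    obtain ⟨h12, h13, h14⟩ := hYt x hκ (by
      rw [hχx, h10, Polynomial.coeff_zero_eq_eval_zero, Polynomial.eval_prod]
      simp only [Polynomial.eval_sub, Polynomial.eval_X, Polynomial.eval_C, zero_sub]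
      rw [Finset.prod_neg]
      simp)
    refine core1_A φ V hB J ξ hξ F hF ν h3 D h1 h2 Yi h4 h5 h6 (Yt.map (rev x₀ x))
      (fun i => ?_) (by rw [h13, hχx]) h14 y
    rw [Matrix.map_apply, h12, h8, mul_comm, mul_assoc, inv_mul_cancel₀ (h9 i), mul_one])
  rw [hgr] at hfin
  rw [← hfin]
  congr 2
  funext p
  rcases p with p | i
  · obtain ⟨k, i, j⟩ := p
    simp only [Sum.elim_inl]
    refine Fin.lastCases ?_ (fun k => ?_) k
    · simp only [Fin.snoc_last]
      exact (hYt0 i j).symm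
    · simp only [Fin.snoc_castSucc]
      rw [Matrix.map_apply, hYSr, hx₀]
      rfl
  · rfl

end coreOne

end Vale.Agent.P002R
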