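import Vale.Agent.P002R.Dual8

/-!
# P002: duality, rational charts with integral points
-/

namespace Vale.Agent.P002R

open Matrix

variable {n e : ℕ}

theorem DIn.Y_diag' {S : Type*} [CommRing S] {I : DIn n S} (h : ∀ k i, I.v k i * I.vi k i = 1)
    (k : ℕ) (i : Fin n) : I.Y (k + 1) i i = I.p k i := by
  rw [DIn.Y_succ, dX_diag, vecMulVec_apply, DIn.y, one_mul]
  have h1 := h k i
  calc 1 + I.v k i * ((I.p k i - 1) * I.vi k i) = 1 + (I.p k i - 1) * (I.v k i * I.vi k i) := by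
        ring
    _ = _ := by rw [h1]; ring

theorem exists_left_inv {a b : ℕ} (M : Matrix (Fin a) (Fin b) ℂ) (h : ∀ v, M *ᵥ v = 0 → v = 0) :
    ∃ L : Matrix (Fin b) (Fin a) ℂ, L * M = 1 := by
  obtain ⟨g, hg⟩ := M.mulVecLin.exists_leftInverse_of_injective (by
    rw [LinearMap.ker_eq_bot']
    intro v hv
    exact h v hv)
  refine ⟨LinearMap.toMatrix' g, ?_⟩
  have h1 : LinearMap.toMatrix' g * M = LinearMap.toMatrix' (g.comp M.mulVecLin) := by
    rw [LinearMap.toMatrix'_comp]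
    congr 1
    exact (LinearMap.toMatrix'_toLin' M).symm
  rw [h1, hg, LinearMap.toMatrix'_id]

section units

variable {R : Type*} [CommRing R] (φ : R →+* ℂ)

/-- The homomorphism on units. -/
def uHom : Rˣ →* ℂ := (φ : R →* ℂ).comp (Units.coeHom R)

theorem uHom_apply (u : Rˣ) : uHom φ u = φ u := rfl

theorem uHom_inv (u : Rˣ) : uHom φ u⁻¹ = (uHom φ u)⁻¹ := by
  have h1 : uHom φ u⁻¹ * uHom φ u = 1 := by
    rw [← map_mul, inv_mul_cancel, map_one]
  exact eq_inv_of_mul_eq_one_left h1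

theorem dense_units (hinf : (Set.range fun u : Rˣ => φ u).Infinite) {τ : Type*} (t₀ : τ → ℂ)
    (P : MvPolynomial τ ℂ) (hP : ∀ u : τ → Rˣ, MvPolynomial.eval (fun i => φ (u i)) P = 0) :
    MvPolynomial.eval t₀ P = 0 := by
  have h1 : P = 0 := by
    refine MvPolynomial.funext_set (fun _ => Set.range fun u : Rˣ => φ u) (fun _ => hinf)
      fun x hx => ?_
    have h2 : ∀ i, ∃ u : Rˣ, φ u = x i := fun i => hx i (Set.mem_univ i)
    choose u hu using h2
    rw [map_zero, ← hP u]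
    congr 2
    funext i
    exact (hu i).symm
  rw [h1, map_zero]

end units

theorem dualD_oneX {R : Type*} [CommRing R] (φ : R →+* ℂ) (hinj : Function.Injective φ)
    (hn : 0 < n) (he : 0 < e) (hinf : (Set.range fun u : Rˣ => φ u).Infinite)
    (J : Mat (n + e) ℂ) (ζ : Rˣ) (W0 : Mat n ℂ) (Y0 : Matrix (Fin e) (Fin n) ℂ)
    (h : DualCls (φ ζ) J W0 Y0) (hT : TotD φ W0) (x : Matrix (Fin n) (Fin e) ℂ)
    (Υ : Matrix (Fin (n + e)) (Fin n) ℂ) (hΥ : ∀ v, Υ *ᵥ v = 0 → v = 0)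
    (hκ : ∀ i, 1 + Υ i ⬝ᵥ (fun a => oneX x a i) ≠ 0)
    (hcell : ∀ l : Fin e, ∃ X : Mat n ℂ, (∀ i, X i i ≠ 0) ∧
      zZ X = ((List.ofFn (dR (oneX x) Υ)).take (n + l + 1)).prod ∧
      ∀ i, (lL X *ᵥ fun a => x a l) i ≠ 0)
    (hW : P002G.Cj W0 (1 + oneX x * (dU (Υ * oneX x) * Υ))) :
    DualD φ J (dX (φ ζ) (Υ * oneX x)) := by
  obtain ⟨I₀, hz, hOk, hXi, hUp, hW0, hv0, hp0, hv1, hp1, hka1, hvi, hdv⟩ :=
    exists_params (φ ζ) x Υ hκ hcell
  have hζ : φ ζ ≠ 0 := h.zeta
  obtain ⟨i₀, -⟩ : ∃ i₀ : Fin n, i₀ = ⟨0, hn⟩ := ⟨_, rfl⟩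
  obtain ⟨X₀, hX₀⟩ : ∃ X₀, X₀ = dX (φ ζ) (Υ * oneX x) := ⟨_, rfl⟩
  rw [← hX₀]
  have hX₀' : X₀ = I₀.out e := by rw [hX₀, DIn.out, hz, hXi, hUp]
  have hWt : 1 + oneX x * (dU (Υ * oneX x) * Υ) = zZ I₀.W := by
    rw [← hXi, ← hUp]
    exact DIn.total_prod hOk e
  obtain ⟨t₀, ht₀⟩ : ∃ t₀ : DTau n → ℂ, t₀ = Sum.elim (fun p => I₀.W p.1 p.2)
    (Sum.elim (fun p => I₀.v p.1 p.2) fun p => I₀.p p.1 p.2) := ⟨_, rfl⟩
  -- nonvanishing
  have hkane : ∀ k, I₀.ka k ≠ 0 := fun k => left_ne_zero_of_mul (by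
    rw [hOk.ka k]; exact one_ne_zero)
  have hleft : ∀ i, X₀ (Fin.castAdd e i) (Fin.castAdd e i) =
      φ ζ * (I₀.W i i * ∏ k ∈ Finset.range e, I₀.p k i) := fun i => by
    rw [hX₀', DIn.out_left hOk, hz]
  have hright : ∀ j : Fin e, X₀ (Fin.natAdd n j) (Fin.natAdd n j) = φ ζ * I₀.ka (e - 1 - j) :=
    fun j => by rw [hX₀', DIn.out_right hOk, hz]
  have hX₀ne : ∀ i, X₀ i i ≠ 0 := by
    intro i
    refine Fin.addCases (fun i => ?_) (fun j => ?_) i
    · rw [hleft]
      refine mul_ne_zero hζ (mul_ne_zero (hW0 i) ?_)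
      rw [Finset.prod_ne_zero_iff]
      exact fun k _ => hp0 k i
    · rw [hright]
      exact mul_ne_zero hζ (hkane _)
  -- the point
  have hka₀ : ∀ k, kaG e (φ ζ) (fun i => X₀ i i) k = I₀.ka k := by
    intro k
    rw [kaG]
    split_ifs with hk
    · rw [qeG, dif_pos (by omega), hright ⟨e - 1 - k, by omega⟩]
      simp only
      rw [← mul_assoc, inv_mul_cancel₀ hζ, one_mul]
      congr 1
      omega
    · exact (hka1 k (not_lt.1 hk)).symm
  have hp₀ : ∀ k i, pG0 e (φ ζ) (fun i => X₀ i i) i₀ I₀.p k i = I₀.p k i := by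
    intro k i
    rw [pG0]
    split_ifs with hi
    · rw [hka₀, hi]
      have h1 := hOk.ka k
      rw [← Finset.mul_prod_erase _ _ (Finset.mem_univ i₀)] at h1
      rw [Finset.prod_inv_distrib]
      have h2 := hkane k
      have h3 : ∏ j ∈ Finset.univ.erase i₀, I₀.p k j ≠ 0 := by
        rw [Finset.prod_ne_zero_iff]
        exact fun j _ => hp0 k j
      field_simp
      rw [← h1]
      ring
    · rfl
  have hpG : ∀ k i, pG e (φ ζ) (fun i => X₀ i i) i₀ (fun i => I₀.W i i) I₀.p k i = I₀.p k i := by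
    intro k i
    rw [pG]
    split_ifs with hk hk'
    · exact hp₀ k i
    · simp only [hp₀]
      subst hk'
      rw [hleft, Finset.prod_range_succ, Nat.add_sub_cancel, Finset.prod_inv_distrib]
      have h1 := hW0 i
      have h3 : ∏ l ∈ Finset.range k, I₀.p l i ≠ 0 := by
        rw [Finset.prod_ne_zero_iff]
        exact fun j _ => hp0 j i
      field_simp
    · rw [hp1 k (by omega)]
      rfl
  have hDPt : ∀ dv : ℕ → ℂ, DPt e (φ ζ) i₀ (Sum.elim t₀ fun i => X₀ i i) dv =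
      ⟨I₀.z, I₀.W, I₀.v, I₀.vi, I₀.p, dv, I₀.ka⟩ := by
    intro dv
    refine DIn.ext' ?_ ?_ ?_ ?_ ?_ rfl ?_
    · exact hz.symm
    · ext i j
      rw [DPt, ht₀]
      rfl
    · funext k i
      rw [DPt, ht₀]
      simp only [Sum.elim_inl, Sum.elim_inr]
      split_ifs with hk
      · rfl
      · rw [hv1 k (not_lt.1 hk)]; rfl
    · funext k i
      rw [DPt, ht₀]
      simp only [Sum.elim_inl, Sum.elim_inr]
      rw [hvi]
      split_ifs with hk
      · rfl
      · rw [hv1 k (not_lt.1 hk)]; rfl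
    · funext k i
      rw [DPt, ht₀]
      simp only [Sum.elim_inl, Sum.elim_inr]
      exact hpG k i
    · funext k
      rw [DPt]
      simp only [Sum.elim_inr]
      exact hka₀ k
  have hYc : ∀ dv : ℕ → ℂ, (⟨I₀.z, I₀.W, I₀.v, I₀.vi, I₀.p, dv, I₀.ka⟩ : DIn n ℂ).Y = I₀.Y :=
    fun dv => DIn.Y_congr rfl rfl rfl rfl
  obtain ⟨IS, hIS⟩ := exists_family_dual e (φ ζ) hζ i₀ (Sum.elim t₀ fun i => X₀ i i)
    (fun i => by rw [ht₀]; exact hW0 i) (fun k i => by rw [ht₀]; exact hv0 k i)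
    (fun k i => by rw [ht₀]; exact hp0 k i) (fun i => hX₀ne i) (fun k => by
      rw [hDPt, hYc]
      exact right_ne_zero_of_mul (by rw [hOk.dv k]; exact one_ne_zero))
  have hIS₀ : IS.map (rev (Sum.elim t₀ fun i => X₀ i i) (Sum.elim t₀ fun i => X₀ i i)).toRingHom =
      I₀ := by
    rw [hIS]
    simp only [hDPt, hYc]
    refine DIn.ext' rfl rfl rfl rfl rfl ?_ rfl
    funext k
    exact (hdv k).symm
  obtain ⟨Λ, hΛ⟩ := exists_left_inv Υ hΥ
  have hout : ∀ x' i j, rev (Sum.elim t₀ fun i => X₀ i i) x' (IS.out e i j) =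
      ((IS.map (rev (Sum.elim t₀ fun i => X₀ i i) x').toRingHom).out e) i j := by
    intro x' i j
    rw [DIn.out_map]
    rfl
  obtain ⟨κ, hκd⟩ : ∃ κ, κ = (Λ.map (algebraMap ℂ (ratAt (Sum.elim t₀ fun i => X₀ i i))) *
    IS.Up e).det := ⟨_, rfl⟩
  have hκr : ∀ x', rev (Sum.elim t₀ fun i => X₀ i i) x' κ =
      (Λ * (IS.map (rev (Sum.elim t₀ fun i => X₀ i i) x').toRingHom).Up e).det := by
    intro x'
    rw [hκd, DIn.Up_map]
    have h1 := RingHom.map_det (rev (Sum.elim t₀ fun i => X₀ i i) x').toRingHom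
      (Λ.map (algebraMap ℂ (ratAt (Sum.elim t₀ fun i => X₀ i i))) * IS.Up e)
    refine h1.trans ?_
    congr 1
    rw [RingHom.mapMatrix_apply, Matrix.map_mul]
    congr 1
  refine ⟨DTau n, t₀, {t | ∃ (WR : Mat n R) (vR bR : ℕ → Fin n → Rˣ), (∀ i, IsUnit (WR i i)) ∧
    CjM W0 (zZ (WR.map φ)) ∧ t = Sum.elim (fun p => φ (WR p.1 p.2))
      (Sum.elim (fun p => φ (vR p.1 p.2)) fun p => φ (bR p.1 p.2))}, ?_, IS.out e, κ, ?_, ?_, ?_⟩
  · -- density
    intro P hP
    rw [ht₀]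
    refine dense_sum {w | ∃ WR : Mat n R, (∀ i, IsUnit (WR i i)) ∧ CjM W0 (zZ (WR.map φ)) ∧
      w = fun p => φ (WR p.1 p.2)} {s | ∃ vR bR : ℕ → Fin n → Rˣ, s = Sum.elim
      (fun p => φ (vR p.1 p.2)) fun p => φ (bR p.1 p.2)} ?_ ?_ P ?_
    · intro F hF
      refine hT F (fun X h1 h2 => hF _ ⟨X, h1, h2, rfl⟩) I₀.W hW0 ?_
      rw [← hWt]
      exact P002G.cjC_of_cj hW
    · intro F hF
      refine dense_sum {w | ∃ vR : ℕ → Fin n → Rˣ, w = fun p => φ (vR p.1 p.2)}
        {w | ∃ vR : ℕ → Fin n → Rˣ, w = fun p => φ (vR p.1 p.2)} ?_ ?_ F ?_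
      · exact fun F hF => dense_units φ hinf _ F fun u => hF _ ⟨fun k i => u (k, i), rfl⟩
      · exact fun F hF => dense_units φ hinf _ F fun u => hF _ ⟨fun k i => u (k, i), rfl⟩
      · rintro _ ⟨vR, rfl⟩ _ ⟨bR, rfl⟩
        exact hF _ ⟨vR, bR, rfl⟩
    · rintro _ ⟨WR, h1, h2, rfl⟩ _ ⟨vR, bR, rfl⟩
      exact hP _ ⟨WR, vR, bR, h1, h2, rfl⟩
  · rw [hκr, hIS₀, hUp, hΛ, Matrix.det_one]
    exact one_ne_zero
  · intro i j
    rw [hout, hIS₀, ← hX₀']
  · rintro _ ⟨WR, vR, bR, hWR, hWRc, rfl⟩ q hq hκne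
    choose WdU hWdU using hWR
    obtain ⟨IR0, hIR0⟩ : ∃ IR0 : DIn n R, IR0 = ⟨ζ, WR,
      fun k i => ((if k < e then vR k i else 1 : Rˣ) : R),
      fun k i => (((if k < e then vR k i else 1 : Rˣ)⁻¹ : Rˣ) : R),
      fun k i => (pG e ζ q i₀ WdU bR k i : Rˣ), fun _ => 0, fun k => (kaG e ζ q k : Rˣ)⟩ :=
      ⟨_, rfl⟩
    have hdetU : ∀ k, IsUnit (Lc IR0.Y (k + 1)).det := by
      intro k
      rw [det_Lc, IsUnit.prod_univ_iff]
      intro i
      rw [IsUnit.prod_iff]
      intro l _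
      cases l with
      | zero => rw [DIn.Y_zero, hIR0]; simp only; rw [← hWdU]; exact (WdU i).isUnit
      | succ l =>
        rw [DIn.Y_diag' (I := IR0) (fun k i => by rw [hIR0]; exact Units.mul_inv _), hIR0]
        exact Units.isUnit _
    choose dU' hdU' using hdetU
    obtain ⟨IR, hIR⟩ : ∃ IR : DIn n R, IR = ⟨IR0.z, IR0.W, IR0.v, IR0.vi, IR0.p,
      fun k => ((dU' k)⁻¹ : Rˣ), IR0.ka⟩ := ⟨_, rfl⟩
    have hYR : IR.Y = IR0.Y := by
      rw [hIR]
      exact DIn.Y_congr rfl rfl rfl rfl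
    have hqR : ∏ i, q i = ζ ^ (n + e) * ∏ i, WdU i := by
      apply Units.ext
      apply hinj
      rw [Units.coe_prod, map_prod, hq, h.det_J, Units.val_mul, Units.val_pow_eq_pow_val,
        map_mul, map_pow, Units.coe_prod, map_prod]
      congr 1
      have h1 := hWRc.det
      rw [det_zZ] at h1
      rw [← h1]
      exact Finset.prod_congr rfl fun i _ => by rw [hWdU]; rfl
    have hOkR : IR.Ok := by
      refine ⟨fun k i => ?_, fun k => ?_, fun k => ?_⟩
      · rw [hIR, hIR0]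
        exact Units.mul_inv _
      · rw [hYR, ← hdU' k, hIR]
        exact Units.inv_mul _
      · have h1 := kaG_mul_prod e ζ q i₀ WdU bR hqR k
        have h2 := congrArg (fun u : Rˣ => (u : R)) h1
        simp only [Units.val_mul, Units.coe_prod, Units.val_one] at h2
        rw [hIR, hIR0]
        exact h2
    have hmap : IR.map φ = IS.map (rev (Sum.elim t₀ fun i => X₀ i i) (Sum.elim (Sum.elim
        (fun p : Fin n × Fin n => φ (WR p.1 p.2)) (Sum.elim (fun p : ℕ × Fin n => φ (vR p.1 p.2))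
          fun p : ℕ × Fin n => φ (bR p.1 p.2)))
        fun i => φ (q i))).toRingHom := by
      rw [hIS]
      have hf : ∀ dv dv' : ℕ → ℂ, dv = dv' → DIn.mk (φ ζ) (WR.map φ)
          (fun k i => φ ((if k < e then vR k i else 1 : Rˣ) : R))
          (fun k i => φ (((if k < e then vR k i else 1 : Rˣ)⁻¹ : Rˣ) : R))
          (fun k i => φ (pG e ζ q i₀ WdU bR k i : Rˣ)) dv (fun k => φ (kaG e ζ q k : Rˣ)) =
          DPt e (φ ζ) i₀ (Sum.elim (Sum.elim
        (fun p : Fin n × Fin n => φ (WR p.1 p.2)) (Sum.elim (fun p : ℕ × Fin n => φ (vR p.1 p.2))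
          fun p : ℕ × Fin n => φ (bR p.1 p.2))) fun i => φ (q i)) dv' := by
        rintro dv _ rfl
        refine DIn.ext' rfl ?_ ?_ ?_ ?_ rfl ?_
        · ext i j
          rfl
        · funext k i
          rw [DPt]
          simp only [Sum.elim_inl, Sum.elim_inr]
          split_ifs
          · rfl
          · rw [Units.val_one, map_one]
        · funext k i
          rw [DPt]
          simp only [Sum.elim_inl, Sum.elim_inr]
          rw [← uHom_apply, uHom_inv, uHom_apply]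
          congr 1
          split_ifs
          · rfl
          · rw [Units.val_one, map_one]
        · funext k i
          rw [DPt]
          simp only [Sum.elim_inl, Sum.elim_inr]
          rw [← uHom_apply, pG_map (uHom φ) (uHom_inv φ)]
          simp only [uHom_apply, hWdU]
        · funext k
          rw [DPt]
          simp only [Sum.elim_inr]
          rw [← uHom_apply, kaG_map (uHom φ) (uHom_inv φ)]
          rfl
      have h1 := hf (fun k => φ ((dU' k)⁻¹ : Rˣ)) (fun k => ((Lc (DPt e (φ ζ) i₀ (Sum.elim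
        (Sum.elim (fun p : Fin n × Fin n => φ (WR p.1 p.2)) (Sum.elim
        (fun p : ℕ × Fin n => φ (vR p.1 p.2)) fun p : ℕ × Fin n => φ (bR p.1 p.2)))
          fun i => φ (q i)) 0).Y (k + 1)).det)⁻¹) (by
        funext k
        have h2 : DPt e (φ ζ) i₀ (Sum.elim (Sum.elim
            (fun p : Fin n × Fin n => φ (WR p.1 p.2)) (Sum.elim
            (fun p : ℕ × Fin n => φ (vR p.1 p.2)) fun p : ℕ × Fin n => φ (bR p.1 p.2)))
            fun i => φ (q i)) 0 = IR0.map φ := by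
          rw [← hf (fun _ => 0) 0 rfl, hIR0]
          refine DIn.ext' rfl rfl rfl rfl rfl ?_ rfl
          funext k
          exact (map_zero φ).symm
        rw [h2, DIn.Lc_map']
        have h3 : ((Lc IR0.Y (k + 1)).map φ).det = φ (dU' k) := by
          rw [hdU']
          exact (RingHom.map_det φ _).symm
        rw [h3, ← uHom_apply, ← uHom_apply, uHom_inv])
      rw [← h1, hIR, hIR0]
      rfl
    refine ⟨IR.out e, fun i => ?_, ?_, fun i j => ?_⟩
    · refine Fin.addCases (fun i => ?_) (fun j => ?_) i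
      · rw [DIn.out_left hOkR]
        have h1 := prod_pG_left e he ζ q i₀ WdU bR i
        have h2 := congrArg (fun u : Rˣ => (u : R)) h1
        simp only [Units.val_mul, Units.coe_prod] at h2
        rw [hIR, hIR0]
        simp only
        rw [← hWdU]
        exact h2
      · rw [DIn.out_right hOkR]
        have h1 : ζ * kaG e ζ q (e - 1 - j) = q (Fin.natAdd n j) := by
          have hj := j.2
          rw [kaG, if_pos (by omega), qeG, dif_pos (by omega), mul_inv_cancel_left]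
          congr 2
          ext
          simp only
          omega
        have h2 := congrArg (fun u : Rˣ => (u : R)) h1
        simp only [Units.val_mul] at h2
        rw [hIR, hIR0]
        exact h2
    · rw [← DIn.out_map]
      have h1 : (IR.map φ).out e = dX (φ ζ) ((IR.map φ).Up e * oneX (Matrix.of fun i (j : Fin e) =>
          (IR.map φ).xi (e - 1 - j) i)) := by
        rw [DIn.out, hIR, hIR0]
        rfl
      have h2 := DIn.total_prod (DIn.ok_map φ hOkR) e
      rw [h1]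
      refine h.cj_oneX _ _ (fun v hv => ?_) ?_
      · rw [hκr, ← hmap] at hκne
        have h3 : (Λ * (IR.map φ).Up e) *ᵥ v = 0 := by
          rw [← Matrix.mulVec_mulVec, hv, Matrix.mulVec_zero]
        have h4 := Matrix.eq_zero_of_mulVec_eq_zero hκne h3
        exact h4
      · rw [DIn.Xi] at h2
        rw [h2]
        have h3 : (IR.map φ).W = WR.map φ := by rw [hIR, hIR0]; rfl
        rw [h3]
        exact P002G.cj_of_cjC hWRc
    · rw [hout, ← hmap, DIn.out_map]
      rfl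

end Vale.Agent.P002R
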