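import Vale.Agent.P002R.ZTuple

/-!
# P002: duality for elements of the cell
-/

namespace Vale.Agent.P002R

open Matrix

variable {r n : ℕ} {S T : Type*} [CommRing S] [CommRing T]

/-- The strict upper part. -/
def upS (A : Mat r S) : Mat r S := Matrix.of fun i j => if i < j then A i j else 0

theorem upS_apply (A : Mat r S) (i j : Fin r) : upS A i j = if i < j then A i j else 0 := rfl

theorem upS_add_lL (A : Mat r S) : upS A + lL A = A := by
  ext i j
  rw [Matrix.add_apply, upS_apply, lL_apply]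
  by_cases h : i < j
  · rw [if_pos h, if_neg (not_le.2 h), add_zero]
  · rw [if_neg h, if_pos (not_lt.1 h), zero_add]

theorem upT_one_sub_upS (A : Mat r S) : UpT (1 - upS A) := by
  intro i j h
  rw [Matrix.sub_apply, Matrix.one_apply_ne h.ne', upS_apply, if_neg h.not_gt, sub_zero]

theorem one_sub_upS_diag (A : Mat r S) (i : Fin r) : (1 - upS A) i i = 1 := by
  rw [Matrix.sub_apply, Matrix.one_apply_eq, upS_apply, if_neg (lt_irrefl i), sub_zero]

theorem det_one_sub_upS (A : Mat r S) : (1 - upS A).det = 1 := by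
  rw [(upT_one_sub_upS A).det]
  exact Finset.prod_eq_one fun i _ => one_sub_upS_diag A i

/-- The inverse of `1 - upS A`. -/
def dU (A : Mat r S) : Mat r S := (1 - upS A).adjugate

theorem dU_mul (A : Mat r S) : dU A * (1 - upS A) = 1 := by
  rw [dU, Matrix.adjugate_mul, det_one_sub_upS, one_smul]

theorem mul_dU (A : Mat r S) : (1 - upS A) * dU A = 1 := by
  rw [dU, Matrix.mul_adjugate, det_one_sub_upS, one_smul]

theorem inv_upT {A B : Mat r S} (hA : UpT A) (hA1 : ∀ i, A i i = 1) (h : B * A = 1) :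
    UpT B ∧ ∀ i, B i i = 1 := by
  have hdet : A.det = 1 := by
    rw [hA.det]
    exact Finset.prod_eq_one fun i _ => hA1 i
  have hB : B = A⁻¹ := (Matrix.inv_eq_left_inv h).symm
  have hinv : Invertible A := Matrix.invertibleOfIsUnitDet A (by rw [hdet]; exact isUnit_one)
  have h1 : UpT B := by
    rw [hB]
    intro i j hij
    exact Matrix.blockTriangular_inv_of_blockTriangular (M := A) (b := id)
      (fun i j h => hA i j h) hij
  refine ⟨h1, fun i => ?_⟩
  have h2 := h1.mul_diag hA i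
  rw [h, Matrix.one_apply_eq, hA1, mul_one] at h2
  exact h2.symm

theorem upT_dU (A : Mat r S) : UpT (dU A) :=
  (inv_upT (upT_one_sub_upS A) (one_sub_upS_diag A) (dU_mul A)).1

theorem dU_diag (A : Mat r S) (i : Fin r) : dU A i i = 1 :=
  (inv_upT (upT_one_sub_upS A) (one_sub_upS_diag A) (dU_mul A)).2 i

/-- The cell coordinates of `ζ (1 + dU A * A)`. -/
def dX (ζ : S) (A : Mat r S) : Mat r S := Matrix.of fun i j =>
  if i < j then dU A i j else ζ * ((1 : Mat r S) i j + A i j)

theorem dX_apply (ζ : S) (A : Mat r S) (i j : Fin r) :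
    dX ζ A i j = if i < j then dU A i j else ζ * ((1 : Mat r S) i j + A i j) := rfl

theorem dX_diag (ζ : S) (A : Mat r S) (i : Fin r) : dX ζ A i i = ζ * (1 + A i i) := by
  rw [dX_apply, if_neg (lt_irrefl i), Matrix.one_apply_eq]

theorem uU_dX (ζ : S) (A : Mat r S) : uU (dX ζ A) = dU A := by
  ext i j
  rw [uU_apply, dX_apply]
  split_ifs with h1 h2
  · rw [← h1, dU_diag]
  · rfl
  · exact (upT_dU A i j (lt_of_le_of_ne (not_lt.1 h2) (Ne.symm h1))).symm

theorem lL_dX (ζ : S) (A : Mat r S) : lL (dX ζ A) = ζ • (1 + lL A) := by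
  ext i j
  rw [lL_apply, dX_apply, Matrix.smul_apply, Matrix.add_apply, lL_apply, smul_eq_mul]
  by_cases h : i < j
  · rw [if_neg (not_le.2 h), if_neg (not_le.2 h), Matrix.one_apply_ne h.ne, add_zero, mul_zero]
  · rw [if_pos (not_lt.1 h), if_neg h, if_pos (not_lt.1 h)]

theorem zZ_dX (ζ : S) (A : Mat r S) : zZ (dX ζ A) = ζ • (1 + dU A * A) := by
  rw [zZ, uU_dX, lL_dX, Matrix.mul_smul]
  congr 1
  have h1 : 1 + lL A = (1 - upS A) + A := by
    have h2 := upS_add_lL A
    calc 1 + lL A = (1 - upS A) + (upS A + lL A) := by abel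
      _ = _ := by rw [h2]
  rw [h1, Matrix.mul_add, dU_mul]

theorem upS_map (φ : S →+* T) (A : Mat r S) : (upS A).map φ = upS (A.map φ) := by
  ext i j
  rw [Matrix.map_apply, upS_apply, upS_apply, Matrix.map_apply]
  split_ifs
  · rfl
  · exact map_zero φ

theorem one_sub_map (φ : S →+* T) (A : Mat r S) : (1 - A).map φ = 1 - A.map φ := by
  rw [Matrix.map_sub φ (map_sub φ), Matrix.map_one φ (map_zero φ) (map_one φ)]

theorem dU_map (φ : S →+* T) (A : Mat r S) : (dU A).map φ = dU (A.map φ) := by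
  rw [dU, dU, adjugate_map, one_sub_map, upS_map]

theorem dX_map (φ : S →+* T) (ζ : S) (A : Mat r S) : (dX ζ A).map φ = dX (φ ζ) (A.map φ) := by
  ext i j
  rw [Matrix.map_apply, dX_apply, dX_apply, ← dU_map, Matrix.map_apply, Matrix.map_apply]
  split_ifs
  · rfl
  · rw [map_mul, map_add]
    congr 2
    rw [Matrix.one_apply, Matrix.one_apply]
    split_ifs
    · exact map_one φ
    · exact map_zero φ

/-- Every element of the cell is of this form. -/
theorem eq_dX {ζ ζ' : S} (h : ζ * ζ' = 1) (X V : Mat r S) (hV : V * uU X = 1) :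
    X = dX ζ (ζ' • lL X - V) := by
  obtain ⟨hV1, hV2⟩ := inv_upT (upT_uU X) (uU_diag X) hV
  have h1 : upS (ζ' • lL X - V) = 1 - V := by
    ext i j
    rw [upS_apply, Matrix.sub_apply, Matrix.smul_apply, lL_apply, Matrix.sub_apply,
      Matrix.one_apply]
    by_cases hij : i < j
    · rw [if_pos hij, if_neg (not_le.2 hij), if_neg hij.ne, smul_zero]
    · rw [if_neg hij]
      rcases eq_or_lt_of_le (not_lt.1 hij) with h2 | h2
      · rw [← h2, if_pos rfl, hV2, sub_self]
      · rw [if_neg h2.ne', hV1 i j h2, sub_zero]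
  have h2 : dU (ζ' • lL X - V) = uU X := by
    have h3 := mul_dU (ζ' • lL X - V)
    rw [h1, sub_sub_cancel] at h3
    have h4 : uU X * V = 1 := mul_eq_one_comm.1 hV
    calc dU (ζ' • lL X - V) = (uU X * V) * dU (ζ' • lL X - V) := by rw [h4, one_mul]
      _ = uU X * (V * dU (ζ' • lL X - V)) := by rw [mul_assoc]
      _ = _ := by rw [h3, mul_one]
  ext i j
  rw [dX_apply, h2]
  by_cases hij : i < j
  · rw [if_pos hij, uU_apply, if_neg hij.ne, if_pos hij]
  · rw [if_neg hij, Matrix.sub_apply, Matrix.smul_apply, lL_apply, if_pos (not_lt.1 hij),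
      smul_eq_mul, Matrix.one_apply]
    rcases eq_or_lt_of_le (not_lt.1 hij) with h3 | h3
    · rw [← h3, if_pos rfl, hV2, add_sub_cancel, ← mul_assoc, h, one_mul]
    · rw [if_neg h3.ne', hV1 i j h3, sub_zero, zero_add, ← mul_assoc, h, one_mul]

/-! ### Products of reflections -/

/-- The product of the elements `1 + ξ_i υ_i`. -/
theorem prod_refl_aux : ∀ {r : ℕ} (Ξ : Matrix (Fin n) (Fin r) S) (Υ V : Matrix (Fin r) (Fin n) S),
    V = Υ + upS (Υ * Ξ) * V →
    (List.ofFn fun i => 1 + vecMulVec (fun a => Ξ a i) (Υ i)).prod = 1 + Ξ * V := by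
  intro r
  induction r with
  | zero =>
    intro Ξ Υ V _
    rw [List.ofFn_zero, List.prod_nil]
    have : Ξ * V = 0 := by
      ext i j
      rw [Matrix.mul_apply, Finset.univ_eq_empty, Finset.sum_empty, Matrix.zero_apply]
    rw [this, add_zero]
  | succ r ih =>
    intro Ξ Υ V hV
    obtain ⟨Ξ', hΞ⟩ : ∃ Ξ' : Matrix (Fin n) (Fin r) S, Ξ' = Matrix.of fun a i => Ξ a i.succ :=
      ⟨_, rfl⟩
    obtain ⟨Υ', hΥ⟩ : ∃ Υ' : Matrix (Fin r) (Fin n) S, Υ' = Matrix.of fun i a => Υ i.succ a :=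
      ⟨_, rfl⟩
    obtain ⟨V', hV'⟩ : ∃ V' : Matrix (Fin r) (Fin n) S, V' = Matrix.of fun i a => V i.succ a :=
      ⟨_, rfl⟩
    have hT : ∀ i j : Fin r, (Υ * Ξ) i.succ j.succ = (Υ' * Ξ') i j := by
      intro i j
      rw [Matrix.mul_apply, Matrix.mul_apply]
      exact Finset.sum_congr rfl fun a _ => by rw [hΞ, hΥ]; rfl
    have hV1 : V' = Υ' + upS (Υ' * Ξ') * V' := by
      ext i a
      have h1 := congrFun (congrFun hV i.succ) a
      rw [Matrix.add_apply, Matrix.mul_apply, Fin.sum_univ_succ, upS_apply,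
        if_neg (Fin.succ_pos i).not_gt, zero_mul, zero_add] at h1
      rw [Matrix.add_apply, Matrix.mul_apply]
      have h2 : V' i a = V i.succ a := by rw [hV']; rfl
      have h3 : Υ' i a = Υ i.succ a := by rw [hΥ]; rfl
      rw [h2, h3, h1]
      congr 1
      refine Finset.sum_congr rfl fun j _ => ?_
      rw [upS_apply, upS_apply, hT, hV']
      simp only [Fin.succ_lt_succ_iff]
      rfl
    have hV0 : V 0 = Υ 0 + (Υ 0 ᵥ* Ξ') ᵥ* V' := by
      funext a
      have h1 := congrFun (congrFun hV 0) a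
      rw [Matrix.add_apply, Matrix.mul_apply, Fin.sum_univ_succ, upS_apply,
        if_neg (lt_irrefl _), zero_mul, zero_add] at h1
      rw [h1, Pi.add_apply]
      congr 1
      rw [Matrix.vecMul, dotProduct]
      refine Finset.sum_congr rfl fun j _ => ?_
      rw [upS_apply, if_pos (Fin.succ_pos j), hV', Matrix.mul_apply, Matrix.vecMul, dotProduct]
      congr 1
      exact Finset.sum_congr rfl fun b _ => by rw [hΞ]; rfl
    rw [List.ofFn_succ, List.prod_cons]
    have h4 : (List.ofFn fun i : Fin r => 1 + vecMulVec (fun a => Ξ a i.succ) (Υ i.succ)) =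
        List.ofFn fun i : Fin r => 1 + vecMulVec (fun a => Ξ' a i) (Υ' i) := by
      rw [hΞ, hΥ]
      rfl
    rw [h4, ih Ξ' Υ' V' hV1]
    have h5 : Ξ * V = vecMulVec (fun a => Ξ a 0) (V 0) + Ξ' * V' := by
      ext a b
      rw [Matrix.mul_apply, Fin.sum_univ_succ, Matrix.add_apply, vecMulVec_apply,
        Matrix.mul_apply]
      congr 1
      exact Finset.sum_congr rfl fun j _ => by rw [hΞ, hV']; rfl
    have h6 : vecMulVec (fun a => Ξ a 0) (V 0) =
        vecMulVec (fun a => Ξ a 0) (Υ 0) * (1 + Ξ' * V') := by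
      rw [hV0, Matrix.vecMulVec_mul, Matrix.vecMul_add, Matrix.vecMul_one, Matrix.vecMul_vecMul]
    rw [h5, h6, Matrix.add_mul, Matrix.one_mul]
    abel

theorem prod_refl (Ξ : Matrix (Fin n) (Fin r) S) (Υ : Matrix (Fin r) (Fin n) S) :
    (List.ofFn fun i => 1 + vecMulVec (fun a => Ξ a i) (Υ i)).prod =
      1 + Ξ * (dU (Υ * Ξ) * Υ) := by
  refine prod_refl_aux Ξ Υ _ ?_
  have h1 := mul_dU (Υ * Ξ)
  have h2 : dU (Υ * Ξ) = 1 + upS (Υ * Ξ) * dU (Υ * Ξ) := by
    rw [Matrix.sub_mul, Matrix.one_mul] at h1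
    rw [← h1]
    abel
  calc dU (Υ * Ξ) * Υ = (1 + upS (Υ * Ξ) * dU (Υ * Ξ)) * Υ := by rw [← h2]
    _ = _ := by rw [Matrix.add_mul, Matrix.one_mul, Matrix.mul_assoc]

end Vale.Agent.P002R
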