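import Vale.Agent.P002R.Dual1
import Vale.Agent.P002G.TotCell8

/-!
# P002: duality, the classes
-/

namespace Vale.Agent.P002R

open Matrix

variable {m p : ℕ}

/-- The dual class `W0` of `J` with respect to the eigenvalue `ζ`. -/
structure DualCls (ζ : ℂ) (J : Mat (m + p) ℂ) (W0 : Mat m ℂ) (Y0 : Matrix (Fin p) (Fin m) ℂ) :
    Prop where
  zeta : ζ ≠ 0
  cj : P002G.Cj (ζ • P002G.blk W0 0 Y0 1) J
  inj : ∀ v, (W0 - 1) *ᵥ v = 0 → Y0 *ᵥ v = 0 → v = 0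

theorem exists_dualCls {ζ : ℂ} (hζ0 : ζ ≠ 0) (J : Mat (m + p) ℂ)
    (hp : Module.finrank ℂ (LinearMap.ker (J - ζ • 1).mulVecLin) = p) :
    ∃ W0 Y0, DualCls ζ J W0 Y0 := by
  obtain ⟨g0, W', Y', hg0, hA, hinj⟩ := P002G.adapted _ hp
  obtain ⟨W0, hW0⟩ : ∃ W0, W0 = 1 + ζ⁻¹ • W' := ⟨_, rfl⟩
  obtain ⟨Y0, hY0⟩ : ∃ Y0, Y0 = ζ⁻¹ • Y' := ⟨_, rfl⟩
  have hB0 : ζ • P002G.blk W0 0 Y0 1 = ζ • 1 + P002G.blk W' 0 Y' 0 := by
    rw [← P002G.blk_one, hW0, hY0]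
    ext i j
    rw [Matrix.smul_apply, Matrix.add_apply, Matrix.smul_apply]
    refine Fin.addCases (fun i => ?_) (fun i => ?_) i <;>
      refine Fin.addCases (fun j => ?_) (fun j => ?_) j
    · rw [P002G.blk_apply₁₁, P002G.blk_apply₁₁, P002G.blk_apply₁₁, Matrix.add_apply, Matrix.smul_apply]
      simp only [smul_eq_mul]
      field_simp
    · rw [P002G.blk_apply₁₂, P002G.blk_apply₁₂, P002G.blk_apply₁₂]; simp
    · rw [P002G.blk_apply₂₁, P002G.blk_apply₂₁, P002G.blk_apply₂₁, Matrix.smul_apply]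
      simp only [smul_eq_mul]
      field_simp
      simp
    · rw [P002G.blk_apply₂₂, P002G.blk_apply₂₂, P002G.blk_apply₂₂]; simp
  have hJg : J * g0 = g0 * (ζ • P002G.blk W0 0 Y0 1) := by
    rw [hB0, Matrix.mul_add, ← hA, Matrix.sub_mul, Matrix.mul_smul, Matrix.smul_mul,
      Matrix.mul_one, Matrix.one_mul]
    abel
  refine ⟨W0, Y0, hζ0, ⟨g0, hg0, hJg.symm⟩, ?_⟩
  intro v hv1 hv2
  rw [hW0, add_sub_cancel_left, Matrix.smul_mulVec] at hv1
  rw [hY0, Matrix.smul_mulVec] at hv2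
  exact hinj v ((smul_eq_zero.1 hv1).resolve_left (inv_ne_zero hζ0))
    ((smul_eq_zero.1 hv2).resolve_left (inv_ne_zero hζ0))

theorem DualCls.det_sub {ζ : ℂ} {J : Mat (m + p) ℂ} {W0 : Mat m ℂ} {Y0 : Matrix (Fin p) (Fin m) ℂ}
    (h : DualCls ζ J W0 Y0) (z : ℂ) : (J - (ζ * z) • 1).det =
      ζ ^ (m + p) * ((W0 - z • 1).det * ((1 : Matrix (Fin p) (Fin p) ℂ) - z • 1).det) := by
  obtain ⟨g0, hg0, hJg⟩ := h.cj
  have hg0d := (Matrix.isUnit_iff_isUnit_det _).1 hg0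
  have h1 : (J - (ζ * z) • 1) * g0 = g0 * (ζ • P002G.blk (W0 - z • 1) 0 Y0 (1 - z • 1)) := by
    have h2 : ζ • P002G.blk (W0 - z • 1) 0 Y0 (1 - z • 1) = ζ • P002G.blk W0 0 Y0 1 - (ζ * z) • 1 := by
      rw [← P002G.blk_one]
      ext i j
      rw [Matrix.smul_apply, Matrix.sub_apply, Matrix.smul_apply, Matrix.smul_apply]
      refine Fin.addCases (fun i => ?_) (fun i => ?_) i <;>
        refine Fin.addCases (fun j => ?_) (fun j => ?_) j
      · rw [P002G.blk_apply₁₁, P002G.blk_apply₁₁, P002G.blk_apply₁₁, Matrix.sub_apply, Matrix.smul_apply]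
        simp only [smul_eq_mul]
        ring
      · rw [P002G.blk_apply₁₂, P002G.blk_apply₁₂, P002G.blk_apply₁₂]; simp
      · rw [P002G.blk_apply₂₁, P002G.blk_apply₂₁, P002G.blk_apply₂₁]; simp
      · rw [P002G.blk_apply₂₂, P002G.blk_apply₂₂, P002G.blk_apply₂₂, Matrix.sub_apply, Matrix.smul_apply]
        simp only [smul_eq_mul]
        ring
    rw [h2, Matrix.sub_mul, Matrix.mul_sub, hJg, Matrix.smul_mul, Matrix.one_mul,
      Matrix.mul_smul, Matrix.mul_one]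
  have h2 := congrArg Matrix.det h1
  rw [Matrix.det_mul, Matrix.det_mul, mul_comm, Matrix.det_smul, Fintype.card_fin,
    P002G.det_blk] at h2
  exact mul_left_cancel₀ hg0d.ne_zero h2

theorem DualCls.det_J {ζ : ℂ} {J : Mat (m + p) ℂ} {W0 : Mat m ℂ} {Y0 : Matrix (Fin p) (Fin m) ℂ}
    (h : DualCls ζ J W0 Y0) : J.det = ζ ^ (m + p) * W0.det := by
  have h1 := h.det_sub 0
  rw [mul_zero, zero_smul, zero_smul, zero_smul, sub_zero, sub_zero, sub_zero, Matrix.det_one,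
    mul_one] at h1
  exact h1

theorem DualCls.isUnit {ζ : ℂ} {J : Mat (m + p) ℂ} {W0 : Mat m ℂ} {Y0 : Matrix (Fin p) (Fin m) ℂ}
    (h : DualCls ζ J W0 Y0) (hJ : IsUnit J) : IsUnit W0 := by
  have h2 := ((Matrix.isUnit_iff_isUnit_det _).1 hJ).ne_zero
  rw [h.det_J] at h2
  rw [Matrix.isUnit_iff_isUnit_det]
  exact isUnit_iff_ne_zero.2 (right_ne_zero_of_mul h2)

theorem DualCls.root {R : Type*} [CommRing R] (φ : R →+* ℂ) {ζ : ℂ} {J : Mat (m + p) ℂ}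
    {W0 : Mat m ℂ} {Y0 : Matrix (Fin p) (Fin m) ℂ} (h : DualCls ζ J W0 Y0) {e : Rˣ}
    (he : φ e = ζ) (hJ : ∀ z, J.charpoly.IsRoot z → ∃ e : Rˣ, φ e = z) (z : ℂ)
    (hz : W0.charpoly.IsRoot z) : ∃ e : Rˣ, φ e = z := by
  have h1 := h.det_sub z
  rw [(P002G.isRoot_iff W0 z).1 hz, zero_mul, mul_zero] at h1
  obtain ⟨e', he'⟩ := hJ _ ((P002G.isRoot_iff J _).2 h1)
  refine ⟨e⁻¹ * e', ?_⟩
  have h2 : φ ((e⁻¹ : Rˣ) : R) * φ (e : R) = 1 := by
    rw [← map_mul, Units.inv_mul, map_one]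
  rw [Units.val_mul, map_mul, he', ← he, ← mul_assoc, h2, one_mul]

/-- Every element of the cell in the class of `J` comes from a dual tuple. -/
theorem DualCls.exists_dual {ζ : ℂ} {J : Mat (m + p) ℂ} {W0 : Mat m ℂ}
    {Y0 : Matrix (Fin p) (Fin m) ℂ} (h : DualCls ζ J W0 Y0) (X : Mat (m + p) ℂ)
    (hX : CjM J (zZ X)) : ∃ (Ξ : Matrix (Fin m) (Fin (m + p)) ℂ)
      (Υ : Matrix (Fin (m + p)) (Fin m) ℂ), X = dX ζ (Υ * Ξ) ∧
      1 + Ξ * (dU (Υ * Ξ) * Υ) = W0 ∧ (∀ v, Υ *ᵥ v = 0 → v = 0) ∧ ∀ w, w ᵥ* Ξ = 0 → w = 0 := by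
  obtain ⟨h0, hh0⟩ := hX
  obtain ⟨g0, ⟨g1, rfl⟩, hJg⟩ := h.cj
  obtain ⟨G, hG⟩ : ∃ G : (Mat (m + p) ℂ)ˣ, G = h0 * g1 := ⟨_, rfl⟩
  have hZ : zZ X * G = G * (ζ • P002G.blk W0 0 Y0 1) := by
    rw [hh0, hG, Units.val_mul]
    calc (h0 : Mat (m + p) ℂ) * J * ((h0⁻¹ : (Mat (m + p) ℂ)ˣ) : Mat (m + p) ℂ) *
          ((h0 : Mat (m + p) ℂ) * (g1 : Mat (m + p) ℂ))
        = (h0 : Mat (m + p) ℂ) * (J * ((((h0⁻¹ : (Mat (m + p) ℂ)ˣ) : Mat (m + p) ℂ) *
          (h0 : Mat (m + p) ℂ)) * (g1 : Mat (m + p) ℂ))) := by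
          simp only [Matrix.mul_assoc]
      _ = _ := by rw [Units.inv_mul, Matrix.one_mul, ← hJg, Matrix.mul_assoc]
  obtain ⟨Ξ0, hΞ0⟩ : ∃ Ξ0 : Matrix (Fin m) (Fin (m + p)) ℂ, Ξ0 = Matrix.of fun i =>
    Fin.append (fun j => (1 : Mat m ℂ) i j) (fun _ => 0) := ⟨_, rfl⟩
  obtain ⟨Υ0, hΥ0⟩ : ∃ Υ0 : Matrix (Fin (m + p)) (Fin m) ℂ, Υ0 = Matrix.of
    (Fin.append (fun i j => (W0 - 1) i j) (fun i j => Y0 i j)) := ⟨_, rfl⟩
  have hb : ζ • P002G.blk W0 0 Y0 1 = ζ • (1 + Υ0 * Ξ0) := by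
    congr 1
    ext i j
    rw [Matrix.add_apply, Matrix.mul_apply]
    refine Fin.addCases (fun i => ?_) (fun i => ?_) i <;>
      refine Fin.addCases (fun j => ?_) (fun j => ?_) j
    · rw [P002G.blk_apply₁₁, hΞ0, hΥ0]
      simp only [Matrix.of_apply, Fin.append_left]
      have h1 : ∑ x, (W0 - 1) i x * (1 : Mat m ℂ) x j = (W0 - 1) i j := by
        rw [← Matrix.mul_apply, Matrix.mul_one]
      rw [h1, Matrix.sub_apply, Matrix.one_apply, Matrix.one_apply]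
      simp only [Fin.castAdd_inj]
      ring
    · rw [P002G.blk_apply₁₂, hΞ0, hΥ0]
      simp only [Matrix.of_apply, Fin.append_left, Fin.append_right, mul_zero,
        Finset.sum_const_zero, add_zero, Matrix.zero_apply]
      rw [Matrix.one_apply_ne]
      intro h
      have := congrArg Fin.val h
      simp only [Fin.val_castAdd, Fin.val_natAdd] at this
      omega
    · rw [P002G.blk_apply₂₁, hΞ0, hΥ0]
      simp only [Matrix.of_apply, Fin.append_left, Fin.append_right]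
      have h1 : ∑ x, Y0 i x * (1 : Mat m ℂ) x j = Y0 i j := by
        rw [← Matrix.mul_apply, Matrix.mul_one]
      rw [h1, Matrix.one_apply_ne, zero_add]
      intro h
      have := congrArg Fin.val h
      simp only [Fin.val_castAdd, Fin.val_natAdd] at this
      omega
    · rw [P002G.blk_apply₂₂, hΞ0, hΥ0]
      simp only [Matrix.of_apply, Fin.append_right, mul_zero,
        Finset.sum_const_zero, add_zero]
      rw [Matrix.one_apply, Matrix.one_apply]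
      simp only [Fin.natAdd_inj]
  have hΞΥ : 1 + Ξ0 * Υ0 = W0 := by
    ext i j
    rw [Matrix.add_apply, Matrix.mul_apply, Fin.sum_univ_add, hΞ0, hΥ0]
    simp only [Matrix.of_apply, Fin.append_left, Fin.append_right, zero_mul,
      Finset.sum_const_zero, add_zero]
    rw [← Matrix.mul_apply, Matrix.one_mul, Matrix.sub_apply]
    ring
  obtain ⟨V, hV⟩ : ∃ V : Mat (m + p) ℂ, V = (uU X)⁻¹ := ⟨_, rfl⟩
  have hUd : IsUnit (uU X).det := by rw [det_uU]; exact isUnit_one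
  have hVU : V * uU X = 1 := by rw [hV, Matrix.nonsing_inv_mul _ hUd]
  have hUV : uU X * V = 1 := by rw [hV, Matrix.mul_nonsing_inv _ hUd]
  obtain ⟨Gi, hGi⟩ : ∃ Gi : Mat (m + p) ℂ, Gi = ((G⁻¹ : (Mat (m + p) ℂ)ˣ) : Mat (m + p) ℂ) :=
    ⟨_, rfl⟩
  have hGG : (G : Mat (m + p) ℂ) * Gi = 1 := by rw [hGi, Units.mul_inv]
  have hGG' : Gi * (G : Mat (m + p) ℂ) = 1 := by rw [hGi, Units.inv_mul]
  have hT : V * ((G : Mat (m + p) ℂ) * Υ0) * (Ξ0 * Gi) = ζ⁻¹ • lL X - V := by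
    have h1 : zZ X = ζ • (1 + ((G : Mat (m + p) ℂ) * Υ0) * (Ξ0 * Gi)) := by
      calc zZ X = zZ X * G * Gi := by rw [Matrix.mul_assoc, hGG, Matrix.mul_one]
        _ = (G : Mat (m + p) ℂ) * (ζ • (1 + Υ0 * Ξ0)) * Gi := by rw [hZ, hb]
        _ = _ := by
          rw [Matrix.mul_smul, Matrix.smul_mul, Matrix.mul_add, Matrix.mul_one, Matrix.add_mul,
            hGG]
          simp only [Matrix.mul_assoc]
    have h2 : ζ⁻¹ • zZ X = 1 + ((G : Mat (m + p) ℂ) * Υ0) * (Ξ0 * Gi) := by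
      rw [h1, smul_smul, inv_mul_cancel₀ h.zeta, one_smul]
    have h3 : V * (ζ⁻¹ • zZ X) = ζ⁻¹ • lL X := by
      rw [zZ, Matrix.mul_smul, ← Matrix.mul_assoc, hVU, Matrix.one_mul]
    rw [h2, Matrix.mul_add, Matrix.mul_one] at h3
    rw [Matrix.mul_assoc, ← h3]
    abel
  have hX1 : X = dX ζ (V * ((G : Mat (m + p) ℂ) * Υ0) * (Ξ0 * Gi)) := by
    rw [hT]
    exact eq_dX (mul_inv_cancel₀ h.zeta) X V hVU
  refine ⟨Ξ0 * Gi, V * ((G : Mat (m + p) ℂ) * Υ0), hX1, ?_, ?_, ?_⟩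
  · have h1 : dU (V * ((G : Mat (m + p) ℂ) * Υ0) * (Ξ0 * Gi)) = uU X := by
      rw [← uU_dX ζ, ← hX1]
    rw [h1, ← Matrix.mul_assoc (uU X), hUV, Matrix.one_mul, Matrix.mul_assoc Ξ0,
      ← Matrix.mul_assoc Gi, hGG', Matrix.one_mul, hΞΥ]
  · intro v hv
    have h1 : (uU X * (V * ((G : Mat (m + p) ℂ) * Υ0))) *ᵥ v = 0 := by
      rw [← Matrix.mulVec_mulVec, hv, Matrix.mulVec_zero]
    rw [← Matrix.mul_assoc, hUV, Matrix.one_mul] at h1
    have h2 : (Gi * ((G : Mat (m + p) ℂ) * Υ0)) *ᵥ v = 0 := by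
      rw [← Matrix.mulVec_mulVec, h1, Matrix.mulVec_zero]
    rw [← Matrix.mul_assoc, hGG', Matrix.one_mul] at h2
    apply h.inj
    · funext i
      have h3 := congrFun h2 (Fin.castAdd p i)
      rw [hΥ0, Pi.zero_apply] at h3
      rw [Pi.zero_apply, ← h3]
      simp only [Matrix.mulVec, dotProduct, Matrix.of_apply, Fin.append_left]
    · funext i
      have h3 := congrFun h2 (Fin.natAdd m i)
      rw [hΥ0, Pi.zero_apply] at h3
      rw [Pi.zero_apply, ← h3]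
      simp only [Matrix.mulVec, dotProduct, Matrix.of_apply, Fin.append_right]
  · intro w hw
    have h1 : w ᵥ* (Ξ0 * Gi * (G : Mat (m + p) ℂ)) = 0 := by
      rw [← Matrix.vecMul_vecMul, hw, Matrix.zero_vecMul]
    rw [Matrix.mul_assoc, hGG', Matrix.mul_one] at h1
    funext i
    have h3 := congrFun h1 (Fin.castAdd p i)
    rw [hΞ0] at h3
    simp only [Matrix.vecMul, dotProduct, Matrix.of_apply, Fin.append_left] at h3
    rw [← dotProduct, ← Matrix.vecMul, Matrix.vecMul_one] at h3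
    exact h3

/-- The matrix `[1 | x]`. -/
def oneX {S : Type*} [CommRing S] (x : Matrix (Fin m) (Fin p) S) : Matrix (Fin m) (Fin (m + p)) S :=
  Matrix.of fun i => Fin.append (fun j => (1 : Mat m S) i j) (x i)

theorem oneX_left {S : Type*} [CommRing S] (x : Matrix (Fin m) (Fin p) S) (i j : Fin m) :
    oneX x i (Fin.castAdd p j) = (1 : Mat m S) i j := by
  rw [oneX, Matrix.of_apply, Fin.append_left]

theorem oneX_right {S : Type*} [CommRing S] (x : Matrix (Fin m) (Fin p) S) (i : Fin m)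
    (j : Fin p) : oneX x i (Fin.natAdd m j) = x i j := by
  rw [oneX, Matrix.of_apply, Fin.append_right]

theorem DualCls.cj_oneX {ζ : ℂ} {J : Mat (m + p) ℂ} {W0 : Mat m ℂ}
    {Y0 : Matrix (Fin p) (Fin m) ℂ} (h : DualCls ζ J W0 Y0) (x : Matrix (Fin m) (Fin p) ℂ)
    (Υ : Matrix (Fin (m + p)) (Fin m) ℂ) (hΥ : ∀ v, Υ *ᵥ v = 0 → v = 0)
    (hW : P002G.Cj W0 (1 + oneX x * (dU (Υ * oneX x) * Υ))) :
    CjM J (zZ (dX ζ (Υ * oneX x))) := by
  obtain ⟨U, hU⟩ : ∃ U, U = dU (Υ * oneX x) := ⟨_, rfl⟩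
  obtain ⟨V, hV⟩ : ∃ V, V = 1 - upS (Υ * oneX x) := ⟨_, rfl⟩
  have hVU : V * U = 1 := by rw [hU, hV, mul_dU]
  obtain ⟨Υ', hΥ'⟩ : ∃ Υ', Υ' = U * Υ := ⟨_, rfl⟩
  rw [← hU, ← hΥ'] at hW
  obtain ⟨Y, hY⟩ : ∃ Y : Matrix (Fin p) (Fin m) ℂ, Y = Matrix.of fun i j => Υ' (Fin.natAdd m i) j :=
    ⟨_, rfl⟩
  obtain ⟨A, hA⟩ : ∃ A : Matrix (Fin m) (Fin m) ℂ, A = Matrix.of fun i j =>
    Υ' (Fin.castAdd p i) j := ⟨_, rfl⟩
  have h1 : oneX x * Υ' = A + x * Y := by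
    ext i j
    rw [Matrix.mul_apply, Fin.sum_univ_add, Matrix.add_apply, Matrix.mul_apply]
    simp only [oneX_left, oneX_right]
    congr 1
    · have h2 : ∀ a : Fin m, Υ' (Fin.castAdd p a) j = A a j := fun a => by rw [hA]; rfl
      simp only [h2]
      rw [← Matrix.mul_apply, Matrix.one_mul]
    · exact Finset.sum_congr rfl fun a _ => by rw [hY]; rfl
  have h2 : zZ (dX ζ (Υ * oneX x)) = P002G.chZ ζ (1 + oneX x * Υ') x Y := by
    rw [zZ_dX, P002G.chZ_eq, ← hU, ← Matrix.mul_assoc, ← hΥ', h1]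
    have h3 : 1 + (A + x * Y) - x * Y = 1 + A := by abel
    rw [h3]
    congr 1
    ext i j
    rw [Matrix.add_apply, Matrix.mul_apply]
    refine Fin.addCases (fun i => ?_) (fun i => ?_) i <;>
      refine Fin.addCases (fun j => ?_) (fun j => ?_) j
    · rw [P002G.blk_apply₁₁]
      simp only [oneX_left]
      have h4 : ∑ a, Υ' (Fin.castAdd p i) a * (1 : Mat m ℂ) a j = A i j := by
        have h5 : ∀ a : Fin m, Υ' (Fin.castAdd p i) a = A i a := fun a => by rw [hA]; rfl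
        simp only [h5]
        rw [← Matrix.mul_apply, Matrix.mul_one]
      rw [h4, Matrix.add_apply, Matrix.one_apply, Matrix.one_apply]
      simp only [Fin.castAdd_inj]
    · rw [P002G.blk_apply₁₂]
      simp only [oneX_right]
      have h4 : ∑ a, Υ' (Fin.castAdd p i) a * x a j = (A * x) i j := by
        rw [Matrix.mul_apply]
        exact Finset.sum_congr rfl fun a _ => by rw [hA]; rfl
      rw [h4, Matrix.one_apply_ne, zero_add, Matrix.add_mul, Matrix.one_mul]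
      · rw [Matrix.sub_apply, Matrix.add_apply]
        ring
      · intro h
        have := congrArg Fin.val h
        simp only [Fin.val_castAdd, Fin.val_natAdd] at this
        omega
    · rw [P002G.blk_apply₂₁]
      simp only [oneX_left]
      have h4 : ∑ a, Υ' (Fin.natAdd m i) a * (1 : Mat m ℂ) a j = Y i j := by
        have h5 : ∀ a : Fin m, Υ' (Fin.natAdd m i) a = Y i a := fun a => by rw [hY]; rfl
        simp only [h5]
        rw [← Matrix.mul_apply, Matrix.mul_one]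
      rw [h4, Matrix.one_apply_ne, zero_add]
      intro h
      have := congrArg Fin.val h
      simp only [Fin.val_castAdd, Fin.val_natAdd] at this
      omega
    · rw [P002G.blk_apply₂₂]
      simp only [oneX_right]
      have h4 : ∑ a, Υ' (Fin.natAdd m i) a * x a j = (Y * x) i j := by
        rw [Matrix.mul_apply]
        exact Finset.sum_congr rfl fun a _ => by rw [hY]; rfl
      rw [h4, Matrix.add_apply, Matrix.one_apply, Matrix.one_apply]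
      simp only [Fin.natAdd_inj]
  rw [h2]
  have h3 := P002G.cj_chZ ζ W0 (1 + oneX x * Υ') Y0 Y x hW h.inj (by
    intro v hv1 hv2
    rw [add_sub_cancel_left, h1, Matrix.add_mulVec, ← Matrix.mulVec_mulVec, hv2,
      Matrix.mulVec_zero, add_zero] at hv1
    have h4 : Υ' *ᵥ v = 0 := by
      funext i
      refine Fin.addCases (fun i => ?_) (fun i => ?_) i
      · have h5 := congrFun hv1 i
        rw [hA] at h5
        exact h5
      · have h5 := congrFun hv2 i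
        rw [hY] at h5
        exact h5
    apply hΥ
    have h5 : V *ᵥ (Υ' *ᵥ v) = 0 := by rw [h4, Matrix.mulVec_zero]
    rw [hΥ', Matrix.mulVec_mulVec, ← Matrix.mul_assoc, hVU, Matrix.one_mul] at h5
    exact h5)
  exact P002G.cjC_of_cj (h.cj.symm.trans h3)

/-- Gauge invariance. -/
theorem prod_gauge {r : ℕ} {S : Type*} [CommRing S] (Ξ : Matrix (Fin m) (Fin r) S)
    (Υ : Matrix (Fin r) (Fin m) S) (g g' : Mat m S) (h : g' * g = 1) :
    (Υ * g') * (g * Ξ) = Υ * Ξ := by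
  rw [Matrix.mul_assoc, ← Matrix.mul_assoc g', h, Matrix.one_mul]

theorem DualCls.cj_dX {ζ : ℂ} {J : Mat (m + p) ℂ} {W0 : Mat m ℂ}
    {Y0 : Matrix (Fin p) (Fin m) ℂ} (h : DualCls ζ J W0 Y0) (Ξ : Matrix (Fin m) (Fin (m + p)) ℂ)
    (Υ : Matrix (Fin (m + p)) (Fin m) ℂ) (hΥ : ∀ v, Υ *ᵥ v = 0 → v = 0)
    (hB : IsUnit (Matrix.of fun i j => Ξ i (Fin.castAdd p j) : Mat m ℂ).det)
    (hW : P002G.Cj W0 (1 + Ξ * (dU (Υ * Ξ) * Υ))) :
    CjM J (zZ (dX ζ (Υ * Ξ))) := by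
  obtain ⟨B, hBd⟩ : ∃ B : Mat m ℂ, B = Matrix.of fun i j => Ξ i (Fin.castAdd p j) := ⟨_, rfl⟩
  rw [← hBd] at hB
  have hBB : B⁻¹ * B = 1 := Matrix.nonsing_inv_mul _ hB
  have hBB' : B * B⁻¹ = 1 := Matrix.mul_nonsing_inv _ hB
  obtain ⟨x, hx⟩ : ∃ x : Matrix (Fin m) (Fin p) ℂ, x = Matrix.of fun i j =>
    (B⁻¹ * Ξ) i (Fin.natAdd m j) := ⟨_, rfl⟩
  have h1 : B⁻¹ * Ξ = oneX x := by
    ext i j
    refine Fin.addCases (fun j => ?_) (fun j => ?_) j
    · rw [oneX_left, ← hBB, Matrix.mul_apply, Matrix.mul_apply]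
      exact Finset.sum_congr rfl fun a _ => by rw [hBd]; rfl
    · rw [oneX_right, hx]
      rfl
  have h2 : (Υ * B) * oneX x = Υ * Ξ := by
    rw [← h1]
    exact prod_gauge Ξ Υ B⁻¹ B hBB'
  have h3 := h.cj_oneX x (Υ * B) (fun v hv => by
    have h4 : B *ᵥ v = 0 := hΥ _ (by rw [Matrix.mulVec_mulVec]; exact hv)
    have h5 : (B⁻¹ * B) *ᵥ v = 0 := by rw [← Matrix.mulVec_mulVec, h4, Matrix.mulVec_zero]
    rwa [hBB, Matrix.one_mulVec] at h5) (by
    refine hW.trans ⟨B⁻¹, Matrix.isUnit_nonsing_inv_iff.2 ((Matrix.isUnit_iff_isUnit_det _).2 hB), ?_⟩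
    rw [h2, ← h1, Matrix.mul_add, Matrix.mul_one, Matrix.add_mul, Matrix.one_mul]
    congr 1
    calc B⁻¹ * (Ξ * (dU (Υ * Ξ) * Υ)) = B⁻¹ * (Ξ * (dU (Υ * Ξ) * Υ)) * (B * B⁻¹) := by
          rw [hBB', Matrix.mul_one]
      _ = _ := by simp only [Matrix.mul_assoc])
  rw [h2] at h3
  exact h3

end Vale.Agent.P002R
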