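import Vale.Agent.P002R.Dual2

/-!
# P002: duality, irreducibility of the dual tuple
-/

namespace Vale.Agent.P002R

open Matrix

variable {n r : ℕ}

/-- The reflections of the dual tuple. -/
def dR {S : Type*} [CommRing S] (Ξ : Matrix (Fin n) (Fin r) S) (Υ : Matrix (Fin r) (Fin n) S)
    (i : Fin r) : Mat n S :=
  1 + vecMulVec (fun a => Ξ a i) (Υ i)

theorem dR_mulVec {S : Type*} [CommRing S] (Ξ : Matrix (Fin n) (Fin r) S)
    (Υ : Matrix (Fin r) (Fin n) S) (i : Fin r) (x : Fin n → S) :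
    dR Ξ Υ i *ᵥ x = x + (Υ i ⬝ᵥ x) • fun a => Ξ a i := by
  rw [dR, Matrix.add_mulVec, Matrix.one_mulVec, Matrix.vecMulVec_mulVec]
  congr 1
  funext a
  rw [Pi.smul_apply, MulOpposite.smul_eq_mul_unop, MulOpposite.unop_op, Pi.smul_apply,
    smul_eq_mul, mul_comm]

theorem dV_eq {S : Type*} [CommRing S] (Ξ : Matrix (Fin n) (Fin r) S)
    (Υ : Matrix (Fin r) (Fin n) S) :
    dU (Υ * Ξ) * Υ = Υ + upS (Υ * Ξ) * (dU (Υ * Ξ) * Υ) := by
  have h1 := mul_dU (Υ * Ξ)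
  have h2 : dU (Υ * Ξ) = 1 + upS (Υ * Ξ) * dU (Υ * Ξ) := by
    rw [Matrix.sub_mul, Matrix.one_mul] at h1
    rw [← h1]
    abel
  calc dU (Υ * Ξ) * Υ = (1 + upS (Υ * Ξ) * dU (Υ * Ξ)) * Υ := by rw [← h2]
    _ = _ := by rw [Matrix.add_mul, Matrix.one_mul, Matrix.mul_assoc]

/-- If no coordinate subspace is stable under `zZ (dX ζ (Υ * Ξ))` then the dual tuple is
irreducible. -/
theorem dual_irred (ζ : ℂ) (Ξ : Matrix (Fin n) (Fin r) ℂ) (Υ : Matrix (Fin r) (Fin n) ℂ)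
    (hΥ : ∀ v, Υ *ᵥ v = 0 → v = 0) (hΞ : ∀ w, w ᵥ* Ξ = 0 → w = 0)
    (hI : ∀ I : Finset (Fin r), I.Nonempty → I ≠ Finset.univ →
      ∃ i, i ∉ I ∧ ∃ j ∈ I, zZ (dX ζ (Υ * Ξ)) i j ≠ 0)
    (H : Submodule ℂ (Fin n → ℂ)) (hH : ∀ i, ∀ x ∈ H, dR Ξ Υ i *ᵥ x ∈ H) : H = ⊥ ∨ H = ⊤ := by
  classical
  obtain ⟨V, hV⟩ : ∃ V, V = dU (Υ * Ξ) * Υ := ⟨_, rfl⟩
  have hVe : V = Υ + upS (Υ * Ξ) * V := by rw [hV]; exact dV_eq Ξ Υ
  obtain ⟨y, hy⟩ : ∃ y : (Fin n → ℂ) → ℕ → Fin n → ℂ, y = fun x k => x + ∑ j : Fin r,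
    if k ≤ (j : ℕ) then (V j ⬝ᵥ x) • (fun a => Ξ a j) else 0 := ⟨_, rfl⟩
  have hyr : ∀ x, y x r = x := by
    intro x
    rw [hy]
    simp only
    rw [Finset.sum_eq_zero, add_zero]
    intro j _
    rw [if_neg (by have := j.2; omega)]
  have hys : ∀ x (k : Fin r), y x k = y x (k + 1) + (V k ⬝ᵥ x) • fun a => Ξ a k := by
    intro x k
    rw [hy]
    simp only
    rw [add_assoc]
    congr 1
    rw [← Finset.add_sum_erase _ _ (Finset.mem_univ k), if_pos le_rfl, add_comm]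
    congr 1
    rw [← Finset.add_sum_erase _ (fun j : Fin r => if (k : ℕ) + 1 ≤ (j : ℕ) then
      (V j ⬝ᵥ x) • (fun a => Ξ a j) else 0) (Finset.mem_univ k)]
    rw [if_neg (by omega), zero_add]
    refine Finset.sum_congr rfl fun j hj => ?_
    have h1 : (j : ℕ) ≠ k := fun h => Finset.ne_of_mem_erase hj (Fin.ext h)
    by_cases h2 : (k : ℕ) ≤ j
    · rw [if_pos h2, if_pos (by omega)]
    · rw [if_neg h2, if_neg (by omega)]
  have hVy : ∀ x (k : Fin r), V k ⬝ᵥ x = Υ k ⬝ᵥ y x (k + 1) := by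
    intro x k
    have h1 : V k ⬝ᵥ x = Υ k ⬝ᵥ x + ∑ j, upS (Υ * Ξ) k j * (V j ⬝ᵥ x) := by
      have h2 : V k = Υ k + upS (Υ * Ξ) k ᵥ* V := by
        have := congrFun hVe k
        exact this
      conv_lhs => rw [h2]
      rw [add_dotProduct]
      congr 1
      rw [← Matrix.dotProduct_mulVec]
      rfl
    rw [h1, hy]
    simp only
    rw [dotProduct_add, dotProduct_sum]
    congr 1
    refine Finset.sum_congr rfl fun j _ => ?_
    rw [upS_apply]
    by_cases h2 : k < j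
    · rw [if_pos h2, if_pos (by exact h2), dotProduct_smul, smul_eq_mul, mul_comm]
      rfl
    · rw [if_neg h2, if_neg (by intro h; exact h2 h), zero_mul, dotProduct_zero]
  have hyH : ∀ x ∈ H, ∀ d k : ℕ, k + d = r → y x k ∈ H := by
    intro x hx d
    induction d with
    | zero =>
      intro k hk
      rw [show k = r by omega, hyr]
      exact hx
    | succ d ih =>
      intro k hk
      have h1 := ih (k + 1) (by omega)
      have h2 := hys x ⟨k, by omega⟩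
      rw [hVy x ⟨k, by omega⟩, ← dR_mulVec] at h2
      rw [h2]
      exact hH _ _ h1
  obtain ⟨I, hId⟩ : ∃ I : Finset (Fin r), I = Finset.univ.filter fun i => (fun a => Ξ a i) ∈ H :=
    ⟨_, rfl⟩
  have hImem : ∀ i, i ∈ I ↔ (fun a => Ξ a i) ∈ H := by
    intro i
    rw [hId, Finset.mem_filter]
    exact ⟨fun h => h.2, fun h => ⟨Finset.mem_univ i, h⟩⟩
  have hout : ∀ i, i ∉ I → ∀ x ∈ H, Υ i ⬝ᵥ x = 0 := by
    intro i hi x hx
    by_contra hne
    have h1 := hH i x hx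
    rw [dR_mulVec] at h1
    have h2 : (Υ i ⬝ᵥ x) • (fun a => Ξ a i) ∈ H := by
      have h3 := H.sub_mem h1 hx
      rwa [add_sub_cancel_left] at h3
    exact hi ((hImem i).2 ((H.smul_mem_iff hne).1 h2))
  have hVout : ∀ i, i ∉ I → ∀ x ∈ H, V i ⬝ᵥ x = 0 := by
    intro i hi x hx
    rw [hVy]
    exact hout i hi _ (hyH x hx (r - (i + 1)) (i + 1) (by have := i.2; omega))
  have hZ : ∀ i j, i ≠ j → zZ (dX ζ (Υ * Ξ)) i j = ζ * (V i ⬝ᵥ fun a => Ξ a j) := by
    intro i j hij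
    rw [zZ_dX, Matrix.smul_apply, Matrix.add_apply, Matrix.one_apply_ne hij, zero_add,
      ← Matrix.mul_assoc, ← hV, smul_eq_mul]
    rfl
  by_cases h1 : I.Nonempty
  · by_cases h2 : I = Finset.univ
    · right
      rw [eq_top_iff]
      intro x _
      by_contra hx
      obtain ⟨f, hf1, hf2⟩ := Submodule.exists_le_ker_of_notMem hx
      obtain ⟨w, hw⟩ : ∃ w : Fin n → ℂ, ∀ v, f v = w ⬝ᵥ v := by
        refine ⟨fun a => f (Pi.single a 1), fun v => ?_⟩
        conv_lhs => rw [← Finset.univ_sum_single v]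
        rw [map_sum, dotProduct]
        refine Finset.sum_congr rfl fun a _ => ?_
        have h3 : Pi.single a (v a) = v a • (Pi.single a 1 : Fin n → ℂ) := by
          rw [← Pi.single_smul, smul_eq_mul, mul_one]
        rw [h3, map_smul, smul_eq_mul, mul_comm]
      have h3 : w ᵥ* Ξ = 0 := by
        funext j
        have h4 : (fun a => Ξ a j) ∈ H := (hImem j).1 (by rw [h2]; exact Finset.mem_univ j)
        have h5 := hf2 h4
        rw [LinearMap.mem_ker, hw] at h5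
        exact h5
      apply hf1
      rw [hw, hΞ w h3, zero_dotProduct]
    · exfalso
      obtain ⟨i, hi, j, hj, hne⟩ := hI I h1 h2
      apply hne
      rw [hZ i j (fun h => hi (h ▸ hj)), hVout i hi _ ((hImem j).1 hj), mul_zero]
  · left
    rw [Finset.not_nonempty_iff_eq_empty] at h1
    rw [eq_bot_iff]
    intro x hx
    rw [Submodule.mem_bot]
    apply hΥ
    have h2 : V *ᵥ x = 0 := by
      funext i
      exact hVout i (by rw [h1]; exact Finset.notMem_empty i) x hx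
    have h3 : (1 - upS (Υ * Ξ)) *ᵥ (V *ᵥ x) = 0 := by rw [h2, Matrix.mulVec_zero]
    rw [hV, Matrix.mulVec_mulVec, ← Matrix.mul_assoc, mul_dU, Matrix.one_mul] at h3
    exact h3

theorem dual_ne (ζ : ℂ) (Ξ : Matrix (Fin n) (Fin r) ℂ) (Υ : Matrix (Fin r) (Fin n) ℂ)
    (hr : 2 ≤ r) (hI : ∀ I : Finset (Fin r), I.Nonempty → I ≠ Finset.univ →
      ∃ i, i ∉ I ∧ ∃ j ∈ I, zZ (dX ζ (Υ * Ξ)) i j ≠ 0) (k : Fin r) :
    (fun a => Ξ a k) ≠ 0 ∧ Υ k ≠ 0 := by
  classical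
  have hex : ∃ l : Fin r, l ≠ k := by
    by_cases h : k = ⟨0, by omega⟩
    · exact ⟨⟨1, by omega⟩, fun h' => by rw [h] at h'; exact absurd (congrArg Fin.val h') (by simp)⟩
    · exact ⟨⟨0, by omega⟩, fun h' => h h'.symm⟩
  obtain ⟨l, hl⟩ := hex
  obtain ⟨V, hV⟩ : ∃ V, V = dU (Υ * Ξ) * Υ := ⟨_, rfl⟩
  have hVe : V = Υ + upS (Υ * Ξ) * V := by rw [hV]; exact dV_eq Ξ Υ
  have hZ : ∀ i j, i ≠ j → zZ (dX ζ (Υ * Ξ)) i j = ζ * (V i ⬝ᵥ fun a => Ξ a j) := by
    intro i j hij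
    rw [zZ_dX, Matrix.smul_apply, Matrix.add_apply, Matrix.one_apply_ne hij, zero_add,
      ← Matrix.mul_assoc, ← hV, smul_eq_mul]
    rfl
  constructor
  · intro h
    obtain ⟨i, hi, j, hj, hne⟩ := hI {k} (Finset.singleton_nonempty k) (by
      intro h'
      have : l ∈ ({k} : Finset (Fin r)) := by rw [h']; exact Finset.mem_univ l
      exact hl (Finset.mem_singleton.1 this))
    apply hne
    rw [Finset.mem_singleton] at hi hj
    rw [hZ i j (by rw [hj]; exact hi), hj, h, dotProduct_zero, mul_zero]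
  · intro h
    have hVk : V k = 0 := by
      have h2 : V k = Υ k + upS (Υ * Ξ) k ᵥ* V := by
        have := congrFun hVe k
        exact this
      rw [h2, h, zero_add]
      have h3 : upS (Υ * Ξ) k = 0 := by
        funext j
        rw [upS_apply, Matrix.mul_apply]
        have h4 : ∀ a, Υ k a = 0 := fun a => congrFun h a
        simp only [h4, zero_mul, Finset.sum_const_zero, ite_self]
        rfl
      rw [h3, Matrix.zero_vecMul]
    obtain ⟨i, hi, j, hj, hne⟩ := hI (Finset.univ.erase k) ⟨l, Finset.mem_erase.2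
      ⟨hl, Finset.mem_univ l⟩⟩ (fun h' => by
        have : k ∈ Finset.univ.erase k := by rw [h']; exact Finset.mem_univ k
        exact (Finset.mem_erase.1 this).1 rfl)
    apply hne
    have hik : i = k := by
      by_contra hne'
      exact hi (Finset.mem_erase.2 ⟨hne', Finset.mem_univ i⟩)
    rw [hZ i j (fun h' => (Finset.mem_erase.1 hj).1 (h' ▸ hik)), hik, hVk, zero_dotProduct,
      mul_zero]

end Vale.Agent.P002R
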