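import Vale.Agent.P002R.Dual3

/-!
# P002: duality, the chart of the dual tuples
-/

namespace Vale.Agent.P002R

open Matrix

variable {n : ℕ} {S T : Type*} [CommRing S] [CommRing T]

/-- The parameters of the chart. -/
structure DIn (n : ℕ) (S : Type*) where
  z : S
  W : Mat n S
  v : ℕ → Fin n → S
  vi : ℕ → Fin n → S
  p : ℕ → Fin n → S
  dv : ℕ → S
  ka : ℕ → S

namespace DIn

/-- The rows of the reflections in the cell. -/
def y (I : DIn n S) (k : ℕ) (i : Fin n) : S := (I.p k i - 1) * I.vi k i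

/-- The elements of the cell. -/
def Y (I : DIn n S) : ℕ → Mat n S
  | 0 => I.W
  | k + 1 => dX 1 (vecMulVec (I.v k) (I.y k))

theorem Y_zero (I : DIn n S) : I.Y 0 = I.W := rfl

theorem Y_succ (I : DIn n S) (k : ℕ) : I.Y (k + 1) = dX 1 (vecMulVec (I.v k) (I.y k)) := rfl

/-- The vectors of the reflections. -/
def xi (I : DIn n S) (k : ℕ) : Fin n → S :=
  I.dv k • ((Lc I.Y (k + 1)).adjugate *ᵥ (uU (I.Y (k + 1)) *ᵥ I.v k))

/-- The covectors of the reflections. -/
def w (I : DIn n S) (k : ℕ) : Fin n → S := -(I.ka k) • (I.y k ᵥ* Lc I.Y (k + 1))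

/-- The matrix of the vectors. -/
def Xi (I : DIn n S) (e : ℕ) : Matrix (Fin n) (Fin (n + e)) S :=
  oneX (Matrix.of fun i (j : Fin e) => I.xi (e - 1 - j) i)

/-- The matrix of the covectors. -/
def Up (I : DIn n S) (e : ℕ) : Matrix (Fin (n + e)) (Fin n) S :=
  Matrix.of (Fin.append (fun i => (Lc I.Y (e + 1) - (Uc I.Y (e + 1)).adjugate) i)
    fun j : Fin e => I.w (e - 1 - j))

/-- The element of the cell. -/
def out (I : DIn n S) (e : ℕ) : Mat (n + e) S := dX I.z (I.Up e * I.Xi e)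

/-- The relations between the parameters. -/
structure Ok (I : DIn n S) : Prop where
  v : ∀ k i, I.v k i * I.vi k i = 1
  dv : ∀ k, I.dv k * (Lc I.Y (k + 1)).det = 1
  ka : ∀ k, I.ka k * ∏ i, I.p k i = 1

/-- Change of rings. -/
def map (φ : S →+* T) (I : DIn n S) : DIn n T where
  z := φ I.z
  W := I.W.map φ
  v := fun k i => φ (I.v k i)
  vi := fun k i => φ (I.vi k i)
  p := fun k i => φ (I.p k i)
  dv := fun k => φ (I.dv k)
  ka := fun k => φ (I.ka k)

theorem y_map (φ : S →+* T) (I : DIn n S) (k : ℕ) (i : Fin n) :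
    (I.map φ).y k i = φ (I.y k i) := by
  rw [y, y, map_mul, map_sub, map_one]
  rfl

theorem Y_map (φ : S →+* T) (I : DIn n S) (k : ℕ) : (I.map φ).Y k = (I.Y k).map φ := by
  cases k with
  | zero => rfl
  | succ k =>
    rw [Y_succ, Y_succ, dX_map, map_one]
    congr 1
    ext i j
    rw [Matrix.map_apply, vecMulVec_apply, vecMulVec_apply, y_map, map_mul]
    rfl

theorem Y_map' (φ : S →+* T) (I : DIn n S) : (I.map φ).Y = fun k => (I.Y k).map φ :=
  funext fun k => Y_map φ I k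

theorem Lc_map' (φ : S →+* T) (I : DIn n S) (k : ℕ) :
    Lc (I.map φ).Y k = (Lc I.Y k).map φ := by rw [Y_map', ← Lc_map]

theorem Uc_map' (φ : S →+* T) (I : DIn n S) (k : ℕ) :
    Uc (I.map φ).Y k = (Uc I.Y k).map φ := by rw [Y_map', ← Uc_map]

theorem map_mulVec' (φ : S →+* T) {a b : ℕ} (M : Matrix (Fin a) (Fin b) S) (x : Fin b → S) :
    (fun i => φ ((M *ᵥ x) i)) = M.map φ *ᵥ fun i => φ (x i) := by
  funext i
  exact RingHom.map_mulVec φ M x i

theorem map_vecMul' (φ : S →+* T) {a b : ℕ} (M : Matrix (Fin a) (Fin b) S) (x : Fin a → S) :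
    (fun i => φ ((x ᵥ* M) i)) = (fun i => φ (x i)) ᵥ* M.map φ := by
  funext i
  exact RingHom.map_vecMul φ M x i

theorem xi_map (φ : S →+* T) (I : DIn n S) (k : ℕ) :
    (I.map φ).xi k = fun i => φ (I.xi k i) := by
  have h1 : (fun i => φ (I.xi k i)) = φ (I.dv k) • fun i =>
      φ (((Lc I.Y (k + 1)).adjugate *ᵥ (uU (I.Y (k + 1)) *ᵥ I.v k)) i) := by
    funext i
    rw [xi, Pi.smul_apply, Pi.smul_apply, smul_eq_mul, smul_eq_mul, map_mul]
  rw [h1, map_mulVec', map_mulVec', adjugate_map, uU_map, xi, Lc_map', Y_map]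
  rfl

theorem w_map (φ : S →+* T) (I : DIn n S) (k : ℕ) :
    (I.map φ).w k = fun i => φ (I.w k i) := by
  have h1 : (fun i => φ (I.w k i)) = -φ (I.ka k) • fun i =>
      φ ((I.y k ᵥ* Lc I.Y (k + 1)) i) := by
    funext i
    rw [w, Pi.smul_apply, Pi.smul_apply, smul_eq_mul, smul_eq_mul, map_mul, map_neg]
  rw [h1, map_vecMul', w, Lc_map']
  have h2 : (fun i => φ (I.y k i)) = (I.map φ).y k := funext fun i => (y_map φ I k i).symm
  rw [h2]
  rfl

theorem Xi_map (φ : S →+* T) (I : DIn n S) (e : ℕ) : (I.map φ).Xi e = (I.Xi e).map φ := by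
  ext i j
  rw [Matrix.map_apply, Xi, Xi]
  refine Fin.addCases (fun j => ?_) (fun j => ?_) j
  · rw [oneX_left, oneX_left, Matrix.one_apply, Matrix.one_apply]
    split_ifs
    · exact (map_one φ).symm
    · exact (map_zero φ).symm
  · rw [oneX_right, oneX_right, Matrix.of_apply, Matrix.of_apply, xi_map]

theorem Up_map (φ : S →+* T) (I : DIn n S) (e : ℕ) : (I.map φ).Up e = (I.Up e).map φ := by
  ext i j
  rw [Matrix.map_apply, Up, Up, Matrix.of_apply, Matrix.of_apply]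
  refine Fin.addCases (fun i => ?_) (fun i => ?_) i
  · rw [Fin.append_left, Fin.append_left, Lc_map', Uc_map', ← adjugate_map, Matrix.sub_apply,
      Matrix.sub_apply, map_sub]
    rfl
  · rw [Fin.append_right, Fin.append_right, w_map]

theorem out_map (φ : S →+* T) (I : DIn n S) (e : ℕ) : (I.map φ).out e = (I.out e).map φ := by
  rw [out, out, dX_map, Matrix.map_mul, Up_map, Xi_map]
  rfl

theorem ok_map (φ : S →+* T) {I : DIn n S} (h : I.Ok) : (I.map φ).Ok := by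
  refine ⟨fun k i => ?_, fun k => ?_, fun k => ?_⟩
  · have h1 := congrArg φ (h.v k i)
    rw [map_mul, map_one] at h1
    exact h1
  · have h1 := congrArg φ (h.dv k)
    rw [map_mul, map_one, RingHom.map_det] at h1
    rw [Lc_map']
    exact h1
  · have h1 := congrArg φ (h.ka k)
    rw [map_mul, map_one, map_prod] at h1
    exact h1

/-! ### The identities -/

theorem Y_diag {I : DIn n S} (h : I.Ok) (k : ℕ) (i : Fin n) : I.Y (k + 1) i i = I.p k i := by
  rw [Y_succ, dX_diag, vecMulVec_apply, y, one_mul]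
  have h1 := h.v k i
  calc 1 + I.v k i * ((I.p k i - 1) * I.vi k i) = 1 + (I.p k i - 1) * (I.v k i * I.vi k i) := by
        ring
    _ = _ := by rw [h1]; ring

/-- The vector of the reflection in the cell. -/
def v' (I : DIn n S) (k : ℕ) : Fin n → S := uU (I.Y (k + 1)) *ᵥ I.v k

theorem zZ_Y (I : DIn n S) (k : ℕ) :
    zZ (I.Y (k + 1)) = 1 + vecMulVec (I.v' k) (I.y k) := by
  rw [Y_succ, zZ_dX, one_smul, v', Y_succ, uU_dX, Matrix.mul_vecMulVec]

theorem y_v' {I : DIn n S} (h : I.Ok) (k : ℕ) : 1 + I.y k ⬝ᵥ I.v' k = ∏ i, I.p k i := by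
  have h1 := prod_refl (Matrix.of fun (_ : Fin 1) i => I.y k i)
    (Matrix.of fun i (_ : Fin 1) => I.v k i)
  have h2 : (Matrix.of fun i (_ : Fin 1) => I.v k i) * (Matrix.of fun (_ : Fin 1) i => I.y k i) =
      vecMulVec (I.v k) (I.y k) := by
    ext i j
    rw [Matrix.mul_apply, Fin.sum_univ_one, vecMulVec_apply]
    rfl
  have h3 := congrFun (congrFun h1 0) 0
  rw [h2, Matrix.add_apply, Matrix.one_apply_eq, Matrix.mul_apply] at h3
  have h4 : ∑ j, (Matrix.of fun (_ : Fin 1) i => I.y k i) 0 j *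
      (dU (vecMulVec (I.v k) (I.y k)) * (Matrix.of fun i (_ : Fin 1) => I.v k i)) j 0 =
      I.y k ⬝ᵥ I.v' k := by
    rw [dotProduct, v', Y_succ, uU_dX]
    rfl
  rw [h4] at h3
  rw [← h3]
  have h5 : ∀ l : List (Mat 1 S), l.prod 0 0 = (l.map fun M => M 0 0).prod := by
    intro l
    induction l with
    | nil => simp
    | cons a l ih =>
      rw [List.prod_cons, List.map_cons, List.prod_cons, Matrix.mul_apply, Fin.sum_univ_one, ih]
  rw [h5, List.map_ofFn, List.prod_ofFn]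
  refine Finset.prod_congr rfl fun i _ => ?_
  simp only [Function.comp_apply, Matrix.add_apply, Matrix.one_apply_eq, vecMulVec_apply,
    Matrix.of_apply]
  have h6 := h.v k i
  rw [y]
  calc 1 + (I.p k i - 1) * I.vi k i * I.v k i = 1 + (I.p k i - 1) * (I.v k i * I.vi k i) := by
        ring
    _ = _ := by rw [h6]; ring

theorem Lc_xi {I : DIn n S} (h : I.Ok) (k : ℕ) : Lc I.Y (k + 1) *ᵥ I.xi k = I.v' k := by
  rw [xi, Matrix.mulVec_smul, Matrix.mulVec_mulVec, Matrix.mul_adjugate, Matrix.smul_mulVec,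
    Matrix.one_mulVec, smul_smul, h.dv, one_smul, v']

/-- The reflections in the chain. -/
def R (I : DIn n S) (k : ℕ) : Mat n S := 1 + vecMulVec (I.xi k) (I.w k)

theorem R_rel {I : DIn n S} (h : I.Ok) (k : ℕ) :
    zZ (I.Y (k + 1)) * Lc I.Y (k + 1) * I.R k = Lc I.Y (k + 1) := by
  have h1 : Lc I.Y (k + 1) * I.R k = (1 - I.ka k • vecMulVec (I.v' k) (I.y k)) *
      Lc I.Y (k + 1) := by
    rw [R, Matrix.mul_add, Matrix.mul_one, Matrix.mul_vecMulVec, Lc_xi h, w, Matrix.sub_mul,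
      Matrix.one_mul, Matrix.smul_mul, Matrix.vecMulVec_mul, Matrix.vecMulVec_smul, neg_smul,
      ← sub_eq_add_neg]
  rw [Matrix.mul_assoc, h1, ← Matrix.mul_assoc, zZ_Y]
  have h2 : vecMulVec (I.v' k) (I.y k) * vecMulVec (I.v' k) (I.y k) =
      (I.y k ⬝ᵥ I.v' k) • vecMulVec (I.v' k) (I.y k) := by
    rw [Matrix.vecMulVec_mul_vecMulVec, Matrix.vecMulVec_smul]
  have h3 : (1 + vecMulVec (I.v' k) (I.y k)) * (1 - I.ka k • vecMulVec (I.v' k) (I.y k)) =
      1 + (1 - I.ka k * (1 + I.y k ⬝ᵥ I.v' k)) • vecMulVec (I.v' k) (I.y k) := by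
    rw [Matrix.mul_sub, Matrix.mul_one, Matrix.add_mul, Matrix.one_mul, Matrix.mul_smul, h2]
    module
  rw [h3, y_v' h, h.ka, sub_self, zero_smul, add_zero, Matrix.one_mul]

theorem chain_rel {I : DIn n S} (h : I.Ok) (k : ℕ) :
    Uc I.Y (k + 2) * Lc I.Y (k + 2) * I.R k = Uc I.Y (k + 1) * Lc I.Y (k + 1) := by
  rw [Uc_succ I.Y (k + 1), Lc_succ I.Y (k + 1)]
  calc Uc I.Y (k + 1) * uU (I.Y (k + 1)) * (lL (I.Y (k + 1)) * Lc I.Y (k + 1)) * I.R k
      = Uc I.Y (k + 1) * (zZ (I.Y (k + 1)) * Lc I.Y (k + 1) * I.R k) := by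
        rw [zZ]
        simp only [Matrix.mul_assoc]
    _ = _ := by rw [R_rel h]

theorem chain_prod {I : DIn n S} (h : I.Ok) (e : ℕ) :
    Uc I.Y (e + 1) * Lc I.Y (e + 1) * (List.ofFn fun j : Fin e => I.R (e - 1 - j)).prod =
      zZ I.W := by
  induction e with
  | zero =>
    rw [List.ofFn_zero, List.prod_nil, Matrix.mul_one, Uc_succ, Lc_succ, Uc_zero, Lc_zero,
      Matrix.one_mul, Matrix.mul_one, Y_zero, zZ]
  | succ e ih =>
    rw [List.ofFn_succ, List.prod_cons, ← Matrix.mul_assoc]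
    have h1 : e + 1 - 1 - ((0 : Fin (e + 1)) : ℕ) = e := by simp
    rw [h1, chain_rel h, ← ih]
    congr 2
    refine congrArg List.ofFn (funext fun j => ?_)
    congr 1
    simp only [Fin.val_succ]
    omega

theorem first_prod (I : DIn n S) (e : ℕ) :
    1 + (1 : Mat n S) * (dU ((Lc I.Y (e + 1) - (Uc I.Y (e + 1)).adjugate) * 1) *
      (Lc I.Y (e + 1) - (Uc I.Y (e + 1)).adjugate)) = Uc I.Y (e + 1) * Lc I.Y (e + 1) := by
  obtain ⟨X, hX1, hX2, -⟩ := exists_coord (Uc I.Y (e + 1)) (Lc I.Y (e + 1)) (upT_Uc _ _)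
    (Uc_diag _ _) (loT_Lc _ _)
  have hV : (Uc I.Y (e + 1)).adjugate * uU X = 1 := by
    rw [hX1, Matrix.adjugate_mul, det_Uc, one_smul]
  have hV' : Uc I.Y (e + 1) * (Uc I.Y (e + 1)).adjugate = 1 := by
    rw [Matrix.mul_adjugate, det_Uc, one_smul]
  have h1 := eq_dX (one_mul (1 : S)) X _ hV
  rw [one_smul, hX2] at h1
  have h2 : dU (Lc I.Y (e + 1) - (Uc I.Y (e + 1)).adjugate) = Uc I.Y (e + 1) := by
    rw [← uU_dX 1, ← h1, hX1]
  rw [Matrix.mul_one, h2, Matrix.one_mul, Matrix.mul_sub, hV']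
  abel

theorem Up_left (I : DIn n S) (e : ℕ) (i : Fin n) : I.Up e (Fin.castAdd e i) =
    (Lc I.Y (e + 1) - (Uc I.Y (e + 1)).adjugate) i := by
  funext a
  rw [Up, Matrix.of_apply, Fin.append_left]

theorem Up_right (I : DIn n S) (e : ℕ) (j : Fin e) : I.Up e (Fin.natAdd n j) =
    I.w (e - 1 - j) := by
  funext a
  rw [Up, Matrix.of_apply, Fin.append_right]

theorem total_prod {I : DIn n S} (h : I.Ok) (e : ℕ) :
    1 + I.Xi e * (dU (I.Up e * I.Xi e) * I.Up e) = zZ I.W := by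
  rw [← prod_refl, ← chain_prod h e, ← first_prod, ← prod_refl]
  have h1 : (fun i => 1 + vecMulVec (fun a => I.Xi e a i) (I.Up e i)) = Fin.append
      (fun i : Fin n => 1 + vecMulVec (fun a => (1 : Mat n S) a i)
        ((Lc I.Y (e + 1) - (Uc I.Y (e + 1)).adjugate) i)) fun j : Fin e => I.R (e - 1 - j) := by
    funext i
    refine Fin.addCases (fun i => ?_) (fun i => ?_) i
    · rw [Fin.append_left, Up_left]
      congr 2
      funext a
      rw [Xi, oneX_left]
    · rw [Fin.append_right, Up_right, R]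
      congr 2
      funext a
      rw [Xi, oneX_right]
      rfl
  rw [h1, List.ofFn_fin_append, List.prod_append]

theorem out_left {I : DIn n S} (h : I.Ok) (e : ℕ) (i : Fin n) :
    I.out e (Fin.castAdd e i) (Fin.castAdd e i) = I.z * (I.W i i *
      ∏ k ∈ Finset.range e, I.p k i) := by
  rw [out, dX_diag, Matrix.mul_apply]
  have h1 : ∑ j, I.Up e (Fin.castAdd e i) j * I.Xi e j (Fin.castAdd e i) =
      (Lc I.Y (e + 1) - (Uc I.Y (e + 1)).adjugate) i i := by
    have h2 : ∀ j, I.Xi e j (Fin.castAdd e i) = (1 : Mat n S) j i := fun j => by rw [Xi, oneX_left]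
    simp only [h2]
    rw [← Matrix.mul_apply, Matrix.mul_one, Up, Matrix.of_apply, Fin.append_left]
  rw [h1, Matrix.sub_apply]
  have h3 : (Uc I.Y (e + 1)).adjugate i i = 1 := by
    refine (inv_upT (upT_Uc I.Y (e + 1)) (Uc_diag _ _) ?_).2 i
    rw [Matrix.adjugate_mul, det_Uc, one_smul]
  rw [h3, Lc_diag, Finset.prod_range_succ']
  have h4 : ∏ k ∈ Finset.range e, I.Y (k + 1) i i = ∏ k ∈ Finset.range e, I.p k i :=
    Finset.prod_congr rfl fun k _ => Y_diag h k i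
  rw [h4, Y_zero]
  ring

theorem out_right {I : DIn n S} (h : I.Ok) (e : ℕ) (j : Fin e) :
    I.out e (Fin.natAdd n j) (Fin.natAdd n j) = I.z * I.ka (e - 1 - j) := by
  rw [out, dX_diag, Matrix.mul_apply]
  obtain ⟨k, hk⟩ : ∃ k, k = e - 1 - (j : ℕ) := ⟨_, rfl⟩
  have h1 : ∑ a, I.Up e (Fin.natAdd n j) a * I.Xi e a (Fin.natAdd n j) = I.w k ⬝ᵥ I.xi k := by
    rw [dotProduct]
    refine Finset.sum_congr rfl fun a _ => ?_
    rw [Xi, oneX_right, Up, Matrix.of_apply, Fin.append_right, Matrix.of_apply, hk]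
  have h2 : I.w k ⬝ᵥ I.xi k = -(I.ka k) * (I.y k ⬝ᵥ I.v' k) := by
    rw [w, smul_dotProduct, ← Matrix.dotProduct_mulVec, Lc_xi h, smul_eq_mul]
  have h3 := y_v' h k
  have h4 := h.ka k
  rw [h1, h2, ← hk]
  congr 1
  calc 1 + -I.ka k * (I.y k ⬝ᵥ I.v' k) = 1 + I.ka k - I.ka k * (1 + I.y k ⬝ᵥ I.v' k) := by ring
    _ = _ := by rw [h3, h4]; ring

end DIn

end Vale.Agent.P002R
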