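import Vale.Agent.P002R.Dual3

/-!
# P002: generic position for dual tuples
-/

namespace Vale.Agent.P002R

open Matrix

/-- The first columns. -/
def dB {n e : ℕ} (Ξ : Matrix (Fin n) (Fin (n + e)) ℂ) : Mat n ℂ :=
  Matrix.of fun i j => Ξ i (Fin.castAdd e j)

/-- Generic position of a dual tuple. -/
structure DGood {n e : ℕ} (Ξ : Matrix (Fin n) (Fin (n + e)) ℂ)
    (Υ : Matrix (Fin (n + e)) (Fin n) ℂ) : Prop where
  basis : (dB Ξ).det ≠ 0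
  cell : ∀ l : Fin e, ∃ X : Mat n ℂ, (∀ i, X i i ≠ 0) ∧
    dB Ξ * zZ X = ((List.ofFn (dR Ξ Υ)).take (n + l + 1)).prod * dB Ξ ∧
    ∀ i, (lL X *ᵥ ((dB Ξ)⁻¹ *ᵥ fun a => Ξ a (Fin.natAdd n l))) i ≠ 0

/-- The claim on generic position: near every irreducible dual tuple there is one in generic
position, with the same determinants of the reflections and with the product in the same class. -/
def DNear (n e : ℕ) : Prop :=
  ∀ (Ξ : Matrix (Fin n) (Fin (n + e)) ℂ) (Υ : Matrix (Fin (n + e)) (Fin n) ℂ),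
    (∀ i, (fun a => Ξ a i) ≠ 0) → (∀ i, Υ i ≠ 0) →
    (∀ i, 1 + Υ i ⬝ᵥ (fun a => Ξ a i) ≠ 0) →
    (∀ H : Submodule ℂ (Fin n → ℂ), (∀ i, ∀ x ∈ H, dR Ξ Υ i *ᵥ x ∈ H) → H = ⊥ ∨ H = ⊤) →
    ∀ N ∈ nhds (Ξ, Υ), ∃ z ∈ N, DGood z.1 z.2 ∧
      (∀ i, z.2 i ⬝ᵥ (fun a => z.1 a i) = Υ i ⬝ᵥ (fun a => Ξ a i)) ∧
      P002G.Cj (List.ofFn (dR Ξ Υ)).prod (List.ofFn (dR z.1 z.2)).prod

end Vale.Agent.P002R
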