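import Vale.Agent.P002R.Dual4
import Vale.Agent.P002R.DualGood

/-!
# P002: duality, the parameters of a dual tuple in generic position
-/

namespace Vale.Agent.P002R

open Matrix

variable {n e : ℕ}

theorem dX_diag_top (A : Mat n ℂ) : zZ (dX 1 A) = 1 + dU A * A := by
  rw [zZ_dX, one_smul]

/-- The first reflections, for the standard basis. -/
theorem take_first (x : Matrix (Fin n) (Fin e) ℂ) (Υ : Matrix (Fin (n + e)) (Fin n) ℂ) :
    ((List.ofFn (dR (oneX x) Υ)).take n).prod =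
      zZ (dX 1 (Matrix.of fun i j => Υ (Fin.castAdd e i) j)) := by
  obtain ⟨A, hA⟩ : ∃ A : Mat n ℂ, A = Matrix.of fun i j => Υ (Fin.castAdd e i) j := ⟨_, rfl⟩
  have h1 : List.ofFn (dR (oneX x) Υ) = List.ofFn (fun i : Fin n => dR (oneX x) Υ (Fin.castAdd e i))
      ++ List.ofFn (fun j : Fin e => dR (oneX x) Υ (Fin.natAdd n j)) := by
    rw [← List.ofFn_fin_append]
    congr 1
    funext i
    refine Fin.addCases (fun i => ?_) (fun i => ?_) i
    · rw [Fin.append_left]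
    · rw [Fin.append_right]
  rw [h1, List.take_left' (List.length_ofFn)]
  have h2 : (fun i : Fin n => dR (oneX x) Υ (Fin.castAdd e i)) = fun i : Fin n =>
      1 + vecMulVec (fun a => (1 : Mat n ℂ) a i) (A i) := by
    funext i
    rw [dR]
    congr 2
    · funext a
      rw [oneX_left]
    · rw [hA]
      rfl
  rw [h2, prod_refl, Matrix.mul_one, Matrix.one_mul, ← hA, zZ_dX, one_smul]

theorem take_succ_prod {r : ℕ} (f : Fin r → Mat n ℂ) (k : Fin r) :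
    ((List.ofFn f).take (k + 1)).prod = ((List.ofFn f).take k).prod * f k := by
  rw [List.prod_take_succ _ _ (by rw [List.length_ofFn]; exact k.2)]
  congr 1
  rw [List.getElem_ofFn]

/-- One step of the chain. -/
theorem dual_step (X X' : Mat n ℂ) (ξ υ : Fin n → ℂ) (hX : ∀ i, X i i ≠ 0)
    (hX' : ∀ i, X' i i ≠ 0) (hκ : 1 + υ ⬝ᵥ ξ ≠ 0) (h : zZ X' = zZ X * (1 + vecMulVec ξ υ))
    (hv : ∀ i, (lL X' *ᵥ ξ) i ≠ 0) :
    ∃ (v y : Fin n → ℂ), (∀ i, v i ≠ 0) ∧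
      lL (dX 1 (vecMulVec v y)) * lL X' = lL X ∧ uU X' * uU (dX 1 (vecMulVec v y)) = uU X ∧
      uU (dX 1 (vecMulVec v y)) *ᵥ v = lL X' *ᵥ ξ ∧
      -(1 + υ ⬝ᵥ ξ) • (y ᵥ* lL X') = υ ∧ (∀ i, 1 + v i * y i ≠ 0) ∧
      (1 + υ ⬝ᵥ ξ) * ∏ i, (1 + v i * y i) = 1 := by
  have hLd : IsUnit (lL X).det := by
    rw [det_lL, isUnit_iff_ne_zero, Finset.prod_ne_zero_iff]
    exact fun i _ => hX i
  have hLd' : IsUnit (lL X').det := by
    rw [det_lL, isUnit_iff_ne_zero, Finset.prod_ne_zero_iff]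
    exact fun i _ => hX' i
  have hUd' : IsUnit (uU X').det := by rw [det_uU]; exact isUnit_one
  obtain ⟨κ, hκd⟩ : ∃ κ, κ = 1 + υ ⬝ᵥ ξ := ⟨_, rfl⟩
  rw [← hκd] at hκ
  obtain ⟨Ui, hUi⟩ : ∃ Ui, Ui = (uU X')⁻¹ := ⟨_, rfl⟩
  obtain ⟨Li, hLi⟩ : ∃ Li, Li = (lL X')⁻¹ := ⟨_, rfl⟩
  have hUU : uU X' * Ui = 1 := by rw [hUi, Matrix.mul_nonsing_inv _ hUd']
  have hUU' : Ui * uU X' = 1 := by rw [hUi, Matrix.nonsing_inv_mul _ hUd']
  have hLL : lL X' * Li = 1 := by rw [hLi, Matrix.mul_nonsing_inv _ hLd']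
  have hLL' : Li * lL X' = 1 := by rw [hLi, Matrix.nonsing_inv_mul _ hLd']
  obtain ⟨hUi1, hUi2⟩ := inv_upT (upT_uU X') (uU_diag X') hUU'
  have hLi1 : LoT Li := by
    rw [hLi]
    exact (loT_lL X').inv fun i => by rw [lL_diag]; exact hX' i
  obtain ⟨Y, hY1, hY2, -⟩ := exists_coord (Ui * uU X) (lL X * Li) (hUi1.mul (upT_uU X))
    (fun i => by rw [hUi1.mul_diag (upT_uU X), hUi2, uU_diag, one_mul]) ((loT_lL X).mul hLi1)
  -- the reflection
  have hR : (1 + vecMulVec ξ υ) * (1 - κ⁻¹ • vecMulVec ξ υ) = 1 := by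
    have h2 : vecMulVec ξ υ * vecMulVec ξ υ = (υ ⬝ᵥ ξ) • vecMulVec ξ υ := by
      rw [Matrix.vecMulVec_mul_vecMulVec, Matrix.vecMulVec_smul]
    have h3 : υ ⬝ᵥ ξ = κ - 1 := by rw [hκd]; ring
    rw [Matrix.mul_sub, Matrix.mul_one, Matrix.add_mul, Matrix.one_mul, Matrix.mul_smul, h2, h3]
    have h4 : (1 : ℂ) - (κ⁻¹ + κ⁻¹ * (κ - 1)) = 0 := by field_simp; ring
    have h5 : 1 + vecMulVec ξ υ - (κ⁻¹ • vecMulVec ξ υ + κ⁻¹ • (κ - 1) • vecMulVec ξ υ) =
        1 + ((1 : ℂ) - (κ⁻¹ + κ⁻¹ * (κ - 1))) • vecMulVec ξ υ := by module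
    rw [h5, h4, zero_smul, add_zero]
  have hZX : zZ X = uU X' * lL X' * (1 - κ⁻¹ • vecMulVec ξ υ) := by
    have h2 : zZ X' * (1 - κ⁻¹ • vecMulVec ξ υ) = zZ X := by
      rw [h, Matrix.mul_assoc, hR, Matrix.mul_one]
    rw [← h2, zZ]
  obtain ⟨v', hv'⟩ : ∃ v', v' = lL X' *ᵥ ξ := ⟨_, rfl⟩
  obtain ⟨y, hy⟩ : ∃ y : Fin n → ℂ, y = -κ⁻¹ • (υ ᵥ* Li) := ⟨_, rfl⟩
  have hZY : zZ Y = 1 + vecMulVec v' y := by
    rw [zZ, hY1, hY2]
    calc Ui * uU X * (lL X * Li) = Ui * zZ X * Li := by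
          rw [zZ]; simp only [Matrix.mul_assoc]
      _ = (Ui * uU X') * (lL X' * (1 - κ⁻¹ • vecMulVec ξ υ)) * Li := by
          rw [hZX]; simp only [Matrix.mul_assoc]
      _ = _ := by
          rw [hUU', Matrix.one_mul, Matrix.mul_sub, Matrix.mul_one, Matrix.sub_mul, hLL,
            Matrix.mul_smul, Matrix.mul_vecMulVec, Matrix.smul_mul, Matrix.vecMulVec_mul, hy, hv',
            Matrix.vecMulVec_smul, neg_smul, ← sub_eq_add_neg]
  obtain ⟨V, hV⟩ : ∃ V, V = (uU Y)⁻¹ := ⟨_, rfl⟩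
  have hVU : V * uU Y = 1 := by
    rw [hV, Matrix.nonsing_inv_mul _ (by rw [det_uU]; exact isUnit_one)]
  have hVU' : uU Y * V = 1 := by
    rw [hV, Matrix.mul_nonsing_inv _ (by rw [det_uU]; exact isUnit_one)]
  obtain ⟨v, hvd⟩ : ∃ v, v = V *ᵥ v' := ⟨_, rfl⟩
  have hYd : Y = dX 1 (vecMulVec v y) := by
    have h2 := eq_dX (one_mul (1 : ℂ)) Y V hVU
    have h3 : (1 : ℂ) • lL Y - V = vecMulVec v y := by
      rw [hvd, ← Matrix.mul_vecMulVec]
      have h4 : vecMulVec v' y = zZ Y - 1 := by rw [hZY, add_sub_cancel_left]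
      rw [h4, Matrix.mul_sub, Matrix.mul_one, zZ, ← Matrix.mul_assoc, hVU, Matrix.one_mul, one_smul]
    rw [h3] at h2
    exact h2
  have hUv : uU Y *ᵥ v = v' := by rw [hvd, Matrix.mulVec_mulVec, hVU', Matrix.one_mulVec]
  have hv0 : ∀ i, v i ≠ 0 := by
    intro i hi
    have h2 := dV_eq (Matrix.of fun (_ : Fin 1) i => y i) (Matrix.of fun i (_ : Fin 1) => v i)
    have h3 : (Matrix.of fun i (_ : Fin 1) => v i) * (Matrix.of fun (_ : Fin 1) i => y i) =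
        vecMulVec v y := by
      ext i j
      rw [Matrix.mul_apply, Fin.sum_univ_one, vecMulVec_apply]
      rfl
    rw [h3] at h2
    have h4 := congrFun (congrFun h2 i) 0
    have h5 : (dU (vecMulVec v y) * (Matrix.of fun i (_ : Fin 1) => v i)) i 0 = v' i := by
      rw [← hUv, hYd, uU_dX]
      rfl
    have h6 : upS (vecMulVec v y) i = 0 := by
      funext j
      rw [upS_apply, vecMulVec_apply, hi, zero_mul, ite_self]
      rfl
    have h7 : (upS (vecMulVec v y) * (dU (vecMulVec v y) *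
        (Matrix.of fun i (_ : Fin 1) => v i))) i 0 = 0 := by
      rw [Matrix.mul_apply, h6]
      simp
    rw [h5, Matrix.add_apply, h7, add_zero, Matrix.of_apply, hi] at h4
    exact hv i (by rw [← hv']; exact h4)
  have hYdiag : ∀ i, Y i i = 1 + v i * y i := fun i => by
    rw [hYd, dX_diag, vecMulVec_apply, one_mul]
  have hYne : ∀ i, Y i i ≠ 0 := by
    intro i
    have h2 : lL Y i i = lL X i i * Li i i := by
      rw [hY2, (loT_lL X).mul_diag hLi1]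
    rw [lL_diag, lL_diag] at h2
    rw [h2]
    refine mul_ne_zero (hX i) ?_
    rw [hLi, (loT_lL X').inv_diag (fun i => by rw [lL_diag]; exact hX' i), lL_diag]
    exact inv_ne_zero (hX' i)
  refine ⟨v, y, hv0, ?_, ?_, ?_, ?_, fun i => ?_, ?_⟩
  · rw [← hYd, hY2, Matrix.mul_assoc, hLL', Matrix.mul_one]
  · rw [← hYd, hY1, ← Matrix.mul_assoc, hUU, Matrix.one_mul]
  · rw [← hYd, hUv, hv']
  · rw [← hκd, hy, Matrix.smul_vecMul, Matrix.vecMul_vecMul, hLL', Matrix.vecMul_one, smul_smul]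
    have h2 : -κ * -κ⁻¹ = 1 := by field_simp
    rw [h2, one_smul]
  · rw [← hYdiag]
    exact hYne i
  · have h2 : (zZ Y).det = ∏ i, (1 + v i * y i) := by
      rw [det_zZ]
      exact Finset.prod_congr rfl fun i _ => hYdiag i
    have h3 := congrArg Matrix.det hR
    rw [Matrix.det_mul, Matrix.det_one] at h3
    have h4 : (1 + vecMulVec ξ υ).det = κ := by
      rw [Matrix.vecMulVec_eq Unit, Matrix.det_one_add_replicateCol_mul_replicateRow, hκd]
    have h5 : (zZ Y).det = (1 - κ⁻¹ • vecMulVec ξ υ).det := by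
      have h6 : zZ Y = lL X' * (1 - κ⁻¹ • vecMulVec ξ υ) * Li := by
        rw [hZY, Matrix.mul_sub, Matrix.mul_one, Matrix.sub_mul, hLL,
            Matrix.mul_smul, Matrix.mul_vecMulVec, Matrix.smul_mul, Matrix.vecMulVec_mul, hy, hv',
            Matrix.vecMulVec_smul, neg_smul, ← sub_eq_add_neg]
      have h7 : (lL X').det * Li.det = 1 := by rw [← Matrix.det_mul, hLL, Matrix.det_one]
      rw [h6, Matrix.det_mul, Matrix.det_mul, mul_comm (lL X').det, mul_assoc, h7, mul_one]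
    rw [h4] at h3
    rw [← h2, h5, ← hκd]
    exact h3

end Vale.Agent.P002R
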