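import Vale.Agent.P002R.Dual5

/-!
# P002: duality, every dual tuple in generic position is in the chart
-/

namespace Vale.Agent.P002R

open Matrix

variable {n e : ℕ}

theorem exists_params_aux (ζ : ℂ) (x : Matrix (Fin n) (Fin e) ℂ)
    (Υ : Matrix (Fin (n + e)) (Fin n) ℂ) (X : ℕ → Mat n ℂ)
    (hX0 : X 0 = dX 1 (Matrix.of fun i j => Υ (Fin.castAdd e i) j))
    (hXd : ∀ l ≤ e, ∀ i, X l i i ≠ 0)
    (hκ : ∀ l : Fin e, 1 + Υ (Fin.natAdd n l) ⬝ᵥ (fun a => x a l) ≠ 0)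
    (hX : ∀ l : Fin e, zZ (X (l + 1)) = zZ (X l) *
      (1 + vecMulVec (fun a => x a l) (Υ (Fin.natAdd n l))))
    (hv : ∀ l : Fin e, ∀ i, (lL (X (l + 1)) *ᵥ fun a => x a l) i ≠ 0) :
    ∃ I : DIn n ℂ, I.z = ζ ∧ I.Ok ∧ I.Xi e = oneX x ∧ I.Up e = Υ ∧ (∀ i, I.W i i ≠ 0) ∧
      (∀ k i, I.v k i ≠ 0) ∧ (∀ k i, I.p k i ≠ 0) ∧ (∀ k, e ≤ k → I.v k = 1) ∧
      (∀ k, e ≤ k → I.p k = 1) ∧ (∀ k, e ≤ k → I.ka k = 1) ∧
      (∀ k i, I.vi k i = (I.v k i)⁻¹) ∧ ∀ k, I.dv k = ((Lc I.Y (k + 1)).det)⁻¹ := by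
  have hstep := fun l : Fin e => dual_step (X l) (X (l + 1)) (fun a => x a l)
    (Υ (Fin.natAdd n l)) (hXd l l.2.le) (hXd (l + 1) l.2) (hκ l) (hX l) (hv l)
  choose v y h1 h2 h3 h4 h5 h6 h7 using hstep
  obtain ⟨vv, hvv⟩ : ∃ vv : ℕ → Fin n → ℂ, vv = fun k => if h : k < e then
    v ⟨e - 1 - k, by omega⟩ else 1 := ⟨_, rfl⟩
  obtain ⟨pp, hpp⟩ : ∃ pp : ℕ → Fin n → ℂ, pp = fun k => if h : k < e then
    (fun i => 1 + v ⟨e - 1 - k, by omega⟩ i * y ⟨e - 1 - k, by omega⟩ i) else 1 := ⟨_, rfl⟩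
  obtain ⟨kk, hkk⟩ : ∃ kk : ℕ → ℂ, kk = fun k => if h : k < e then
    1 + Υ (Fin.natAdd n ⟨e - 1 - k, by omega⟩) ⬝ᵥ (fun a => x a ⟨e - 1 - k, by omega⟩) else 1 :=
    ⟨_, rfl⟩
  obtain ⟨I0, hI0⟩ : ∃ I0 : DIn n ℂ, I0 = ⟨ζ, X e, vv, fun k i => (vv k i)⁻¹, pp, fun _ => 0, kk⟩ :=
    ⟨_, rfl⟩
  obtain ⟨I, hI⟩ : ∃ I : DIn n ℂ, I = ⟨ζ, X e, vv, fun k i => (vv k i)⁻¹, pp,
    fun k => ((Lc I0.Y (k + 1)).det)⁻¹, kk⟩ := ⟨_, rfl⟩
  have hIz : I.z = ζ := by rw [hI]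
  have hIW : I.W = X e := by rw [hI]
  have hIv : I.v = vv := by rw [hI]
  have hIvi : I.vi = fun k i => (vv k i)⁻¹ := by rw [hI]
  have hIp : I.p = pp := by rw [hI]
  have hIka : I.ka = kk := by rw [hI]
  have hYY : I.Y = I0.Y := by
    funext k
    cases k with
    | zero => rw [DIn.Y_zero, DIn.Y_zero, hI, hI0]
    | succ k =>
      rw [DIn.Y_succ, DIn.Y_succ, hI, hI0]
      rfl
  have hIdv : I.dv = fun k => ((Lc I.Y (k + 1)).det)⁻¹ := by rw [hYY, hI]
  have hvv0 : ∀ k i, vv k i ≠ 0 := by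
    intro k i
    rw [hvv]
    simp only
    split_ifs
    · exact h1 _ i
    · exact one_ne_zero
  have hpp0 : ∀ k i, pp k i ≠ 0 := by
    intro k i
    rw [hpp]
    simp only
    split_ifs
    · exact h6 _ i
    · exact one_ne_zero
  have hyI : ∀ k (hk : k < e), I.y k = y ⟨e - 1 - k, by omega⟩ := by
    intro k hk
    funext i
    rw [DIn.y, hIp, hIvi, hpp, hvv]
    simp only [dif_pos hk]
    have := h1 ⟨e - 1 - k, by omega⟩ i
    field_simp
    ring
  have hyI' : ∀ k, e ≤ k → I.y k = 0 := by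
    intro k hk
    funext i
    rw [DIn.y, hIp, hpp]
    simp only [dif_neg (not_lt.2 hk)]
    rw [Pi.one_apply, sub_self, zero_mul, Pi.zero_apply]
  have hvI : ∀ k (hk : k < e), I.v k = v ⟨e - 1 - k, by omega⟩ := by
    intro k hk
    rw [hIv, hvv]
    simp only [dif_pos hk]
  have hYI : ∀ k (hk : k < e), I.Y (k + 1) = dX 1 (vecMulVec (v ⟨e - 1 - k, by omega⟩)
      (y ⟨e - 1 - k, by omega⟩)) := by
    intro k hk
    rw [DIn.Y_succ, hyI k hk, hvI k hk]
  have hchain : ∀ k ≤ e, Lc I.Y (k + 1) = lL (X (e - k)) ∧ Uc I.Y (k + 1) = uU (X (e - k)) := by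
    intro k
    induction k with
    | zero =>
      intro _
      rw [Lc_succ, Uc_succ, Lc_zero, Uc_zero, Matrix.mul_one, Matrix.one_mul, DIn.Y_zero, hIW]
      exact ⟨rfl, rfl⟩
    | succ k ih =>
      intro hk
      obtain ⟨ih1, ih2⟩ := ih (by omega)
      have h8 : e - (k + 1) = e - 1 - k := by omega
      have h9 : e - k = e - 1 - k + 1 := by omega
      rw [Lc_succ, Uc_succ, ih1, ih2, hYI k (by omega), h8, h9]
      exact ⟨h2 ⟨e - 1 - k, by omega⟩, h3 ⟨e - 1 - k, by omega⟩⟩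
  have hYd : ∀ k i, I.Y (k + 1) i i = pp k i := by
    intro k i
    rw [DIn.Y_succ, dX_diag, vecMulVec_apply, one_mul, DIn.y, hIp, hIvi, hIv]
    have := hvv0 k i
    simp only
    field_simp
    ring
  have hdet : ∀ k, (Lc I.Y (k + 1)).det ≠ 0 := by
    intro k
    rw [det_Lc, Finset.prod_ne_zero_iff]
    intro i _
    rw [Finset.prod_ne_zero_iff]
    intro l _
    cases l with
    | zero => rw [DIn.Y_zero, hIW]; exact hXd e le_rfl i
    | succ l => rw [hYd]; exact hpp0 l i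
  have hOk : I.Ok := by
    refine ⟨fun k i => ?_, fun k => ?_, fun k => ?_⟩
    · rw [hIv, hIvi]
      exact mul_inv_cancel₀ (hvv0 k i)
    · rw [hIdv]
      exact inv_mul_cancel₀ (hdet k)
    · rw [hIka, hIp, hkk, hpp]
      simp only
      split_ifs with hk
      · exact h7 _
      · simp
  have hxi : ∀ k (hk : k < e), I.xi k = fun a => x a ⟨e - 1 - k, by omega⟩ := by
    intro k hk
    have h8 : e - k = e - 1 - k + 1 := by omega
    have h9 := DIn.Lc_xi hOk k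
    rw [DIn.v', hvI k hk, hYI k hk, h4, ← h8, ← (hchain k hk.le).1] at h9
    have h10 : IsUnit (Lc I.Y (k + 1)).det := isUnit_iff_ne_zero.2 (hdet k)
    have h11 := congrArg (fun u => (Lc I.Y (k + 1))⁻¹ *ᵥ u) h9
    rw [Matrix.mulVec_mulVec, Matrix.mulVec_mulVec, Matrix.nonsing_inv_mul _ h10,
      Matrix.one_mulVec, Matrix.one_mulVec] at h11
    exact h11
  have hw : ∀ k (hk : k < e), I.w k = Υ (Fin.natAdd n ⟨e - 1 - k, by omega⟩) := by
    intro k hk
    have h8 : e - k = e - 1 - k + 1 := by omega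
    rw [DIn.w, hyI k hk, (hchain k hk.le).1, h8]
    have h9 : I.ka k = 1 + Υ (Fin.natAdd n ⟨e - 1 - k, by omega⟩) ⬝ᵥ
        (fun a => x a ⟨e - 1 - k, by omega⟩) := by
      rw [hIka, hkk]
      simp only [dif_pos hk]
    rw [h9]
    exact h5 ⟨e - 1 - k, by omega⟩
  refine ⟨I, hIz, hOk, ?_, ?_, ?_, ?_, ?_, ?_, ?_, ?_, ?_, ?_⟩
  · rw [DIn.Xi]
    congr 1
    ext i j
    rw [Matrix.of_apply, hxi (e - 1 - j) (by have := j.2; omega)]
    simp only
    congr 1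
    ext
    simp only
    have := j.2
    omega
  · funext i
    refine Fin.addCases (fun i => ?_) (fun j => ?_) i
    · rw [DIn.Up_left, (hchain e le_rfl).1, (hchain e le_rfl).2, Nat.sub_self, hX0, lL_dX, uU_dX]
      obtain ⟨A, hA⟩ : ∃ A : Mat n ℂ, A = Matrix.of fun i j => Υ (Fin.castAdd e i) j := ⟨_, rfl⟩
      rw [← hA, one_smul]
      have h8 : (dU A).adjugate = 1 - upS A := by
        have h9 : (dU A).det = 1 := by
          have h10 := congrArg Matrix.det (dU_mul A)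
          rw [Matrix.det_mul, det_one_sub_upS, mul_one, Matrix.det_one] at h10
          exact h10
        have h11 : (dU A).adjugate * dU A = 1 := by rw [Matrix.adjugate_mul, h9, one_smul]
        calc (dU A).adjugate = (dU A).adjugate * (dU A * (1 - upS A)) := by
              rw [dU_mul, Matrix.mul_one]
          _ = _ := by rw [← Matrix.mul_assoc, h11, Matrix.one_mul]
      have h12 : 1 + lL A - (1 - upS A) = A := by
        have := upS_add_lL A
        calc 1 + lL A - (1 - upS A) = upS A + lL A := by abel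
          _ = A := this
      rw [h8, h12, hA]
      rfl
    · rw [DIn.Up_right, hw (e - 1 - j) (by have := j.2; omega)]
      congr 2
      ext
      simp only
      have := j.2
      omega
  · rw [hIW]
    exact hXd e le_rfl
  · rw [hIv]
    exact hvv0
  · rw [hIp]
    exact hpp0
  · intro k hk
    rw [hIv, hvv]
    simp only [dif_neg (not_lt.2 hk)]
  · intro k hk
    rw [hIp, hpp]
    simp only [dif_neg (not_lt.2 hk)]
  · intro k hk
    rw [hIka, hkk]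
    simp only [dif_neg (not_lt.2 hk)]
  · intro k i
    rw [hIvi, hIv]
  · intro k
    rw [hIdv]

/-- Every dual tuple in generic position with first vectors the standard basis is in the chart. -/
theorem exists_params (ζ : ℂ) (x : Matrix (Fin n) (Fin e) ℂ)
    (Υ : Matrix (Fin (n + e)) (Fin n) ℂ)
    (hκ : ∀ i, 1 + Υ i ⬝ᵥ (fun a => oneX x a i) ≠ 0)
    (hcell : ∀ l : Fin e, ∃ X : Mat n ℂ, (∀ i, X i i ≠ 0) ∧
      zZ X = ((List.ofFn (dR (oneX x) Υ)).take (n + l + 1)).prod ∧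
      ∀ i, (lL X *ᵥ fun a => x a l) i ≠ 0) :
    ∃ I : DIn n ℂ, I.z = ζ ∧ I.Ok ∧ I.Xi e = oneX x ∧ I.Up e = Υ ∧ (∀ i, I.W i i ≠ 0) ∧
      (∀ k i, I.v k i ≠ 0) ∧ (∀ k i, I.p k i ≠ 0) ∧ (∀ k, e ≤ k → I.v k = 1) ∧
      (∀ k, e ≤ k → I.p k = 1) ∧ (∀ k, e ≤ k → I.ka k = 1) ∧
      (∀ k i, I.vi k i = (I.v k i)⁻¹) ∧ ∀ k, I.dv k = ((Lc I.Y (k + 1)).det)⁻¹ := by
  choose X h1 h2 h3 using hcell
  obtain ⟨A, hA⟩ : ∃ A : Mat n ℂ, A = Matrix.of fun i j => Υ (Fin.castAdd e i) j := ⟨_, rfl⟩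
  obtain ⟨XX, hXX⟩ : ∃ XX : ℕ → Mat n ℂ, XX = fun l => if h : 1 ≤ l ∧ l ≤ e then
    X ⟨l - 1, by omega⟩ else dX 1 A := ⟨_, rfl⟩
  have hXX0 : XX 0 = dX 1 A := by
    rw [hXX]
    simp only
    rw [dif_neg (by omega)]
  have hXXs : ∀ l : Fin e, XX (l + 1) = X l := by
    intro l
    rw [hXX]
    simp only
    rw [dif_pos ⟨by omega, l.2⟩]
    congr 1
  have hP : ∀ l ≤ e, zZ (XX l) = ((List.ofFn (dR (oneX x) Υ)).take (n + l)).prod := by
    intro l hl
    rcases Nat.eq_zero_or_pos l with h4 | h4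
    · rw [h4, hXX0, add_zero, take_first, hA]
    · obtain ⟨l', rfl⟩ : ∃ l', l = l' + 1 := ⟨l - 1, by omega⟩
      have h5 := hXXs ⟨l', hl⟩
      simp only at h5
      rw [h5, h2]
      rfl
  refine exists_params_aux ζ x Υ XX (by rw [hXX0, hA]) ?_ ?_ ?_ ?_
  · intro l hl i
    rcases Nat.eq_zero_or_pos l with h4 | h4
    · rw [h4, hXX0, dX_diag, one_mul, hA]
      have h5 := hκ (Fin.castAdd e i)
      have h6 : Υ (Fin.castAdd e i) ⬝ᵥ (fun a => oneX x a (Fin.castAdd e i)) =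
          Υ (Fin.castAdd e i) i := by
        simp only [oneX_left, dotProduct]
        rw [Finset.sum_eq_single i]
        · rw [Matrix.one_apply_eq, mul_one]
        · intro b _ hb
          rw [Matrix.one_apply_ne hb, mul_zero]
        · intro h
          exact absurd (Finset.mem_univ i) h
      rw [h6] at h5
      exact h5
    · obtain ⟨l', rfl⟩ : ∃ l', l = l' + 1 := ⟨l - 1, by omega⟩
      have h5 := hXXs ⟨l', hl⟩
      simp only at h5
      rw [h5]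
      exact h1 _ i
  · intro l
    have h5 := hκ (Fin.natAdd n l)
    simp only [oneX_right] at h5
    exact h5
  · intro l
    rw [hP (l + 1) l.2, hP l l.2.le]
    have h6 := take_succ_prod (dR (oneX x) Υ) (Fin.natAdd n l)
    simp only [Fin.val_natAdd] at h6
    rw [← add_assoc, h6]
    congr 1
    rw [dR]
    simp only [oneX_right]
  · intro l i
    rw [hXXs]
    exact h3 l i

end Vale.Agent.P002R
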