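import Vale.Agent.P002R.YDual

/-!
# P002, genus 0, two regular classes: density in the space of parameters of the chart
-/

namespace Vale.Agent.P002R

open Matrix

/-- Density of a product of two sets. -/
theorem dense_sum {σ τ : Type*} {x₀ : σ → ℂ} {t₀ : τ → ℂ} (B : Set (σ → ℂ)) (A : Set (τ → ℂ))
    (hB : ∀ P : MvPolynomial σ ℂ, (∀ x ∈ B, MvPolynomial.eval x P = 0) →
      MvPolynomial.eval x₀ P = 0)
    (hA : ∀ P : MvPolynomial τ ℂ, (∀ t ∈ A, MvPolynomial.eval t P = 0) →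
      MvPolynomial.eval t₀ P = 0) (P : MvPolynomial (σ ⊕ τ) ℂ)
    (hP : ∀ x ∈ B, ∀ t ∈ A, MvPolynomial.eval (Sum.elim x t) P = 0) :
    MvPolynomial.eval (Sum.elim x₀ t₀) P = 0 := by
  have h1 : ∀ t : τ → ℂ, ∃ Q : MvPolynomial σ ℂ, ∀ x, MvPolynomial.eval x Q =
      MvPolynomial.eval (Sum.elim x t) P := by
    intro t
    refine ⟨MvPolynomial.aeval (Sum.elim MvPolynomial.X fun i => MvPolynomial.C (t i)) P,
      fun x => ?_⟩
    rw [← MvPolynomial.coe_aeval_eq_eval, ← MvPolynomial.coe_aeval_eq_eval]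
    change (MvPolynomial.aeval x) ((MvPolynomial.aeval _) P) = (MvPolynomial.aeval _) P
    rw [← AlgHom.comp_apply, MvPolynomial.comp_aeval]
    congr 2
    funext p
    rcases p with p | p
    · simp
    · simp
  have h2 : ∀ x : σ → ℂ, ∃ Q : MvPolynomial τ ℂ, ∀ t, MvPolynomial.eval t Q =
      MvPolynomial.eval (Sum.elim x t) P := by
    intro x
    refine ⟨MvPolynomial.aeval (Sum.elim (fun i => MvPolynomial.C (x i)) MvPolynomial.X) P,
      fun t => ?_⟩
    rw [← MvPolynomial.coe_aeval_eq_eval, ← MvPolynomial.coe_aeval_eq_eval]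
    change (MvPolynomial.aeval t) ((MvPolynomial.aeval _) P) = (MvPolynomial.aeval _) P
    rw [← AlgHom.comp_apply, MvPolynomial.comp_aeval]
    congr 2
    funext p
    rcases p with p | p
    · simp
    · simp
  obtain ⟨Q, hQ⟩ := h2 x₀
  rw [← hQ]
  refine hA Q fun t ht => ?_
  rw [hQ]
  obtain ⟨Q', hQ'⟩ := h1 t
  rw [← hQ']
  refine hB Q' fun x hx => ?_
  rw [hQ']
  exact hP x hx t ht

theorem core_density2 {R : Type*} [CommRing R] (φ : R →+* ℂ) {r m : ℕ}
    (J : Fin m → Mat r ℂ) (hT : ∀ k, TotD φ (J k)) (Jl : Mat r ℂ) (θ : Fin r → Rˣ)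
    (F : MvPolynomial (Fin (m + 1) × Fin r × Fin r) ℂ)
    (hF : ∀ Y : Fin (m + 1) → Mat r R, (∀ k i, IsUnit (Y k i i)) →
      (∀ k : Fin m, CjM (J k) (zZ ((Y k.castSucc).map φ))) →
      CjM Jl (zZ ((Y (Fin.last m)).map φ)) → (∀ i, ∏ l, Y l i i = θ i) →
      MvPolynomial.aeval (fun p => φ (Y p.1 p.2.1 p.2.2)) F = (0 : ℂ))
    (Y : Fin (m + 1) → Mat r ℂ) (hY0 : ∀ k i, Y k i i ≠ 0)
    (hY1 : ∀ k : Fin m, CjM (J k) (zZ (Y k.castSucc)))
    (hY2 : CjM Jl (zZ (Y (Fin.last m)))) (hD : DualD φ Jl (Y (Fin.last m)))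
    (hY4 : ∀ i, ∏ l, Y l i i = φ (θ i)) :
    MvPolynomial.aeval (fun p => Y p.1 p.2.1 p.2.2) F = (0 : ℂ) := by
  obtain ⟨τ, t₀, A, hA, Yt, κ, hκ, hYt, hint⟩ := hD
  obtain ⟨p₁, hp₁⟩ : ∃ p₁ : Fin m × (Fin r × Fin r) → ℂ,
    p₁ = fun p => Y p.1.castSucc p.2.1 p.2.2 := ⟨_, rfl⟩
  obtain ⟨p₀, hp₀⟩ : ∃ p₀ : (Fin m × (Fin r × Fin r)) ⊕ τ → ℂ, p₀ = Sum.elim p₁ t₀ := ⟨_, rfl⟩
  obtain ⟨YS, hYS⟩ : ∃ YS : Fin m → Mat r (ratAt p₀),
    YS = fun k => Matrix.of fun i j => rX p₀ (Sum.inl (k, (i, j))) := ⟨_, rfl⟩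
  have hYSr : ∀ x k i j, rev p₀ x (YS k i j) = x (Sum.inl (k, (i, j))) := by
    intro x k i j
    rw [hYS]
    exact rev_rX p₀ x (Sum.inl (k, (i, j)))
  have hden : ∀ i, rev p₀ p₀ (∏ k, YS k i i) ≠ 0 := by
    intro i
    rw [map_prod, Finset.prod_ne_zero_iff]
    intro k _
    rw [hYSr, hp₀, hp₁]
    exact hY0 _ i
  choose inv hinv using fun i => exists_rinv (∏ k, YS k i i) (hden i)
  obtain ⟨q, hq⟩ : ∃ q : Fin r → ratAt p₀, q = fun i => algebraMap ℂ _ (φ (θ i)) * inv i :=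
    ⟨_, rfl⟩
  have hqr : ∀ x i, rev p₀ x (q i) = φ (θ i) * (∏ k, x (Sum.inl (k, (i, i))))⁻¹ := by
    intro x i
    rw [hq]
    simp only
    rw [map_mul, hinv, map_prod, AlgHom.commutes]
    simp only [hYSr]
    rfl
  have hq0 : ∀ i, rev p₀ p₀ (q i) = Y (Fin.last m) i i := by
    intro i
    rw [hqr, ← hY4 i, Fin.prod_univ_castSucc, hp₀, hp₁]
    simp only [Sum.elim_inl]
    rw [mul_comm (∏ l : Fin m, Y l.castSucc i i), mul_assoc, mul_inv_cancel₀, mul_one]
    rw [Finset.prod_ne_zero_iff]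
    exact fun k _ => hY0 _ i
  obtain ⟨s, hs⟩ : ∃ s : τ ⊕ Fin r → ratAt p₀, s = Sum.elim (fun a => rX p₀ (Sum.inr a)) q :=
    ⟨_, rfl⟩
  have hsr : ∀ x, (fun i => rev p₀ x (s i)) =
      Sum.elim (fun a => x (Sum.inr a)) fun i => rev p₀ x (q i) := by
    intro x
    funext i
    rw [hs]
    rcases i with a | i
    · rfl
    · rfl
  have hs0' : (fun i => rev p₀ p₀ (s i)) =
      Sum.elim t₀ fun i => Y (Fin.last m) i i := by
    rw [hsr]
    funext i
    rcases i with a | i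
    · exact congrFun hp₀ (Sum.inr a)
    · simp only [Sum.elim_inr]
      exact hq0 i
  have hs0 : ∀ i, rev p₀ p₀ (s i) = (Sum.elim t₀ fun i => Y (Fin.last m) i i :
      τ ⊕ Fin r → ℂ) i := fun i => congrFun hs0' i
  choose Yt' hYt' using fun i j => exists_ratComp s hs0 (Yt i j)
  obtain ⟨κ', hκ'⟩ := exists_ratComp s hs0 κ
  -- the function
  obtain ⟨g, hg⟩ : ∃ g : ratAt p₀, g = MvPolynomial.aeval (fun p => (Fin.snoc
    (α := fun _ => Mat r (ratAt p₀)) YS (Matrix.of Yt') : Fin (m + 1) → _) p.1 p.2.1 p.2.2) F :=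
    ⟨_, rfl⟩
  have hgr : ∀ x, rev p₀ x g = MvPolynomial.aeval (fun p => (Fin.snoc
      (α := fun _ => Mat r ℂ) (fun k => Matrix.of fun i j => x (Sum.inl (k, (i, j))))
      (Matrix.of fun i j => rev p₀ x (Yt' i j)) :
        Fin (m + 1) → Mat r ℂ) p.1 p.2.1 p.2.2) F := by
    intro x
    rw [hg, ← AlgHom.comp_apply, MvPolynomial.comp_aeval]
    congr 2
    funext p
    obtain ⟨k, i, j⟩ := p
    refine Fin.lastCases ?_ (fun k => ?_) k
    · simp only [Fin.snoc_last]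
      rfl
    · simp only [Fin.snoc_castSucc]
      exact hYSr x k i j
  -- the dense set
  obtain ⟨B, hBdef⟩ : ∃ B : Set (Fin m × (Fin r × Fin r) → ℂ), B =
    {x | ∃ Yi : Fin m → Mat r R, (∀ k i, IsUnit (Yi k i i)) ∧
      (∀ k, CjM (J k) (zZ ((Yi k).map φ))) ∧ x = fun p => φ (Yi p.1 p.2.1 p.2.2)} := ⟨_, rfl⟩
  have hB : ∀ P : MvPolynomial (Fin m × (Fin r × Fin r)) ℂ,
      (∀ x ∈ B, MvPolynomial.eval x P = 0) → MvPolynomial.eval p₁ P = 0 := by
    intro P hP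
    have h1 := dense_pi
      (fun k => {v | ∃ X : Mat r R, (∀ i, IsUnit (X i i)) ∧ CjM (J k) (zZ (X.map φ)) ∧
        v = fun p => φ (X p.1 p.2)})
      (fun k => {v | ∃ X : Mat r ℂ, (∀ i, X i i ≠ 0) ∧ CjM (J k) (zZ X) ∧
        v = fun p => X p.1 p.2})
      (fun k F hF v hv => by
        obtain ⟨X, hX1, hX2, rfl⟩ := hv
        exact hT k F (fun X' h1 h2 => hF _ ⟨X', h1, h2, rfl⟩) X hX1 hX2) P
      (fun v hv => by
        choose Yi h1 h2 h3 using hv
        apply hP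
        rw [hBdef]
        refine ⟨Yi, h1, h2, ?_⟩
        funext p
        rw [h3 p.1])
      (fun k p => Y k.castSucc p.1 p.2)
      (fun k => ⟨Y k.castSucc, hY0 _, hY1 k, rfl⟩)
    rw [hp₁]
    exact h1
  have hdense : ∀ P : MvPolynomial ((Fin m × (Fin r × Fin r)) ⊕ τ) ℂ,
      (∀ x ∈ {x | ∃ y ∈ B, ∃ t ∈ A, x = Sum.elim y t}, MvPolynomial.eval x P = 0) →
      MvPolynomial.eval p₀ P = 0 := by
    intro P hP
    rw [hp₀]
    exact dense_sum B A hB hA P fun x hx t ht => hP _ ⟨x, hx, t, ht, rfl⟩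
  have hfin := ratAt_dense' _ hdense g κ' (by rw [hκ', hs0']; exact hκ) (fun x hx hκx => by
    obtain ⟨y, hy, t, ht, rfl⟩ := hx
    rw [hBdef] at hy
    obtain ⟨Yi, h1, h2, rfl⟩ := hy
    rw [hκ', hsr] at hκx
    rw [hgr]
    have hu : ∀ i, IsUnit (∏ k, Yi k i i) := fun i => by
      rw [IsUnit.prod_univ_iff]
      exact fun l => h1 l i
    choose w hw using hu
    obtain ⟨qi, hqi⟩ : ∃ qi : Fin r → Rˣ, qi = fun i => θ i * (w i)⁻¹ := ⟨_, rfl⟩
    have hwi : ∀ i, φ (w i) * φ ((w i)⁻¹ : Rˣ) = 1 := fun i => by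
      rw [← map_mul, Units.mul_inv, map_one]
    have hqx : ∀ i, rev p₀ (Sum.elim (fun p => φ (Yi p.1 p.2.1 p.2.2)) t) (q i) = φ (qi i) := by
      intro i
      rw [hqr, hqi]
      simp only [Sum.elim_inl]
      have h3 : (∏ k, φ (Yi k i i)) = φ (w i) := by rw [hw, map_prod]
      rw [h3, Units.val_mul, map_mul]
      congr 1
      exact inv_eq_of_mul_eq_one_right (hwi i)
    have hqx' : (fun i => rev p₀ (Sum.elim (fun p => φ (Yi p.1 p.2.1 p.2.2)) t) (q i)) =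
        fun i => φ (qi i : R) := funext hqx
    have hdet : ∏ i, φ (qi i : R) = Jl.det := by
      have h3 : (∏ i, φ (w i)) = ∏ k, (J k).det := by
        have h4 : ∀ i, φ (w i) = ∏ k, φ (Yi k i i) := fun i => by rw [hw, map_prod]
        simp only [h4]
        rw [Finset.prod_comm]
        refine Finset.prod_congr rfl fun k _ => ?_
        rw [← (h2 k).det, det_zZ]
        rfl
      have h4 : (∏ i, φ (θ i)) = (∏ k, (J k).det) * Jl.det := by
        simp only [← hY4]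
        rw [Finset.prod_comm, Fin.prod_univ_castSucc]
        congr 1
        · refine Finset.prod_congr rfl fun k _ => ?_
          rw [← (hY1 k).det, det_zZ]
        · rw [← hY2.det, det_zZ]
      have h5 : (∏ i, φ (w i)) * ∏ i, φ (qi i : R) = ∏ i, φ (θ i) := by
        rw [← Finset.prod_mul_distrib]
        refine Finset.prod_congr rfl fun i _ => ?_
        rw [hqi]
        simp only
        rw [Units.val_mul, map_mul, mul_left_comm, hwi, mul_one]
      have h6 : (∏ i, φ (w i)) ≠ 0 := by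
        rw [Finset.prod_ne_zero_iff]
        exact fun i _ => ((w i).isUnit.map φ).ne_zero
      rw [h4, ← h3] at h5
      exact mul_left_cancel₀ h6 h5
    rw [hqx'] at hκx
    obtain ⟨X, hX1, hX2, hX3⟩ := hint t ht qi hdet hκx
    have hYx : ∀ i j, rev p₀ (Sum.elim (fun p => φ (Yi p.1 p.2.1 p.2.2)) t) (Yt' i j) =
        φ (X i j) := by
      intro i j
      rw [hYt', hsr, hqx']
      exact hX3 i j
    have h7 := hF (Fin.snoc (α := fun _ => Mat r R) Yi X) (fun k i => by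
        refine Fin.lastCases ?_ (fun k => ?_) k
        · rw [Fin.snoc_last, hX1]
          exact (qi i).isUnit
        · rw [Fin.snoc_castSucc]
          exact h1 k i) (fun k => by
        rw [Fin.snoc_castSucc]
        exact h2 k) (by rw [Fin.snoc_last]; exact hX2) (fun i => by
        rw [Fin.prod_univ_castSucc]
        simp only [Fin.snoc_last, Fin.snoc_castSucc]
        rw [hX1, ← hw i, hqi]
        simp only
        rw [← Units.val_mul, mul_left_comm, mul_inv_cancel, mul_one])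
    rw [← h7]
    congr 2
    funext p
    obtain ⟨k, i, j⟩ := p
    refine Fin.lastCases ?_ (fun k => ?_) k
    · simp only [Fin.snoc_last]
      exact hYx i j
    · simp only [Fin.snoc_castSucc]
      rfl)
  rw [hgr] at hfin
  rw [← hfin]
  congr 2
  funext p
  obtain ⟨k, i, j⟩ := p
  refine Fin.lastCases ?_ (fun k => ?_) k
  · simp only [Fin.snoc_last]
    change Y (Fin.last m) i j = rev p₀ p₀ (Yt' i j)
    rw [hYt', hs0']
    exact (hYt i j).symm
  · simp only [Fin.snoc_castSucc]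
    have h8 := congrFun hp₀ (Sum.inl (k, (i, j)))
    have h9 := congrFun hp₁ (k, (i, j))
    exact (h8.trans h9).symm

end Vale.Agent.P002R
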