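import Vale.Agent.P002R.Dual6
import Vale.Agent.P002R.YCore

/-!
# P002: duality, the rational family
-/

namespace Vale.Agent.P002R

open Matrix

section formulas

variable {G H : Type*} [DivisionCommMonoid G] [DivisionCommMonoid H] {n : ℕ}

/-- The determinants of the reflections. -/
def qeG (e : ℕ) (z : G) (q : Fin (n + e) → G) (j : ℕ) : G :=
  if h : j < e then z⁻¹ * q (Fin.natAdd n ⟨j, h⟩) else 1

/-- The determinants of the reflections, reversed. -/
def kaG (e : ℕ) (z : G) (q : Fin (n + e) → G) (k : ℕ) : G :=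
  if k < e then qeG e z q (e - 1 - k) else 1

/-- The diagonals of the reflections. -/
def pG0 (e : ℕ) (z : G) (q : Fin (n + e) → G) (i₀ : Fin n) (b : ℕ → Fin n → G) (k : ℕ)
    (i : Fin n) : G :=
  if i = i₀ then (kaG e z q k)⁻¹ * ∏ j ∈ Finset.univ.erase i₀, (b k j)⁻¹ else b k i

/-- The diagonals of the reflections, the last one is determined by the others. -/
def pG (e : ℕ) (z : G) (q : Fin (n + e) → G) (i₀ : Fin n) (W : Fin n → G) (b : ℕ → Fin n → G)
    (k : ℕ) (i : Fin n) : G :=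
  if k + 1 < e then pG0 e z q i₀ b k i else if k + 1 = e then
    z⁻¹ * q (Fin.castAdd e i) * (W i)⁻¹ * ∏ l ∈ Finset.range (e - 1), (pG0 e z q i₀ b l i)⁻¹
  else 1

theorem qeG_map (f : G →* H) (hf : ∀ g, f g⁻¹ = (f g)⁻¹) (e : ℕ) (z : G) (q : Fin (n + e) → G)
    (j : ℕ) : f (qeG e z q j) = qeG e (f z) (fun i => f (q i)) j := by
  unfold qeG
  split_ifs
  · rw [map_mul, hf]
  · exact map_one f

theorem kaG_map (f : G →* H) (hf : ∀ g, f g⁻¹ = (f g)⁻¹) (e : ℕ) (z : G) (q : Fin (n + e) → G)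
    (j : ℕ) : f (kaG e z q j) = kaG e (f z) (fun i => f (q i)) j := by
  unfold kaG
  split_ifs
  · exact qeG_map f hf e z q _
  · exact map_one f

theorem pG0_map (f : G →* H) (hf : ∀ g, f g⁻¹ = (f g)⁻¹) (e : ℕ) (z : G) (q : Fin (n + e) → G)
    (i₀ : Fin n) (b : ℕ → Fin n → G) (k : ℕ) (i : Fin n) :
    f (pG0 e z q i₀ b k i) = pG0 e (f z) (fun i => f (q i)) i₀ (fun k i => f (b k i)) k i := by
  unfold pG0
  split_ifs
  · rw [map_mul, hf, kaG_map f hf, map_prod]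
    simp only [hf]
  · rfl

theorem pG_map (f : G →* H) (hf : ∀ g, f g⁻¹ = (f g)⁻¹) (e : ℕ) (z : G) (q : Fin (n + e) → G)
    (i₀ : Fin n) (W : Fin n → G) (b : ℕ → Fin n → G) (k : ℕ) (i : Fin n) :
    f (pG e z q i₀ W b k i) =
      pG e (f z) (fun i => f (q i)) i₀ (fun i => f (W i)) (fun k i => f (b k i)) k i := by
  unfold pG
  split_ifs
  · exact pG0_map f hf e z q i₀ b k i
  · rw [map_mul, map_mul, map_mul, map_prod]
    simp only [hf, pG0_map f hf]
  · exact map_one f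

end formulas

section group

variable {G : Type*} [CommGroup G] {n : ℕ}

theorem prod_qeG (e : ℕ) (z : G) (q : Fin (n + e) → G) :
    ∏ j ∈ Finset.range e, qeG e z q j = z⁻¹ ^ e * ∏ j : Fin e, q (Fin.natAdd n j) := by
  rw [← Fin.prod_univ_eq_prod_range]
  have h1 : ∀ j : Fin e, qeG e z q j = z⁻¹ * q (Fin.natAdd n j) := by
    intro j
    rw [qeG, dif_pos j.2]
  simp only [h1]
  rw [Finset.prod_mul_distrib, Finset.prod_const, Finset.card_univ, Fintype.card_fin]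

theorem prod_kaG (e : ℕ) (z : G) (q : Fin (n + e) → G) :
    ∏ k ∈ Finset.range e, kaG e z q k = z⁻¹ ^ e * ∏ j : Fin e, q (Fin.natAdd n j) := by
  rw [← prod_qeG, ← Finset.prod_range_reflect]
  refine Finset.prod_congr rfl fun k hk => ?_
  rw [Finset.mem_range] at hk
  rw [kaG, if_pos (by omega)]
  congr 1
  omega

theorem prod_pG0 (e : ℕ) (z : G) (q : Fin (n + e) → G) (i₀ : Fin n) (b : ℕ → Fin n → G)
    (k : ℕ) : ∏ i, pG0 e z q i₀ b k i = (kaG e z q k)⁻¹ := by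
  rw [← Finset.mul_prod_erase _ _ (Finset.mem_univ i₀)]
  have h1 : ∏ i ∈ Finset.univ.erase i₀, pG0 e z q i₀ b k i =
      ∏ i ∈ Finset.univ.erase i₀, b k i := by
    refine Finset.prod_congr rfl fun i hi => ?_
    rw [pG0, if_neg (Finset.ne_of_mem_erase hi)]
  rw [h1, pG0, if_pos rfl, mul_assoc, ← Finset.prod_mul_distrib]
  simp

/-- The diagonals. -/
theorem prod_pG_left (e : ℕ) (he : 0 < e) (z : G) (q : Fin (n + e) → G) (i₀ : Fin n)
    (W : Fin n → G) (b : ℕ → Fin n → G) (i : Fin n) :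
    z * (W i * ∏ k ∈ Finset.range e, pG e z q i₀ W b k i) = q (Fin.castAdd e i) := by
  obtain ⟨e', rfl⟩ : ∃ e', e = e' + 1 := ⟨e - 1, by omega⟩
  rw [Finset.prod_range_succ]
  have h1 : ∏ k ∈ Finset.range e', pG (e' + 1) z q i₀ W b k i =
      ∏ k ∈ Finset.range e', pG0 (e' + 1) z q i₀ b k i := by
    refine Finset.prod_congr rfl fun k hk => ?_
    rw [Finset.mem_range] at hk
    rw [pG, if_pos (by omega)]
  rw [h1, pG, if_neg (by omega), if_pos rfl, Nat.add_sub_cancel, Finset.prod_inv_distrib]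
  obtain ⟨P, hP⟩ : ∃ P, P = ∏ k ∈ Finset.range e', pG0 (e' + 1) z q i₀ b k i := ⟨_, rfl⟩
  rw [← hP]
  calc z * (W i * (P * (z⁻¹ * q (Fin.castAdd (e' + 1) i) * (W i)⁻¹ * P⁻¹)))
      = (z * z⁻¹) * (W i * (W i)⁻¹) * (P * P⁻¹) * q (Fin.castAdd (e' + 1) i) := by
        simp only [mul_assoc, mul_comm, mul_left_comm]
    _ = _ := by simp

theorem kaG_mul_prod (e : ℕ) (z : G) (q : Fin (n + e) → G) (i₀ : Fin n)
    (W : Fin n → G) (b : ℕ → Fin n → G) (hq : ∏ i, q i = z ^ (n + e) * ∏ i, W i) (k : ℕ) :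
    kaG e z q k * ∏ i, pG e z q i₀ W b k i = 1 := by
  rcases lt_trichotomy (k + 1) e with h | h | h
  · have h1 : ∀ i, pG e z q i₀ W b k i = pG0 e z q i₀ b k i := fun i => by rw [pG, if_pos h]
    simp only [h1]
    rw [prod_pG0, mul_inv_cancel]
  · subst h
    have h2 : ∀ i : Fin n, pG (k + 1) z q i₀ W b k i =
        z⁻¹ * q (Fin.castAdd (k + 1) i) * (W i)⁻¹ *
          ∏ l ∈ Finset.range k, (pG0 (k + 1) z q i₀ b l i)⁻¹ := fun i => by
      rw [pG, if_neg (lt_irrefl _), if_pos rfl, Nat.add_sub_cancel]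
    simp only [h2]
    rw [Finset.prod_mul_distrib, Finset.prod_mul_distrib, Finset.prod_mul_distrib,
      Finset.prod_comm]
    simp only [Finset.prod_inv_distrib, prod_pG0, inv_inv]
    have h3 := prod_kaG (k + 1) z q
    rw [Finset.prod_range_succ] at h3
    rw [Fin.prod_univ_add] at hq
    rw [Finset.prod_const, Finset.card_univ, Fintype.card_fin]
    obtain ⟨K, hK⟩ : ∃ K, K = ∏ x ∈ Finset.range k, kaG (k + 1) z q x := ⟨_, rfl⟩
    obtain ⟨Q1, hQ1⟩ : ∃ Q1, Q1 = ∏ i : Fin n, q (Fin.castAdd (k + 1) i) := ⟨_, rfl⟩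
    obtain ⟨Q2, hQ2⟩ : ∃ Q2, Q2 = ∏ i : Fin (k + 1), q (Fin.natAdd n i) := ⟨_, rfl⟩
    obtain ⟨P, hP⟩ : ∃ P, P = ∏ i : Fin n, W i := ⟨_, rfl⟩
    rw [← hK, ← hQ2] at h3
    rw [← hQ1, ← hQ2, ← hP] at hq
    rw [← hK, ← hQ1, ← hP, ← inv_pow]
    calc kaG (k + 1) z q k * (z⁻¹ ^ n * Q1 * P⁻¹ * K)
        = (K * kaG (k + 1) z q k) * z⁻¹ ^ n * Q1 * P⁻¹ := by
          simp only [mul_assoc, mul_comm, mul_left_comm]
      _ = (Q1 * Q2) * (z⁻¹ ^ (n + (k + 1))) * P⁻¹ := by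
          rw [h3, pow_add z⁻¹ n]
          simp only [mul_assoc, mul_comm, mul_left_comm]
      _ = _ := by
          rw [hq, inv_pow]
          calc z ^ (n + (k + 1)) * P * (z ^ (n + (k + 1)))⁻¹ * P⁻¹
              = (z ^ (n + (k + 1)) * (z ^ (n + (k + 1)))⁻¹) * (P * P⁻¹) := by
                simp only [mul_assoc, mul_comm, mul_left_comm]
            _ = 1 := by simp
  · have h1 : ∀ i, pG e z q i₀ W b k i = 1 := fun i => by
      rw [pG, if_neg (by omega), if_neg (by omega)]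
    simp only [h1]
    rw [kaG, if_neg (by omega)]
    simp

end group

end Vale.Agent.P002R
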