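import Vale.Agent.P002R.Dual7

/-!
# P002: duality, rational charts
-/

namespace Vale.Agent.P002R

open Matrix

variable {n e : ℕ}

/-- The index of the parameters. -/
abbrev DTau (n : ℕ) : Type := (Fin n × Fin n) ⊕ ((ℕ × Fin n) ⊕ (ℕ × Fin n))

/-- The complex parameters at a point. -/
noncomputable def DPt (e : ℕ) (ζ : ℂ) (i₀ : Fin n) (x : DTau n ⊕ Fin (n + e) → ℂ)
    (dv : ℕ → ℂ) : DIn n ℂ where
  z := ζ
  W := Matrix.of fun i j => x (Sum.inl (Sum.inl (i, j)))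
  v := fun k i => if k < e then x (Sum.inl (Sum.inr (Sum.inl (k, i)))) else 1
  vi := fun k i => (if k < e then x (Sum.inl (Sum.inr (Sum.inl (k, i)))) else 1)⁻¹
  p := pG e ζ (fun i => x (Sum.inr i)) i₀ (fun i => x (Sum.inl (Sum.inl (i, i))))
    fun k i => x (Sum.inl (Sum.inr (Sum.inr (k, i))))
  dv := dv
  ka := kaG e ζ fun i => x (Sum.inr i)

theorem DIn.Y_congr {S : Type*} [CommRing S] {I I' : DIn n S} (h1 : I.W = I'.W) (h2 : I.v = I'.v)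
    (h3 : I.vi = I'.vi) (h4 : I.p = I'.p) : I.Y = I'.Y := by
  funext k
  cases k with
  | zero => exact h1
  | succ k =>
    rw [DIn.Y_succ, DIn.Y_succ, h2]
    have : I.y k = I'.y k := by
      funext i
      rw [DIn.y, DIn.y, h3, h4]
    rw [this]

theorem DIn.ext' {S : Type*} {I I' : DIn n S} (h0 : I.z = I'.z) (h1 : I.W = I'.W)
    (h2 : I.v = I'.v) (h3 : I.vi = I'.vi) (h4 : I.p = I'.p) (h5 : I.dv = I'.dv)
    (h6 : I.ka = I'.ka) : I = I' := by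
  cases I
  cases I'
  simp only at h0 h1 h2 h3 h4 h5 h6
  rw [h0, h1, h2, h3, h4, h5, h6]

/-- The family over the ring of rational functions. -/
theorem exists_family_dual (e : ℕ) (ζ : ℂ) (hζ : ζ ≠ 0) (i₀ : Fin n)
    (x₀ : DTau n ⊕ Fin (n + e) → ℂ) (hW : ∀ i, x₀ (Sum.inl (Sum.inl (i, i))) ≠ 0)
    (hv : ∀ k i, x₀ (Sum.inl (Sum.inr (Sum.inl (k, i)))) ≠ 0)
    (hb : ∀ k i, x₀ (Sum.inl (Sum.inr (Sum.inr (k, i)))) ≠ 0)
    (hq : ∀ i, x₀ (Sum.inr i) ≠ 0)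
    (hdet : ∀ k, (Lc (DPt e ζ i₀ x₀ 0).Y (k + 1)).det ≠ 0) :
    ∃ I : DIn n (ratAt x₀), ∀ x, I.map (rev x₀ x).toRingHom =
      DPt e ζ i₀ x fun k => ((Lc (DPt e ζ i₀ x 0).Y (k + 1)).det)⁻¹ := by
  have hmul : ∀ f g : (DTau n ⊕ Fin (n + e) → ℂ) → ℂ, f ∈ ratAt x₀ → g ∈ ratAt x₀ →
      (fun x => f x * g x) ∈ ratAt x₀ := fun f g hf hg => (ratAt x₀).mul_mem hf hg
  have hconst : ∀ c : ℂ, (fun _ => c) ∈ ratAt x₀ := fun c => (ratAt x₀).algebraMap_mem c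
  have hinv : ∀ f : (DTau n ⊕ Fin (n + e) → ℂ) → ℂ, f ∈ ratAt x₀ → f x₀ ≠ 0 →
      (fun x => (f x)⁻¹) ∈ ratAt x₀ := by
    intro f hf h0
    obtain ⟨h, hh⟩ := exists_rinv (⟨f, hf⟩ : ratAt x₀) h0
    have h1 : (fun x => (f x)⁻¹) = h.1 := by
      funext x
      exact (hh x).symm
    rw [h1]
    exact h.2
  have hcoord : ∀ i, (fun x : DTau n ⊕ Fin (n + e) → ℂ => x i) ∈ ratAt x₀ := fun i => (rX x₀ i).2
  have hprod : ∀ {ι : Type} (s : Finset ι) (f : ι → (DTau n ⊕ Fin (n + e) → ℂ) → ℂ),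
      (∀ i, f i ∈ ratAt x₀) → (fun x => ∏ i ∈ s, f i x) ∈ ratAt x₀ := by
    intro ι s f hf
    have h1 : (fun x => ∏ i ∈ s, f i x) = ∏ i ∈ s, f i := by
      funext x
      rw [Finset.prod_apply]
    rw [h1]
    exact Subalgebra.prod_mem _ fun i _ => hf i
  have hqe : ∀ k, (fun x : DTau n ⊕ Fin (n + e) → ℂ => qeG e ζ (fun i => x (Sum.inr i)) k) ∈
      ratAt x₀ ∧ qeG e ζ (fun i => x₀ (Sum.inr i)) k ≠ 0 := by
    intro k
    unfold qeG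
    split_ifs with h
    · exact ⟨hmul _ _ (hconst _) (hcoord _), mul_ne_zero (inv_ne_zero hζ) (hq _)⟩
    · exact ⟨hconst 1, one_ne_zero⟩
  have hka : ∀ k, (fun x : DTau n ⊕ Fin (n + e) → ℂ => kaG e ζ (fun i => x (Sum.inr i)) k) ∈
      ratAt x₀ ∧ kaG e ζ (fun i => x₀ (Sum.inr i)) k ≠ 0 := by
    intro k
    unfold kaG
    split_ifs with h
    · exact hqe _
    · exact ⟨hconst 1, one_ne_zero⟩
  have hp0 : ∀ k i, (fun x : DTau n ⊕ Fin (n + e) → ℂ => pG0 e ζ (fun i => x (Sum.inr i)) i₀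
      (fun k i => x (Sum.inl (Sum.inr (Sum.inr (k, i))))) k i) ∈ ratAt x₀ ∧
      pG0 e ζ (fun i => x₀ (Sum.inr i)) i₀
      (fun k i => x₀ (Sum.inl (Sum.inr (Sum.inr (k, i))))) k i ≠ 0 := by
    intro k i
    unfold pG0
    split_ifs with h
    · refine ⟨hmul _ _ (hinv _ (hka k).1 (hka k).2) (hprod _ _ fun j => hinv _ (hcoord _) (hb _ _)),
        mul_ne_zero (inv_ne_zero (hka k).2) ?_⟩
      rw [Finset.prod_ne_zero_iff]
      exact fun j _ => inv_ne_zero (hb _ _)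
    · exact ⟨hcoord _, hb _ _⟩
  have hp : ∀ k i, (fun x : DTau n ⊕ Fin (n + e) → ℂ => pG e ζ (fun i => x (Sum.inr i)) i₀
      (fun i => x (Sum.inl (Sum.inl (i, i))))
      (fun k i => x (Sum.inl (Sum.inr (Sum.inr (k, i))))) k i) ∈ ratAt x₀ := by
    intro k i
    unfold pG
    split_ifs with h h'
    · exact (hp0 k i).1
    · exact hmul _ _ (hmul _ _ (hmul _ _ (hconst _) (hcoord _)) (hinv _ (hcoord _) (hW i)))
        (hprod _ _ fun l => hinv _ (hp0 l i).1 (hp0 l i).2)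
    · exact hconst 1
  have hvm : ∀ k i, (fun x : DTau n ⊕ Fin (n + e) → ℂ =>
      if k < e then x (Sum.inl (Sum.inr (Sum.inl (k, i)))) else 1) ∈ ratAt x₀ ∧
      (if k < e then x₀ (Sum.inl (Sum.inr (Sum.inl (k, i)))) else 1) ≠ 0 := by
    intro k i
    split_ifs with h
    · exact ⟨hcoord _, hv k i⟩
    · exact ⟨hconst 1, one_ne_zero⟩
  obtain ⟨I0, hI0⟩ : ∃ I0 : DIn n (ratAt x₀), I0 = ⟨⟨_, hconst ζ⟩,
    Matrix.of fun i j => ⟨_, hcoord (Sum.inl (Sum.inl (i, j)))⟩, fun k i => ⟨_, (hvm k i).1⟩,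
    fun k i => ⟨_, hinv _ (hvm k i).1 (hvm k i).2⟩, fun k i => ⟨_, hp k i⟩, fun _ => 0,
    fun k => ⟨_, (hka k).1⟩⟩ := ⟨_, rfl⟩
  have hI0r : ∀ x, I0.map (rev x₀ x).toRingHom = DPt e ζ i₀ x 0 := by
    intro x
    rw [hI0]
    refine DIn.ext' rfl ?_ rfl rfl rfl ?_ rfl
    · ext i j
      rfl
    · funext k
      exact map_zero (rev x₀ x).toRingHom
  have hg : ∀ k x, rev x₀ x (Lc I0.Y (k + 1)).det = (Lc (DPt e ζ i₀ x 0).Y (k + 1)).det := by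
    intro k x
    rw [← hI0r x, DIn.Lc_map']
    exact RingHom.map_det (rev x₀ x).toRingHom _
  have hdv := fun k => exists_rinv (Lc I0.Y (k + 1)).det (by rw [hg]; exact hdet k)
  choose dv hdv using hdv
  refine ⟨⟨I0.z, I0.W, I0.v, I0.vi, I0.p, dv, I0.ka⟩, fun x => ?_⟩
  have h1 := hI0r x
  have a0 := congrArg DIn.z h1
  have a1 := congrArg DIn.W h1
  have a2 := congrArg DIn.v h1
  have a3 := congrArg DIn.vi h1
  have a4 := congrArg DIn.p h1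
  have a6 := congrArg DIn.ka h1
  refine DIn.ext' a0 a1 a2 a3 a4 ?_ a6
  funext k
  have h3 := hdv k x
  rw [hg] at h3
  exact h3

end Vale.Agent.P002R
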