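import Vale.Agent.P002R.RFreeE

/-!
# Groups all of whose representations have commuting generators
-/

namespace Vale.Agent.P002R

open Matrix

variable {κ ι : Type} {r : ℕ}

/-- If the generators commute in every representation, the irreducible representations are
integral up to scalars. -/
theorem abel_irrDense_aux {R : Type*} [CommRing R] (φ : R →+* ℂ) (E : Subgroup ℂˣ)
    (Rel : Set (FreeGroup (κ ⊕ ι))) (hr : 0 < r)
    (hab : ∀ x : FreeGroup (κ ⊕ ι) →* (Mat r ℂ)ˣ, (∀ w ∈ Rel, x w = 1) →
      ∀ k l, Commute (x (FreeGroup.of k)) (x (FreeGroup.of l))) : IrrDense Rel φ E r := by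
  intro C _ x hx hirr f hf
  apply hf
  refine ⟨⟨hx, fun k => ?_⟩, burnside_top x hx.2.2 hirr⟩
  have hcomm : ∀ w, Commute (x (FreeGroup.of k)) (x w) := by
    intro w
    induction w using FreeGroup.induction_on with
    | C1 =>
      rw [map_one]
      exact Commute.one_right _
    | of l => exact hab x hx.1 k l
    | inv_of l hl =>
      rw [map_inv]
      exact hl.inv_right
    | mul a b ha hb =>
      rw [map_mul]
      exact ha.mul_right hb
  obtain ⟨c, hc⟩ := hirr (x (FreeGroup.of k) : Mat r ℂ) (fun w => by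
    exact congrArg Units.val (hcomm w).eq)
  have hc0 : c ≠ 0 := by
    rintro rfl
    rw [zero_smul] at hc
    have h1 : (x (FreeGroup.of k) : Mat r ℂ) * ((x (FreeGroup.of k))⁻¹ : (Mat r ℂ)ˣ) = 1 :=
      Units.mul_inv _
    rw [hc, Matrix.zero_mul] at h1
    have h2 := congrFun (congrFun h1 ⟨0, hr⟩) ⟨0, hr⟩
    rw [Matrix.zero_apply, Matrix.one_apply_eq] at h2
    exact zero_ne_one h2
  refine ⟨Units.mk0 c hc0, 1, ?_⟩
  rw [map_one, mul_one]
  apply Units.ext
  rw [hc]
  change c • (1 : Mat r ℂ) = algebraMap ℂ (Mat r ℂ) c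
  rw [Algebra.algebraMap_eq_smul_one]

theorem abel_irrDense {R : Type*} [CommRing R] (φ : R →+* ℂ) (E : Subgroup ℂˣ)
    (Rel : Set (FreeGroup (κ ⊕ ι)))
    (hab : ∀ (r' : ℕ) (x : FreeGroup (κ ⊕ ι) →* (Mat r' ℂ)ˣ), (∀ w ∈ Rel, x w = 1) →
      ∀ k l, Commute (x (FreeGroup.of k)) (x (FreeGroup.of l))) (r : ℕ) (hr : 0 < r) :
    IrrDense Rel φ E r :=
  abel_irrDense_aux φ E Rel hr (hab r)

/-- The commutation of the generators for a surface group `π₁` with `χ ≥ 0`: the sphere with at
most two punctures and the torus. -/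
theorem surface_comm {g n : ℕ} (hgn : (g = 0 ∧ n ≤ 2) ∨ (g = 1 ∧ n = 0)) (r' : ℕ)
    (x : FreeGroup ((Fin g × Bool) ⊕ Fin n) →* (Mat r' ℂ)ˣ)
    (hx : ∀ w ∈ ({relatorU g n} : Set (FreeGroup ((Fin g × Bool) ⊕ Fin n))), x w = 1) :
    ∀ k l, Commute (x (FreeGroup.of k)) (x (FreeGroup.of l)) := by
  have h0 := hx _ (Set.mem_singleton _)
  rw [relatorU_eqn] at h0
  rcases hgn with ⟨rfl, hn⟩ | ⟨rfl, rfl⟩
  · interval_cases n
    · rintro (k | k)
      · exact k.1.elim0
      · exact k.elim0
    · rintro (k | k) (l | l)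
      · exact k.1.elim0
      · exact k.1.elim0
      · exact l.1.elim0
      · rw [Subsingleton.elim k l]
    · have h1 : x (FreeGroup.of (Sum.inr 0)) * x (FreeGroup.of (Sum.inr 1)) = 1 := by
        simpa using h0
      have h2 : Commute (x (FreeGroup.of (Sum.inr 0))) (x (FreeGroup.of (Sum.inr 1))) := by
        rw [eq_inv_of_mul_eq_one_left h1]
        exact (Commute.refl _).inv_left
      rintro (k | k) (l | l)
      · exact k.1.elim0
      · exact k.1.elim0
      · exact l.1.elim0
      · fin_cases k <;> fin_cases l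
        · exact Commute.refl _
        · exact h2
        · exact h2.symm
        · exact Commute.refl _
  · have h1 : x (FreeGroup.of (Sum.inl (0, false))) * x (FreeGroup.of (Sum.inl (0, true))) *
        (x (FreeGroup.of (Sum.inl (0, false))))⁻¹ * (x (FreeGroup.of (Sum.inl (0, true))))⁻¹ =
          1 := by
      simpa using h0
    have h2 : Commute (x (FreeGroup.of (Sum.inl (0, false))))
        (x (FreeGroup.of (Sum.inl (0, true)))) := by
      have h3 := mul_inv_eq_one.1 h1
      rw [mul_inv_eq_iff_eq_mul] at h3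
      exact h3
    rintro (⟨k, b⟩ | k) (⟨l, b'⟩ | l)
    · rw [Subsingleton.elim k 0, Subsingleton.elim l 0]
      cases b <;> cases b'
      · exact Commute.refl _
      · exact h2
      · exact h2.symm
      · exact Commute.refl _
    · exact l.elim0
    · exact k.elim0
    · exact k.elim0

end Vale.Agent.P002R
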