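import Vale.Agent.P002R.RBasic
import Vale.Agent.P002.ArcLemma

/-!
# Application of the arc lemma to representations
-/

namespace Vale.Agent.P002R

open Matrix

variable {κ : Type*} {r : ℕ} {S : Type*} [CommRing S]

section words

/-- The generic matrix of a generator (`b = false`) or of its inverse (`b = true`). -/
noncomputable def gpoly (r : ℕ) (k : κ) (b : Bool) :
    Mat r (MvPolynomial (κ × Bool × Fin r × Fin r) ℂ) :=
  Matrix.of fun i j => MvPolynomial.X (k, b, i, j)

/-- The generic matrix of a word. -/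
noncomputable def wpoly (r : ℕ) [DecidableEq κ] (w : FreeGroup κ) :
    Mat r (MvPolynomial (κ × Bool × Fin r × Fin r) ℂ) :=
  (w.toWord.map fun l => gpoly r l.1 (!l.2)).prod

theorem evalP_gpoly [Algebra ℂ S] (X : κ → (Mat r S)ˣ) (k : κ) (b : Bool) :
    (gpoly r k b).map (evalP X) =
      if b then (((X k)⁻¹ : (Mat r S)ˣ) : Mat r S) else (X k : Mat r S) := by
  ext i j
  rw [Matrix.map_apply, gpoly, Matrix.of_apply, evalP, MvPolynomial.aeval_X]
  cases b <;> simp

theorem evalP_wpoly [DecidableEq κ] [Algebra ℂ S] (X : κ → (Mat r S)ˣ) (w : FreeGroup κ) :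
    (wpoly r w).map (evalP X) = (FreeGroup.lift X w : Mat r S) := by
  have h : ∀ L : List (κ × Bool), ((L.map fun l => gpoly r l.1 (!l.2)).prod).map (evalP X) =
      ((FreeGroup.lift X (FreeGroup.mk L) : (Mat r S)ˣ) : Mat r S) := by
    intro L
    induction L with
    | nil =>
      rw [List.map_nil, List.prod_nil, FreeGroup.lift_mk, List.map_nil, List.prod_nil,
        Units.val_one]
      exact Matrix.map_one _ (map_zero _) (map_one _)
    | cons l L ih =>
      rw [List.map_cons, List.prod_cons, FreeGroup.lift_mk, List.map_cons, List.prod_cons,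
        Units.val_mul, Matrix.map_mul, ih, evalP_gpoly, FreeGroup.lift_mk]
      obtain ⟨k, b⟩ := l
      cases b <;> simp
  have h2 := h w.toWord
  rw [FreeGroup.mk_toWord] at h2
  exact h2

/-- A polynomial in the entries of all words as a polynomial in the entries of the generators
and of their inverses. -/
noncomputable def toP [DecidableEq κ] :
    MvPolynomial (FreeGroup κ × Fin r × Fin r) ℂ →ₐ[ℂ]
      MvPolynomial (κ × Bool × Fin r × Fin r) ℂ :=
  MvPolynomial.aeval fun p => wpoly r p.1 p.2.1 p.2.2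

theorem evalP_toP [DecidableEq κ] [Algebra ℂ S] (X : κ → (Mat r S)ˣ)
    (f : MvPolynomial (FreeGroup κ × Fin r × Fin r) ℂ) :
    evalP X (toP f) = evalW (FreeGroup.lift X) f := by
  have : (evalP X).comp toP = evalW (FreeGroup.lift X) := by
    apply MvPolynomial.algHom_ext
    intro p
    rw [AlgHom.comp_apply, toP, MvPolynomial.aeval_X, evalW, MvPolynomial.aeval_X]
    have := congrFun (congrFun (evalP_wpoly X p.1) p.2.1) p.2.2
    rwa [Matrix.map_apply] at this
  rw [← this]; rfl

theorem lift_of (x : FreeGroup κ →* (Mat r S)ˣ) :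
    FreeGroup.lift (fun k => x (FreeGroup.of k)) = x := by
  apply FreeGroup.ext_hom
  intro k
  simp

end words

section der

theorem IsDer.one {x : FreeGroup κ →* (Mat r ℂ)ˣ} {E : FreeGroup κ → Mat r ℂ} (hE : IsDer x E) :
    E 1 = 0 := by
  have h := hE 1 1
  rw [mul_one, map_one, Units.val_one, Matrix.mul_one, Matrix.one_mul] at h
  exact (add_eq_left.1 h.symm)

theorem IsDer.inv {x : FreeGroup κ →* (Mat r ℂ)ˣ} {E : FreeGroup κ → Mat r ℂ} (hE : IsDer x E)
    (w : FreeGroup κ) : E w⁻¹ = -((((x w)⁻¹ : (Mat r ℂ)ˣ) : Mat r ℂ) * E w *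
      (((x w)⁻¹ : (Mat r ℂ)ˣ) : Mat r ℂ)) := by
  have h := hE w⁻¹ w
  rw [inv_mul_cancel, hE.one, map_inv] at h
  have h1 : E w⁻¹ * (x w : Mat r ℂ) = -((((x w)⁻¹ : (Mat r ℂ)ˣ) : Mat r ℂ) * E w) :=
    eq_neg_of_add_eq_zero_left h.symm
  rw [← Matrix.neg_mul, ← h1, Matrix.mul_assoc, ← Units.val_mul, mul_inv_cancel, Units.val_one,
    Matrix.mul_one]

/-- Two derivations which agree on the generators agree. -/
theorem IsDer.ext {x : FreeGroup κ →* (Mat r ℂ)ˣ} {E E' : FreeGroup κ → Mat r ℂ}
    (hE : IsDer x E) (hE' : IsDer x E') (h : ∀ k, E (FreeGroup.of k) = E' (FreeGroup.of k)) :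
    E = E' := by
  funext w
  induction w using FreeGroup.induction_on with
  | C1 => rw [hE.one, hE'.one]
  | of k => exact h k
  | inv_of k hk => rw [hE.inv, hE'.inv, hk]
  | mul a b ha hb => rw [hE, hE', ha, hb]

/-- Derivation `E` composed with an endomorphism. -/
theorem IsDer.comp {x : FreeGroup κ →* (Mat r ℂ)ˣ} {E : FreeGroup κ → Mat r ℂ} (hE : IsDer x E)
    (φ : FreeGroup κ →* FreeGroup κ) : IsDer (x.comp φ) (fun w => E (φ w)) := by
  intro w w'
  simp only [map_mul, MonoidHom.comp_apply]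
  exact hE _ _

theorem IsDer.add {x : FreeGroup κ →* (Mat r ℂ)ˣ} {E E' : FreeGroup κ → Mat r ℂ}
    (hE : IsDer x E) (hE' : IsDer x E') : IsDer x (fun w => E w + E' w) := by
  intro w w'
  simp only [hE w w', hE' w w', Matrix.add_mul, Matrix.mul_add]
  abel

theorem IsDer.smul {x : FreeGroup κ →* (Mat r ℂ)ˣ} {E : FreeGroup κ → Mat r ℂ}
    (hE : IsDer x E) (c : ℂ) : IsDer x (fun w => c • E w) := by
  intro w w'
  simp only [hE w w', Matrix.smul_mul, Matrix.mul_smul, smul_add]

/-- Linear part of a representation over power series. -/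
noncomputable def der1 (x : FreeGroup κ →* (Mat r (PowerSeries ℂ))ˣ) (w : FreeGroup κ) :
    Mat r ℂ := (x w : Mat r (PowerSeries ℂ)).map (PowerSeries.coeff 1)

/-- Constant part of a representation over power series. -/
noncomputable def rep0 (x : FreeGroup κ →* (Mat r (PowerSeries ℂ))ˣ) :
    FreeGroup κ →* (Mat r ℂ)ˣ := baseChange PowerSeries.constantCoeff x

theorem map_coeff_one_mul (M N : Mat r (PowerSeries ℂ)) :
    (M * N).map (PowerSeries.coeff 1) =
      M.map (PowerSeries.coeff 1) * N.map PowerSeries.constantCoeff +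
      M.map PowerSeries.constantCoeff * N.map (PowerSeries.coeff 1) := by
  ext i j
  simp only [Matrix.map_apply, Matrix.mul_apply, Matrix.add_apply, map_sum,
    PowerSeries.coeff_one_mul, ← Finset.sum_add_distrib]
  refine Finset.sum_congr rfl fun k _ => ?_
  ring

theorem isDer_der1 (x : FreeGroup κ →* (Mat r (PowerSeries ℂ))ˣ) : IsDer (rep0 x) (der1 x) := by
  intro w w'
  rw [der1, map_mul, Units.val_mul, map_coeff_one_mul]
  rfl

end der

/-- `C p + X u` as a matrix of power series. -/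
noncomputable def lin1 (P U : Mat r ℂ) : Mat r (PowerSeries ℂ) :=
  P.map (PowerSeries.C (R := ℂ)) + (PowerSeries.X : PowerSeries ℂ) • U.map (PowerSeries.C (R := ℂ))

theorem lin1_const (P U : Mat r ℂ) : (lin1 P U).map PowerSeries.constantCoeff = P := by
  ext i j
  simp [lin1]

theorem lin1_one (P U : Mat r ℂ) : (lin1 P U).map (PowerSeries.coeff 1) = U := by
  ext i j
  simp [lin1]

theorem isUnit_of_const (M : Mat r (PowerSeries ℂ))
    (h : IsUnit (M.map PowerSeries.constantCoeff)) : IsUnit M := by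
  rw [Matrix.isUnit_iff_isUnit_det] at h ⊢
  rw [PowerSeries.isUnit_iff_constantCoeff]
  have : (M.map PowerSeries.constantCoeff).det = PowerSeries.constantCoeff M.det :=
    (RingHom.map_det _ M).symm
  rwa [this] at h

/-- The coordinates of a tuple of invertible matrices. -/
noncomputable def coo (X : κ → (Mat r S)ˣ) (p : κ × Bool × Fin r × Fin r) : S :=
  if p.2.1 then (((X p.1)⁻¹ : (Mat r S)ˣ) : Mat r S) p.2.2.1 p.2.2.2
    else (X p.1 : Mat r S) p.2.2.1 p.2.2.2

theorem evalP_eq_aeval [Algebra ℂ S] (X : κ → (Mat r S)ˣ) :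
    evalP X = MvPolynomial.aeval (coo X) := rfl

theorem aeval_eq {σ : Type*} (p : σ → ℂ) (h : MvPolynomial σ ℂ) :
    MvPolynomial.aeval p h = MvPolynomial.eval p h := by
  rw [MvPolynomial.aeval_def, Algebra.algebraMap_self]
  rfl

/-- The equations of the representation variety. -/
noncomputable def eqns [DecidableEq κ] {ι : Type*} (W : ι → FreeGroup κ) (M : ι → Mat r ℂ) :
    (κ × Fin r × Fin r) ⊕ (ι × Fin r × Fin r) → MvPolynomial (κ × Bool × Fin r × Fin r) ℂ
  | Sum.inl q => (gpoly r q.1 false * gpoly r q.1 true) q.2.1 q.2.2 -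
      MvPolynomial.C ((1 : Mat r ℂ) q.2.1 q.2.2)
  | Sum.inr q => wpoly r (W q.1) q.2.1 q.2.2 - MvPolynomial.C (M q.1 q.2.1 q.2.2)

theorem evalP_eqns [DecidableEq κ] [Algebra ℂ S] {ι : Type*} (W : ι → FreeGroup κ)
    (M : ι → Mat r ℂ) (X : κ → (Mat r S)ˣ)
    (hX : ∀ i, (FreeGroup.lift X (W i) : Mat r S) = (M i).map (algebraMap ℂ S)) (q) :
    evalP X (eqns W M q) = 0 := by
  rcases q with q | q
  · have h1 : evalP X ((gpoly r q.1 false * gpoly r q.1 true) q.2.1 q.2.2) =
        (1 : Mat r S) q.2.1 q.2.2 := by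
      have h2 : (gpoly r q.1 false * gpoly r q.1 true).map (evalP X) = (1 : Mat r S) := by
        rw [Matrix.map_mul, evalP_gpoly, evalP_gpoly]
        simp only [Bool.false_eq_true, if_false, if_true]
        rw [← Units.val_mul, mul_inv_cancel, Units.val_one]
      rw [← h2, Matrix.map_apply]
    rw [eqns, map_sub, h1, evalP, MvPolynomial.aeval_C]
    by_cases h : q.2.1 = q.2.2
    · rw [h, Matrix.one_apply_eq, Matrix.one_apply_eq, map_one, sub_self]
    · rw [Matrix.one_apply_ne h, Matrix.one_apply_ne h, map_zero, sub_self]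
  · have h1 : evalP X (wpoly r (W q.1) q.2.1 q.2.2) =
        algebraMap ℂ S (M q.1 q.2.1 q.2.2) := by
      have h2 := evalP_wpoly X (W q.1)
      rw [hX] at h2
      have h3 := congrFun (congrFun h2 q.2.1) q.2.2
      rwa [Matrix.map_apply, Matrix.map_apply] at h3
    rw [eqns, map_sub, h1, evalP, MvPolynomial.aeval_C, sub_self]

/-- Application of the arc lemma. -/
theorem arc_application [Fintype κ] [DecidableEq κ] {ι : Type*} [Finite ι]
    (W : ι → FreeGroup κ) (M : ι → Mat r ℂ) (D : Set (FreeGroup κ →* (Mat r ℂ)ˣ))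
    (hD : ∀ y ∈ D, ∀ i, (y (W i) : Mat r ℂ) = M i) (ρ : FreeGroup κ →* (Mat r ℂ)ˣ)
    (hρ : ∀ i, (ρ (W i) : Mat r ℂ) = M i)
    (hreal : ∀ E : FreeGroup κ → Mat r ℂ, IsDer ρ E → (∀ i, E (W i) = 0) →
      ∃ x : FreeGroup κ →* (Mat r (PowerSeries ℂ))ˣ, InZ D x ∧ rep0 x = ρ ∧
        ∀ k, der1 x (FreeGroup.of k) = E (FreeGroup.of k))
    (f : MvPolynomial (FreeGroup κ × Fin r × Fin r) ℂ) (hf : ∀ y ∈ D, evalW y f = 0) :
    ∃ h : MvPolynomial (κ × Bool × Fin r × Fin r) ℂ,
      evalP (fun k => ρ (FreeGroup.of k)) h ≠ 0 ∧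
      ∀ X : κ → (Mat r ℂ)ˣ, (∀ i, (FreeGroup.lift X (W i) : Mat r ℂ) = M i) →
        evalP X h * evalW (FreeGroup.lift X) f = 0 := by
  obtain ⟨P, hP⟩ : ∃ P : κ → (Mat r ℂ)ˣ, P = fun k => ρ (FreeGroup.of k) := ⟨_, rfl⟩
  have hPρ : FreeGroup.lift P = ρ := by rw [hP]; exact lift_of ρ
  have hPk : ∀ k, ρ (FreeGroup.of k) = P k := fun k => by rw [hP]
  -- jets of coordinates
  have h0 : ∀ x : FreeGroup κ →* (Mat r (PowerSeries ℂ))ˣ, rep0 x = ρ →
      ∀ v, PowerSeries.coeff 0 (coo (fun k => x (FreeGroup.of k)) v) = coo P v := by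
    rintro x hx ⟨k, b, i, j⟩
    have h1 : (rep0 x (FreeGroup.of k)) = P k := by rw [hx, hPk]
    cases b
    · have h2 := congrArg (fun U : (Mat r ℂ)ˣ => (U : Mat r ℂ) i j) h1
      simpa [coo, rep0, baseChange_apply] using h2
    · have h2 := congrArg (fun U : (Mat r ℂ)ˣ => ((U⁻¹ : (Mat r ℂ)ˣ) : Mat r ℂ) i j) h1
      simp only [rep0, baseChange_inv_apply] at h2
      simpa [coo] using h2
  have h1 : ∀ x : FreeGroup κ →* (Mat r (PowerSeries ℂ))ˣ, rep0 x = ρ →
      ∀ u : κ × Bool × Fin r × Fin r → ℂ,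
      (∀ k, der1 x (FreeGroup.of k) = Matrix.of fun i j => u (k, false, i, j)) →
      (∀ k, (P k : Mat r ℂ) * (Matrix.of fun i j => u (k, true, i, j)) +
        (Matrix.of fun i j => u (k, false, i, j)) * (((P k)⁻¹ : (Mat r ℂ)ˣ) : Mat r ℂ) = 0) →
      ∀ v, PowerSeries.coeff 1 (coo (fun k => x (FreeGroup.of k)) v) = u v := by
    rintro x hx u hu1 hu2 ⟨k, b, i, j⟩
    cases b
    · have h2 := congrFun (congrFun (hu1 k) i) j
      simpa [coo, der1] using h2
    · have h3 : der1 x (FreeGroup.of k)⁻¹ = Matrix.of fun i j => u (k, true, i, j) := by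
        have h4 : IsDer ρ (der1 x) := by rw [← hx]; exact isDer_der1 x
        rw [h4.inv, hu1, hPk]
        have h5 := hu2 k
        have h6 : (P k : Mat r ℂ) * (Matrix.of fun i j => u (k, true, i, j)) =
            -((Matrix.of fun i j => u (k, false, i, j)) *
              (((P k)⁻¹ : (Mat r ℂ)ˣ) : Mat r ℂ)) := eq_neg_of_add_eq_zero_left h5
        have h7 : (Matrix.of fun i j => u (k, true, i, j)) =
            (((P k)⁻¹ : (Mat r ℂ)ˣ) : Mat r ℂ) * ((P k : Mat r ℂ) *
              (Matrix.of fun i j => u (k, true, i, j))) := by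
          rw [← Matrix.mul_assoc, ← Units.val_mul, inv_mul_cancel, Units.val_one, Matrix.one_mul]
        rw [h7, h6, Matrix.mul_neg, Matrix.mul_assoc]
      have h8 := congrFun (congrFun h3 i) j
      rw [der1, map_inv, Matrix.map_apply, Matrix.of_apply] at h8
      simpa [coo] using h8
  have hpz : ∀ q, MvPolynomial.eval (coo P) (eqns W M q) = 0 := by
    intro q
    have := evalP_eqns W M P (fun i => by rw [hPρ, hρ]; ext i j; simp) q
    rwa [evalP_eq_aeval, aeval_eq] at this
  have harc : ∀ u : κ × Bool × Fin r × Fin r → ℂ,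
      (∀ q, ∑ v, MvPolynomial.eval (coo P) (MvPolynomial.pderiv v (eqns W M q)) * u v = 0) →
      ∃ c : κ × Bool × Fin r × Fin r → PowerSeries ℂ,
        (∀ v, PowerSeries.coeff 0 (c v) = coo P v) ∧ (∀ v, PowerSeries.coeff 1 (c v) = u v) ∧
        MvPolynomial.aeval c (toP f) = 0 ∧ ∀ q, MvPolynomial.aeval c (eqns W M q) = 0 := by
    intro u hu
    -- tangent vectors
    have hlin : ∀ q, PowerSeries.coeff 1 (MvPolynomial.aeval
        (fun v => (PowerSeries.C (R := ℂ) (coo P v) + PowerSeries.X * PowerSeries.C (R := ℂ) (u v)))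
          (eqns W M q)) = 0 := by
      intro q
      rw [P002.coeff_one_aeval]
      rw [← hu q]
      refine Finset.sum_congr rfl fun v _ => ?_
      have e0 : (fun i => PowerSeries.coeff 0 (PowerSeries.C (R := ℂ) (coo P i) +
          PowerSeries.X * PowerSeries.C (R := ℂ) (u i))) = coo P := by
        funext i; simp
      have e1 : PowerSeries.coeff 1 (PowerSeries.C (R := ℂ) (coo P v) +
          PowerSeries.X * PowerSeries.C (R := ℂ) (u v)) = u v := by
        simp
      rw [e0, e1]
    have htan : ∀ k, (P k : Mat r ℂ) * (Matrix.of fun i j => u (k, true, i, j)) +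
        (Matrix.of fun i j => u (k, false, i, j)) * (((P k)⁻¹ : (Mat r ℂ)ˣ) : Mat r ℂ) = 0 := by
      intro k
      have g1 : ∀ b, (gpoly r k b).map (MvPolynomial.aeval
          (fun v => (PowerSeries.C (R := ℂ) (coo P v) +
            PowerSeries.X * PowerSeries.C (R := ℂ) (u v)))) =
          lin1 (if b then (((P k)⁻¹ : (Mat r ℂ)ˣ) : Mat r ℂ) else (P k : Mat r ℂ))
            (Matrix.of fun i j => u (k, b, i, j)) := by
        intro b
        ext1 i j
        rw [Matrix.map_apply, gpoly, Matrix.of_apply, MvPolynomial.aeval_X]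
        cases b <;> simp [lin1, coo]
      have g2 := map_coeff_one_mul
        (lin1 (P k : Mat r ℂ) (Matrix.of fun i j => u (k, false, i, j)))
        (lin1 (((P k)⁻¹ : (Mat r ℂ)ˣ) : Mat r ℂ) (Matrix.of fun i j => u (k, true, i, j)))
      rw [lin1_one, lin1_one, lin1_const, lin1_const] at g2
      rw [add_comm, ← g2]
      ext i j
      have g3 := hlin (Sum.inl (k, i, j))
      rw [eqns, map_sub, map_sub, MvPolynomial.aeval_C] at g3
      have g4 : MvPolynomial.aeval (fun v => (PowerSeries.C (R := ℂ) (coo P v) +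
            PowerSeries.X * PowerSeries.C (R := ℂ) (u v)))
            ((gpoly r k false * gpoly r k true) i j) =
          (lin1 (P k : Mat r ℂ) (Matrix.of fun i j => u (k, false, i, j)) *
        lin1 (((P k)⁻¹ : (Mat r ℂ)ˣ) : Mat r ℂ) (Matrix.of fun i j => u (k, true, i, j))) i j := by
        have g5 := congrFun (congrFun (Matrix.map_mul (f := (MvPolynomial.aeval
          (fun v => (PowerSeries.C (R := ℂ) (coo P v) +
            PowerSeries.X * PowerSeries.C (R := ℂ) (u v))) :
            MvPolynomial (κ × Bool × Fin r × Fin r) ℂ →ₐ[ℂ] PowerSeries ℂ))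
            (L := gpoly r k false) (M := gpoly r k true)) i) j
        rw [g1, g1] at g5
        simp only [Bool.false_eq_true, if_false, if_true] at g5
        rw [← g5, Matrix.map_apply]
      rw [g4] at g3
      rw [Matrix.map_apply, Matrix.zero_apply]
      rw [← g3]
      have g6 : PowerSeries.coeff 1 (algebraMap ℂ (PowerSeries ℂ) ((1 : Mat r ℂ) i j)) = 0 := by
        rw [← PowerSeries.C_eq_algebraMap, PowerSeries.coeff_C]
        simp
      rw [g6, sub_zero]
    -- the linear family
    have hY : ∀ k, ∃ y : (Mat r (PowerSeries ℂ))ˣ, (y : Mat r (PowerSeries ℂ)) =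
        lin1 (P k : Mat r ℂ) (Matrix.of fun i j => u (k, false, i, j)) := by
      intro k
      have : IsUnit (lin1 (P k : Mat r ℂ) (Matrix.of fun i j => u (k, false, i, j))) := by
        apply isUnit_of_const
        rw [lin1_const]
        exact (P k).isUnit
      exact this
    choose Y hY using hY
    have hY0 : rep0 (FreeGroup.lift Y) = ρ := by
      rw [← hPρ]
      apply FreeGroup.ext_hom
      intro k
      ext1
      rw [rep0, baseChange_apply, FreeGroup.lift_apply_of, FreeGroup.lift_apply_of, hY,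
        lin1_const]
    have hY1 : ∀ k, der1 (FreeGroup.lift Y) (FreeGroup.of k) =
        Matrix.of fun i j => u (k, false, i, j) := by
      intro k
      rw [der1, FreeGroup.lift_apply_of, hY, lin1_one]
    have hYv := h1 _ hY0 u hY1 htan
    have hY0v := h0 _ hY0
    have hE : IsDer ρ (der1 (FreeGroup.lift Y)) := by rw [← hY0]; exact isDer_der1 _
    have hEW : ∀ a, der1 (FreeGroup.lift Y) (W a) = 0 := by
      intro a
      ext i j
      have g3 := hu (Sum.inr (a, i, j))
      have g4 : PowerSeries.coeff 1 (evalP (fun k => (FreeGroup.lift Y) (FreeGroup.of k))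
          (eqns W M (Sum.inr (a, i, j)))) = 0 := by
        rw [evalP_eq_aeval, P002.coeff_one_aeval, ← g3]
        refine Finset.sum_congr rfl fun v _ => ?_
        rw [hYv, funext hY0v]
      rw [eqns, map_sub, map_sub] at g4
      have g5 := congrFun (congrFun (evalP_wpoly (fun k => (FreeGroup.lift Y) (FreeGroup.of k))
        (W a)) i) j
      rw [Matrix.map_apply, lift_of] at g5
      rw [g5, evalP, MvPolynomial.aeval_C, ← PowerSeries.C_eq_algebraMap, PowerSeries.coeff_C]
        at g4
      simpa [der1] using g4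
    obtain ⟨x, hx1, hx2, hx3⟩ := hreal _ hE hEW
    refine ⟨coo fun k => x (FreeGroup.of k), h0 x hx2, h1 x hx2 u (fun k => ?_) htan, ?_, ?_⟩
    · rw [hx3, hY1]
    · rw [← evalP_eq_aeval, evalP_toP, lift_of]
      exact hx1 f hf
    · intro q
      rw [← evalP_eq_aeval]
      apply evalP_eqns
      intro i
      rw [lift_of]
      exact hx1.word_eq (W i) (M i) fun y hy => hD y hy i
  obtain ⟨h, hh1, hh2⟩ := P002.arc_lemma (eqns W M) (toP f) (coo P) hpz harc
  refine ⟨h, ?_, fun X hX => ?_⟩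
  · rw [← hP, evalP_eq_aeval, aeval_eq]
    exact hh1
  · rw [← evalP_toP, ← map_mul]
    have hker : Ideal.span (Set.range (eqns W M)) ≤ RingHom.ker (evalP X : _ →ₐ[ℂ] ℂ) := by
      rw [Ideal.span_le]
      rintro _ ⟨q, rfl⟩
      rw [SetLike.mem_coe, RingHom.mem_ker]
      exact evalP_eqns W M X (fun i => by rw [hX]; ext i j; simp) q
    exact (RingHom.mem_ker).1 (hker hh2)

end Vale.Agent.P002R
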