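import Vale.Agent.P002R.RJordan

/-! TASK P: existence of base points. -/

namespace Vale.Agent.P002R

open Matrix

section Prelim

variable {R : Type*} [CommRing R] {r : ℕ}

/-- matrices over `R`, as complex matrices -/
def PhiU (φ : R →+* ℂ) : (Mat r R)ˣ →* (Mat r ℂ)ˣ :=
  Units.map (RingHom.mapMatrix φ).toMonoidHom

theorem PhiU_coe (φ : R →+* ℂ) (Y : (Mat r R)ˣ) : (PhiU φ Y : Mat r ℂ) = (Y : Mat r R).map φ := rfl

theorem slU_coe (φ : R →+* ℂ) (A : SpecialLinearGroup (Fin r) R) :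
    (slU φ A : Mat r ℂ) = (A : Mat r R).map φ := by
  ext i j
  simp [slU]

theorem scalarU_mul_coe (c : ℂˣ) (U : (Mat r ℂ)ˣ) :
    ((scalarU c * U : (Mat r ℂ)ˣ) : Mat r ℂ) = (c : ℂ) • (U : Mat r ℂ) := by
  simp only [Units.val_mul, scalarU, Units.coe_map, RingHom.toMonoidHom_eq_coe,
    MonoidHom.coe_coe]
  rw [← Algebra.smul_def]

/-- a complex matrix with entries in `R` whose determinant is an `r`-th power of a unit -/
theorem mem_GR_of (φ : R →+* ℂ) (X : (Mat r ℂ)ˣ) (Y : Mat r R) (hXY : (X : Mat r ℂ) = Y.map φ)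
    (c : Rˣ) (hc : Y.det = (c : R) ^ r) : X ∈ GR r φ := by
  have hdet : (((c⁻¹ : Rˣ) : R) • Y).det = 1 := by
    rw [Matrix.det_smul, Fintype.card_fin, hc, ← mul_pow, ← Units.val_mul, inv_mul_cancel,
      Units.val_one, one_pow]
  obtain ⟨y, hy⟩ : ∃ y : SpecialLinearGroup (Fin r) R, (y : Mat r R) = ((c⁻¹ : Rˣ) : R) • Y :=
    ⟨⟨((c⁻¹ : Rˣ) : R) • Y, hdet⟩, rfl⟩
  refine ⟨Units.map (φ : R →* ℂ) c, y, ?_⟩
  apply Units.ext
  rw [scalarU_mul_coe, slU_coe, hy, hXY]
  ext i j
  simp only [Matrix.map_apply, Matrix.smul_apply, smul_eq_mul, map_mul, Units.coe_map,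
    MonoidHom.coe_coe]
  rw [← mul_assoc, ← map_mul, ← Units.val_mul, mul_inv_cancel, Units.val_one, map_one, one_mul]

theorem PhiU_mem_GR (φ : R →+* ℂ) (Y : (Mat r R)ˣ) (c : Rˣ) (hc : (Y : Mat r R).det = (c : R) ^ r) :
    PhiU φ Y ∈ GR r φ :=
  mem_GR_of φ _ (Y : Mat r R) (PhiU_coe φ Y) c hc

theorem exists_root (φ : R →+* ℂ) (hφ : Function.Injective φ) (hr : 1 ≤ r) (M : ℕ) (hM : 0 < M)
    (hμ : ∀ z : ℂ, z ^ (M * r) = 1 → z ∈ Set.range φ) (z : R) (hz : z ^ M = 1) :
    ∃ c : Rˣ, z = (c : R) ^ r := by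
  obtain ⟨w, hw⟩ := IsAlgClosed.exists_pow_nat_eq (φ z) (n := r) (by omega)
  have h1 : w ^ (M * r) = 1 := by
    rw [mul_comm, pow_mul, hw, ← map_pow, hz, map_one]
  obtain ⟨γ, rfl⟩ := hμ w h1
  have h2 : γ ^ (M * r) = 1 := by
    apply hφ
    rw [map_pow, h1, map_one]
  have h3 : IsUnit γ := IsUnit.of_pow_eq_one h2 (by
    have : 0 < M * r := Nat.mul_pos hM hr
    omega)
  obtain ⟨c, rfl⟩ := h3
  refine ⟨c, ?_⟩
  apply hφ
  rw [map_pow, hw]

/-- strictly upper triangular matrices -/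
def SUp (E : Mat r R) : Prop := ∀ i j, ¬ i < j → E i j = 0

theorem SUp.mul {E F : Mat r R} (hE : SUp E) (hF : SUp F) : SUp (E * F) := by
  intro i j hij
  rw [Matrix.mul_apply]
  apply Finset.sum_eq_zero
  intro k _
  by_cases h : i < k
  · rw [hF k j (fun h' => hij (h.trans h')), mul_zero]
  · rw [hE i k h, zero_mul]

theorem SUp.add {E F : Mat r R} (hE : SUp E) (hF : SUp F) : SUp (E + F) := by
  intro i j hij
  rw [Matrix.add_apply, hE i j hij, hF i j hij, add_zero]

theorem SUp.smul {E : Mat r R} (c : R) (hE : SUp E) : SUp (c • E) := by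
  intro i j hij
  rw [Matrix.smul_apply, hE i j hij, smul_zero]

theorem SUp.mul_diag {E : Mat r R} (d : Fin r → R) (hE : SUp E) : SUp (E * diagonal d) := by
  intro i j hij
  rw [Matrix.mul_diagonal, hE i j hij, zero_mul]

theorem SUp.diag_mul {E : Mat r R} (d : Fin r → R) (hE : SUp E) : SUp (diagonal d * E) := by
  intro i j hij
  rw [Matrix.diagonal_mul, hE i j hij, mul_zero]

theorem fixed_point (E w : Mat r R) (hE : SUp E) :
    ∃ v : Mat r R, ∀ i j, v i j = (1 : Mat r R) i j + (if i < j then w i j * (E * v) i j else 0) := by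
  let L : Module.End R (Mat r R) :=
    { toFun := fun v => Matrix.of fun i j => if i < j then w i j * (E * v) i j else 0
      map_add' := by
        intro a b
        ext i j
        simp only [Matrix.of_apply, Matrix.add_apply, Matrix.mul_add]
        split_ifs <;> ring
      map_smul' := by
        intro c a
        ext i j
        simp only [Matrix.of_apply, Matrix.smul_apply, Matrix.mul_smul, RingHom.id_apply,
          smul_eq_mul]
        split_ifs <;> ring }
  have hL : ∀ v i j, L v i j = if i < j then w i j * (E * v) i j else 0 := fun v i j => rfl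
  have hnil : ∀ s : ℕ, ∀ v : Mat r R, ∀ i j : Fin r, r ≤ (i : ℕ) + s → (L ^ s) v i j = 0 := by
    intro s
    induction s with
    | zero => intro v i j h; exact absurd i.2 (by omega)
    | succ s ih =>
      intro v i j h
      rw [pow_succ', Module.End.mul_apply, hL]
      split_ifs
      · rw [Matrix.mul_apply, Finset.sum_eq_zero, mul_zero]
        intro k _
        by_cases hik : i < k
        · rw [ih v k j (by
            have : (i : ℕ) < (k : ℕ) := hik
            omega), mul_zero]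
        · rw [hE i k hik, zero_mul]
      · rfl
  have hLnil : IsNilpotent L := by
    refine ⟨r, ?_⟩
    ext1 v
    ext i j
    rw [hnil r v i j (by omega)]
    rfl
  have hunit : IsUnit (1 - L) := hLnil.isUnit_one_sub
  obtain ⟨K, hK⟩ := hunit
  refine ⟨(K⁻¹ : (Module.End R (Mat r R))ˣ).val 1, ?_⟩
  intro i j
  set v := (K⁻¹ : (Module.End R (Mat r R))ˣ).val 1 with hv
  have h1 : (1 - L) v = 1 := by
    rw [← hK, hv, ← Module.End.mul_apply, ← Units.val_mul, mul_inv_cancel, Units.val_one,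
      Module.End.one_apply]
  have h2 : v = 1 + L v := by
    rw [LinearMap.sub_apply, Module.End.one_apply] at h1
    rw [← h1, sub_add_cancel]
  have h3 := congrFun (congrFun h2 i) j
  rw [Matrix.add_apply, hL] at h3
  exact h3

theorem exists_comm (t : Fin r → R) (Δ : R) (w : Mat r R)
    (hw : ∀ i j, i < j → w i j * (t j - t i) = Δ) (E : Mat r R) (hE : SUp E) :
    ∃ v : Mat r R, v.det = 1 ∧
      v * diagonal t = (1 + Δ • E) * diagonal t * v := by
  obtain ⟨v, hv⟩ := fixed_point (E * diagonal t) w (hE.mul_diag t)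
  have hlow : ∀ i j, j < i → v i j = 0 := by
    intro i j hij
    rw [hv, if_neg (not_lt.mpr hij.le), Matrix.one_apply_ne hij.ne', add_zero]
  have hdiag : ∀ i, v i i = 1 := by
    intro i
    rw [hv, if_neg (lt_irrefl i), Matrix.one_apply_eq, add_zero]
  refine ⟨v, ?_, ?_⟩
  · rw [Matrix.det_of_isUpperTriangular]
    · simp [hdiag]
    · intro i j hij
      exact hlow i j hij
  · ext i j
    have h1 : ((1 + Δ • E) * diagonal t * v) i j = t i * v i j +
        Δ * ((E * diagonal t) * v) i j := by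
      rw [Matrix.add_mul, Matrix.one_mul, Matrix.smul_mul, Matrix.add_mul, Matrix.smul_mul,
        Matrix.add_apply, Matrix.smul_apply, smul_eq_mul, Matrix.diagonal_mul]
    rw [h1, Matrix.mul_diagonal]
    rcases lt_trichotomy i j with h | h | h
    · have h2 := hv i j
      rw [if_pos h, Matrix.one_apply_ne h.ne, zero_add] at h2
      have h3 : v i j * (t j - t i) = Δ * ((E * diagonal t) * v) i j := by
        rw [h2, ← hw i j h]
        ring
      linear_combination h3
    · subst h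
      have h2 : ((E * diagonal t) * v) i i = 0 := by
        rw [Matrix.mul_apply]
        apply Finset.sum_eq_zero
        intro k _
        by_cases hik : i < k
        · rw [hlow k i hik, mul_zero]
        · rw [(hE.mul_diag t) i k hik, zero_mul]
      rw [h2]
      ring
    · have h2 : ((E * diagonal t) * v) i j = 0 := by
        rw [Matrix.mul_apply]
        apply Finset.sum_eq_zero
        intro k _
        by_cases hik : i < k
        · rw [hlow k j (h.trans hik), mul_zero]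
        · rw [(hE.mul_diag t) i k hik, zero_mul]
      rw [h2, hlow i j h]
      ring

end Prelim

section Tor

variable {R : Type*} [CommRing R] {r : ℕ}

/-- the torus element `t = diag (u^(r 4^i))` -/
def tU (r : ℕ) (u : Rˣ) (i : Fin r) : Rˣ := u ^ (r * 4 ^ (i : ℕ))

theorem phi_pow_inj (φ : R →+* ℂ) (u : Rˣ) (hu : ∀ k : ℕ, 0 < k → φ (u : R) ^ k ≠ 1) :
    Function.Injective fun k : ℕ => φ (u : R) ^ k := by
  have hφu : φ (u : R) ≠ 0 := (u.isUnit.map φ).ne_zero
  have aux : ∀ a b : ℕ, a < b → φ (u : R) ^ a ≠ φ (u : R) ^ b := by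
    intro a b hab h
    obtain ⟨d, hd, rfl⟩ : ∃ d, 0 < d ∧ b = a + d := ⟨b - a, by omega, by omega⟩
    rw [pow_add] at h
    have h0 : φ (u : R) ^ a ≠ 0 := pow_ne_zero _ hφu
    exact hu d hd (mul_left_cancel₀ h0 (by rw [mul_one]; exact h.symm))
  intro a b h
  by_contra hab
  rcases lt_or_gt_of_ne hab with h' | h'
  · exact aux a b h' h
  · exact aux b a h' h.symm

theorem sum_four_pow_inj (s t : Multiset (Fin r)) (hs : s.card = 3) (ht : t.card = 3)
    (h : (s.map fun i : Fin r => 4 ^ (i : ℕ)).sum = (t.map fun i : Fin r => 4 ^ (i : ℕ)).sum) : s = t := by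
  classical
  have key : ∀ s : Multiset (Fin r), (s.map fun i : Fin r => 4 ^ (i : ℕ)).sum =
      Nat.ofDigits 4 (List.ofFn fun i : Fin r => s.count i) := by
    intro s
    rw [Nat.ofDigits_eq_sum_mapIdx]
    have h1 : (List.mapIdx (fun i a => a * 4 ^ i) (List.ofFn fun i : Fin r => s.count i)) =
        List.ofFn fun i : Fin r => s.count i * 4 ^ (i : ℕ) := by
      apply List.ext_getElem
      · simp
      · intro n h1 h2
        simp
    rw [h1, List.sum_ofFn, Finset.sum_multiset_map_count]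
    have h2 : ∀ i : Fin r, i ∉ s.toFinset → s.count i * 4 ^ (i : ℕ) = 0 := by
      intro i hi
      rw [Multiset.mem_toFinset] at hi
      rw [Multiset.count_eq_zero_of_notMem hi, zero_mul]
    simp only [smul_eq_mul]
    exact Finset.sum_subset (Finset.subset_univ _) fun i _ hi => h2 i hi
  rw [key, key] at h
  have hlt : ∀ s : Multiset (Fin r), s.card = 3 → ∀ l ∈ List.ofFn fun i : Fin r => s.count i,
      l < 4 := by
    intro s hs l hl
    rw [List.mem_ofFn] at hl
    obtain ⟨i, rfl⟩ := hl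
    have := Multiset.count_le_card i s
    omega
  have h3 := Nat.ofDigits_inj_of_len_eq (b := 4) (by norm_num) (by simp) (hlt s hs) (hlt t ht) h
  ext i
  exact congrFun (List.ofFn_injective h3) i

theorem reg3_tU (φ : R →+* ℂ) (u : Rˣ) (hu : ∀ k : ℕ, 0 < k → φ (u : R) ^ k ≠ 1) (hr : 1 ≤ r) :
    Reg3 fun i : Fin r => φ ((tU r u i)⁻¹ : Rˣ) := by
  have hne : ∀ i : Fin r, φ ((tU r u i)⁻¹ : Rˣ) ≠ 0 := fun i => ((tU r u i)⁻¹.isUnit.map φ).ne_zero
  refine ⟨hne, ?_⟩
  intro s t hs ht h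
  have hprod : ∀ s : Multiset (Fin r), (s.map fun i : Fin r => φ ((tU r u i)⁻¹ : Rˣ)).prod =
      (φ (u : R) ^ (r * (s.map fun i : Fin r => 4 ^ (i : ℕ)).sum))⁻¹ := by
    intro s
    induction s using Multiset.induction_on with
    | empty => simp
    | cons a s ih =>
      rw [Multiset.map_cons, Multiset.prod_cons, ih, Multiset.map_cons, Multiset.sum_cons,
        mul_add, pow_add, mul_inv]
      congr 1
      have : φ ((tU r u a)⁻¹ : Rˣ) * φ (u : R) ^ (r * 4 ^ (a : ℕ)) = 1 := by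
        rw [← map_pow, ← map_mul, ← Units.val_pow_eq_pow_val, ← Units.val_mul]
        rw [tU, inv_mul_cancel, Units.val_one, map_one]
      exact eq_inv_of_mul_eq_one_left this
  rw [hprod, hprod, _root_.inv_inj] at h
  have h1 := phi_pow_inj φ u hu h
  have h2 : (s.map fun i : Fin r => 4 ^ (i : ℕ)).sum = (t.map fun i : Fin r => 4 ^ (i : ℕ)).sum :=
    Nat.eq_of_mul_eq_mul_left (by omega) h1
  exact sum_four_pow_inj s t hs ht h2

/-- the discriminant -/
def disc (r : ℕ) (u : Rˣ) : R :=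
  ∏ p ∈ Finset.univ.filter (fun p : Fin r × Fin r => p.1 < p.2),
    ((tU r u p.2 : R) - (tU r u p.1 : R))

/-- the discriminant with one factor removed -/
def discw (r : ℕ) (u : Rˣ) : Mat r R := Matrix.of fun i j =>
  ∏ p ∈ (Finset.univ.filter (fun p : Fin r × Fin r => p.1 < p.2)).erase (i, j),
    ((tU r u p.2 : R) - (tU r u p.1 : R))

theorem discw_mul (u : Rˣ) (i j : Fin r) (h : i < j) :
    discw r u i j * ((tU r u j : R) - (tU r u i : R)) = disc r u := by
  unfold disc discw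
  rw [Matrix.of_apply]
  exact Finset.prod_erase_mul _ (fun p : Fin r × Fin r => (tU r u p.2 : R) - (tU r u p.1 : R))
    (by simp [h])

theorem phi_disc_ne (φ : R →+* ℂ) (u : Rˣ) (hu : ∀ k : ℕ, 0 < k → φ (u : R) ^ k ≠ 1) :
    φ (disc r u) ≠ 0 := by
  unfold disc
  rw [map_prod, Finset.prod_ne_zero_iff]
  intro p hp
  rw [Finset.mem_filter] at hp
  have hr : 0 < r := lt_of_le_of_lt (Nat.zero_le _) p.1.2
  rw [map_sub, sub_ne_zero]
  intro h
  have h1 : ∀ i : Fin r, φ (tU r u i : R) = φ (u : R) ^ (r * 4 ^ (i : ℕ)) := by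
    intro i
    rw [tU, Units.val_pow_eq_pow_val, map_pow]
  rw [h1, h1] at h
  have h2 := phi_pow_inj φ u hu h
  have h3 := Nat.eq_of_mul_eq_mul_left hr h2
  have h4 := Nat.pow_right_injective (le_refl 2 |>.trans (by norm_num : 2 ≤ 4)) h3
  have : (p.1 : ℕ) < (p.2 : ℕ) := hp.2
  omega

theorem det_tU (u : Rˣ) : (diagonal fun i : Fin r => (tU r u i : R)).det =
    ((u ^ (∑ i : Fin r, 4 ^ (i : ℕ)) : Rˣ) : R) ^ r := by
  rw [Matrix.det_diagonal, ← Units.coe_prod, ← Units.val_pow_eq_pow_val]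
  congr 1
  unfold tU
  rw [Finset.prod_pow_eq_pow_sum, ← pow_mul, ← Finset.mul_sum, mul_comm]

end Tor

section Data

variable {R : Type*} [CommRing R] {r n : ℕ}

theorem comm_diag (hr : 1 ≤ r) (δ : Fin r → Rˣ) (hδ : ∏ i, δ i = 1) :
    ∃ (b : Fin r → Rˣ) (P : Mat r R), (∀ N : ℕ, (∀ i, δ i ^ N = 1) → ∀ i, b i ^ N = 1) ∧
      (P.det = 1 ∨ P.det = -1) ∧
      diagonal (fun i => (b i : R)) * P =
        diagonal (fun i => (δ i : R)) * P * diagonal (fun i => (b i : R)) := by
  obtain ⟨n, rfl⟩ : ∃ n, r = n + 1 := ⟨r - 1, by omega⟩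
  let L := List.ofFn δ
  have hLlen : L.length = n + 1 := by simp [L]
  let b : Fin (n + 1) → Rˣ := fun i => (L.take ((i : ℕ) + 1)).prod
  have hstep : ∀ (k : ℕ) (hk : k < n + 1), (L.take (k + 1)).prod = (L.take k).prod * δ ⟨k, hk⟩ := by
    intro k hk
    rw [List.prod_take_succ L k (by omega)]
    simp only [L, List.getElem_ofFn]
  have hfull : (L.take (n + 1)).prod = 1 := by
    rw [List.take_of_length_le (by omega)]
    simp only [L]
    rw [List.prod_ofFn, hδ]
  have hb : ∀ j : Fin (n + 1), b (finRotate (n + 1) j) = δ (finRotate (n + 1) j) * b j := by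
    intro j
    rcases Nat.lt_or_ge (j : ℕ) n with hj | hj
    · have h1 : finRotate (n + 1) j = ⟨(j : ℕ) + 1, by omega⟩ := by
        apply Fin.ext
        rw [coe_finRotate_of_ne_last]
        intro h
        rw [h] at hj
        simp at hj
      rw [h1]
      simp only [b]
      rw [hstep ((j : ℕ) + 1) (by omega), mul_comm]
    · have h0 : j = Fin.last n := by
        apply Fin.ext
        simp
        omega
      rw [h0, finRotate_last]
      simp only [b]
      rw [Fin.val_last, hfull, mul_one]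
      have := hstep 0 (by omega)
      simpa using this
  refine ⟨b, (1 : Mat (n + 1) R).submatrix id (finRotate (n + 1)), ?_, ?_, ?_⟩
  · intro N hN i
    have h1 : b i ∈ (powMonoidHom N : Rˣ →* Rˣ).ker := by
      apply Subgroup.list_prod_mem
      intro x hx
      have hx' := List.mem_of_mem_take hx
      simp only [L, List.mem_ofFn] at hx'
      obtain ⟨l, rfl⟩ := hx'
      rw [MonoidHom.mem_ker, powMonoidHom_apply]
      exact hN l
    rwa [MonoidHom.mem_ker, powMonoidHom_apply] at h1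
  · rw [Matrix.det_permute', Matrix.det_one, mul_one]
    rcases Int.units_eq_one_or (Equiv.Perm.sign (finRotate (n + 1))) with h | h
    · left; rw [h]; simp
    · right; rw [h]; simp
  · ext i j
    rw [Matrix.diagonal_mul, Matrix.mul_diagonal, Matrix.diagonal_mul, Matrix.submatrix_apply,
      id_eq, Matrix.one_apply]
    by_cases h : i = finRotate (n + 1) j
    · rw [if_pos h, mul_one, mul_one, h, hb, Units.val_mul]
    · rw [if_neg h, mul_zero, mul_zero, zero_mul]

/-- matrices of the form `diagonal p + Δ • E` -/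
def IsJ (Δ : R) (p : Fin r → R) (X : Mat r R) : Prop := ∃ E, SUp E ∧ X = diagonal p + Δ • E

theorem IsJ.mul {Δ : R} {p q : Fin r → R} {X Y : Mat r R} (hX : IsJ Δ p X) (hY : IsJ Δ q Y) :
    IsJ Δ (p * q) (X * Y) := by
  obtain ⟨E, hE, rfl⟩ := hX
  obtain ⟨F, hF, rfl⟩ := hY
  refine ⟨diagonal p * F + E * diagonal q + Δ • (E * F),
    ((hF.diag_mul p).add (hE.mul_diag q)).add ((hE.mul hF).smul Δ), ?_⟩
  rw [Matrix.add_mul, Matrix.mul_add, Matrix.mul_add, Matrix.diagonal_mul_diagonal]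
  simp only [Matrix.mul_smul, Matrix.smul_mul, smul_add, smul_smul]
  have : (diagonal fun i => p i * q i) = diagonal (p * q) := rfl
  rw [this]
  abel

theorem IsJ.one {Δ : R} : IsJ Δ (1 : Fin r → R) (1 : Mat r R) :=
  ⟨0, fun _ _ _ => rfl, by simp⟩

theorem IsJ.det {Δ : R} {p : Fin r → R} {X : Mat r R} (hX : IsJ Δ p X) : X.det = ∏ i, p i := by
  obtain ⟨E, hE, rfl⟩ := hX
  rw [Matrix.det_of_isUpperTriangular]
  · refine Finset.prod_congr rfl fun i _ => ?_
    rw [Matrix.add_apply, Matrix.diagonal_apply_eq, Matrix.smul_apply, hE i i (lt_irrefl i)]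
    simp
  · intro i j hij
    have hji : j < i := hij
    have h1 : (diagonal p + Δ • E) i j = 0 := by
      rw [Matrix.add_apply, Matrix.diagonal_apply_ne _ hji.ne', Matrix.smul_apply,
        hE i j (not_lt.mpr hji.le)]
      simp
    exact h1

theorem IsJ.list {ι : Type*} {Δ : R} (p : ι → Fin r → R) (X : ι → Mat r R)
    (h : ∀ j, IsJ Δ (p j) (X j)) (l : List ι) : IsJ Δ (l.map p).prod (l.map X).prod := by
  induction l with
  | nil => exact IsJ.one
  | cons a l ih =>
    rw [List.map_cons, List.map_cons, List.prod_cons, List.prod_cons]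
    exact (h a).mul ih

theorem exists_data (φ : R →+* ℂ) (hφ : Function.Injective φ) (N : ℕ) (hN : 0 < N)
    (hμ : ∀ z : ℂ, z ^ N = 1 → z ∈ Set.range φ) (Δ : R) (hΔ : φ Δ ≠ 0) (C : (Mat r ℂ)ˣ)
    (hC : IsNilpotent ((C : Mat r ℂ) ^ N - 1)) :
    ∃ (δ : Fin r → Rˣ) (J : (Mat r R)ˣ), (∀ i, δ i ^ N = 1) ∧
      IsJ Δ (fun i => (δ i : R)) (J : Mat r R) ∧ IsConj C (PhiU φ J) := by
  obtain ⟨d, ν, hd, hν, h⟩ := exists_jordan (C : Mat r ℂ) N hN hC
  have hlift : ∀ i, ∃ δ : Rˣ, φ (δ : R) = d i ∧ δ ^ N = 1 := by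
    intro i
    obtain ⟨γ, hγ⟩ := hμ (d i) (hd i)
    have h2 : γ ^ N = 1 := by
      apply hφ
      rw [map_pow, hγ, hd, map_one]
    obtain ⟨c, rfl⟩ := IsUnit.of_pow_eq_one h2 (by omega)
    refine ⟨c, hγ, ?_⟩
    apply Units.ext
    rw [Units.val_pow_eq_pow_val, h2, Units.val_one]
  choose δ hδ1 hδ2 using hlift
  have hJ : IsJ Δ (fun i => (δ i : R)) (diagonal (fun i => (δ i : R)) +
      Δ • ν.map (Int.castRingHom R)) := by
    refine ⟨ν.map (Int.castRingHom R), ?_, rfl⟩
    intro i j hij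
    rw [Matrix.map_apply, hν i j hij, map_zero]
  have hu : IsUnit (diagonal (fun i => (δ i : R)) + Δ • ν.map (Int.castRingHom R)) := by
    rw [Matrix.isUnit_iff_isUnit_det, hJ.det, ← Units.coe_prod]
    exact Units.isUnit _
  obtain ⟨J, hJ'⟩ := hu
  refine ⟨δ, J, hδ2, by rw [hJ']; exact hJ, ?_⟩
  obtain ⟨P, hP⟩ := h (φ Δ) hΔ
  rw [isConj_comm, isConj_iff]
  refine ⟨P, ?_⟩
  apply Units.ext
  rw [Units.val_mul, Units.val_mul, PhiU_coe, hJ', hP]
  congr 2
  ext i j
  simp only [Matrix.map_apply, Matrix.add_apply, Matrix.smul_apply, smul_eq_mul, map_add,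
    map_mul]
  congr 1
  · by_cases hij : i = j
    · subst hij
      simp [hδ1]
    · simp [Matrix.diagonal_apply_ne _ hij]
  · congr 1
    simp

theorem exists_unit_of_det {Y : Mat r R} (h : IsUnit Y.det) : ∃ X : (Mat r R)ˣ, (X : Mat r R) = Y := by
  have : IsUnit Y := (Matrix.isUnit_iff_isUnit_det Y).mpr h
  exact this

theorem finish {m : ℕ} (φ : R →+* ℂ) (C : Fin n → (Mat r ℂ)ˣ) (J : Fin n → (Mat r R)ˣ)
    (hJ : ∀ j, IsConj (C j) (PhiU φ (J j))) (hJdet : ∀ j, ∃ c : Rˣ, (J j : Mat r R).det = (c : R) ^ r)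
    (a b : Fin (m + 1) → (Mat r R)ˣ) (ha : ∀ i, ∃ c : Rˣ, (a i : Mat r R).det = (c : R) ^ r)
    (hb : ∀ i, ∃ c : Rˣ, (b i : Mat r R).det = (c : R) ^ r) (hlast : b (Fin.last m) = 1)
    (hprod : (List.ofFn fun j => J j).prod *
      (List.ofFn fun i => a i * b i * (a i)⁻¹ * (b i)⁻¹).prod = 1)
    (i₀ : Fin m) (t : Fin r → Rˣ) (hreg : Reg3 fun i => φ ((t i)⁻¹ : Rˣ))
    (hai : (a i₀.castSucc : Mat r R) = diagonal fun i => (t i : R)) :
    ∃ J : Fin n → (Mat r ℂ)ˣ, (∀ j, IsConj (C j) (J j)) ∧ ∃ ρ ∈ DFr (g := m + 1) φ J,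
      ρ (gB (Fin.last m)) = 1 ∧ (∀ j, ρ (gD j) = 1) ∧
        ∃ (i₀ : Fin m) (α : Fin r → ℂ) (U : (Mat r ℂ)ˣ), Reg3 α ∧
          (ρ (gB i₀.castSucc * (gA i₀.castSucc)⁻¹ * (gB i₀.castSucc)⁻¹) : Mat r ℂ) =
            (U : Mat r ℂ) * diagonal α * ((U⁻¹ : (Mat r ℂ)ˣ) : Mat r ℂ) := by
  let ρ : FF (m + 1) n →* (Mat r ℂ)ˣ := FreeGroup.lift fun k =>
    match k with
    | Sum.inl (i, false) => PhiU φ (a i)
    | Sum.inl (i, true) => PhiU φ (b i)
    | Sum.inr (_, false) => 1
    | Sum.inr (j, true) => PhiU φ (J j)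
  have hA : ∀ i, ρ (gA i) = PhiU φ (a i) := fun i => FreeGroup.lift_apply_of
  have hB : ∀ i, ρ (gB i) = PhiU φ (b i) := fun i => FreeGroup.lift_apply_of
  have hD : ∀ j, ρ (gD j) = 1 := fun i => FreeGroup.lift_apply_of
  have hE : ∀ j, ρ (gE j) = PhiU φ (J j) := fun i => FreeGroup.lift_apply_of
  have hC : ∀ j, ρ (gC j) = PhiU φ (J j) := by
    intro j
    rw [gC, map_mul, map_mul, map_inv, hD, hE, one_mul, inv_one, mul_one]
  have hH : ∀ i, ρ (hcomm i) = PhiU φ (a i * b i * (a i)⁻¹ * (b i)⁻¹) := by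
    intro i
    rw [hcomm, map_mul, map_mul, map_mul, map_inv, map_inv, hA, hB, map_mul, map_mul, map_mul,
      map_inv, map_inv]
  refine ⟨fun j => PhiU φ (J j), hJ, ρ, ⟨?_, hE, ?_, ?_⟩, ?_, hD, i₀,
    fun i => φ ((t i)⁻¹ : Rˣ), PhiU φ (b i₀.castSucc), hreg, ?_⟩
  · rw [relator, map_mul, map_list_prod, map_list_prod, List.map_ofFn, List.map_ofFn]
    have e1 : (⇑ρ ∘ fun j : Fin n => gC j) = fun j => PhiU φ (J j) := funext hC
    have e2 : (⇑ρ ∘ fun i : Fin (m + 1) => hcomm i) =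
        fun i => PhiU φ (a i * b i * (a i)⁻¹ * (b i)⁻¹) := funext hH
    rw [e1, e2]
    have h1 := congrArg (PhiU φ) hprod
    rw [map_mul, map_list_prod, map_list_prod, List.map_ofFn, List.map_ofFn, map_one] at h1
    exact h1
  · rintro ⟨i, b'⟩
    cases b' with
    | false =>
      have := hA i
      rw [gA] at this
      rw [this]
      obtain ⟨c, hc⟩ := ha i
      exact PhiU_mem_GR φ _ c hc
    | true =>
      have := hB i
      rw [gB] at this
      rw [this]
      obtain ⟨c, hc⟩ := hb i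
      exact PhiU_mem_GR φ _ c hc
  · intro j
    rw [hC]
    obtain ⟨c, hc⟩ := hJdet j
    exact PhiU_mem_GR φ _ c hc
  · rw [hB, hlast, map_one]
  · rw [map_mul, map_mul, map_inv, map_inv, hA, hB, Units.val_mul, Units.val_mul]
    congr 2
    have h1 : (a i₀.castSucc : Mat r R) * diagonal (fun i => ((t i)⁻¹ : Rˣ) : Fin r → R) = 1 := by
      rw [hai, Matrix.diagonal_mul_diagonal]
      have : (fun i => (t i : R) * (((t i)⁻¹ : Rˣ) : R)) = fun _ => 1 := by
        funext i
        rw [← Units.val_mul, mul_inv_cancel, Units.val_one]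
      rw [this, Matrix.diagonal_one]
    have h2 : (((a i₀.castSucc)⁻¹ : (Mat r R)ˣ) : Mat r R) =
        diagonal (fun i => ((t i)⁻¹ : Rˣ) : Fin r → R) := by
      calc (((a i₀.castSucc)⁻¹ : (Mat r R)ˣ) : Mat r R) =
          (((a i₀.castSucc)⁻¹ : (Mat r R)ˣ) : Mat r R) * ((a i₀.castSucc : Mat r R) *
            diagonal (fun i => ((t i)⁻¹ : Rˣ) : Fin r → R)) := by rw [h1, mul_one]
        _ = _ := by rw [← mul_assoc, ← Units.val_mul, inv_mul_cancel, Units.val_one, one_mul]
    rw [← map_inv, PhiU_coe, h2]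
    ext i j
    by_cases hij : i = j
    · subst hij; simp
    · simp [Matrix.diagonal_apply_ne _ hij]

/-- TASK P (file RBase.lean): existence of base points. -/
theorem exists_base {m : ℕ} (φ : R →+* ℂ) (hφ : Function.Injective φ) (u : Rˣ)
    (hu : ∀ k : ℕ, 0 < k → φ (u : R) ^ k ≠ 1) (hr : 1 ≤ r) (N : ℕ) (hN : 0 < N)
    (hμ : ∀ z : ℂ, z ^ (2 * N * r) = 1 → z ∈ Set.range φ)
    (C : Fin n → (Mat r ℂ)ˣ) (hC : ∀ j, IsNilpotent ((C j : Mat r ℂ) ^ N - 1))
    (hdet : ∏ j, (C j : Mat r ℂ).det = 1) (hm : 1 ≤ m)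
    (hmn : 2 ≤ m ∨ ∀ j, IsNilpotent ((C j : Mat r ℂ) - 1)) :
    ∃ J : Fin n → (Mat r ℂ)ˣ, (∀ j, IsConj (C j) (J j)) ∧ ∃ ρ ∈ DFr (g := m + 1) φ J,
      ρ (gB (Fin.last m)) = 1 ∧ (∀ j, ρ (gD j) = 1) ∧
        ∃ (i₀ : Fin m) (α : Fin r → ℂ) (U : (Mat r ℂ)ˣ), Reg3 α ∧
          (ρ (gB i₀.castSucc * (gA i₀.castSucc)⁻¹ * (gB i₀.castSucc)⁻¹) : Mat r ℂ) =
            (U : Mat r ℂ) * diagonal α * ((U⁻¹ : (Mat r ℂ)ˣ) : Mat r ℂ) := by
  have hroot : ∀ z : R, z ^ (2 * N) = 1 → ∃ c : Rˣ, z = (c : R) ^ r := fun z hz =>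
    exists_root φ hφ hr (2 * N) (by omega) hμ z hz
  obtain ⟨N', hN', hNN, hC', hm'⟩ : ∃ N' : ℕ, 0 < N' ∧ N' ∣ N ∧
      (∀ j, IsNilpotent ((C j : Mat r ℂ) ^ N' - 1)) ∧ (2 ≤ m ∨ N' = 1) := by
    rcases hmn with h | h
    · exact ⟨N, hN, dvd_rfl, hC, Or.inl h⟩
    · exact ⟨1, one_pos, one_dvd _, fun j => by rw [pow_one]; exact h j, Or.inr rfl⟩
  have hμ' : ∀ z : ℂ, z ^ N' = 1 → z ∈ Set.range φ := by
    intro z hz
    apply hμ
    obtain ⟨k, hk⟩ := hNN
    have : 2 * N * r = N' * (2 * k * r) := by rw [hk]; ring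
    rw [this, pow_mul, hz, one_pow]
  have hpowN : ∀ c : Rˣ, c ^ N' = 1 → c ^ (2 * N) = 1 := by
    intro c hc
    obtain ⟨k, hk⟩ := hNN
    have : 2 * N = N' * (2 * k) := by rw [hk]; ring
    rw [this, pow_mul, hc, one_pow]
  set Δ : R := disc r u with hΔdef
  have hΔ : φ Δ ≠ 0 := phi_disc_ne φ u hu
  choose δ J hδ hJ hconj using fun j => exists_data φ hφ N' hN' hμ' Δ hΔ (C j) (hC' j)
  -- the product of the boundary matrices
  have hP := IsJ.list (Δ := Δ) (fun j i => (δ j i : R)) (fun j => (J j : Mat r R)) hJ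
    (List.finRange n)
  obtain ⟨E, hE, hPE⟩ := hP
  let p : Fin r → Rˣ := fun i => ∏ j, δ j i
  have hp : ((List.finRange n).map fun j i => (δ j i : R)).prod = fun i => (p i : R) := by
    rw [← List.ofFn_eq_map, List.prod_ofFn]
    funext i
    rw [Finset.prod_apply, ← Units.coe_prod]
  rw [hp] at hPE
  have hp1 : ∀ i, p i ^ N' = 1 := by
    intro i
    simp only [p]
    rw [← Finset.prod_pow]
    exact Finset.prod_eq_one fun j _ => hδ j i
  have hdetJ : ∀ j, φ ((J j : Mat r R).det) = (C j : Mat r ℂ).det := by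
    intro j
    obtain ⟨X, hX⟩ := isConj_iff.mp (hconj j)
    have h1 : ((PhiU φ (J j) : (Mat r ℂ)ˣ) : Mat r ℂ).det = (C j : Mat r ℂ).det := by
      rw [← hX, Units.val_mul, Units.val_mul, Matrix.det_mul, Matrix.det_mul, mul_right_comm,
        ← Matrix.det_mul, ← Units.val_mul, mul_inv_cancel, Units.val_one, Matrix.det_one, one_mul]
    rw [← h1, PhiU_coe]
    exact RingHom.map_det φ _
  have hpprod : ∏ i, p i = 1 := by
    apply Units.ext
    apply hφ
    rw [Units.val_one, map_one, ← hdet]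
    simp only [p]
    rw [Finset.prod_comm, Units.coe_prod, map_prod]
    refine Finset.prod_congr rfl fun j _ => ?_
    rw [← hdetJ, (hJ j).det, Units.coe_prod]
  -- the triangular part
  let pi : Fin r → Rˣ := fun i => (p i)⁻¹
  obtain ⟨V, hVdet, hV⟩ := exists_comm (fun i => (tU r u i : R)) Δ (discw r u)
    (fun i j hij => discw_mul u i j hij) (E * diagonal fun i => (pi i : R)) (hE.mul_diag _)
  obtain ⟨VU, hVU⟩ := exists_unit_of_det (Y := V) (by rw [hVdet]; exact isUnit_one)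
  obtain ⟨TU, hTU⟩ := exists_unit_of_det (Y := diagonal fun i => (tU r u i : R)) (by
    rw [det_tU]; exact (Units.isUnit _).pow _)
  -- the diagonal part
  obtain ⟨b, Pm, hbN, hPmdet, hbPm⟩ := comm_diag hr pi (by
    simp only [pi]; rw [Finset.prod_inv_distrib, hpprod, inv_one])
  obtain ⟨BU, hBU⟩ := exists_unit_of_det (Y := diagonal fun i => (b i : R)) (by
    rw [Matrix.det_diagonal, ← Units.coe_prod]; exact Units.isUnit _)
  obtain ⟨PmU, hPmU⟩ := exists_unit_of_det (Y := Pm) (by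
    rcases hPmdet with h | h <;> rw [h]
    · exact isUnit_one
    · exact isUnit_one.neg)
  obtain ⟨DU', hDU⟩ := exists_unit_of_det (Y := diagonal fun i => (pi i : R)) (by
    rw [Matrix.det_diagonal, ← Units.coe_prod]; exact Units.isUnit _)
  have hcommD : BU * PmU * BU⁻¹ * PmU⁻¹ = DU' := by
    rw [mul_inv_eq_iff_eq_mul, mul_inv_eq_iff_eq_mul]
    apply Units.ext
    rw [Units.val_mul, Units.val_mul, Units.val_mul, hBU, hPmU, hDU]
    exact hbPm
  have hprodJ : (((List.ofFn fun j => J j).prod : (Mat r R)ˣ) : Mat r R) =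
      diagonal (fun i => (p i : R)) + Δ • E := by
    rw [← hPE, ← List.ofFn_eq_map, ← Units.coeHom_apply, map_list_prod, List.map_ofFn]
    rfl
  have hprodD : (((List.ofFn fun j => J j).prod * DU' : (Mat r R)ˣ) : Mat r R) =
      1 + Δ • (E * diagonal fun i => (pi i : R)) := by
    rw [Units.val_mul, hprodJ, hDU, Matrix.add_mul, Matrix.diagonal_mul_diagonal, Matrix.smul_mul]
    congr 1
    have : (fun i => (p i : R) * (pi i : R)) = fun _ => 1 := by
      funext i
      simp only [pi]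
      rw [← Units.val_mul, mul_inv_cancel, Units.val_one]
    rw [this, Matrix.diagonal_one]
  have hmain : (List.ofFn fun j => J j).prod * (DU' * (TU * VU * TU⁻¹ * VU⁻¹)) = 1 := by
    have h1 : (List.ofFn fun j => J j).prod * DU' * TU * VU = VU * TU := by
      apply Units.ext
      rw [Units.val_mul, Units.val_mul, hprodD, hVU, hTU, Units.val_mul, hVU, hTU]
      exact hV.symm
    calc (List.ofFn fun j => J j).prod * (DU' * (TU * VU * TU⁻¹ * VU⁻¹)) =
        ((List.ofFn fun j => J j).prod * DU' * TU * VU) * (TU⁻¹ * VU⁻¹) := by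
          simp only [mul_assoc]
      _ = 1 := by rw [h1]; group
  -- determinants
  have hdetB : ∃ c : Rˣ, (BU : Mat r R).det = (c : R) ^ r := by
    apply hroot
    rw [hBU, Matrix.det_diagonal, ← Finset.prod_pow]
    refine Finset.prod_eq_one fun i _ => ?_
    rw [← Units.val_pow_eq_pow_val, hpowN _ (hbN N' (fun i => by
      simp only [pi]; rw [inv_pow, hp1, inv_one]) i), Units.val_one]
  have hdetPm : ∃ c : Rˣ, (PmU : Mat r R).det = (c : R) ^ r := by
    apply hroot
    rw [hPmU, pow_mul]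
    rcases hPmdet with h | h <;> rw [h] <;> simp
  have hdetT : ∃ c : Rˣ, (TU : Mat r R).det = (c : R) ^ r := ⟨_, by rw [hTU, det_tU]⟩
  have hdetV : ∃ c : Rˣ, (VU : Mat r R).det = (c : R) ^ r := ⟨1, by rw [hVU, hVdet]; simp⟩
  have hdet1 : ∃ c : Rˣ, ((1 : (Mat r R)ˣ) : Mat r R).det = (c : R) ^ r := ⟨1, by simp⟩
  have hdetJ' : ∀ j, ∃ c : Rˣ, (J j : Mat r R).det = (c : R) ^ r := by
    intro j
    apply hroot
    rw [(hJ j).det, ← Finset.prod_pow]
    refine Finset.prod_eq_one fun i _ => ?_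
    rw [← Units.val_pow_eq_pow_val, hpowN _ (hδ j i), Units.val_one]
  rcases Nat.lt_or_ge m 2 with hm2 | hm2
  · -- one free handle, unipotent case
    obtain rfl : m = 1 := by omega
    have hN1 : N' = 1 := by
      rcases hm' with h | h
      · omega
      · exact h
    have hDU1 : DU' = 1 := by
      apply Units.ext
      rw [hDU, Units.val_one]
      have : (fun i => (pi i : R)) = fun _ => 1 := by
        funext i
        have := hp1 i
        rw [hN1, pow_one] at this
        simp only [pi]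
        rw [this, inv_one, Units.val_one]
      rw [this, Matrix.diagonal_one]
    rw [hDU1, one_mul] at hmain
    refine finish φ C J hconj hdetJ' (Fin.cons TU fun _ => 1) (Fin.cons VU fun _ => 1)
      ?_ ?_ rfl ?_ 0 (tU r u) (reg3_tU φ u hu hr) ?_
    · intro i
      refine Fin.cases ?_ (fun i => ?_) i
      · exact hdetT
      · exact hdet1
    · intro i
      refine Fin.cases ?_ (fun i => ?_) i
      · exact hdetV
      · exact hdet1
    · rw [List.ofFn_succ (n := 1)]
      simp only [Fin.cons_zero, Fin.cons_succ]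
      rw [List.prod_cons]
      simp only [mul_one, inv_one, List.ofFn_const, List.prod_replicate, one_pow]
      exact hmain
    · exact hTU
  · -- two free handles
    obtain ⟨k, rfl⟩ : ∃ k, m = k + 2 := ⟨m - 2, by omega⟩
    refine finish φ C J hconj hdetJ' (Fin.cons BU (Fin.cons TU fun _ => 1))
      (Fin.cons PmU (Fin.cons VU fun _ => 1)) ?_ ?_ ?_ ?_ ⟨1, by omega⟩ (tU r u)
      (reg3_tU φ u hu hr) ?_
    · intro i
      refine Fin.cases ?_ (fun i => ?_) i
      · exact hdetB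
      · refine Fin.cases ?_ (fun i => ?_) i
        · exact hdetT
        · exact hdet1
    · intro i
      refine Fin.cases ?_ (fun i => ?_) i
      · exact hdetPm
      · refine Fin.cases ?_ (fun i => ?_) i
        · exact hdetV
        · exact hdet1
    · rfl
    · rw [List.ofFn_succ, List.ofFn_succ]
      simp only [Fin.cons_zero, Fin.cons_succ]
      rw [List.prod_cons, List.prod_cons]
      simp only [mul_one, inv_one, List.ofFn_const, List.prod_replicate, one_pow]
      rw [hcommD]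
      exact hmain
    · exact hTU

end Data

end Vale.Agent.P002R
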