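import Vale.Agent.P002R.RBlockA
import Mathlib.LinearAlgebra.Matrix.Block

/-!
# The dual lemma for block data, part B: block scalars and block diagonal parts
-/

namespace Vale.Agent.P002R

open Matrix

variable {r : ℕ}

/-- Multiplicative independence up to degree `D`. -/
def FreeUpTo (D : ℕ) (τ : Fin r → ℂ) : Prop :=
  ∀ e e' : Fin r → ℕ, ∑ i, e i = ∑ i, e' i → ∑ i, e i ≤ D →
    ∏ i, τ i ^ e i = ∏ i, τ i ^ e' i → e = e'

/-- Block data: after conjugation by `U` the matrices `P q` are block upper triangular for the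
block function `c`, the blocks are irreducible, `P q₀` is diagonal with distinct entries `α` and
`α ^ M` is a block scalar with multiplicatively independent entries (up to degree `2 r + 3`). -/
structure BlockData {L : Type*} (P : L → (Mat r ℂ)ˣ) (q₀ : L) (U : (Mat r ℂ)ˣ) (α : Fin r → ℂ)
    (c : Fin r → Fin r) (M : ℕ) (τ : Fin r → ℂ) : Prop where
  diag : (P q₀ : Mat r ℂ) = (U : Mat r ℂ) * diagonal α * ((U⁻¹ : (Mat r ℂ)ˣ) : Mat r ℂ)
  inj : Function.Injective α
  tri : ∀ q i j, c j < c i → ((U⁻¹ * P q * U : (Mat r ℂ)ˣ) : Mat r ℂ) i j = 0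
  conn : ∀ i j, c i = c j → Relation.ReflTransGen
    (fun i j => ∃ q, ((U⁻¹ * P q * U : (Mat r ℂ)ˣ) : Mat r ℂ) i j ≠ 0) i j
  pow : ∀ i, α i ^ M = τ (c i)
  free : FreeUpTo (2 * r + 3) τ

theorem homog_eq_zero {d D : ℕ} (τ : Fin r → ℂ) (hτ : FreeUpTo D τ) (hd : d ≤ D)
    (g : MvPolynomial (Fin r) ℂ) (hg : g.IsHomogeneous d)
    (h : ∀ n : ℕ, MvPolynomial.eval (fun b => τ b ^ n) g = 0) : g = 0 := by
  classical
  ext s₀
  rw [MvPolynomial.coeff_zero]
  by_contra hs₀
  have hdeg : ∀ s : Fin r →₀ ℕ, s ∈ g.support → ∑ i, s i = d := by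
    intro s hs
    by_contra hne
    rw [MvPolynomial.mem_support_iff] at hs
    apply hs
    apply hg.coeff_eq_zero
    rw [Finsupp.degree_eq_sum]
    exact hne
  have hmem : s₀ ∈ g.support := MvPolynomial.mem_support_iff.2 hs₀
  have h1 := interp_zero (S := {s // s ∈ g.support}) (fun s => ∏ i, τ i ^ (s : Fin r →₀ ℕ) i)
    (fun s => if (s : Fin r →₀ ℕ) = s₀ then (1 : ℂ) else 0) (fun s => g.coeff s)
    (by
      intro s s' hss
      have h2 := hτ s.1 s'.1 (by rw [hdeg _ s.2, hdeg _ s'.2]) (by rw [hdeg _ s.2]; exact hd) hss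
      have h3 : s.1 = s'.1 := DFunLike.coe_injective h2
      simp only [h3])
    (by
      intro n
      have h2 := MvPolynomial.eval_eq' (fun b => τ b ^ n) g
      rw [h n] at h2
      have h3 := Finset.sum_coe_sort g.support
        (fun s : Fin r →₀ ℕ => g.coeff s * ∏ i, (τ i ^ n) ^ s i)
      rw [h2, ← h3]
      refine Finset.sum_congr rfl fun s _ => ?_
      congr 1
      rw [← Finset.prod_pow]
      refine Finset.prod_congr rfl fun i _ => ?_
      rw [← pow_mul, ← pow_mul, mul_comm])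
  rw [Finset.sum_eq_single (⟨s₀, hmem⟩ : {s // s ∈ g.support})] at h1
  · rw [if_pos rfl, mul_one] at h1
    exact hs₀ h1
  · intro s _ hs
    rw [if_neg (fun h => hs (Subtype.ext h)), mul_zero]
  · intro h; exact absurd (Finset.mem_univ _) h

/-! ### Homogeneous matrices -/

/-- All entries are homogeneous of degree `d`. -/
def HomM (d : ℕ) (X : Mat r (MvPolynomial (Fin r) ℂ)) : Prop := ∀ i j, (X i j).IsHomogeneous d

theorem HomM.mul {d e : ℕ} {X Y : Mat r (MvPolynomial (Fin r) ℂ)} (hX : HomM d X)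
    (hY : HomM e Y) : HomM (d + e) (X * Y) := by
  intro i j
  rw [Matrix.mul_apply]
  exact MvPolynomial.IsHomogeneous.sum _ _ _ fun k _ => (hX i k).mul (hY k j)

theorem HomM.pow {d : ℕ} {X : Mat r (MvPolynomial (Fin r) ℂ)} (hX : HomM d X) (k : ℕ) :
    HomM (d * k) (X ^ k) := by
  induction k with
  | zero =>
    rw [pow_zero, mul_zero]
    intro i j
    rw [Matrix.one_apply]
    split_ifs
    · exact MvPolynomial.isHomogeneous_one _ _
    · exact MvPolynomial.isHomogeneous_zero _ _ _
  | succ k ih =>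
    rw [pow_succ, mul_add, mul_one]
    exact ih.mul hX

theorem HomM.const (X : Mat r ℂ) : HomM 0 (X.map (MvPolynomial.C (σ := Fin r))) := by
  intro i j
  rw [Matrix.map_apply]
  exact MvPolynomial.isHomogeneous_C _ _

theorem HomM.hadamard {d : ℕ} (μ : Mat r ℂ) {X : Mat r (MvPolynomial (Fin r) ℂ)} (hX : HomM d X) :
    HomM d (μ.map (MvPolynomial.C (σ := Fin r)) ⊙ X) := by
  intro i j
  rw [Matrix.hadamard_apply, Matrix.map_apply]
  exact (hX i j).C_mul _

theorem HomM.trace {d : ℕ} {X : Mat r (MvPolynomial (Fin r) ℂ)} (hX : HomM d X) :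
    (Matrix.trace X).IsHomogeneous d :=
  MvPolynomial.IsHomogeneous.sum _ _ _ fun i _ => hX i i

/-- The generic block scalar. -/
noncomputable def genD (c : Fin r → Fin r) : Mat r (MvPolynomial (Fin r) ℂ) :=
  diagonal fun i => MvPolynomial.X (c i)

theorem HomM.genD (c : Fin r → Fin r) : HomM 1 (genD c) := by
  intro i j
  unfold P002R.genD
  by_cases h : i = j
  · subst h; rw [diagonal_apply_eq]; exact MvPolynomial.isHomogeneous_X _ _
  · rw [diagonal_apply_ne _ h]; exact MvPolynomial.isHomogeneous_zero _ _ _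

theorem Phi_map {S T : Type*} [CommRing S] [CommRing T] (f : S →+* T) (k : ℕ)
    (μ A X : Mat r S) : f (Phi k μ A X) = Phi k (μ.map f) (A.map f) (X.map f) := by
  have hh : ∀ U V : Mat r S, (U ⊙ V).map f = U.map f ⊙ V.map f := by
    intro U V
    ext i j
    simp
  have hp : ∀ (U : Mat r S) (k : ℕ), (U ^ k).map f = (U.map f) ^ k := fun U k =>
    map_pow (RingHom.mapMatrix f) U k
  have ht : ∀ U : Mat r S, f (trace U) = trace (U.map f) := by
    intro U
    simp [Matrix.trace, map_sum]
  unfold Phi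
  rw [map_sub, ht, ht, Matrix.map_mul, Matrix.map_mul, Matrix.map_mul, Matrix.map_mul, hh, hh, hp,
    hp, Matrix.map_mul, Matrix.map_mul, Matrix.transpose_map]

theorem Phi_homog (k : ℕ) (μ A : Mat r ℂ) {X : Mat r (MvPolynomial (Fin r) ℂ)}
    (hX : HomM 1 X) :
    (Phi k (μ.map (MvPolynomial.C (σ := Fin r))) (A.map (MvPolynomial.C (σ := Fin r))) X).IsHomogeneous
      (k + 1) := by
  unfold Phi
  apply MvPolynomial.IsHomogeneous.sub
  · have h := (((HomM.hadamard μ hX).mul (HomM.const A)).mul ((hX.mul (HomM.const A)).pow k)).trace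
    have e : 1 + 0 + (1 + 0) * k = k + 1 := by ring
    rwa [e] at h
  · have h := (((HomM.hadamard μᵀ (HomM.const A)).mul hX).mul (((HomM.const A).mul hX).pow k)).trace
    have e : 0 + 1 + (0 + 1) * k = k + 1 := by ring
    rw [e] at h
    rw [← Matrix.transpose_map]
    exact h

/-- Extension from powers of `τ` to all block scalars. -/
theorem extend_block {k D : ℕ} (hk : k + 1 ≤ D) (τ : Fin r → ℂ) (hτ : FreeUpTo D τ)
    (c : Fin r → Fin r) (μ A X Y : Mat r ℂ)
    (h : ∀ n : ℕ, Phi k μ A (X * diagonal (fun i => τ (c i) ^ n) * Y) = 0) (δ : Fin r → ℂ) :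
    Phi k μ A (X * diagonal (fun i => δ (c i)) * Y) = 0 := by
  obtain ⟨C, hC⟩ : ∃ C : ℂ →+* MvPolynomial (Fin r) ℂ, C = MvPolynomial.C := ⟨_, rfl⟩
  obtain ⟨Z, hZ⟩ : ∃ Z : Mat r (MvPolynomial (Fin r) ℂ), Z = X.map C * genD c * Y.map C :=
    ⟨_, rfl⟩
  have hZh : HomM 1 Z := by
    rw [hZ, hC]
    have h := ((HomM.const X).mul (HomM.genD c)).mul (HomM.const Y)
    simpa using h
  have hev : ∀ δ : Fin r → ℂ, MvPolynomial.eval δ (Phi k (μ.map C) (A.map C) Z) =
      Phi k μ A (X * diagonal (fun i => δ (c i)) * Y) := by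
    intro δ
    have hid : ∀ U : Mat r ℂ, (U.map C).map (MvPolynomial.eval δ) = U := by
      intro U
      ext i j
      simp [hC]
    rw [Phi_map, hid, hid, hZ, Matrix.map_mul, Matrix.map_mul, hid, hid]
    congr 3
    ext i j
    rw [Matrix.map_apply, genD]
    by_cases hij : i = j
    · subst hij; simp
    · simp [diagonal_apply_ne _ hij]
  have hz : Phi k (μ.map C) (A.map C) Z = 0 := by
    refine homog_eq_zero τ hτ hk _ ?_ fun n => ?_
    · rw [hC]; exact Phi_homog k μ A hZh
    · rw [hev]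
      exact h n
  rw [← hev, hz, map_zero]

/-- The block diagonal part. -/
def blkD (c : Fin r → Fin r) (X : Mat r ℂ) : Mat r ℂ :=
  Matrix.of fun i j => if c i = c j then X i j else 0

theorem Phi_continuous (k : ℕ) (μ A : Mat r ℂ) {f : ℂ → Mat r ℂ} (hf : Continuous f) :
    Continuous fun t => Phi k μ A (f t) := by
  unfold Phi
  have h1 : Continuous fun t => μ ⊙ f t := by
    apply continuous_matrix
    intro i j
    simp only [Matrix.hadamard_apply]
    exact continuous_const.mul (hf.matrix_elem i j)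
  exact (((h1.matrix_mul continuous_const).matrix_mul
    ((hf.matrix_mul continuous_const).pow k)).matrix_trace).sub
    (((continuous_const.matrix_mul hf).matrix_mul
    ((continuous_const.matrix_mul hf).pow k)).matrix_trace)

section

variable {L : Type*} (P : L → (Mat r ℂ)ˣ)

/-- Products of block triangular matrices are block triangular. -/
theorem wP_tri (c : Fin r → Fin r) (htri : ∀ q i j, c j < c i → (P q : Mat r ℂ) i j = 0)
    (p : List L) (i j : Fin r) (hij : c j < c i) : (wP P p : Mat r ℂ) i j = 0 := by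
  induction p generalizing i j with
  | nil =>
    rw [wP, Units.val_one, Matrix.one_apply_ne]
    intro h
    rw [h] at hij
    exact lt_irrefl _ hij
  | cons q p ih =>
    rw [wP, Units.val_mul, Matrix.mul_apply]
    apply Finset.sum_eq_zero
    intro l _
    rcases lt_or_ge (c l) (c i) with h | h
    · rw [htri q i l h, zero_mul]
    · rw [ih l j (lt_of_lt_of_le hij h), mul_zero]

/-- `Phi` vanishes at all block scalar multiples of the block diagonal parts. -/
theorem Phi_block (A μ : Mat r ℂ) (q₀ : L) (α : Fin r → ℂ) (hq₀ : (P q₀ : Mat r ℂ) = diagonal α)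
    (c : Fin r → Fin r) (htri : ∀ q i j, c j < c i → (P q : Mat r ℂ) i j = 0)
    (M D : ℕ) (τ : Fin r → ℂ) (hpow : ∀ i, α i ^ M = τ (c i)) (hτ : FreeUpTo D τ)
    (h : ∀ (p : List L) (k : ℕ), Phi k μ A (wP P p : Mat r ℂ) = 0) (p : List L) (k : ℕ)
    (hk : k + 1 ≤ D) (δ : Fin r → ℂ) :
    Phi k μ A (diagonal (fun i => δ (c i)) * blkD c (wP P p : Mat r ℂ)) = 0 := by
  have hT : ∀ n : ℕ, (wP P (List.replicate (M * n) q₀) : Mat r ℂ) =
      diagonal fun i => τ (c i) ^ n := by
    intro n
    rw [wP_replicate P q₀ α hq₀]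
    congr 1
    funext i
    rw [pow_mul, hpow]
  have h1 : ∀ (p : List L) (δ : Fin r → ℂ),
      Phi k μ A (diagonal (fun i => δ (c i)) * (wP P p : Mat r ℂ)) = 0 := by
    intro p δ
    have := extend_block hk τ hτ c μ A 1 (wP P p : Mat r ℂ) (fun n => by
      rw [← hT n, one_mul, ← Units.val_mul, ← wP_append]
      exact h _ k) δ
    rwa [one_mul] at this
  have h2 : ∀ (δ δ' : Fin r → ℂ), Phi k μ A (diagonal (fun i => δ (c i)) * (wP P p : Mat r ℂ) *
      diagonal (fun i => δ' (c i))) = 0 := by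
    intro δ δ'
    have := extend_block hk τ hτ c μ A (diagonal (fun i => δ (c i)) * (wP P p : Mat r ℂ)) 1
      (fun n => by
        rw [← hT n, mul_one, mul_assoc, ← Units.val_mul, ← wP_append]
        exact h1 _ δ) δ'
    rwa [mul_one] at this
  -- the degeneration
  obtain ⟨W, hW⟩ : ∃ W : ℂ → Mat r ℂ, W = fun t => Matrix.of fun i j =>
    if c i ≤ c j then t ^ ((c j : ℕ) - (c i : ℕ)) * (wP P p : Mat r ℂ) i j else 0 := ⟨_, rfl⟩
  have hWc : Continuous W := by
    rw [hW]
    apply continuous_matrix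
    intro i j
    simp only [Matrix.of_apply]
    split_ifs
    · exact (continuous_id.pow _).mul continuous_const
    · exact continuous_const
  have hW0 : W 0 = blkD c (wP P p : Mat r ℂ) := by
    rw [hW]
    ext i j
    simp only [blkD, Matrix.of_apply]
    by_cases h3 : c i = c j
    · rw [if_pos h3, if_pos h3.le, h3, Nat.sub_self, pow_zero, one_mul]
    · rw [if_neg h3]
      split_ifs with h4
      · rw [zero_pow, zero_mul]
        have : (c i : ℕ) ≠ (c j : ℕ) := fun h => h3 (Fin.ext h)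
        have : (c i : ℕ) ≤ (c j : ℕ) := h4
        omega
      · rfl
  have hWt : ∀ t : ℂ, t ≠ 0 → diagonal (fun i => δ (c i)) * W t =
      diagonal (fun i => (fun b : Fin r => δ b * (t⁻¹) ^ (b : ℕ)) (c i)) * (wP P p : Mat r ℂ) *
        diagonal (fun i => (fun b : Fin r => t ^ (b : ℕ)) (c i)) := by
    intro t ht
    ext i j
    rw [mul_diagonal, diagonal_mul, diagonal_mul, hW]
    simp only [Matrix.of_apply]
    split_ifs with h4
    · have h5 : t ^ ((c j : ℕ)) = t ^ ((c j : ℕ) - (c i : ℕ)) * t ^ (c i : ℕ) := by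
        rw [← pow_add, Nat.sub_add_cancel h4]
      rw [h5, inv_pow]
      have h6 : t ^ (c i : ℕ) ≠ 0 := pow_ne_zero _ ht
      field_simp
    · rw [wP_tri P c htri p i j (not_le.1 h4)]
      ring
  have hcl : (fun t => Phi k μ A (diagonal (fun i => δ (c i)) * W t)) = fun _ => 0 := by
    apply Continuous.ext_on (dense_compl_singleton (0 : ℂ))
      (Phi_continuous k μ A (continuous_const.matrix_mul hWc)) continuous_const
    intro t ht
    simp only
    rw [hWt t ht]
    exact h2 (fun b : Fin r => δ b * (t⁻¹) ^ (b : ℕ)) (fun b : Fin r => t ^ (b : ℕ))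
  have h5 : Phi k μ A (diagonal (fun i => δ (c i)) * W 0) = 0 := congrFun hcl 0
  rwa [hW0] at h5

end

end Vale.Agent.P002R
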