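import Vale.Agent.P002R.RArc

/-!
# Composites of slides
-/

namespace Vale.Agent.P002R

open Matrix

variable {g m n r : ℕ}

theorem gC_def (j : Fin n) : (gC j : FF g n) = gD j * gE j * (gD j)⁻¹ := rfl

theorem Adm.map_Fc {τ : FF g n ≃* FF g n} (h : Adm τ) {w : FF g n} (hw : w ∈ Fc g n) :
    τ w ∈ Fc g n := by
  have : (Fc g n) ≤ (Fc g n).comap τ.toMonoidHom := by
    rw [Fc, Subgroup.closure_le]
    rintro w (⟨k, rfl⟩ | ⟨j, rfl⟩)
    · exact h.hab k
    · obtain ⟨u, hu, hu'⟩ := h.hd j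
      rw [SetLike.mem_coe, Subgroup.mem_comap]
      have h1 : τ.toMonoidHom (gC j) = u * gC j * u⁻¹ := by
        change τ (gC j) = _
        rw [gC_def, map_mul, map_mul, map_inv, h.he, hu']
        group
      rw [h1]
      exact mul_mem (mul_mem hu (Subgroup.subset_closure (Or.inr ⟨j, rfl⟩))) (inv_mem hu)
  exact this hw

theorem Adm.refl : Adm (MulEquiv.refl (FF g n)) where
  rel := rfl
  he _ := rfl
  hd _ := ⟨1, one_mem _, by simp⟩
  hab k := Subgroup.subset_closure (Or.inl ⟨k, rfl⟩)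

theorem Adm.trans {τ τ' : FF g n ≃* FF g n} (h : Adm τ) (h' : Adm τ') : Adm (τ.trans τ') where
  rel := by rw [MulEquiv.trans_apply, h.rel, h'.rel]
  he j := by rw [MulEquiv.trans_apply, h.he, h'.he]
  hd j := by
    obtain ⟨u, hu, hu'⟩ := h.hd j
    obtain ⟨v, hv, hv'⟩ := h'.hd j
    refine ⟨τ' u * v, mul_mem (h'.map_Fc hu) hv, ?_⟩
    rw [MulEquiv.trans_apply, hu', map_mul, hv', mul_assoc]
  hab k := by
    rw [MulEquiv.trans_apply]
    exact h'.map_Fc (h.hab k)

/-- `σ` is a slide of the last handle around the loop `q`. -/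
def IsSlide (q : Loop m n) (σ : FF (m + 1) n ≃* FF (m + 1) n) : Prop :=
  Adm σ ∧ Adm σ.symm ∧ σ (gB (Fin.last m)) = gB (Fin.last m) ∧
      (∀ {G : Type} [Group G] (x : FF (m + 1) n →* G), x (gB (Fin.last m)) = 1 →
        x (σ (gA (Fin.last m))) = x (loopW q) * x (gA (Fin.last m)) ∧
          ∀ k, k ≠ Sum.inl (Fin.last m, false) →
            x (σ (FreeGroup.of k)) = x (FreeGroup.of k)) ∧
      (∀ (r : ℕ) (x : FF (m + 1) n →* (Mat r ℂ)ˣ), x (gB (Fin.last m)) = 1 →
        ∀ E : FF (m + 1) n → Mat r ℂ, IsDer x E → ∀ k, k ≠ Sum.inl (Fin.last m, false) →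
          E (σ.symm (FreeGroup.of k)) = E (FreeGroup.of k) +
            Lam x q ((x (gA (Fin.last m)) : Mat r ℂ) * E (gB (Fin.last m)) *
              (((x (gA (Fin.last m)))⁻¹ : (Mat r ℂ)ˣ) : Mat r ℂ)) k)

variable (σ : Loop m n → FF (m + 1) n ≃* FF (m + 1) n)

/-- Composite of slides. -/
def slp : List (Loop m n) → FF (m + 1) n ≃* FF (m + 1) n
  | [] => MulEquiv.refl _
  | q :: p => (σ q).trans (slp p)

theorem slp_nil : slp σ [] = MulEquiv.refl _ := rfl

theorem slp_cons (q : Loop m n) (p : List (Loop m n)) (w : FF (m + 1) n) :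
    slp σ (q :: p) w = slp σ p (σ q w) := rfl

theorem slp_cons_symm (q : Loop m n) (p : List (Loop m n)) (w : FF (m + 1) n) :
    (slp σ (q :: p)).symm w = (σ q).symm ((slp σ p).symm w) := rfl

variable {σ} (hσ : ∀ q, IsSlide q (σ q))

include hσ

theorem slp_adm (p : List (Loop m n)) : Adm (slp σ p) := by
  induction p with
  | nil => exact Adm.refl
  | cons q p ih => exact (hσ q).1.trans ih

theorem slp_symm_adm (p : List (Loop m n)) : Adm (slp σ p).symm := by
  induction p with
  | nil => exact Adm.refl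
  | cons q p ih => exact ih.trans (hσ q).2.1

theorem slp_gB (p : List (Loop m n)) : slp σ p (gB (Fin.last m)) = gB (Fin.last m) := by
  induction p with
  | nil => rfl
  | cons q p ih => rw [slp_cons, (hσ q).2.2.1, ih]

theorem slp_symm_gB (p : List (Loop m n)) :
    (slp σ p).symm (gB (Fin.last m)) = gB (Fin.last m) := by
  rw [MulEquiv.symm_apply_eq, slp_gB hσ]

theorem slp_of {G : Type} [Group G] (x : FF (m + 1) n →* G) (hx : x (gB (Fin.last m)) = 1)
    (p : List (Loop m n)) (k : Gen (m + 1) n) (hk : k ≠ Sum.inl (Fin.last m, false)) :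
    x (slp σ p (FreeGroup.of k)) = x (FreeGroup.of k) := by
  induction p with
  | nil => rfl
  | cons q p ih =>
    rw [slp_cons]
    have hy : (x.comp (slp σ p).toMonoidHom) (gB (Fin.last m)) = 1 := by
      change x (slp σ p (gB (Fin.last m))) = 1
      rw [slp_gB hσ, hx]
    have := ((hσ q).2.2.2.1 (x.comp (slp σ p).toMonoidHom) hy).2 k hk
    change x (slp σ p (σ q (FreeGroup.of k))) = x (slp σ p (FreeGroup.of k)) at this
    rw [this, ih]

omit hσ in
/-- The subgroup generated by all generators except `a_m`. -/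
def Fprime (m n : ℕ) : Subgroup (FF (m + 1) n) :=
  Subgroup.closure {w | ∃ k : Gen (m + 1) n, k ≠ Sum.inl (Fin.last m, false) ∧
    w = FreeGroup.of k}

omit hσ in
theorem of_mem_Fprime {k : Gen (m + 1) n} (hk : k ≠ Sum.inl (Fin.last m, false)) :
    FreeGroup.of k ∈ Fprime m n := Subgroup.subset_closure ⟨k, hk, rfl⟩

omit hσ in
theorem gB_mem (i : Fin (m + 1)) : (gB i : FF (m + 1) n) ∈ Fprime m n :=
  of_mem_Fprime (by simp)

omit hσ in
theorem gA_mem (i : Fin m) : (gA i.castSucc : FF (m + 1) n) ∈ Fprime m n :=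
  of_mem_Fprime (by simp [(Fin.castSucc_lt_last i).ne])

omit hσ in
theorem gC_mem (j : Fin n) : (gC j : FF (m + 1) n) ∈ Fprime m n := by
  rw [gC_def]
  exact mul_mem (mul_mem (of_mem_Fprime (by simp)) (of_mem_Fprime (by simp)))
    (inv_mem (of_mem_Fprime (by simp)))

omit hσ in
theorem bw_mem (b : Fin n ⊕ Fin m) : bw b ∈ Fprime m n := by
  rcases b with j | i
  · exact gC_mem j
  · exact mul_mem (mul_mem (mul_mem (gA_mem i) (gB_mem _)) (inv_mem (gA_mem i)))
      (inv_mem (gB_mem _))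

omit hσ in
theorem aftL_mem (b : Fin n ⊕ Fin m) (l : List (Fin n ⊕ Fin m)) : aftL b l ∈ Fprime m n := by
  induction l with
  | nil => exact one_mem _
  | cons b' l ih =>
    rw [aftL]
    split_ifs
    · apply Subgroup.list_prod_mem
      intro w hw
      rw [List.mem_map] at hw
      obtain ⟨c, _, rfl⟩ := hw
      exact bw_mem c
    · exact ih

omit hσ in
theorem kap_mem (q : Loop m n) : kap q ∈ Fprime m n := aftL_mem _ _

omit hσ in
theorem loopW_mem (q : Loop m n) : loopW q ∈ Fprime m n := by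
  refine mul_mem (mul_mem (inv_mem (kap_mem q)) ?_) (kap_mem q)
  rcases q with j | ⟨i, b⟩
  · exact gC_mem j
  · cases b
    · exact mul_mem (mul_mem (gB_mem _) (inv_mem (gA_mem i))) (inv_mem (gB_mem _))
    · exact inv_mem (gB_mem _)

omit hσ in
/-- Homomorphisms which agree on the generators except `a_m` agree on `Fprime`. -/
theorem eq_on_Fprime {G : Type} [Group G] (x y : FF (m + 1) n →* G)
    (h : ∀ k : Gen (m + 1) n, k ≠ Sum.inl (Fin.last m, false) →
      x (FreeGroup.of k) = y (FreeGroup.of k)) {w : FF (m + 1) n} (hw : w ∈ Fprime m n) :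
    x w = y w := by
  have : Fprime m n ≤ x.eqLocus y := by
    rw [Fprime, Subgroup.closure_le]
    rintro w ⟨k, hk, rfl⟩
    exact h k hk
  exact this hw

theorem slp_mem {G : Type} [Group G] (x : FF (m + 1) n →* G) (hx : x (gB (Fin.last m)) = 1)
    (p : List (Loop m n)) {w : FF (m + 1) n} (hw : w ∈ Fprime m n) :
    x (slp σ p w) = x w :=
  eq_on_Fprime (x.comp (slp σ p).toMonoidHom) x (fun k hk => slp_of hσ x hx p k hk) hw

omit hσ in
/-- Product of loops. -/
def wordL : List (Loop m n) → FF (m + 1) n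
  | [] => 1
  | q :: p => loopW q * wordL p

omit hσ in
theorem wordL_mem (p : List (Loop m n)) : wordL p ∈ Fprime m n := by
  induction p with
  | nil => exact one_mem _
  | cons q p ih => exact mul_mem (loopW_mem q) ih

theorem slp_gA {G : Type} [Group G] (x : FF (m + 1) n →* G) (hx : x (gB (Fin.last m)) = 1)
    (p : List (Loop m n)) :
    x (slp σ p (gA (Fin.last m))) = x (wordL p) * x (gA (Fin.last m)) := by
  induction p with
  | nil => simp [slp_nil, wordL]
  | cons q p ih =>
    have hy : (x.comp (slp σ p).toMonoidHom) (gB (Fin.last m)) = 1 := by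
      change x (slp σ p (gB (Fin.last m))) = 1
      rw [slp_gB hσ, hx]
    have h1 := ((hσ q).2.2.2.1 (x.comp (slp σ p).toMonoidHom) hy).1
    change x (slp σ p (σ q (gA (Fin.last m)))) =
      x (slp σ p (loopW q)) * x (slp σ p (gA (Fin.last m))) at h1
    rw [slp_cons, h1, ih, slp_mem hσ x hx p (loopW_mem q), wordL, map_mul, mul_assoc]

omit hσ in
theorem wP_wordL (x : FF (m + 1) n →* (Mat r ℂ)ˣ) (p : List (Loop m n)) :
    wP (fun q => x (loopW q)) p = x (wordL p) := by
  induction p with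
  | nil => simp [wP, wordL]
  | cons q p ih => rw [wP, wordL, map_mul, ih]

omit hσ in
/-- The effect of a composite of slides on derivations. -/
noncomputable def Del (x : FF (m + 1) n →* (Mat r ℂ)ˣ) (Z : Mat r ℂ) (k : Gen (m + 1) n) :
    List (Loop m n) → Mat r ℂ
  | [] => 0
  | q :: p => Lam x q ((x (wordL (q :: p) * gA (Fin.last m)) : Mat r ℂ) * Z *
      (((x (wordL (q :: p) * gA (Fin.last m)))⁻¹ : (Mat r ℂ)ˣ) : Mat r ℂ)) k + Del x Z k p

omit hσ in
theorem Lam_congr (x y : FF (m + 1) n →* (Mat r ℂ)ˣ)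
    (h : ∀ k : Gen (m + 1) n, k ≠ Sum.inl (Fin.last m, false) →
      x (FreeGroup.of k) = y (FreeGroup.of k)) (q : Loop m n) (ε : Mat r ℂ)
    (k : Gen (m + 1) n) : Lam x q ε k = Lam y q ε k := by
  have h1 := eq_on_Fprime x y h (kap_mem q)
  have h2 : ∀ j, x (gD j) = y (gD j) := fun j => h _ (by simp)
  have h3 : ∀ i : Fin m, x (gB i.castSucc) = y (gB i.castSucc) := fun i => h _ (by simp)
  have h4 : ∀ i : Fin m, x (gA i.castSucc) = y (gA i.castSucc) :=
    fun i => h _ (by simp [(Fin.castSucc_lt_last i).ne])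
  unfold Lam
  rw [h1]
  rcases q with j | ⟨i, b⟩
  · simp only [h2]
  · cases b
    · simp only [h3]
    · simp only [h3, h4]

theorem der_slp (x : FF (m + 1) n →* (Mat r ℂ)ˣ) (hx : x (gB (Fin.last m)) = 1)
    (p : List (Loop m n)) (E : FF (m + 1) n → Mat r ℂ)
    (hE : IsDer (x.comp (slp σ p).toMonoidHom) E) (k : Gen (m + 1) n)
    (hk : k ≠ Sum.inl (Fin.last m, false)) :
    E ((slp σ p).symm (FreeGroup.of k)) =
      E (FreeGroup.of k) + Del x (E (gB (Fin.last m))) k p := by
  induction p generalizing E with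
  | nil =>
    rw [Del, add_zero]
    rfl
  | cons q p ih =>
    rw [slp_cons_symm]
    have hy : (x.comp (slp σ (q :: p)).toMonoidHom) (gB (Fin.last m)) = 1 := by
      change x (slp σ (q :: p) (gB (Fin.last m))) = 1
      rw [slp_gB hσ, hx]
    have hE' : IsDer (x.comp (slp σ p).toMonoidHom) (fun w => E ((σ q).symm w)) := by
      have h1 := hE.comp (σ q).symm.toMonoidHom
      have h2 : (x.comp (slp σ (q :: p)).toMonoidHom).comp (σ q).symm.toMonoidHom =
          x.comp (slp σ p).toMonoidHom := by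
        ext1 k
        change x (slp σ p (σ q ((σ q).symm (FreeGroup.of k)))) = x (slp σ p (FreeGroup.of k))
        rw [MulEquiv.apply_symm_apply]
      rw [h2] at h1
      exact h1
    have h3 := ih _ hE'
    have h4 : (σ q).symm (gB (Fin.last m)) = gB (Fin.last m) := by
      rw [MulEquiv.symm_apply_eq, (hσ q).2.2.1]
    have h5 := (hσ q).2.2.2.2 r (x.comp (slp σ (q :: p)).toMonoidHom) hy E hE k hk
    have h6 : (x.comp (slp σ (q :: p)).toMonoidHom) (gA (Fin.last m)) =
        x (wordL (q :: p) * gA (Fin.last m)) := by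
      rw [map_mul]
      exact slp_gA hσ x hx (q :: p)
    rw [h6, Lam_congr (x.comp (slp σ (q :: p)).toMonoidHom) x
      (fun k hk => slp_of hσ x hx (q :: p) k hk)] at h5
    rw [h3, h4, h5, Del, add_assoc]

end Vale.Agent.P002R
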