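import Mathlib

/-! Combinatorics of the base point: splitting a tuple with product one into minimal parts. -/

namespace Vale.Agent.P002R

section cycles

variable {r : ℕ}

theorem sameCycle_mul_swap (π : Equiv.Perm (Fin r)) (a b : Fin r) (hab : π.SameCycle a b)
    (x z : Fin r) (h : (π * Equiv.swap a b).SameCycle x z) : π.SameCycle x z := by
  obtain ⟨i, -, rfl⟩ := h.exists_pow_eq'
  clear h
  induction i with
  | zero => exact Equiv.Perm.SameCycle.refl _ _
  | succ i ih =>
    refine ih.trans ?_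
    rw [pow_succ', Equiv.Perm.mul_apply]
    obtain ⟨w, hw⟩ : ∃ w, w = ((π * Equiv.swap a b) ^ i) x := ⟨_, rfl⟩
    rw [← hw, Equiv.Perm.mul_apply]
    by_cases h1 : w = a
    · rw [h1, Equiv.swap_apply_left]
      exact hab.trans (Equiv.Perm.sameCycle_apply_right.2 (Equiv.Perm.SameCycle.refl _ _))
    · by_cases h2 : w = b
      · rw [h2, Equiv.swap_apply_right]
        exact hab.symm.trans (Equiv.Perm.sameCycle_apply_right.2 (Equiv.Perm.SameCycle.refl _ _))
      · rw [Equiv.swap_apply_of_ne_of_ne h1 h2]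
        exact Equiv.Perm.sameCycle_apply_right.2 (Equiv.Perm.SameCycle.refl _ _)

theorem not_sameCycle_mul_swap (π : Equiv.Perm (Fin r)) (a b : Fin r) (hne : a ≠ b)
    (hab : π.SameCycle a b) : ¬ (π * Equiv.swap a b).SameCycle a b := by
  have hex : ∃ k : ℕ, 0 < k ∧ (π ^ k) b = a := by
    obtain ⟨k, -, hk⟩ := hab.symm.exists_pow_eq'
    refine ⟨k, ?_, hk⟩
    rcases Nat.eq_zero_or_pos k with h | h
    · subst h
      exact absurd hk.symm hne
    · exact h
  obtain ⟨hk0, hk⟩ := Nat.find_spec hex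
  have hmin : ∀ l, 0 < l → l < Nat.find hex → (π ^ l) b ≠ a := fun l h1 h2 h3 =>
    Nat.find_min hex h2 ⟨h1, h3⟩
  obtain ⟨k, hkdef⟩ : ∃ k, k = Nat.find hex := ⟨_, rfl⟩
  rw [← hkdef] at hk0 hk hmin
  have hb : ∀ l, 0 < l → l ≤ k → (π ^ l) b ≠ b := by
    intro l h1 h2 h3
    rcases Nat.lt_or_eq_of_le h2 with h4 | h4
    · apply hmin (k - l) (by omega) (by omega)
      rw [← hk]
      conv_rhs => rw [show k = (k - l) + l by omega, pow_add, Equiv.Perm.mul_apply, h3]
    · rw [h4, hk] at h3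
      exact hne h3
  intro h
  obtain ⟨i, -, hi⟩ := h.exists_pow_eq'
  have key : ∀ i : ℕ, ∃ l, 0 < l ∧ l ≤ k ∧ ((π * Equiv.swap a b) ^ i) a = (π ^ l) b := by
    intro i
    induction i with
    | zero => exact ⟨k, hk0, le_rfl, hk.symm⟩
    | succ i ih =>
      obtain ⟨l, h1, h2, h3⟩ := ih
      rw [pow_succ', Equiv.Perm.mul_apply, h3, Equiv.Perm.mul_apply]
      by_cases h4 : (π ^ l) b = a
      · rw [h4, Equiv.swap_apply_left]
        exact ⟨1, one_pos, hk0, by rw [pow_one]⟩
      · rw [Equiv.swap_apply_of_ne_of_ne h4 (hb l h1 h2)]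
        refine ⟨l + 1, by omega, ?_, by rw [pow_succ', Equiv.Perm.mul_apply]⟩
        rcases Nat.lt_or_eq_of_le h2 with h5 | h5
        · omega
        · rw [h5] at h4
          exact absurd hk h4
  obtain ⟨l, h1, h2, h3⟩ := key i
  rw [hi] at h3
  exact hb l h1 h2 h3.symm

/-- A solution for the full cycle. -/
theorem exists_rot {G : Type*} [CommGroup G] (d : Fin r → G) (hd : ∏ i, d i = 1) :
    ∃ (π : Equiv.Perm (Fin r)) (y : Fin r → G), (∀ a, y a = d (π a) * y (π a)) ∧
      ∀ N : ℕ, (∀ i, d i ^ N = 1) → ∀ i, y i ^ N = 1 := by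
  rcases Nat.eq_zero_or_pos r with hr | hr
  · subst hr
    exact ⟨1, fun i => i.elim0, fun i => i.elim0, fun _ _ i => i.elim0⟩
  obtain ⟨n, rfl⟩ : ∃ n, r = n + 1 := ⟨r - 1, by omega⟩
  let L := List.ofFn d
  have hLlen : L.length = n + 1 := by simp [L]
  let b : Fin (n + 1) → G := fun i => (L.take ((i : ℕ) + 1)).prod
  have hstep : ∀ (k : ℕ) (hk : k < n + 1), (L.take (k + 1)).prod = (L.take k).prod * d ⟨k, hk⟩ := by
    intro k hk
    rw [List.prod_take_succ L k (by omega)]
    simp only [L, List.getElem_ofFn]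
  have hfull : (L.take (n + 1)).prod = 1 := by
    rw [List.take_of_length_le (by omega)]
    simp only [L]
    rw [List.prod_ofFn, hd]
  have hb : ∀ j : Fin (n + 1), b (finRotate (n + 1) j) = d (finRotate (n + 1) j) * b j := by
    intro j
    rcases Nat.lt_or_ge (j : ℕ) n with hj | hj
    · have h1 : finRotate (n + 1) j = ⟨(j : ℕ) + 1, by omega⟩ := by
        apply Fin.ext
        rw [coe_finRotate_of_ne_last]
        intro h
        rw [h] at hj
        simp at hj
      rw [h1]
      simp only [b]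
      rw [hstep ((j : ℕ) + 1) (by omega), mul_comm]
    · have h0 : j = Fin.last n := by
        apply Fin.ext
        simp
        omega
      rw [h0, finRotate_last]
      simp only [b]
      rw [Fin.val_last, hfull, mul_one]
      have := hstep 0 (by omega)
      simpa using this
  refine ⟨finRotate (n + 1), fun i => (b i)⁻¹, fun a => ?_, ?_⟩
  · change (b a)⁻¹ = d (finRotate (n + 1) a) * (b (finRotate (n + 1) a))⁻¹
    rw [hb a, mul_inv, mul_inv_cancel_left]
  · intro N hN i
    have h1 : b i ∈ (powMonoidHom N : G →* G).ker := by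
      apply Subgroup.list_prod_mem
      intro x hx
      have hx' := List.mem_of_mem_take hx
      simp only [L, List.mem_ofFn] at hx'
      obtain ⟨l, rfl⟩ := hx'
      rw [MonoidHom.mem_ker, powMonoidHom_apply]
      exact hN l
    rw [MonoidHom.mem_ker, powMonoidHom_apply] at h1
    rw [inv_pow, h1, inv_one]

/-- A solution with cycles as short as possible. -/
theorem exists_cycles {G : Type*} [CommGroup G] (d : Fin r → G) (hd : ∏ i, d i = 1) :
    ∃ (π : Equiv.Perm (Fin r)) (y : Fin r → G), (∀ a, y a = d (π a) * y (π a)) ∧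
      (∀ a b, π.SameCycle a b → y a = y b → a = b) ∧
      ∀ N : ℕ, (∀ i, d i ^ N = 1) → ∀ i, y i ^ N = 1 := by
  classical
  obtain ⟨π₀, y, hπ₀, hy⟩ := exists_rot d hd
  let S : Set (Equiv.Perm (Fin r)) := {π | ∀ a, y a = d (π a) * y (π a)}
  obtain ⟨π, hπ, hmin⟩ := Set.exists_min_image S
    (fun π => (Finset.univ.filter fun p : Fin r × Fin r => π.SameCycle p.1 p.2).card)
    (Set.toFinite S) ⟨π₀, hπ₀⟩
  refine ⟨π, y, hπ, fun a b hab hyab => ?_, hy⟩
  by_contra hne
  have hmem : π * Equiv.swap a b ∈ S := by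
    intro x
    rw [Equiv.Perm.mul_apply]
    by_cases h1 : x = a
    · rw [h1, Equiv.swap_apply_left, hyab]
      exact hπ b
    · by_cases h2 : x = b
      · rw [h2, Equiv.swap_apply_right, ← hyab]
        exact hπ a
      · rw [Equiv.swap_apply_of_ne_of_ne h1 h2]
        exact hπ x
  have h1 := hmin _ hmem
  have h2 : (Finset.univ.filter fun p : Fin r × Fin r =>
      (π * Equiv.swap a b).SameCycle p.1 p.2).card <
      (Finset.univ.filter fun p : Fin r × Fin r => π.SameCycle p.1 p.2).card := by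
    apply Finset.card_lt_card
    rw [Finset.ssubset_iff_of_subset]
    · refine ⟨(a, b), ?_, ?_⟩
      · simp [hab]
      · simp [not_sameCycle_mul_swap π a b hne hab]
    · intro p hp
      rw [Finset.mem_filter] at hp ⊢
      exact ⟨Finset.mem_univ _, sameCycle_mul_swap π a b hab _ _ hp.2⟩
  omega

/-- The combinatorial data of the base point. -/
theorem exists_order {G : Type*} [CommGroup G] (d : Fin r → G) (hd : ∏ i, d i = 1) :
    ∃ (σ π : Equiv.Perm (Fin r)) (y : Fin r → G) (c : Fin r → Fin r),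
      (∀ a, y a = d (σ (π a)) * y (π a)) ∧ Monotone c ∧ (∀ a, c (π a) = c a) ∧
      (∀ a b, c a = c b → ∃ k : ℕ, (π ^ k) a = b) ∧
      (∀ a b, c a = c b → y a = y b → a = b) ∧
      ∀ N : ℕ, (∀ i, d i ^ N = 1) → ∀ i, y i ^ N = 1 := by
  classical
  obtain ⟨π, y, h1, h2, h3⟩ := exists_cycles d hd
  obtain ⟨c, hc⟩ : ∃ c : Fin r → Fin r, ∀ a b, c a = c b ↔ π.SameCycle a b := by
    refine ⟨fun a => (Quotient.mk (Equiv.Perm.SameCycle.setoid π) a).out, fun a b => ?_⟩
    constructor
    · intro h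
      have := congrArg (Quotient.mk (Equiv.Perm.SameCycle.setoid π)) h
      rw [Quotient.out_eq, Quotient.out_eq] at this
      exact Quotient.exact this
    · intro h
      have : Quotient.mk (Equiv.Perm.SameCycle.setoid π) a =
          Quotient.mk (Equiv.Perm.SameCycle.setoid π) b := Quotient.sound h
      simp only [this]
  obtain ⟨σ, hσ⟩ : ∃ σ : Equiv.Perm (Fin r), Monotone (c ∘ σ) :=
    ⟨Tuple.sort c, Tuple.monotone_sort c⟩
  obtain ⟨π', hπ'⟩ : ∃ π' : Equiv.Perm (Fin r), π' = σ⁻¹ * π * σ := ⟨_, rfl⟩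
  have hσπ : ∀ a, σ (π' a) = π (σ a) := by
    intro a
    rw [hπ', ← Equiv.Perm.mul_apply, ← mul_assoc, ← mul_assoc, mul_inv_cancel, one_mul,
      Equiv.Perm.mul_apply]
  have hpow : ∀ (k : ℕ) (a : Fin r), σ ((π' ^ k) a) = (π ^ k) (σ a) := by
    intro k
    induction k with
    | zero => intro a; rfl
    | succ k ih =>
      intro a
      rw [pow_succ', Equiv.Perm.mul_apply, hσπ, ih, pow_succ', Equiv.Perm.mul_apply]
  refine ⟨σ, π', y ∘ σ, c ∘ σ, fun a => ?_, hσ, fun a => ?_, fun a b hab => ?_,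
    fun a b hab hy => ?_, fun N hN i => h3 N hN _⟩
  · simp only [Function.comp, hσπ]
    exact h1 _
  · simp only [Function.comp, hσπ]
    rw [hc]
    exact (Equiv.Perm.sameCycle_apply_right.2 (Equiv.Perm.SameCycle.refl _ _)).symm
  · obtain ⟨k, -, hk⟩ := ((hc _ _).1 hab).exists_pow_eq'
    refine ⟨k, σ.injective ?_⟩
    rw [hpow, hk]
  · exact σ.injective (h2 _ _ ((hc _ _).1 hab) hy)

end cycles

end Vale.Agent.P002R
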