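import Vale.Agent.P002R.RJordan

/-! Jordan form with prescribed order of the eigenvalues. -/

namespace Vale.Agent.P002R

open Matrix

universe u

/-- a Jordan basis indexed by a finite type, with constant eigenvalue on the chains -/
def HasJordanC (V : Type u) [AddCommGroup V] [Module ℂ V] (T : Module.End ℂ V) : Prop :=
  ∃ (ι : Type) (_ : Fintype ι) (_ : DecidableEq ι) (b : Module.Basis ι ℂ V) (d : ι → ℂ)
    (pre : ι → Option ι) (h : ι → ℕ),
    (∀ j, T (b j) = d j • b j + (pre j).elim 0 b) ∧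
      ∀ i j, pre j = some i → h j = h i + 1 ∧ d j = d i

theorem exists_jordan_auxC (n : ℕ) : ∀ (V : Type u) [AddCommGroup V] [Module ℂ V]
    [FiniteDimensional ℂ V] (T : Module.End ℂ V), Module.finrank ℂ V = n → HasJordanC V T := by
  classical
  induction n using Nat.strong_induction_on with
  | _ n ih =>
  intro V _ _ _ T hV
  rcases Nat.eq_zero_or_pos n with rfl | hn
  · have : Subsingleton V := Module.finrank_zero_iff.mp hV
    exact ⟨Empty, inferInstance, inferInstance, Module.Basis.empty V, fun j => j.elim,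
      fun j => j.elim, fun j => j.elim, fun j => j.elim, fun i => i.elim⟩
  have : Nontrivial V := Module.finrank_pos_iff.mp (by omega : 0 < Module.finrank ℂ V)
  obtain ⟨lam, m, v, φ, hm, hv, hφ0, hφ1⟩ := P002.jordan_vector T
  set N : Module.End ℂ V := T - lam • 1 with hN
  have hT : ∀ x, T x = lam • x + N x := by
    intro x
    simp [hN]
  let α : (Fin m → ℂ) →ₗ[ℂ] V := Fintype.linearCombination ℂ fun k : Fin m => (N ^ (k : ℕ)) v
  have hα : ∀ a, α a = ∑ k, a k • (N ^ (k : ℕ)) v := fun a =>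
    Fintype.linearCombination_apply ℂ _ a
  let β : V →ₗ[ℂ] (Fin m → ℂ) := LinearMap.pi fun k : Fin m => φ ∘ₗ (N ^ (k : ℕ))
  have hβ : ∀ x k, β x k = φ ((N ^ (k : ℕ)) x) := fun x k => rfl
  have hvbig : ∀ k, m ≤ k → (N ^ k) v = 0 := by
    intro k hk
    obtain ⟨l, rfl⟩ := Nat.exists_eq_add_of_le' hk
    rw [pow_add, Module.End.mul_apply, hv, map_zero]
  have hinj : ∀ a, β (α a) = 0 → a = 0 := by
    intro a ha
    by_contra hne
    have hex : ∃ k : ℕ, ∃ hk : k < m, a ⟨k, hk⟩ ≠ 0 := by
      by_contra hcon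
      push Not at hcon
      exact hne (funext fun k => hcon k k.2)
    obtain ⟨hk, hak⟩ := Nat.find_spec hex
    set k₀ := Nat.find hex with hk₀
    have hmin : ∀ k (hk : k < m), k < k₀ → a ⟨k, hk⟩ = 0 := by
      intro k hk' hlt
      by_contra hcon
      exact Nat.find_min hex hlt ⟨hk', hcon⟩
    have h1 := congrFun ha ⟨m - 1 - k₀, by omega⟩
    rw [hβ, hα, map_sum, map_sum, Finset.sum_eq_single ⟨k₀, hk⟩] at h1
    · rw [map_smul, map_smul, ← Module.End.mul_apply, ← pow_add, smul_eq_mul] at h1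
      simp only [Pi.zero_apply] at h1
      have e : m - 1 - k₀ + k₀ = m - 1 := by omega
      rw [e] at h1
      rcases mul_eq_zero.mp h1 with h2 | h2
      · exact hak h2
      · exact hφ1 h2
    · intro k _ hkne
      rcases lt_or_ge (k : ℕ) k₀ with hlt | hge
      · rw [hmin k k.2 hlt, zero_smul, map_zero, map_zero]
      · have hgt : k₀ < (k : ℕ) := by
          rcases Nat.lt_or_eq_of_le hge with h | h
          · exact h
          · exact absurd (Fin.ext h.symm) hkne
        rw [map_smul, ← Module.End.mul_apply, ← pow_add, hvbig _ (by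
          simp only
          omega), smul_zero, map_zero]
    · intro h
      exact absurd (Finset.mem_univ _) h
  let U := LinearMap.ker β
  have hUN : ∀ x ∈ U, N x ∈ U := by
    intro x hx
    rw [LinearMap.mem_ker] at hx ⊢
    funext k
    rw [hβ, ← Module.End.mul_apply, ← pow_succ]
    by_cases hk : (k : ℕ) + 1 < m
    · have := congrFun hx ⟨(k : ℕ) + 1, hk⟩
      rw [hβ] at this
      exact this
    · have : (k : ℕ) + 1 = m := by omega
      rw [this, hφ0]
      rfl
  have hUT : ∀ x ∈ U, T x ∈ U := by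
    intro x hx
    rw [hT]
    exact U.add_mem (U.smul_mem _ hx) (hUN x hx)
  let Φ : ((Fin m → ℂ) × U) →ₗ[ℂ] V := LinearMap.coprod α U.subtype
  have hΦ : ∀ p, Φ p = α p.1 + (p.2 : V) := fun p => rfl
  have hβU : ∀ x : U, β (x : V) = 0 := fun x => x.2
  have hΦinj : Function.Injective Φ := by
    rw [← LinearMap.ker_eq_bot, LinearMap.ker_eq_bot']
    rintro ⟨a, x⟩ hp
    rw [hΦ] at hp
    have h1 : β (α a) = 0 := by
      have := congrArg β hp
      rw [map_add, hβU, add_zero, map_zero] at this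
      exact this
    have ha := hinj a h1
    subst ha
    rw [map_zero, zero_add] at hp
    ext1
    · rfl
    · exact Subtype.ext hp
  have hsurj0 : Function.Surjective (β ∘ₗ α) := by
    rw [← LinearMap.injective_iff_surjective, ← LinearMap.ker_eq_bot, LinearMap.ker_eq_bot']
    exact hinj
  have hΦsurj : Function.Surjective Φ := by
    intro x
    obtain ⟨a, ha⟩ := hsurj0 (β x)
    refine ⟨(a, ⟨x - α a, ?_⟩), ?_⟩
    · rw [LinearMap.mem_ker, map_sub, ← ha]
      exact sub_self _
    · rw [hΦ]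
      simp
  let Ψ : ((Fin m → ℂ) × U) ≃ₗ[ℂ] V := LinearEquiv.ofBijective Φ ⟨hΦinj, hΦsurj⟩
  have hdim : Module.finrank ℂ U < n := by
    have h1 := Ψ.finrank_eq
    rw [Module.finrank_prod, Module.finrank_fin_fun, hV] at h1
    omega
  obtain ⟨ι, _, _, b, d, pre, h, hb1, hb2⟩ := ih _ hdim U (T.restrict hUT) rfl
  refine ⟨Fin m ⊕ ι, inferInstance, inferInstance,
    (Module.Basis.prod (Pi.basisFun ℂ (Fin m)) b).map Ψ,
    Sum.elim (fun _ => lam) d,
    Sum.elim (fun k => if hk : (k : ℕ) + 1 < m then some (Sum.inl ⟨(k : ℕ) + 1, hk⟩) else none)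
      (fun j => (pre j).map Sum.inr),
    Sum.elim (fun k => m - 1 - (k : ℕ)) h, ?_, ?_⟩
  · have hl : ∀ k : Fin m, ((Module.Basis.prod (Pi.basisFun ℂ (Fin m)) b).map Ψ) (Sum.inl k) =
        (N ^ (k : ℕ)) v := by
      intro k
      rw [Module.Basis.map_apply]
      change Φ _ = _
      rw [hΦ, hα]
      simp [Pi.single_apply]
    have hr : ∀ j : ι, ((Module.Basis.prod (Pi.basisFun ℂ (Fin m)) b).map Ψ) (Sum.inr j) =
        (b j : V) := by
      intro j
      rw [Module.Basis.map_apply]
      change Φ _ = _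
      rw [hΦ, hα]
      simp
    rintro (k | j)
    · simp only [hl, Sum.elim_inl]
      rw [hT, ← Module.End.mul_apply, ← pow_succ']
      congr 1
      by_cases hk : (k : ℕ) + 1 < m
      · rw [dif_pos hk, Option.elim_some, hl]
      · rw [dif_neg hk, Option.elim_none]
        exact hvbig _ (by omega)
    · simp only [hr, Sum.elim_inr]
      have h1 := congrArg (fun z : U => (z : V)) (hb1 j)
      simp only [LinearMap.coe_restrict_apply, Submodule.coe_add, Submodule.coe_smul] at h1
      rw [h1]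
      congr 1
      cases pre j with
      | none => rfl
      | some i => simp [hr]
  · rintro (i | i) (j | j) hij
    · refine ⟨?_, rfl⟩
      simp only [Sum.elim_inl] at hij ⊢
      by_cases hk : (j : ℕ) + 1 < m
      · rw [dif_pos hk] at hij
        have : (i : ℕ) = (j : ℕ) + 1 := by
          have := Sum.inl.inj (Option.some.inj hij)
          rw [← this]
        omega
      · rw [dif_neg hk] at hij
        exact absurd hij (by simp)
    · simp only [Sum.elim_inr] at hij
      cases hp : pre j with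
      | none => rw [hp] at hij; simp at hij
      | some i' => rw [hp] at hij; simp at hij
    · simp only [Sum.elim_inl] at hij
      by_cases hk : (j : ℕ) + 1 < m
      · rw [dif_pos hk] at hij
        simp at hij
      · rw [dif_neg hk] at hij
        exact absurd hij (by simp)
    · simp only [Sum.elim_inr] at hij ⊢
      cases hp : pre j with
      | none => rw [hp] at hij; simp at hij
      | some i' =>
        rw [hp] at hij
        simp only [Option.map_some, Option.some.injEq, Sum.inr.injEq] at hij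
        subst hij
        exact hb2 _ _ hp

variable {r : ℕ}

/-- Jordan form for a given enumeration of the Jordan basis. -/
theorem jordan_of_enum {C : Mat r ℂ} {ι : Type} [Fintype ι] [DecidableEq ι]
    (b : Module.Basis ι ℂ (Fin r → ℂ)) (d : ι → ℂ) (pre : ι → Option ι) (h : ι → ℕ)
    (hb : ∀ j, Matrix.mulVecLin C (b j) = d j • b j + (pre j).elim 0 b)
    (hpre : ∀ i j, pre j = some i → h j = h i + 1) (e : ι ≃ Fin r)
    (he : ∀ i j, pre j = some i → e i < e j) :
    ∃ ν : Matrix (Fin r) (Fin r) ℤ, (∀ i j, ¬ i < j → ν i j = 0) ∧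
      ∀ N₀ : ℂ, N₀ ≠ 0 → ∃ P : (Mat r ℂ)ˣ,
        C = (P : Mat r ℂ) * (diagonal (fun k => d (e.symm k)) +
          N₀ • ν.map (Int.castRingHom ℂ)) * ((P⁻¹ : (Mat r ℂ)ˣ) : Mat r ℂ) := by
  classical
  let ν : Matrix (Fin r) (Fin r) ℤ := Matrix.of fun i j =>
    if pre (e.symm j) = some (e.symm i) then 1 else 0
  have hν : ∀ i j, ν i j = if pre (e.symm j) = some (e.symm i) then 1 else 0 := fun i j => rfl
  have hνlt : ∀ i j, ¬ i < j → ν i j = 0 := by
    intro i j hij
    rw [hν]
    by_cases hp : pre (e.symm j) = some (e.symm i)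
    · exfalso
      apply hij
      have h2 := he _ _ hp
      simpa using h2
    · rw [if_neg hp]
  refine ⟨ν, hνlt, ?_⟩
  intro N₀ hN₀
  let b' : Module.Basis (Fin r) ℂ (Fin r → ℂ) := b.reindex e
  let b'' : Module.Basis (Fin r) ℂ (Fin r → ℂ) :=
    b'.unitsSMul fun k => (Units.mk0 N₀ hN₀) ^ (h (e.symm k))
  have hb'' : ∀ k, b'' k = N₀ ^ (h (e.symm k)) • b (e.symm k) := by
    intro k
    simp only [b'', b', Module.Basis.unitsSMul_apply, Module.Basis.reindex_apply]
    rw [Units.smul_def]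
    simp
  let P₀ : Matrix (Fin r) (Fin r) ℂ := (Pi.basisFun ℂ (Fin r)).toMatrix b''
  have hP₀ : ∀ i j, P₀ i j = b'' j i := by
    intro i j
    simp [P₀, Module.Basis.toMatrix_apply]
  have hu : IsUnit P₀ := by
    have := (Pi.basisFun ℂ (Fin r)).invertibleToMatrix b''
    exact isUnit_of_invertible _
  obtain ⟨P, hP⟩ := hu
  refine ⟨P, ?_⟩
  have key : C * P₀ = P₀ * (diagonal (fun k => d (e.symm k)) +
      N₀ • ν.map (Int.castRingHom ℂ)) := by
    ext i j
    have h1 := congrFun (hb (e.symm j)) i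
    rw [Matrix.mulVecLin_apply] at h1
    have h2 : (C * P₀) i j = N₀ ^ (h (e.symm j)) * (C *ᵥ (b (e.symm j))) i := by
      rw [Matrix.mul_apply, Matrix.mulVec, dotProduct, Finset.mul_sum]
      refine Finset.sum_congr rfl fun k _ => ?_
      rw [hP₀, hb'', Pi.smul_apply, smul_eq_mul]
      ring
    rw [h2, h1, Matrix.mul_add, Matrix.add_apply, Matrix.mul_diagonal, hP₀, hb'']
    simp only [Pi.add_apply, Pi.smul_apply, smul_eq_mul, mul_add]
    congr 1
    · ring
    · rw [Matrix.mul_smul, Matrix.smul_apply, smul_eq_mul, Matrix.mul_apply]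
      cases hp : pre (e.symm j) with
      | none =>
        rw [Option.elim_none]
        rw [Finset.sum_eq_zero]
        · simp
        · intro k _
          rw [Matrix.map_apply, hν, hp]
          simp
      | some i' =>
        rw [Option.elim_some, Finset.sum_eq_single (e i')]
        · rw [Matrix.map_apply, hν, hp, Equiv.symm_apply_apply, if_pos rfl, hP₀, hb'',
            Equiv.symm_apply_apply, Pi.smul_apply, smul_eq_mul, map_one, mul_one,
            hpre _ _ hp, pow_succ]
          ring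
        · intro k _ hk
          rw [Matrix.map_apply, hν, hp, if_neg, map_zero, mul_zero]
          intro hcon
          apply hk
          rw [Option.some.injEq] at hcon
          rw [hcon, Equiv.apply_symm_apply]
        · intro hk
          exact absurd (Finset.mem_univ _) hk
  have hPinv : (P : Mat r ℂ) * ((P⁻¹ : (Mat r ℂ)ˣ) : Mat r ℂ) = 1 := P.mul_inv
  rw [hP, ← key, ← hP, mul_assoc, hPinv, mul_one]

/-- Among the enumerations with given values there is one which is increasing on the fibres with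
respect to a height function. -/
theorem exists_stable {ι : Type} [Fintype ι] [DecidableEq ι] (d : ι → ℂ) (h : ι → ℕ)
    (e₀ : ι ≃ Fin r) : ∃ e : ι ≃ Fin r, (∀ k, d (e.symm k) = d (e₀.symm k)) ∧
      ∀ i j, d i = d j → h i < h j → e i < e j := by
  classical
  let S : Set (ι ≃ Fin r) := {e | ∀ k, d (e.symm k) = d (e₀.symm k)}
  have hS : S.Nonempty := ⟨e₀, fun k => rfl⟩
  obtain ⟨e, he, hmax⟩ := Set.exists_max_image S (fun e => ∑ i, h i * (e i : ℕ))
    (Set.toFinite S) hS
  refine ⟨e, he, fun i j hij hh => ?_⟩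
  by_contra hcon
  have hne : i ≠ j := by rintro rfl; exact lt_irrefl _ hh
  have hlt : e j < e i := lt_of_le_of_ne (not_lt.1 hcon) (fun h => hne (e.injective h).symm)
  let e' : ι ≃ Fin r := (Equiv.swap i j).trans e
  have he' : e' ∈ S := by
    intro k
    rw [← he k]
    change d ((Equiv.swap i j).symm (e.symm k)) = d (e.symm k)
    rw [Equiv.symm_swap]
    by_cases h1 : e.symm k = i
    · rw [h1, Equiv.swap_apply_left, hij]
    · by_cases h2 : e.symm k = j
      · rw [h2, Equiv.swap_apply_right, hij]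
      · rw [Equiv.swap_apply_of_ne_of_ne h1 h2]
  have h3 := hmax e' he'
  have hsum : ∀ f : ι → ℕ, ∑ k, f k = f i + f j + ∑ k ∈ (Finset.univ.erase i).erase j, f k := by
    intro f
    rw [add_assoc, Finset.add_sum_erase _ _ (Finset.mem_erase.2 ⟨hne.symm, Finset.mem_univ _⟩),
      Finset.add_sum_erase _ _ (Finset.mem_univ _)]
  have h4 : ∑ k ∈ (Finset.univ.erase i).erase j, h k * (e' k : ℕ) =
      ∑ k ∈ (Finset.univ.erase i).erase j, h k * (e k : ℕ) := by
    refine Finset.sum_congr rfl fun k hk => ?_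
    rw [Finset.mem_erase, Finset.mem_erase] at hk
    change h k * (e (Equiv.swap i j k) : ℕ) = _
    rw [Equiv.swap_apply_of_ne_of_ne hk.2.1 hk.1]
  rw [hsum (fun k => h k * (e' k : ℕ)), hsum (fun k => h k * (e k : ℕ)), h4] at h3
  have h5 : e' i = e j := by
    change e (Equiv.swap i j i) = _
    rw [Equiv.swap_apply_left]
  have h6 : e' j = e i := by
    change e (Equiv.swap i j j) = _
    rw [Equiv.swap_apply_right]
  rw [h5, h6] at h3
  have h7 : ((e j : Fin r) : ℕ) < (e i : ℕ) := hlt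
  have h8 : h i * (e j : ℕ) + h j * (e i : ℕ) ≤ h i * (e i : ℕ) + h j * (e j : ℕ) := by omega
  obtain ⟨x, hx⟩ := Nat.exists_eq_add_of_lt hh
  obtain ⟨y, hy⟩ := Nat.exists_eq_add_of_lt h7
  rw [hx, hy] at h8
  nlinarith [Nat.zero_le x, Nat.zero_le y, Nat.zero_le (x * y)]

theorem charpoly_conj_aux (P : (Mat r ℂ)ˣ) (d : Fin r → ℂ) (ν : Matrix (Fin r) (Fin r) ℤ)
    (hν : ∀ i j, ¬ i < j → ν i j = 0) :
    ((P : Mat r ℂ) * (diagonal d + ν.map (Int.castRingHom ℂ)) *
      ((P⁻¹ : (Mat r ℂ)ˣ) : Mat r ℂ)).charpoly = ∏ i, (Polynomial.X - Polynomial.C (d i)) := by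
  have h1 : ν.map (Int.castRingHom ℂ) = ν.map (Int.cast : ℤ → ℂ) := by
    ext i j
    rfl
  rw [h1]
  have h3 := P002.charpoly_diag_add d ν hν 1
  rw [one_smul] at h3
  rw [← h3, Matrix.mul_assoc, Matrix.charpoly_mul_comm, Matrix.mul_assoc, ← Units.val_mul,
    inv_mul_cancel, Units.val_one, Matrix.mul_one]

/-- Jordan form with prescribed order of the eigenvalues: the eigenvalues `d` can be rearranged by
an arbitrary permutation. -/
theorem exists_jordan_perm (C : Mat r ℂ) (N : ℕ) (hC : IsNilpotent (C ^ N - 1)) :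
    ∃ d : Fin r → ℂ, (∀ i, d i ^ N = 1) ∧ ∀ σ : Equiv.Perm (Fin r),
      ∃ ν : Matrix (Fin r) (Fin r) ℤ, (∀ i j, ¬ i < j → ν i j = 0) ∧
        ∀ c : ℂ, c ≠ 0 → ∃ P : (Mat r ℂ)ˣ,
          C = (P : Mat r ℂ) * (diagonal (fun i => d (σ i)) + c • ν.map (Int.castRingHom ℂ)) *
            ((P⁻¹ : (Mat r ℂ)ˣ) : Mat r ℂ) := by
  classical
  obtain ⟨ι, _, _, b, d, pre, h, hb, hpre⟩ :=
    exists_jordan_auxC r (Fin r → ℂ) (Matrix.mulVecLin C) (by simp)
  have hcard : Fintype.card ι = r := by
    rw [← Module.finrank_eq_card_basis b]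
    simp
  let e₀ : ι ≃ Fin r := Fintype.equivFinOfCardEq hcard
  have main : ∀ e₁ : ι ≃ Fin r, ∃ ν : Matrix (Fin r) (Fin r) ℤ, (∀ i j, ¬ i < j → ν i j = 0) ∧
      ∀ N₀ : ℂ, N₀ ≠ 0 → ∃ P : (Mat r ℂ)ˣ,
        C = (P : Mat r ℂ) * (diagonal (fun k => d (e₁.symm k)) +
          N₀ • ν.map (Int.castRingHom ℂ)) * ((P⁻¹ : (Mat r ℂ)ˣ) : Mat r ℂ) := by
    intro e₁
    obtain ⟨e, he1, he2⟩ := exists_stable d h e₁
    obtain ⟨ν, hν1, hν2⟩ := jordan_of_enum b d pre h hb (fun i j hp => (hpre i j hp).1) e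
      (fun i j hp => he2 i j (hpre i j hp).2.symm (by rw [(hpre i j hp).1]; exact Nat.lt_succ_self _))
    refine ⟨ν, hν1, ?_⟩
    simp only [he1] at hν2
    exact hν2
  refine ⟨fun k => d (e₀.symm k), fun i => ?_, fun σ => main (e₀.trans σ.symm)⟩
  obtain ⟨ν, hν1, hν2⟩ := main e₀
  obtain ⟨P, hP⟩ := hν2 1 one_ne_zero
  apply nilpotent_eigen C N hC
  have h1 : C.charpoly = ∏ i, (Polynomial.X - Polynomial.C (d (e₀.symm i))) := by
    rw [hP, one_smul]
    exact charpoly_conj_aux P _ ν hν1
  rw [h1]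
  simp only [Polynomial.IsRoot.def, Polynomial.eval_prod]
  apply Finset.prod_eq_zero (Finset.mem_univ i)
  simp

end Vale.Agent.P002R
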