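import Vale.Agent.P002R.RBase
import Vale.Agent.P002R.RJordan2
import Vale.Agent.P002R.RCycle
import Vale.Agent.P002R.RBlockB
import Vale.Agent.P002R.RComp

/-! Existence of base points, for all classes and only one nontrivial handle. -/

namespace Vale.Agent.P002R

open Matrix

section Prelim2

variable {R : Type*} [CommRing R] {r : ℕ}

theorem exists_comm_tri (t : Fin r → R) (Δ : R) (w : Mat r R)
    (hw : ∀ i j, i < j → w i j * (t j - t i) = Δ) (E : Mat r R) (hE : SUp E) :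
    ∃ v : Mat r R, (∀ i j, j < i → v i j = 0) ∧ (∀ i, v i i = 1) ∧
      v * diagonal t = (1 + Δ • E) * diagonal t * v := by
  obtain ⟨v, hv⟩ := fixed_point (E * diagonal t) w (hE.mul_diag t)
  have hlow : ∀ i j, j < i → v i j = 0 := by
    intro i j hij
    rw [hv, if_neg (not_lt.mpr hij.le), Matrix.one_apply_ne hij.ne', add_zero]
  have hdiag : ∀ i, v i i = 1 := by
    intro i
    rw [hv, if_neg (lt_irrefl i), Matrix.one_apply_eq, add_zero]
  refine ⟨v, hlow, hdiag, ?_⟩
  ext i j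
  have h1 : ((1 + Δ • E) * diagonal t * v) i j = t i * v i j +
      Δ * ((E * diagonal t) * v) i j := by
    rw [Matrix.add_mul, Matrix.one_mul, Matrix.smul_mul, Matrix.add_mul, Matrix.smul_mul,
      Matrix.add_apply, Matrix.smul_apply, smul_eq_mul, Matrix.diagonal_mul]
  rw [h1, Matrix.mul_diagonal]
  rcases lt_trichotomy i j with h | h | h
  · have h2 := hv i j
    rw [if_pos h, Matrix.one_apply_ne h.ne, zero_add] at h2
    have h3 : v i j * (t j - t i) = Δ * ((E * diagonal t) * v) i j := by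
      rw [h2, ← hw i j h]
      ring
    linear_combination h3
  · subst h
    have h2 : ((E * diagonal t) * v) i i = 0 := by
      rw [Matrix.mul_apply]
      apply Finset.sum_eq_zero
      intro k _
      by_cases hik : i < k
      · rw [hlow k i hik, mul_zero]
      · rw [(hE.mul_diag t) i k hik, zero_mul]
    rw [h2]
    ring
  · have h2 : ((E * diagonal t) * v) i j = 0 := by
      rw [Matrix.mul_apply]
      apply Finset.sum_eq_zero
      intro k _
      by_cases hik : i < k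
      · rw [hlow k j (h.trans hik), mul_zero]
      · rw [(hE.mul_diag t) i k hik, zero_mul]
    rw [h2, hlow i j h]
    ring

/-- the discriminant -/
def discT (t : Fin r → R) : R :=
  ∏ p ∈ Finset.univ.filter (fun p : Fin r × Fin r => p.1 < p.2), (t p.2 - t p.1)

/-- the discriminant with one factor removed -/
def discwT (t : Fin r → R) : Mat r R := Matrix.of fun i j =>
  ∏ p ∈ (Finset.univ.filter (fun p : Fin r × Fin r => p.1 < p.2)).erase (i, j), (t p.2 - t p.1)

theorem discwT_mul (t : Fin r → R) (i j : Fin r) (h : i < j) :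
    discwT t i j * (t j - t i) = discT t := by
  unfold discT discwT
  rw [Matrix.of_apply]
  exact Finset.prod_erase_mul _ (fun p : Fin r × Fin r => t p.2 - t p.1) (by simp [h])

theorem phi_discT_ne (φ : R →+* ℂ) (hφ : Function.Injective φ) (t : Fin r → R)
    (ht : Function.Injective t) : φ (discT t) ≠ 0 := by
  unfold discT
  rw [map_prod, Finset.prod_ne_zero_iff]
  intro p hp
  rw [Finset.mem_filter] at hp
  rw [map_sub, sub_ne_zero]
  intro h
  exact (ne_of_lt hp.2) (ht (hφ h)).symm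

/-- Block upper triangular invertible matrices. -/
def BTr (c : Fin r → Fin r) : Subgroup (Mat r R)ˣ where
  carrier := {x | BlockTriangular (x : Mat r R) c}
  mul_mem' := by
    intro a b ha hb
    exact BlockTriangular.mul ha hb
  one_mem' := blockTriangular_one
  inv_mem' := by
    intro a ha
    have : Invertible (a : Mat r R) := a.invertible
    have h := blockTriangular_inv_of_blockTriangular (show BlockTriangular (a : Mat r R) c from ha)
    rwa [← Matrix.coe_units_inv] at h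

theorem mem_BTr {c : Fin r → Fin r} {x : (Mat r R)ˣ} :
    x ∈ BTr c ↔ BlockTriangular (x : Mat r R) c := Iff.rfl

theorem PhiU_mem_BTr (φ : R →+* ℂ) {c : Fin r → Fin r} {x : (Mat r R)ˣ} (hx : x ∈ BTr c) :
    PhiU φ x ∈ BTr c := by
  intro i j hij
  rw [PhiU_coe, Matrix.map_apply, (mem_BTr.1 hx) hij, map_zero]

theorem mem_BTr_of_upper {c : Fin r → Fin r} (hc : Monotone c) {x : (Mat r R)ˣ}
    (hx : ∀ i j, j < i → (x : Mat r R) i j = 0) : x ∈ BTr c := by
  intro i j hij
  apply hx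
  by_contra h
  exact absurd (hc (not_lt.1 h)) (not_le.2 hij)

/-- A diagonal unit. -/
def diagU (x : Fin r → Rˣ) : (Mat r R)ˣ where
  val := diagonal fun i => (x i : R)
  inv := diagonal fun i => ((x i)⁻¹ : Rˣ)
  val_inv := by
    rw [diagonal_mul_diagonal]
    have : (fun i => (x i : R) * ((x i)⁻¹ : Rˣ)) = fun _ => 1 := by
      funext i
      rw [← Units.val_mul, mul_inv_cancel, Units.val_one]
    rw [this, diagonal_one]
  inv_val := by
    rw [diagonal_mul_diagonal]
    have : (fun i => (((x i)⁻¹ : Rˣ) : R) * (x i : R)) = fun _ => 1 := by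
      funext i
      rw [← Units.val_mul, inv_mul_cancel, Units.val_one]
    rw [this, diagonal_one]

/-- A permutation unit: the entry `(i, j)` is one if `i = π j`. -/
def permU (π : Equiv.Perm (Fin r)) : (Mat r R)ˣ where
  val := (1 : Mat r R).submatrix id π
  inv := (1 : Mat r R).submatrix π id
  val_inv := by
    ext i j
    rw [Matrix.mul_apply, Finset.sum_eq_single (π.symm i)]
    · change (1 : Mat r R) i (π (π.symm i)) * (1 : Mat r R) (π (π.symm i)) j = _
      rw [Equiv.apply_symm_apply, one_apply_eq, one_mul]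
    · intro k _ hk
      change (1 : Mat r R) i (π k) * _ = _
      rw [one_apply_ne, zero_mul]
      rintro rfl
      exact hk (Equiv.symm_apply_apply _ _).symm
    · intro h; exact absurd (Finset.mem_univ _) h
  inv_val := by
    ext i j
    rw [Matrix.mul_apply, Finset.sum_eq_single (π i)]
    · change (1 : Mat r R) (π i) (π i) * (1 : Mat r R) (π i) (π j) = _
      rw [one_apply_eq, one_mul, one_apply, one_apply]
      simp only [π.injective.eq_iff]
    · intro k _ hk
      change (1 : Mat r R) (π i) k * _ = _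
      rw [one_apply_ne, zero_mul]
      exact fun h => hk h.symm
    · intro h; exact absurd (Finset.mem_univ _) h

theorem permU_apply (π : Equiv.Perm (Fin r)) (i j : Fin r) :
    (permU π : (Mat r R)ˣ).val i j = if i = π j then 1 else 0 := by
  change (1 : Mat r R) i (π j) = _
  rw [one_apply]

theorem permU_inv_apply (π : Equiv.Perm (Fin r)) (i j : Fin r) :
    ((permU π)⁻¹ : (Mat r R)ˣ).val i j = if π i = j then 1 else 0 := by
  change (1 : Mat r R) (π i) j = _
  rw [one_apply]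

theorem permU_mem_BTr {c : Fin r → Fin r} (π : Equiv.Perm (Fin r)) (hc : ∀ i, c (π i) = c i) :
    (permU π : (Mat r R)ˣ) ∈ BTr c := by
  intro i j hij
  rw [permU_apply, if_neg]
  rintro rfl
  rw [hc] at hij
  exact lt_irrefl _ hij

theorem permU_diagU (π : Equiv.Perm (Fin r)) (x t : Fin r → Rˣ) (h : ∀ i, t (π i) = x i) :
    (permU π : (Mat r R)ˣ) * diagU x = diagU t * permU π := by
  apply Units.ext
  ext i j
  rw [Units.val_mul, Units.val_mul]
  change ((permU π : (Mat r R)ˣ).val * diagonal fun i => (x i : R)) i j =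
    ((diagonal fun i => (t i : R)) * (permU π : (Mat r R)ˣ).val) i j
  rw [mul_diagonal, diagonal_mul, permU_apply]
  by_cases hij : i = π j
  · rw [if_pos hij, one_mul, mul_one, hij, h]
  · rw [if_neg hij, zero_mul, mul_zero]

theorem det_permU (π : Equiv.Perm (Fin r)) :
    ((permU π : (Mat r R)ˣ) : Mat r R).det ^ 2 = 1 := by
  change ((1 : Mat r R).submatrix id π).det ^ 2 = 1
  rw [Matrix.det_permute', Matrix.det_one, mul_one]
  rcases Int.units_eq_one_or (Equiv.Perm.sign π) with h | h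
  · rw [h]; simp
  · rw [h]; simp

end Prelim2

section Tor2

variable {R : Type*} [CommRing R] {r : ℕ}

/-- the multiplicatively independent units -/
def tB (r : ℕ) (u : Rˣ) (b : Fin r) : Rˣ := u ^ (r * (2 * r + 4) ^ (b : ℕ))

theorem phi_tB_pow (φ : R →+* ℂ) (u : Rˣ) (N : ℕ) (b : Fin r) :
    φ (tB r u b : R) ^ N = φ (u : R) ^ (r * N * (2 * r + 4) ^ (b : ℕ)) := by
  rw [tB, Units.val_pow_eq_pow_val, map_pow, ← pow_mul]
  congr 1
  ring

theorem tB_pow_inj (φ : R →+* ℂ) (u : Rˣ) (hu : ∀ k : ℕ, 0 < k → φ (u : R) ^ k ≠ 1) (hr : 1 ≤ r)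
    (N : ℕ) (hN : 0 < N) (b b' : Fin r) (h : (tB r u b) ^ N = (tB r u b') ^ N) : b = b' := by
  have h1 := congrArg (fun x : Rˣ => φ (x : R)) h
  simp only [Units.val_pow_eq_pow_val, map_pow] at h1
  rw [phi_tB_pow, phi_tB_pow] at h1
  have h2 := phi_pow_inj φ u hu h1
  have h3 := Nat.eq_of_mul_eq_mul_left (Nat.mul_pos hr hN) h2
  exact Fin.ext (Nat.pow_right_injective (by omega) h3)

theorem sum_base_pow_inj (D : ℕ) (e e' : Fin r → ℕ) (he : ∑ i, e i ≤ D) (he' : ∑ i, e' i ≤ D)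
    (h : ∑ i : Fin r, e i * (D + 1) ^ (i : ℕ) = ∑ i : Fin r, e' i * (D + 1) ^ (i : ℕ)) :
    e = e' := by
  rcases Nat.eq_zero_or_pos D with hD | hD
  · subst hD
    have h0 : ∀ e : Fin r → ℕ, ∑ i, e i ≤ 0 → ∀ i, e i = 0 := by
      intro e he i
      have := Finset.single_le_sum (f := e) (fun i _ => Nat.zero_le _) (Finset.mem_univ i)
      omega
    funext i
    rw [h0 e he, h0 e' he']
  have key : ∀ e : Fin r → ℕ, ∑ i : Fin r, e i * (D + 1) ^ (i : ℕ) =
      Nat.ofDigits (D + 1) (List.ofFn e) := by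
    intro e
    rw [Nat.ofDigits_eq_sum_mapIdx]
    have h1 : (List.mapIdx (fun i a => a * (D + 1) ^ i) (List.ofFn e)) =
        List.ofFn fun i : Fin r => e i * (D + 1) ^ (i : ℕ) := by
      apply List.ext_getElem
      · simp
      · intro n h1 h2
        simp
    rw [h1, List.sum_ofFn]
  rw [key, key] at h
  have hlt : ∀ e : Fin r → ℕ, ∑ i, e i ≤ D → ∀ l ∈ List.ofFn e, l < D + 1 := by
    intro e he l hl
    rw [List.mem_ofFn] at hl
    obtain ⟨i, rfl⟩ := hl
    have := Finset.single_le_sum (f := e) (fun i _ => Nat.zero_le _) (Finset.mem_univ i)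
    omega
  have h3 := Nat.ofDigits_inj_of_len_eq (b := D + 1) (by omega) (by simp) (hlt e he)
    (hlt e' he') h
  exact List.ofFn_injective h3

theorem free_tB (φ : R →+* ℂ) (u : Rˣ) (hu : ∀ k : ℕ, 0 < k → φ (u : R) ^ k ≠ 1) (hr : 1 ≤ r)
    (N : ℕ) (hN : 0 < N) :
    FreeUpTo (2 * r + 3) fun b : Fin r => φ ((tB r u b)⁻¹ : Rˣ) ^ N := by
  intro e e' hee hD h
  have hφu : φ (u : R) ≠ 0 := (u.isUnit.map φ).ne_zero
  have h1 : ∀ b : Fin r, φ ((tB r u b)⁻¹ : Rˣ) ^ N =
      (φ (u : R) ^ (r * N * (2 * r + 4) ^ (b : ℕ)))⁻¹ := by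
    intro b
    rw [← phi_tB_pow φ u N b]
    apply eq_inv_of_mul_eq_one_left
    rw [← mul_pow, ← map_mul, ← Units.val_mul, inv_mul_cancel, Units.val_one, map_one, one_pow]
  have hprod : ∀ e : Fin r → ℕ, ∏ i, (φ ((tB r u i)⁻¹ : Rˣ) ^ N) ^ e i =
      (φ (u : R) ^ (r * N * ∑ i : Fin r, e i * (2 * r + 4) ^ (i : ℕ)))⁻¹ := by
    intro e
    simp only [h1, inv_pow, ← pow_mul, Finset.prod_inv_distrib]
    rw [Finset.prod_pow_eq_pow_sum, Finset.mul_sum]
    congr 2
    refine Finset.sum_congr rfl fun i _ => ?_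
    ring
  rw [hprod, hprod, _root_.inv_inj] at h
  have h2 := phi_pow_inj φ u hu h
  have h3 := Nat.eq_of_mul_eq_mul_left (Nat.mul_pos hr hN) h2
  exact sum_base_pow_inj (2 * r + 3) e e' hD (by rw [← hee]; exact hD) h3

end Tor2

section Data2

variable {R : Type*} [CommRing R] {r n : ℕ}

theorem exists_data2 (φ : R →+* ℂ) (hφ : Function.Injective φ) (N : ℕ) (hN : 0 < N)
    (hμ : ∀ z : ℂ, z ^ N = 1 → z ∈ Set.range φ) (C : (Mat r ℂ)ˣ)
    (hC : IsNilpotent ((C : Mat r ℂ) ^ N - 1)) :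
    ∃ δ : Fin r → Rˣ, (∀ i, δ i ^ N = 1) ∧ ∀ (σ : Equiv.Perm (Fin r)) (Δ : R), φ Δ ≠ 0 →
      ∃ J : (Mat r R)ˣ, IsJ Δ (fun i => (δ (σ i) : R)) (J : Mat r R) ∧ IsConj C (PhiU φ J) := by
  obtain ⟨d, hd, h⟩ := exists_jordan_perm (C : Mat r ℂ) N hC
  have hlift : ∀ i, ∃ δ : Rˣ, φ (δ : R) = d i ∧ δ ^ N = 1 := by
    intro i
    obtain ⟨γ, hγ⟩ := hμ (d i) (hd i)
    have h2 : γ ^ N = 1 := by
      apply hφ
      rw [map_pow, hγ, hd, map_one]
    obtain ⟨c, rfl⟩ := IsUnit.of_pow_eq_one h2 (by omega)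
    refine ⟨c, hγ, ?_⟩
    apply Units.ext
    rw [Units.val_pow_eq_pow_val, h2, Units.val_one]
  choose δ hδ1 hδ2 using hlift
  refine ⟨δ, hδ2, fun σ Δ hΔ => ?_⟩
  obtain ⟨ν, hν, h⟩ := h σ
  have hJ : IsJ Δ (fun i => (δ (σ i) : R)) (diagonal (fun i => (δ (σ i) : R)) +
      Δ • ν.map (Int.castRingHom R)) := by
    refine ⟨ν.map (Int.castRingHom R), ?_, rfl⟩
    intro i j hij
    rw [Matrix.map_apply, hν i j hij, map_zero]
  have hu : IsUnit (diagonal (fun i => (δ (σ i) : R)) + Δ • ν.map (Int.castRingHom R)) := by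
    rw [Matrix.isUnit_iff_isUnit_det, hJ.det, ← Units.coe_prod]
    exact Units.isUnit _
  obtain ⟨J, hJ'⟩ := hu
  refine ⟨J, by rw [hJ']; exact hJ, ?_⟩
  obtain ⟨P, hP⟩ := h (φ Δ) hΔ
  rw [isConj_comm, isConj_iff]
  refine ⟨P, ?_⟩
  apply Units.ext
  rw [Units.val_mul, Units.val_mul, PhiU_coe, hJ', hP]
  congr 2
  ext i j
  simp only [Matrix.map_apply, Matrix.add_apply, Matrix.smul_apply, smul_eq_mul, map_add,
    map_mul]
  congr 1
  · by_cases hij : i = j
    · subst hij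
      simp [hδ1]
    · simp [Matrix.diagonal_apply_ne _ hij]
  · congr 1
    simp

theorem finish2 {k : ℕ} (φ : R →+* ℂ) (hφ : Function.Injective φ) (C : Fin n → (Mat r ℂ)ˣ)
    (J : Fin n → (Mat r R)ˣ) (hJ : ∀ j, IsConj (C j) (PhiU φ (J j)))
    (hJdet : ∀ j, ∃ c : Rˣ, (J j : Mat r R).det = (c : R) ^ r)
    (x t : Fin r → Rˣ) (V : (Mat r R)ˣ) (π : Equiv.Perm (Fin r)) (c : Fin r → Fin r)
    (hX : ∃ c : Rˣ, ((diagU x : (Mat r R)ˣ) : Mat r R).det = (c : R) ^ r)
    (hVP : ∃ c : Rˣ, ((V * permU π : (Mat r R)ˣ) : Mat r R).det = (c : R) ^ r)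
    (ht : ∀ i, t (π i) = x i) (htinj : Function.Injective fun i => (t i : R))
    (hc : Monotone c) (hcπ : ∀ i, c (π i) = c i)
    (hcc : ∀ a b, c a = c b → ∃ k : ℕ, (π ^ k) a = b)
    (hJt : ∀ j i i', i' < i → (J j : Mat r R) i i' = 0)
    (hVt : ∀ i i', i' < i → (V : Mat r R) i i' = 0) (hVd : ∀ i, (V : Mat r R) i i = 1)
    (N : ℕ) (τ : Fin r → ℂ) (hτ : ∀ i, φ ((t i)⁻¹ : Rˣ) ^ N = τ (c i))
    (hfree : FreeUpTo (2 * r + 3) τ)
    (hprod : (List.ofFn fun j => J j).prod *
      (diagU x * (V * permU π) * (diagU x)⁻¹ * (V * permU π)⁻¹) = 1) :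
    ∃ J : Fin n → (Mat r ℂ)ˣ, (∀ j, IsConj (C j) (J j)) ∧ ∃ ρ ∈ DFr (g := k + 1 + 1) φ J,
      ρ (gB (Fin.last (k + 1))) = 1 ∧ (∀ j, ρ (gD j) = 1) ∧
        ∃ (q₀ : Loop (k + 1) n) (U : (Mat r ℂ)ˣ) (α : Fin r → ℂ) (c : Fin r → Fin r) (M : ℕ)
          (τ : Fin r → ℂ), BlockData (fun q => ρ (loopW q)) q₀ U α c M τ := by
  obtain ⟨a, ha⟩ : ∃ a : Fin (k + 1 + 1) → (Mat r R)ˣ, a = Fin.cons (diagU x) fun _ => 1 :=
    ⟨_, rfl⟩
  obtain ⟨b, hb⟩ : ∃ b : Fin (k + 1 + 1) → (Mat r R)ˣ, b = Fin.cons (V * permU π) fun _ => 1 :=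
    ⟨_, rfl⟩
  let ρ : FF (k + 1 + 1) n →* (Mat r ℂ)ˣ := FreeGroup.lift fun k =>
    match k with
    | Sum.inl (i, false) => PhiU φ (a i)
    | Sum.inl (i, true) => PhiU φ (b i)
    | Sum.inr (_, false) => 1
    | Sum.inr (j, true) => PhiU φ (J j)
  have hA : ∀ i, ρ (gA i) = PhiU φ (a i) := fun i => FreeGroup.lift_apply_of
  have hB : ∀ i, ρ (gB i) = PhiU φ (b i) := fun i => FreeGroup.lift_apply_of
  have hD : ∀ j, ρ (gD j) = 1 := fun i => FreeGroup.lift_apply_of
  have hE : ∀ j, ρ (gE j) = PhiU φ (J j) := fun i => FreeGroup.lift_apply_of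
  have hC : ∀ j, ρ (gC j) = PhiU φ (J j) := by
    intro j
    rw [gC_eqn, map_mul, map_mul, map_inv, hD, hE, one_mul, inv_one, mul_one]
  have hH : ∀ i, ρ (hcomm i) = PhiU φ (a i * b i * (a i)⁻¹ * (b i)⁻¹) := by
    intro i
    rw [hcomm_eqn, map_mul, map_mul, map_mul, map_inv, map_inv, hA, hB, map_mul, map_mul, map_mul,
      map_inv, map_inv]
  have ha0 : a 0 = diagU x := by rw [ha]; rfl
  have hb0 : b 0 = V * permU π := by rw [hb]; rfl
  have hasucc : ∀ i : Fin (k + 1), a i.succ = 1 := fun i => by rw [ha]; rfl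
  have hbsucc : ∀ i : Fin (k + 1), b i.succ = 1 := fun i => by rw [hb]; rfl
  have hone : ∃ c : Rˣ, ((1 : (Mat r R)ˣ) : Mat r R).det = (c : R) ^ r := ⟨1, by simp⟩
  -- all values are block triangular
  have hall : ∀ w, ρ w ∈ BTr c := by
    have h1 : (⊤ : Subgroup (FF (k + 1 + 1) n)) ≤ (BTr c).comap ρ := by
      rw [← FreeGroup.closure_range_of, Subgroup.closure_le]
      have hPi : (permU π : (Mat r R)ˣ) ∈ BTr c := permU_mem_BTr π hcπ
      have hV : V ∈ BTr c := mem_BTr_of_upper hc hVt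
      have hXc : (diagU x : (Mat r R)ˣ) ∈ BTr c := mem_BTr_of_upper hc fun i j hij =>
        diagonal_apply_ne _ hij.ne'
      rintro _ ⟨(⟨i, b'⟩ | ⟨j, b'⟩), rfl⟩
      · cases b' with
        | false =>
          have h2 := hA i
          rw [gA_eqn] at h2
          rw [SetLike.mem_coe, Subgroup.mem_comap, h2]
          refine PhiU_mem_BTr φ ?_
          refine Fin.cases ?_ (fun i => ?_) i
          · rw [ha0]; exact hXc
          · rw [hasucc]; exact one_mem _
        | true =>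
          have h2 := hB i
          rw [gB_eqn] at h2
          rw [SetLike.mem_coe, Subgroup.mem_comap, h2]
          refine PhiU_mem_BTr φ ?_
          refine Fin.cases ?_ (fun i => ?_) i
          · rw [hb0]; exact mul_mem hV hPi
          · rw [hbsucc]; exact one_mem _
      · cases b' with
        | false =>
          have h2 := hD j
          rw [gD_eqn] at h2
          rw [SetLike.mem_coe, Subgroup.mem_comap, h2]
          exact one_mem _
        | true =>
          have h2 := hE j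
          rw [gE_eqn] at h2
          rw [SetLike.mem_coe, Subgroup.mem_comap, h2]
          exact PhiU_mem_BTr φ (mem_BTr_of_upper hc (hJt j))
    intro w
    exact h1 (Subgroup.mem_top w)
  obtain ⟨q₀, hq₀⟩ : ∃ q₀ : Loop (k + 1) n, q₀ = Sum.inr (0, false) := ⟨_, rfl⟩
  obtain ⟨q₁, hq₁⟩ : ∃ q₁ : Loop (k + 1) n, q₁ = Sum.inr (0, true) := ⟨_, rfl⟩
  obtain ⟨κ, hκ⟩ : ∃ κ, κ = ρ (kap q₀) := ⟨_, rfl⟩
  have hκ₁ : ρ (kap q₁) = κ := by
    rw [hκ, hq₀, hq₁]
    rfl
  obtain ⟨W, hW⟩ : ∃ W, W = PhiU φ V := ⟨_, rfl⟩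
  have hWc : W ∈ BTr c := by
    rw [hW]
    exact PhiU_mem_BTr φ (mem_BTr_of_upper hc hVt)
  have hUc : κ⁻¹ * W ∈ BTr c := mul_mem (inv_mem (by rw [hκ]; exact hall _)) hWc
  have hP₀ : ρ (loopW q₀) = (κ⁻¹ * W) * PhiU φ ((diagU t)⁻¹) * (κ⁻¹ * W)⁻¹ := by
    have h1 : loopW q₀ = (kap q₀)⁻¹ * (gB (0 : Fin (k + 1)).castSucc *
        (gA (0 : Fin (k + 1)).castSucc)⁻¹ * (gB (0 : Fin (k + 1)).castSucc)⁻¹) * kap q₀ := by
      rw [hq₀]; rfl
    have h2 : ρ (gB (0 : Fin (k + 1)).castSucc) = PhiU φ (V * permU π) := by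
      rw [Fin.castSucc_zero, hB, hb0]
    have h3 : ρ (gA (0 : Fin (k + 1)).castSucc) = PhiU φ (diagU x) := by
      rw [Fin.castSucc_zero, hA, ha0]
    have h4 : (V * permU π) * (diagU x)⁻¹ * (V * permU π)⁻¹ = V * (diagU t)⁻¹ * V⁻¹ := by
      have h5 := permU_diagU π x t ht
      have h6 : permU π * (diagU x)⁻¹ = (diagU t : (Mat r R)ˣ)⁻¹ * permU π := by
        rw [mul_inv_eq_iff_eq_mul, mul_assoc, h5, inv_mul_cancel_left]
      rw [mul_assoc V, h6, _root_.mul_inv_rev]
      group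
    rw [h1, map_mul, map_mul, map_mul, map_mul, map_inv, map_inv, map_inv, h2, h3, ← hκ,
      ← map_inv (PhiU φ), ← map_inv (PhiU φ), ← map_mul, ← map_mul, h4, map_mul, map_mul,
      map_inv (PhiU φ) V, ← hW, _root_.mul_inv_rev, inv_inv]
    simp only [mul_assoc]
  refine ⟨fun j => PhiU φ (J j), hJ, ρ, ⟨?_, hE, ?_, ?_⟩, ?_, hD, q₀, κ⁻¹ * W,
    fun i => φ ((t i)⁻¹ : Rˣ), c, N, τ, ⟨?_, ?_, ?_, ?_, hτ, hfree⟩⟩
  · rw [relator_eqn, map_mul, map_list_prod, map_list_prod, List.map_ofFn, List.map_ofFn]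
    have e1 : (⇑ρ ∘ fun j : Fin n => gC j) = fun j => PhiU φ (J j) := funext hC
    have e2 : (⇑ρ ∘ fun i : Fin (k + 1 + 1) => hcomm i) =
        fun i => PhiU φ (a i * b i * (a i)⁻¹ * (b i)⁻¹) := funext hH
    rw [e1, e2]
    have h1 := congrArg (PhiU φ) hprod
    rw [map_mul, map_list_prod, List.map_ofFn, map_one] at h1
    rw [List.ofFn_succ, List.prod_cons, ha0, hb0]
    simp only [hasucc, hbsucc, mul_one, inv_one, map_one, List.ofFn_const, List.prod_replicate,
      one_pow]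
    exact h1
  · rintro ⟨i, b'⟩
    cases b' with
    | false =>
      have h2 := hA i
      rw [gA_eqn] at h2
      rw [h2]
      refine Fin.cases ?_ (fun i => ?_) i
      · rw [ha0]
        obtain ⟨c', hc'⟩ := hX
        exact PhiU_mem_GR φ _ c' hc'
      · rw [hasucc, map_one]; exact one_mem _
    | true =>
      have h2 := hB i
      rw [gB_eqn] at h2
      rw [h2]
      refine Fin.cases ?_ (fun i => ?_) i
      · rw [hb0]
        obtain ⟨c', hc'⟩ := hVP
        exact PhiU_mem_GR φ _ c' hc'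
      · rw [hbsucc, map_one]; exact one_mem _
  · intro j
    rw [hC]
    obtain ⟨c', hc'⟩ := hJdet j
    exact PhiU_mem_GR φ _ c' hc'
  · have h1 : Fin.last (k + 1) = (Fin.last k).succ := rfl
    rw [hB, h1, hbsucc, map_one]
  · rw [hP₀, Units.val_mul, Units.val_mul]
    congr 2
    rw [PhiU_coe]
    change (diagonal fun i => (((t i)⁻¹ : Rˣ) : R)).map φ = _
    ext i j
    by_cases hij : i = j
    · subst hij; simp
    · simp [Matrix.diagonal_apply_ne _ hij]
  · intro i j hij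
    apply htinj
    have h1 : (t i)⁻¹ = (t j)⁻¹ := Units.ext (hφ hij)
    simp only [inv_injective h1]
  · intro q i j hij
    exact (mem_BTr.1 (mul_mem (mul_mem (inv_mem hUc) (hall _)) hUc)) hij
  · -- the blocks are irreducible
    have hP₁ : (κ⁻¹ * W)⁻¹ * ρ (loopW q₁) * (κ⁻¹ * W) = PhiU φ (V⁻¹ * (permU π)⁻¹) := by
      have h1 : loopW q₁ = (kap q₁)⁻¹ * (gB (0 : Fin (k + 1)).castSucc)⁻¹ * kap q₁ := by
        rw [hq₁]; rfl
      have h2 : ρ (gB (0 : Fin (k + 1)).castSucc) = PhiU φ (V * permU π) := by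
        rw [Fin.castSucc_zero, hB, hb0]
      rw [h1, map_mul, map_mul, map_inv, map_inv, h2, hκ₁, map_mul, map_mul, map_inv (PhiU φ) V,
        map_inv (PhiU φ), ← hW]
      group
    have hVinv : ∀ i, ((V⁻¹ : (Mat r R)ˣ) : Mat r R) i i = 1 := by
      intro i
      have hV1 : V ∈ BTr (id : Fin r → Fin r) := mem_BTr_of_upper monotone_id hVt
      have hV2 : V⁻¹ ∈ BTr (id : Fin r → Fin r) := inv_mem hV1
      have h1 : ((V : Mat r R) * ((V⁻¹ : (Mat r R)ˣ) : Mat r R)) i i = 1 := by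
        rw [← Units.val_mul, mul_inv_cancel, Units.val_one, one_apply_eq]
      rw [Matrix.mul_apply, Finset.sum_eq_single i, hVd, one_mul] at h1
      · exact h1
      · intro l _ hl
        rcases lt_or_gt_of_ne hl with h | h
        · rw [hVt i l h, zero_mul]
        · rw [(mem_BTr.1 hV2) (show id i < id l from h), mul_zero]
      · intro h; exact absurd (Finset.mem_univ _) h
    have hstep : ∀ i, (((κ⁻¹ * W)⁻¹ * ρ (loopW q₁) * (κ⁻¹ * W) : (Mat r ℂ)ˣ) : Mat r ℂ)
        i (π i) ≠ 0 := by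
      intro i
      rw [hP₁, PhiU_coe, Matrix.map_apply, Units.val_mul, Matrix.mul_apply,
        Finset.sum_eq_single i, permU_inv_apply, if_pos rfl, hVinv, mul_one, map_one]
      · exact one_ne_zero
      · intro l _ hl
        rw [permU_inv_apply, if_neg, mul_zero]
        exact fun h => hl (π.injective h)
      · intro h; exact absurd (Finset.mem_univ _) h
    intro i j hij
    obtain ⟨l, hl⟩ := hcc i j hij
    subst hl
    clear hij
    induction l with
    | zero => exact Relation.ReflTransGen.refl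
    | succ l ih =>
      refine ih.tail ⟨q₁, ?_⟩
      rw [pow_succ', Equiv.Perm.mul_apply]
      exact hstep _

/-- TASK A' : existence of base points for all classes. -/
theorem exists_base2 {m : ℕ} (φ : R →+* ℂ) (hφ : Function.Injective φ) (u : Rˣ)
    (hu : ∀ k : ℕ, 0 < k → φ (u : R) ^ k ≠ 1) (hr : 1 ≤ r) (N : ℕ) (hN : 0 < N)
    (hμ : ∀ z : ℂ, z ^ (2 * N * r) = 1 → z ∈ Set.range φ)
    (C : Fin n → (Mat r ℂ)ˣ) (hC : ∀ j, IsNilpotent ((C j : Mat r ℂ) ^ N - 1))
    (hdet : ∏ j, (C j : Mat r ℂ).det = 1) (hm : 1 ≤ m) :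
    ∃ J : Fin n → (Mat r ℂ)ˣ, (∀ j, IsConj (C j) (J j)) ∧ ∃ ρ ∈ DFr (g := m + 1) φ J,
      ρ (gB (Fin.last m)) = 1 ∧ (∀ j, ρ (gD j) = 1) ∧
        ∃ (q₀ : Loop m n) (U : (Mat r ℂ)ˣ) (α : Fin r → ℂ) (c : Fin r → Fin r) (M : ℕ)
          (τ : Fin r → ℂ), BlockData (fun q => ρ (loopW q)) q₀ U α c M τ := by
  obtain ⟨k, rfl⟩ : ∃ k, m = k + 1 := ⟨m - 1, by omega⟩
  have hroot : ∀ z : R, z ^ (2 * N) = 1 → ∃ c : Rˣ, z = (c : R) ^ r := fun z hz =>
    exists_root φ hφ hr (2 * N) (by omega) hμ z hz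
  have hμ' : ∀ z : ℂ, z ^ N = 1 → z ∈ Set.range φ := by
    intro z hz
    apply hμ
    rw [mul_comm 2 N, mul_assoc, pow_mul, hz, one_pow]
  have hpowN : ∀ c : Rˣ, c ^ N = 1 → c ^ (2 * N) = 1 := by
    intro c hc
    rw [mul_comm, pow_mul, hc, one_pow]
  choose δ hδ hJex using fun j => exists_data2 φ hφ N hN hμ' (C j) (hC j)
  let p : Fin r → Rˣ := fun i => ∏ j, δ j i
  have hp1 : ∀ i, p i ^ N = 1 := by
    intro i
    simp only [p]
    rw [← Finset.prod_pow]
    exact Finset.prod_eq_one fun j _ => hδ j i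
  have hpprod : ∏ i, p i = 1 := by
    apply Units.ext
    apply hφ
    rw [Units.val_one, map_one, ← hdet]
    simp only [p]
    rw [Finset.prod_comm, Units.coe_prod, map_prod]
    refine Finset.prod_congr rfl fun j _ => ?_
    obtain ⟨J, hJ1, hJ2⟩ := hJex j 1 1 (by rw [map_one]; exact one_ne_zero)
    obtain ⟨X, hX⟩ := isConj_iff.mp hJ2
    have h1 : ((PhiU φ J : (Mat r ℂ)ˣ) : Mat r ℂ).det = (C j : Mat r ℂ).det := by
      rw [← hX, Units.val_mul, Units.val_mul, Matrix.det_mul, Matrix.det_mul, mul_right_comm,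
        ← Matrix.det_mul, ← Units.val_mul, mul_inv_cancel, Units.val_one, Matrix.det_one, one_mul]
    rw [← h1, PhiU_coe]
    have h2 : φ ((J : Mat r R).det) = ((J : Mat r R).map φ).det := RingHom.map_det φ _
    rw [← h2, hJ1.det, Units.coe_prod]
    rfl
  obtain ⟨σ, π, y, c, hy, hc, hcπ, hcc, hyinj, hyN⟩ := exists_order p hpprod
  have hyN := hyN N hp1
  let x : Fin r → Rˣ := fun i => tB r u (c i) * y i
  let t : Fin r → Rˣ := fun i => x (π.symm i)
  have htπ : ∀ i, t (π i) = x i := fun i => by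
    simp only [t, Equiv.symm_apply_apply]
  have htd : ∀ i, t i = p (σ i) * x i := by
    intro i
    obtain ⟨a, rfl⟩ := π.surjective i
    rw [htπ]
    simp only [x]
    rw [hcπ, hy a]
    ac_rfl
  have hxinj : Function.Injective x := by
    intro i j hij
    have h1 : (tB r u (c i)) ^ N = (tB r u (c j)) ^ N := by
      have h2 := congrArg (fun z : Rˣ => z ^ N) hij
      simp only [x, mul_pow, hyN, mul_one] at h2
      exact h2
    have h3 := tB_pow_inj φ u hu hr N hN _ _ h1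
    simp only [x, h3] at hij
    exact hyinj i j h3 (mul_left_cancel hij)
  have htinj : Function.Injective fun i => (t i : R) := by
    intro i j hij
    exact π.symm.injective (hxinj (Units.ext hij))
  obtain ⟨Δ, hΔdef⟩ : ∃ Δ, Δ = discT fun i => (t i : R) := ⟨_, rfl⟩
  have hΔ : φ Δ ≠ 0 := by
    rw [hΔdef]
    exact phi_discT_ne φ hφ _ htinj
  choose J hJ hconj using fun j => hJex j σ Δ hΔ
  -- the product of the boundary matrices
  have hP := IsJ.list (Δ := Δ) (fun j i => (δ j (σ i) : R)) (fun j => (J j : Mat r R)) hJ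
    (List.finRange n)
  obtain ⟨E, hE, hPE⟩ := hP
  have hp : ((List.finRange n).map fun j i => (δ j (σ i) : R)).prod = fun i => (p (σ i) : R) := by
    rw [← List.ofFn_eq_map, List.prod_ofFn]
    funext i
    rw [Finset.prod_apply, ← Units.coe_prod]
  rw [hp] at hPE
  have hprodJ : (((List.ofFn fun j => J j).prod : (Mat r R)ˣ) : Mat r R) =
      diagonal (fun i => (p (σ i) : R)) + Δ • E := by
    rw [← hPE, ← List.ofFn_eq_map, ← Units.coeHom_apply, map_list_prod, List.map_ofFn]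
    rfl
  -- the triangular part
  obtain ⟨V, hVlow, hVdiag, hV⟩ := exists_comm_tri (fun i => (t i : R)) Δ
    (discwT fun i => (t i : R)) (fun i j hij => by rw [hΔdef]; exact discwT_mul _ i j hij)
    (E * diagonal fun i => (((p (σ i))⁻¹ : Rˣ) : R)) (hE.mul_diag _)
  have hVdet : V.det = 1 := by
    rw [Matrix.det_of_isUpperTriangular]
    · simp [hVdiag]
    · intro i j hij
      exact hVlow i j hij
  obtain ⟨VU, hVU⟩ := exists_unit_of_det (Y := V) (by rw [hVdet]; exact isUnit_one)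
  have hprodX : (((List.ofFn fun j => J j).prod * diagU x : (Mat r R)ˣ) : Mat r R) =
      (1 + Δ • (E * diagonal fun i => (((p (σ i))⁻¹ : Rˣ) : R))) * diagonal fun i => (t i : R) := by
    rw [Units.val_mul, hprodJ]
    change (diagonal (fun i => (p (σ i) : R)) + Δ • E) * (diagonal fun i => (x i : R)) = _
    rw [Matrix.add_mul, Matrix.add_mul, Matrix.one_mul, Matrix.smul_mul, Matrix.smul_mul,
      Matrix.mul_assoc, diagonal_mul_diagonal, diagonal_mul_diagonal]
    congr 3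
    · funext i
      rw [htd]
      exact (Units.val_mul _ _).symm
    · congr 1
      funext i
      rw [htd, ← Units.val_mul, inv_mul_cancel_left]
  have hmain : (List.ofFn fun j => J j).prod *
      (diagU x * (VU * permU π) * (diagU x)⁻¹ * (VU * permU π)⁻¹) = 1 := by
    have h1 : (List.ofFn fun j => J j).prod * diagU x * VU = VU * diagU t := by
      apply Units.ext
      rw [Units.val_mul, hprodX, hVU, Units.val_mul, hVU]
      exact hV.symm
    have h2 := permU_diagU π x t htπ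
    calc (List.ofFn fun j => J j).prod *
          (diagU x * (VU * permU π) * (diagU x)⁻¹ * (VU * permU π)⁻¹) =
        ((List.ofFn fun j => J j).prod * diagU x * VU) * permU π * (diagU x)⁻¹ *
          (VU * permU π)⁻¹ := by simp only [mul_assoc]
      _ = VU * (diagU t * permU π) * (diagU x)⁻¹ * (VU * permU π)⁻¹ := by
          rw [h1]; simp only [mul_assoc]
      _ = 1 := by rw [← h2]; group
  refine finish2 φ hφ C J hconj ?_ x t VU π c ?_ ?_ htπ htinj hc hcπ hcc ?_ ?_ ?_ N _ ?_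
    (free_tB φ u hu hr N hN) hmain
  · intro j
    apply hroot
    rw [(hJ j).det, ← Finset.prod_pow]
    refine Finset.prod_eq_one fun i _ => ?_
    rw [← Units.val_pow_eq_pow_val, hpowN _ (hδ j _), Units.val_one]
  · change ∃ c : Rˣ, (diagonal fun i => (x i : R)).det = (c : R) ^ r
    rw [Matrix.det_diagonal, ← Units.coe_prod]
    simp only [x]
    rw [Finset.prod_mul_distrib]
    obtain ⟨c₁, hc₁⟩ : ∃ c₁ : Rˣ, ∏ i, tB r u (c i) = c₁ ^ r := by
      refine ⟨u ^ ∑ i : Fin r, (2 * r + 4) ^ ((c i : Fin r) : ℕ), ?_⟩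
      unfold tB
      rw [Finset.prod_pow_eq_pow_sum, ← pow_mul, ← Finset.mul_sum, mul_comm]
    obtain ⟨c₂, hc₂⟩ := hroot ((∏ i, y i : Rˣ) : R) (by
      rw [← Units.val_pow_eq_pow_val, ← Finset.prod_pow,
        Finset.prod_eq_one fun i _ => hpowN _ (hyN i), Units.val_one])
    refine ⟨c₁ * c₂, ?_⟩
    rw [Units.val_mul, hc₁, hc₂, Units.val_mul, mul_pow, Units.val_pow_eq_pow_val]
  · apply hroot
    rw [Units.val_mul, Matrix.det_mul, hVU, hVdet, one_mul, pow_mul, det_permU, one_pow]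
  · intro j i i' hij
    obtain ⟨F, hF, hJF⟩ := hJ j
    rw [hJF, Matrix.add_apply, Matrix.smul_apply, diagonal_apply_ne _ hij.ne',
      hF i i' (not_lt.2 hij.le), smul_zero, add_zero]
  · intro i i' hij
    rw [hVU]; exact hVlow i i' hij
  · intro i
    rw [hVU]; exact hVdiag i
  · intro i
    obtain ⟨a, rfl⟩ := π.surjective i
    rw [htπ, hcπ, ← map_pow, ← map_pow, ← Units.val_pow_eq_pow_val, ← Units.val_pow_eq_pow_val]
    simp only [x, mul_inv, mul_pow, inv_pow, hyN, inv_one, mul_one]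

end Data2

end Vale.Agent.P002R
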