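import Vale.Agent.P002R.RGDefs
import Vale.Agent.P002R.RReducibleG
import Vale.Agent.P002R.RBase2

/-! TASK G3: existence of base points, general coefficients. -/

namespace Vale.Agent.P002R

open Matrix

section JordanE

variable {r : ℕ}

/-- Jordan form with prescribed order of the eigenvalues: the eigenvalues `d` can be rearranged by
an arbitrary permutation. -/
theorem exists_jordan_permE (C : Mat r ℂ) :
    ∃ d : Fin r → ℂ, (∀ i, C.charpoly.IsRoot (d i)) ∧ ∀ σ : Equiv.Perm (Fin r),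
      ∃ ν : Matrix (Fin r) (Fin r) ℤ, (∀ i j, ¬ i < j → ν i j = 0) ∧
        ∀ c : ℂ, c ≠ 0 → ∃ P : (Mat r ℂ)ˣ,
          C = (P : Mat r ℂ) * (diagonal (fun i => d (σ i)) + c • ν.map (Int.castRingHom ℂ)) *
            ((P⁻¹ : (Mat r ℂ)ˣ) : Mat r ℂ) := by
  classical
  obtain ⟨ι, _, _, b, d, pre, h, hb, hpre⟩ :=
    exists_jordan_auxC r (Fin r → ℂ) (Matrix.mulVecLin C) (by simp)
  have hcard : Fintype.card ι = r := by
    rw [← Module.finrank_eq_card_basis b]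
    simp
  let e₀ : ι ≃ Fin r := Fintype.equivFinOfCardEq hcard
  have main : ∀ e₁ : ι ≃ Fin r, ∃ ν : Matrix (Fin r) (Fin r) ℤ, (∀ i j, ¬ i < j → ν i j = 0) ∧
      ∀ N₀ : ℂ, N₀ ≠ 0 → ∃ P : (Mat r ℂ)ˣ,
        C = (P : Mat r ℂ) * (diagonal (fun k => d (e₁.symm k)) +
          N₀ • ν.map (Int.castRingHom ℂ)) * ((P⁻¹ : (Mat r ℂ)ˣ) : Mat r ℂ) := by
    intro e₁
    obtain ⟨e, he1, he2⟩ := exists_stable d h e₁
    obtain ⟨ν, hν1, hν2⟩ := jordan_of_enum b d pre h hb (fun i j hp => (hpre i j hp).1) e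
      (fun i j hp => he2 i j (hpre i j hp).2.symm (by rw [(hpre i j hp).1]; exact Nat.lt_succ_self _))
    refine ⟨ν, hν1, ?_⟩
    simp only [he1] at hν2
    exact hν2
  refine ⟨fun k => d (e₀.symm k), fun i => ?_, fun σ => main (e₀.trans σ.symm)⟩
  obtain ⟨ν, hν1, hν2⟩ := main e₀
  obtain ⟨P, hP⟩ := hν2 1 one_ne_zero
  have h1 : C.charpoly = ∏ i, (Polynomial.X - Polynomial.C (d (e₀.symm i))) := by
    rw [hP, one_smul]
    exact charpoly_conj_aux P _ ν hν1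
  rw [h1]
  simp only [Polynomial.IsRoot.def, Polynomial.eval_prod]
  apply Finset.prod_eq_zero (Finset.mem_univ i)
  simp

end JordanE

section DataE

variable {R : Type*} [CommRing R] {r n : ℕ} {E : Subgroup ℂˣ}

/-- The units of the ring which lie in `E`. -/
def HE (φ : R →+* ℂ) (E : Subgroup ℂˣ) : Subgroup Rˣ := E.comap (Units.map (φ : R →* ℂ))

theorem mem_HE {φ : R →+* ℂ} {x : Rˣ} : x ∈ HE φ E ↔ Units.map (φ : R →* ℂ) x ∈ E := Iff.rfl

theorem exists_mem_HE (φ : R →+* ℂ) (hc : CoefOK φ E r) (hr : 1 ≤ r) (ε : ℂˣ) (hε : ε ∈ E) :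
    ∃ δ ∈ HE φ E, φ (δ : R) = (ε : ℂ) := by
  obtain ⟨γ, hγ⟩ := hc.root 1 one_pos hr ε (by rw [pow_one]; exact hε)
  obtain ⟨γ', hγ'⟩ := hc.root 1 one_pos hr ε⁻¹ (by rw [pow_one]; exact E.inv_mem hε)
  have h2 : γ * γ' = 1 := by
    apply hc.inj
    rw [map_mul, hγ, hγ', map_one, ← Units.val_mul, mul_inv_cancel, Units.val_one]
  refine ⟨⟨γ, γ', h2, by rw [mul_comm]; exact h2⟩, ?_, hγ⟩
  rw [mem_HE]
  have h3 : Units.map (φ : R →* ℂ) ⟨γ, γ', h2, by rw [mul_comm]; exact h2⟩ = ε :=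
    Units.ext hγ
  rw [h3]
  exact hε

theorem exists_rootHE (φ : R →+* ℂ) (hc : CoefOK φ E r) (hr : 1 ≤ r) (z : Rˣ)
    (hz : z ∈ HE φ E) : ∃ c : Rˣ, (z : R) = (c : R) ^ r :=
  exists_rootE φ hc.weak hr (z : R) ⟨_, mem_HE.1 hz, rfl⟩

theorem exists_dataE (φ : R →+* ℂ) (hc : CoefOK φ E r) (hr : 1 ≤ r) (C : (Mat r ℂ)ˣ)
    (hC : EigIn E (C : Mat r ℂ)) :
    ∃ δ : Fin r → Rˣ, (∀ i, δ i ∈ HE φ E) ∧ ∀ (σ : Equiv.Perm (Fin r)) (Δ : R), φ Δ ≠ 0 →
      ∃ J : (Mat r R)ˣ, IsJ Δ (fun i => (δ (σ i) : R)) (J : Mat r R) ∧ IsConj C (PhiU φ J) := by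
  obtain ⟨d, hd, h⟩ := exists_jordan_permE (C : Mat r ℂ)
  have hlift : ∀ i, ∃ δ : Rˣ, φ (δ : R) = d i ∧ δ ∈ HE φ E := by
    intro i
    obtain ⟨ε, hε, hε'⟩ := hC (d i) (hd i)
    obtain ⟨δ, hδ, hδ'⟩ := exists_mem_HE φ hc hr ε hε
    exact ⟨δ, by rw [hδ', hε'], hδ⟩
  choose δ hδ1 hδ2 using hlift
  refine ⟨δ, hδ2, fun σ Δ hΔ => ?_⟩
  obtain ⟨ν, hν, h⟩ := h σ
  have hJ : IsJ Δ (fun i => (δ (σ i) : R)) (diagonal (fun i => (δ (σ i) : R)) +
      Δ • ν.map (Int.castRingHom R)) := by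
    refine ⟨ν.map (Int.castRingHom R), ?_, rfl⟩
    intro i j hij
    rw [Matrix.map_apply, hν i j hij, map_zero]
  have hu : IsUnit (diagonal (fun i => (δ (σ i) : R)) + Δ • ν.map (Int.castRingHom R)) := by
    rw [Matrix.isUnit_iff_isUnit_det, hJ.det, ← Units.coe_prod]
    exact Units.isUnit _
  obtain ⟨J, hJ'⟩ := hu
  refine ⟨J, by rw [hJ']; exact hJ, ?_⟩
  obtain ⟨P, hP⟩ := h (φ Δ) hΔ
  rw [isConj_comm, isConj_iff]
  refine ⟨P, ?_⟩
  apply Units.ext
  rw [Units.val_mul, Units.val_mul, PhiU_coe, hJ', hP]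
  congr 2
  ext i j
  simp only [Matrix.map_apply, Matrix.add_apply, Matrix.smul_apply, smul_eq_mul, map_add,
    map_mul]
  congr 1
  · by_cases hij : i = j
    · subst hij
      simp [hδ1]
    · simp [Matrix.diagonal_apply_ne _ hij]
  · congr 1
    simp

theorem uE_inj (φ : R →+* ℂ) (u : Rˣ) (hu : ∀ k : ℕ, 0 < k → Units.map (φ : R →* ℂ) u ^ k ∉ E)
    (a b : ℕ) (h : u ^ a * (u ^ b)⁻¹ ∈ HE φ E) : a = b := by
  have aux : ∀ a b : ℕ, a < b → u ^ b * (u ^ a)⁻¹ ∉ HE φ E := by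
    intro a b hab h1
    obtain ⟨d, hd, rfl⟩ : ∃ d, 0 < d ∧ b = a + d := ⟨b - a, by omega, by omega⟩
    apply hu d hd
    rw [pow_add, mul_comm (u ^ a), mul_inv_cancel_right, mem_HE, map_pow] at h1
    exact h1
  rcases lt_trichotomy a b with h1 | h1 | h1
  · refine absurd ((HE φ E).inv_mem h) ?_
    rw [mul_inv, inv_inv, mul_comm]
    exact aux a b h1
  · exact h1
  · exact absurd h (aux b a h1)

theorem tB_inj_mod (φ : R →+* ℂ) (u : Rˣ)
    (hu : ∀ k : ℕ, 0 < k → Units.map (φ : R →* ℂ) u ^ k ∉ E) (hr : 1 ≤ r)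
    (b b' : Fin r) (h : tB r u b * (tB r u b')⁻¹ ∈ HE φ E) : b = b' := by
  unfold tB at h
  have h2 := uE_inj φ u hu _ _ h
  have h3 := Nat.eq_of_mul_eq_mul_left hr h2
  exact Fin.ext (Nat.pow_right_injective (by omega) h3)

theorem prod_tB_pow (u : Rˣ) (e : Fin r → ℕ) :
    ∏ i, (tB r u i) ^ e i = u ^ (r * ∑ i : Fin r, e i * (2 * r + 4) ^ (i : ℕ)) := by
  unfold tB
  simp only [← pow_mul]
  rw [Finset.prod_pow_eq_pow_sum, Finset.mul_sum]
  congr 1
  refine Finset.sum_congr rfl fun i _ => ?_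
  ring

theorem freeMod_tB (φ : R →+* ℂ) (u : Rˣ)
    (hu : ∀ k : ℕ, 0 < k → Units.map (φ : R →* ℂ) u ^ k ∉ E) (hr : 1 ≤ r) :
    FreeMod E (2 * r + 3) fun b : Fin r => φ ((tB r u b)⁻¹ : Rˣ) := by
  intro e e' hee hD h
  obtain ⟨ε, hε, h⟩ := h
  have hprod : ∀ e : Fin r → ℕ, ∏ i, (φ ((tB r u i)⁻¹ : Rˣ)) ^ e i =
      ((Units.map (φ : R →* ℂ) (∏ i, (tB r u i) ^ e i)⁻¹ : ℂˣ) : ℂ) := by
    intro e
    rw [← Finset.prod_inv_distrib, map_prod, Units.coe_prod]
    refine Finset.prod_congr rfl fun i _ => ?_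
    rw [← inv_pow, map_pow, Units.val_pow_eq_pow_val]
    rfl
  rw [hprod, hprod] at h
  have h1 : Units.map (φ : R →* ℂ) (∏ i, (tB r u i) ^ e i)⁻¹ =
      ε * Units.map (φ : R →* ℂ) (∏ i, (tB r u i) ^ e' i)⁻¹ := Units.ext h
  have h2 : (∏ i, (tB r u i) ^ e' i) * (∏ i, (tB r u i) ^ e i)⁻¹ ∈ HE φ E := by
    rw [mem_HE, map_mul, h1, mul_left_comm, ← map_mul, mul_inv_cancel, map_one, mul_one]
    exact hε
  rw [prod_tB_pow, prod_tB_pow] at h2
  have h3 := uE_inj φ u hu _ _ h2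
  have h4 := Nat.eq_of_mul_eq_mul_left hr h3
  exact (sum_base_pow_inj (2 * r + 3) e' e (by rw [← hee]; exact hD) hD h4).symm

theorem finishE {k : ℕ} (φ : R →+* ℂ) (hφ : Function.Injective φ) (E : Subgroup ℂˣ) (C : Fin n → (Mat r ℂ)ˣ)
    (J : Fin n → (Mat r R)ˣ) (hJ : ∀ j, IsConj (C j) (PhiU φ (J j)))
    (hJdet : ∀ j, ∃ c : Rˣ, (J j : Mat r R).det = (c : R) ^ r)
    (x t : Fin r → Rˣ) (V : (Mat r R)ˣ) (π : Equiv.Perm (Fin r)) (c : Fin r → Fin r)
    (hX : ∃ c : Rˣ, ((diagU x : (Mat r R)ˣ) : Mat r R).det = (c : R) ^ r)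
    (hVP : ∃ c : Rˣ, ((V * permU π : (Mat r R)ˣ) : Mat r R).det = (c : R) ^ r)
    (ht : ∀ i, t (π i) = x i) (htinj : Function.Injective fun i => (t i : R))
    (hc : Monotone c) (hcπ : ∀ i, c (π i) = c i)
    (hcc : ∀ a b, c a = c b → ∃ k : ℕ, (π ^ k) a = b)
    (hJt : ∀ j i i', i' < i → (J j : Mat r R) i i' = 0)
    (hVt : ∀ i i', i' < i → (V : Mat r R) i i' = 0) (hVd : ∀ i, (V : Mat r R) i i = 1)
    (τ : Fin r → ℂ) (hτ : ∀ i, ∃ ε ∈ E, φ ((t i)⁻¹ : Rˣ) = τ (c i) * (ε : ℂ))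
    (hfree : FreeMod E (2 * r + 3) τ)
    (hprod : (List.ofFn fun j => J j).prod *
      (diagU x * (V * permU π) * (diagU x)⁻¹ * (V * permU π)⁻¹) = 1) :
    ∃ J : Fin n → (Mat r ℂ)ˣ, (∀ j, IsConj (C j) (J j)) ∧ ∃ ρ ∈ DFr (g := k + 1 + 1) φ J,
      ρ (gB (Fin.last (k + 1))) = 1 ∧ (∀ j, ρ (gD j) = 1) ∧
        ∃ (q₀ : Loop (k + 1) n) (U : (Mat r ℂ)ˣ) (α : Fin r → ℂ) (c : Fin r → Fin r)
          (τ : Fin r → ℂ), BlockDataE E (fun q => ρ (loopW q)) q₀ U α c τ := by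
  obtain ⟨a, ha⟩ : ∃ a : Fin (k + 1 + 1) → (Mat r R)ˣ, a = Fin.cons (diagU x) fun _ => 1 :=
    ⟨_, rfl⟩
  obtain ⟨b, hb⟩ : ∃ b : Fin (k + 1 + 1) → (Mat r R)ˣ, b = Fin.cons (V * permU π) fun _ => 1 :=
    ⟨_, rfl⟩
  let ρ : FF (k + 1 + 1) n →* (Mat r ℂ)ˣ := FreeGroup.lift fun k =>
    match k with
    | Sum.inl (i, false) => PhiU φ (a i)
    | Sum.inl (i, true) => PhiU φ (b i)
    | Sum.inr (_, false) => 1
    | Sum.inr (j, true) => PhiU φ (J j)
  have hA : ∀ i, ρ (gA i) = PhiU φ (a i) := fun i => FreeGroup.lift_apply_of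
  have hB : ∀ i, ρ (gB i) = PhiU φ (b i) := fun i => FreeGroup.lift_apply_of
  have hD : ∀ j, ρ (gD j) = 1 := fun i => FreeGroup.lift_apply_of
  have hEE : ∀ j, ρ (gE j) = PhiU φ (J j) := fun i => FreeGroup.lift_apply_of
  have hC : ∀ j, ρ (gC j) = PhiU φ (J j) := by
    intro j
    rw [gC_eqn, map_mul, map_mul, map_inv, hD, hEE, one_mul, inv_one, mul_one]
  have hH : ∀ i, ρ (hcomm i) = PhiU φ (a i * b i * (a i)⁻¹ * (b i)⁻¹) := by
    intro i
    rw [hcomm_eqn, map_mul, map_mul, map_mul, map_inv, map_inv, hA, hB, map_mul, map_mul, map_mul,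
      map_inv, map_inv]
  have ha0 : a 0 = diagU x := by rw [ha]; rfl
  have hb0 : b 0 = V * permU π := by rw [hb]; rfl
  have hasucc : ∀ i : Fin (k + 1), a i.succ = 1 := fun i => by rw [ha]; rfl
  have hbsucc : ∀ i : Fin (k + 1), b i.succ = 1 := fun i => by rw [hb]; rfl
  have hone : ∃ c : Rˣ, ((1 : (Mat r R)ˣ) : Mat r R).det = (c : R) ^ r := ⟨1, by simp⟩
  -- all values are block triangular
  have hall : ∀ w, ρ w ∈ BTr c := by
    have h1 : (⊤ : Subgroup (FF (k + 1 + 1) n)) ≤ (BTr c).comap ρ := by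
      rw [← FreeGroup.closure_range_of, Subgroup.closure_le]
      have hPi : (permU π : (Mat r R)ˣ) ∈ BTr c := permU_mem_BTr π hcπ
      have hV : V ∈ BTr c := mem_BTr_of_upper hc hVt
      have hXc : (diagU x : (Mat r R)ˣ) ∈ BTr c := mem_BTr_of_upper hc fun i j hij =>
        diagonal_apply_ne _ hij.ne'
      rintro _ ⟨(⟨i, b'⟩ | ⟨j, b'⟩), rfl⟩
      · cases b' with
        | false =>
          have h2 := hA i
          rw [gA_eqn] at h2
          rw [SetLike.mem_coe, Subgroup.mem_comap, h2]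
          refine PhiU_mem_BTr φ ?_
          refine Fin.cases ?_ (fun i => ?_) i
          · rw [ha0]; exact hXc
          · rw [hasucc]; exact one_mem _
        | true =>
          have h2 := hB i
          rw [gB_eqn] at h2
          rw [SetLike.mem_coe, Subgroup.mem_comap, h2]
          refine PhiU_mem_BTr φ ?_
          refine Fin.cases ?_ (fun i => ?_) i
          · rw [hb0]; exact mul_mem hV hPi
          · rw [hbsucc]; exact one_mem _
      · cases b' with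
        | false =>
          have h2 := hD j
          rw [gD_eqn] at h2
          rw [SetLike.mem_coe, Subgroup.mem_comap, h2]
          exact one_mem _
        | true =>
          have h2 := hEE j
          rw [gE_eqn] at h2
          rw [SetLike.mem_coe, Subgroup.mem_comap, h2]
          exact PhiU_mem_BTr φ (mem_BTr_of_upper hc (hJt j))
    intro w
    exact h1 (Subgroup.mem_top w)
  obtain ⟨q₀, hq₀⟩ : ∃ q₀ : Loop (k + 1) n, q₀ = Sum.inr (0, false) := ⟨_, rfl⟩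
  obtain ⟨q₁, hq₁⟩ : ∃ q₁ : Loop (k + 1) n, q₁ = Sum.inr (0, true) := ⟨_, rfl⟩
  obtain ⟨κ, hκ⟩ : ∃ κ, κ = ρ (kap q₀) := ⟨_, rfl⟩
  have hκ₁ : ρ (kap q₁) = κ := by
    rw [hκ, hq₀, hq₁]
    rfl
  obtain ⟨W, hW⟩ : ∃ W, W = PhiU φ V := ⟨_, rfl⟩
  have hWc : W ∈ BTr c := by
    rw [hW]
    exact PhiU_mem_BTr φ (mem_BTr_of_upper hc hVt)
  have hUc : κ⁻¹ * W ∈ BTr c := mul_mem (inv_mem (by rw [hκ]; exact hall _)) hWc
  have hP₀ : ρ (loopW q₀) = (κ⁻¹ * W) * PhiU φ ((diagU t)⁻¹) * (κ⁻¹ * W)⁻¹ := by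
    have h1 : loopW q₀ = (kap q₀)⁻¹ * (gB (0 : Fin (k + 1)).castSucc *
        (gA (0 : Fin (k + 1)).castSucc)⁻¹ * (gB (0 : Fin (k + 1)).castSucc)⁻¹) * kap q₀ := by
      rw [hq₀]; rfl
    have h2 : ρ (gB (0 : Fin (k + 1)).castSucc) = PhiU φ (V * permU π) := by
      rw [Fin.castSucc_zero, hB, hb0]
    have h3 : ρ (gA (0 : Fin (k + 1)).castSucc) = PhiU φ (diagU x) := by
      rw [Fin.castSucc_zero, hA, ha0]
    have h4 : (V * permU π) * (diagU x)⁻¹ * (V * permU π)⁻¹ = V * (diagU t)⁻¹ * V⁻¹ := by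
      have h5 := permU_diagU π x t ht
      have h6 : permU π * (diagU x)⁻¹ = (diagU t : (Mat r R)ˣ)⁻¹ * permU π := by
        rw [mul_inv_eq_iff_eq_mul, mul_assoc, h5, inv_mul_cancel_left]
      rw [mul_assoc V, h6, _root_.mul_inv_rev]
      group
    rw [h1, map_mul, map_mul, map_mul, map_mul, map_inv, map_inv, map_inv, h2, h3, ← hκ,
      ← map_inv (PhiU φ), ← map_inv (PhiU φ), ← map_mul, ← map_mul, h4, map_mul, map_mul,
      map_inv (PhiU φ) V, ← hW, _root_.mul_inv_rev, inv_inv]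
    simp only [mul_assoc]
  refine ⟨fun j => PhiU φ (J j), hJ, ρ, ⟨?_, hEE, ?_, ?_⟩, ?_, hD, q₀, κ⁻¹ * W,
    fun i => φ ((t i)⁻¹ : Rˣ), c, τ, ⟨?_, ?_, ?_, ?_, hτ, hfree⟩⟩
  · rw [relator_eqn, map_mul, map_list_prod, map_list_prod, List.map_ofFn, List.map_ofFn]
    have e1 : (⇑ρ ∘ fun j : Fin n => gC j) = fun j => PhiU φ (J j) := funext hC
    have e2 : (⇑ρ ∘ fun i : Fin (k + 1 + 1) => hcomm i) =
        fun i => PhiU φ (a i * b i * (a i)⁻¹ * (b i)⁻¹) := funext hH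
    rw [e1, e2]
    have h1 := congrArg (PhiU φ) hprod
    rw [map_mul, map_list_prod, List.map_ofFn, map_one] at h1
    rw [List.ofFn_succ, List.prod_cons, ha0, hb0]
    simp only [hasucc, hbsucc, mul_one, inv_one, map_one, List.ofFn_const, List.prod_replicate,
      one_pow]
    exact h1
  · rintro ⟨i, b'⟩
    cases b' with
    | false =>
      have h2 := hA i
      rw [gA_eqn] at h2
      rw [h2]
      refine Fin.cases ?_ (fun i => ?_) i
      · rw [ha0]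
        obtain ⟨c', hc'⟩ := hX
        exact PhiU_mem_GR φ _ c' hc'
      · rw [hasucc, map_one]; exact one_mem _
    | true =>
      have h2 := hB i
      rw [gB_eqn] at h2
      rw [h2]
      refine Fin.cases ?_ (fun i => ?_) i
      · rw [hb0]
        obtain ⟨c', hc'⟩ := hVP
        exact PhiU_mem_GR φ _ c' hc'
      · rw [hbsucc, map_one]; exact one_mem _
  · intro j
    rw [hC]
    obtain ⟨c', hc'⟩ := hJdet j
    exact PhiU_mem_GR φ _ c' hc'
  · have h1 : Fin.last (k + 1) = (Fin.last k).succ := rfl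
    rw [hB, h1, hbsucc, map_one]
  · rw [hP₀, Units.val_mul, Units.val_mul]
    congr 2
    rw [PhiU_coe]
    change (diagonal fun i => (((t i)⁻¹ : Rˣ) : R)).map φ = _
    ext i j
    by_cases hij : i = j
    · subst hij; simp
    · simp [Matrix.diagonal_apply_ne _ hij]
  · intro i j hij
    apply htinj
    have h1 : (t i)⁻¹ = (t j)⁻¹ := Units.ext (hφ hij)
    simp only [inv_injective h1]
  · intro q i j hij
    exact (mem_BTr.1 (mul_mem (mul_mem (inv_mem hUc) (hall _)) hUc)) hij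
  · -- the blocks are irreducible
    have hP₁ : (κ⁻¹ * W)⁻¹ * ρ (loopW q₁) * (κ⁻¹ * W) = PhiU φ (V⁻¹ * (permU π)⁻¹) := by
      have h1 : loopW q₁ = (kap q₁)⁻¹ * (gB (0 : Fin (k + 1)).castSucc)⁻¹ * kap q₁ := by
        rw [hq₁]; rfl
      have h2 : ρ (gB (0 : Fin (k + 1)).castSucc) = PhiU φ (V * permU π) := by
        rw [Fin.castSucc_zero, hB, hb0]
      rw [h1, map_mul, map_mul, map_inv, map_inv, h2, hκ₁, map_mul, map_mul, map_inv (PhiU φ) V,
        map_inv (PhiU φ), ← hW]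
      group
    have hVinv : ∀ i, ((V⁻¹ : (Mat r R)ˣ) : Mat r R) i i = 1 := by
      intro i
      have hV1 : V ∈ BTr (id : Fin r → Fin r) := mem_BTr_of_upper monotone_id hVt
      have hV2 : V⁻¹ ∈ BTr (id : Fin r → Fin r) := inv_mem hV1
      have h1 : ((V : Mat r R) * ((V⁻¹ : (Mat r R)ˣ) : Mat r R)) i i = 1 := by
        rw [← Units.val_mul, mul_inv_cancel, Units.val_one, one_apply_eq]
      rw [Matrix.mul_apply, Finset.sum_eq_single i, hVd, one_mul] at h1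
      · exact h1
      · intro l _ hl
        rcases lt_or_gt_of_ne hl with h | h
        · rw [hVt i l h, zero_mul]
        · rw [(mem_BTr.1 hV2) (show id i < id l from h), mul_zero]
      · intro h; exact absurd (Finset.mem_univ _) h
    have hstep : ∀ i, (((κ⁻¹ * W)⁻¹ * ρ (loopW q₁) * (κ⁻¹ * W) : (Mat r ℂ)ˣ) : Mat r ℂ)
        i (π i) ≠ 0 := by
      intro i
      rw [hP₁, PhiU_coe, Matrix.map_apply, Units.val_mul, Matrix.mul_apply,
        Finset.sum_eq_single i, permU_inv_apply, if_pos rfl, hVinv, mul_one, map_one]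
      · exact one_ne_zero
      · intro l _ hl
        rw [permU_inv_apply, if_neg, mul_zero]
        exact fun h => hl (π.injective h)
      · intro h; exact absurd (Finset.mem_univ _) h
    intro i j hij
    obtain ⟨l, hl⟩ := hcc i j hij
    subst hl
    clear hij
    induction l with
    | zero => exact Relation.ReflTransGen.refl
    | succ l ih =>
      refine ih.tail ⟨q₁, ?_⟩
      rw [pow_succ', Equiv.Perm.mul_apply]
      exact hstep _

/-- TASK G3 : existence of base points, general coefficients. -/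
theorem exists_baseE {m n : ℕ} {R : Type*} [CommRing R] (φ : R →+* ℂ) (E : Subgroup ℂˣ)
    (hc : CoefOK φ E r) (hr : 1 ≤ r)
    (C : Fin n → (Mat r ℂ)ˣ) (hC : ∀ j, EigIn E (C j : Mat r ℂ))
    (hdet : ∏ j, (C j : Mat r ℂ).det = 1) (hm : 1 ≤ m) :
    ∃ J : Fin n → (Mat r ℂ)ˣ, (∀ j, IsConj (C j) (J j)) ∧ ∃ ρ ∈ DFr (g := m + 1) φ J,
      ρ (gB (Fin.last m)) = 1 ∧ (∀ j, ρ (gD j) = 1) ∧
        ∃ (q₀ : Loop m n) (U : (Mat r ℂ)ˣ) (α : Fin r → ℂ) (c : Fin r → Fin r)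
          (τ : Fin r → ℂ), BlockDataE E (fun q => ρ (loopW q)) q₀ U α c τ := by
  obtain ⟨k, rfl⟩ : ∃ k, m = k + 1 := ⟨m - 1, by omega⟩
  have hφ := hc.inj
  obtain ⟨u, hu⟩ := hc.unit
  choose δ hδ hJex using fun j => exists_dataE φ hc hr (C j) (hC j)
  let p : Fin r → Rˣ := fun i => ∏ j, δ j i
  have hp1 : ∀ i, p i ∈ HE φ E := fun i => Subgroup.prod_mem _ fun j _ => hδ j i
  have hpprod : ∏ i, p i = 1 := by
    apply Units.ext
    apply hφ
    rw [Units.val_one, map_one, ← hdet]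
    simp only [p]
    rw [Finset.prod_comm, Units.coe_prod, map_prod]
    refine Finset.prod_congr rfl fun j _ => ?_
    obtain ⟨J, hJ1, hJ2⟩ := hJex j 1 1 (by rw [map_one]; exact one_ne_zero)
    obtain ⟨X, hX⟩ := isConj_iff.mp hJ2
    have h1 : ((PhiU φ J : (Mat r ℂ)ˣ) : Mat r ℂ).det = (C j : Mat r ℂ).det := by
      rw [← hX, Units.val_mul, Units.val_mul, Matrix.det_mul, Matrix.det_mul, mul_right_comm,
        ← Matrix.det_mul, ← Units.val_mul, mul_inv_cancel, Units.val_one, Matrix.det_one, one_mul]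
    rw [← h1, PhiU_coe]
    have h2 : φ ((J : Mat r R).det) = ((J : Mat r R).map φ).det := RingHom.map_det φ _
    rw [← h2, hJ1.det, Units.coe_prod]
    rfl
  let p' : Fin r → HE φ E := fun i => ⟨p i, hp1 i⟩
  have hp' : ∏ i, p' i = 1 := by
    apply Subtype.ext
    rw [Subgroup.val_finsetProd]
    exact hpprod
  obtain ⟨σ, π, y', c, hy', hcm, hcπ, hcc, hyinj', -⟩ := exists_order p' hp'
  let y : Fin r → Rˣ := fun i => (y' i : Rˣ)
  have hyE : ∀ i, y i ∈ HE φ E := fun i => (y' i).2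
  have hy : ∀ a, y a = p (σ (π a)) * y (π a) := fun a => congrArg Subtype.val (hy' a)
  have hyinj : ∀ a b, c a = c b → y a = y b → a = b := fun a b h1 h2 =>
    hyinj' a b h1 (Subtype.ext h2)
  let x : Fin r → Rˣ := fun i => tB r u (c i) * y i
  let t : Fin r → Rˣ := fun i => x (π.symm i)
  have htπ : ∀ i, t (π i) = x i := fun i => by
    simp only [t, Equiv.symm_apply_apply]
  have htd : ∀ i, t i = p (σ i) * x i := by
    intro i
    obtain ⟨a, rfl⟩ := π.surjective i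
    rw [htπ]
    simp only [x]
    rw [hcπ, hy a]
    ac_rfl
  have hxinj : Function.Injective x := by
    intro i j hij
    have h1 : tB r u (c i) * (tB r u (c j))⁻¹ ∈ HE φ E := by
      have h2 : tB r u (c i) * (tB r u (c j))⁻¹ = y j * (y i)⁻¹ := by
        rw [mul_inv_eq_iff_eq_mul, mul_right_comm, eq_mul_inv_iff_mul_eq, mul_comm (y j)]
        exact hij
      rw [h2]
      exact mul_mem (hyE j) (inv_mem (hyE i))
    have h3 := tB_inj_mod φ u hu hr _ _ h1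
    simp only [x, h3] at hij
    exact hyinj i j h3 (mul_left_cancel hij)
  have htinj : Function.Injective fun i => (t i : R) := by
    intro i j hij
    exact π.symm.injective (hxinj (Units.ext hij))
  obtain ⟨Δ, hΔdef⟩ : ∃ Δ, Δ = discT fun i => (t i : R) := ⟨_, rfl⟩
  have hΔ : φ Δ ≠ 0 := by
    rw [hΔdef]
    exact phi_discT_ne φ hφ _ htinj
  choose J hJ hconj using fun j => hJex j σ Δ hΔ
  -- the product of the boundary matrices
  have hP := IsJ.list (Δ := Δ) (fun j i => (δ j (σ i) : R)) (fun j => (J j : Mat r R)) hJ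
    (List.finRange n)
  obtain ⟨F, hF, hPF⟩ := hP
  have hp : ((List.finRange n).map fun j i => (δ j (σ i) : R)).prod = fun i => (p (σ i) : R) := by
    rw [← List.ofFn_eq_map, List.prod_ofFn]
    funext i
    rw [Finset.prod_apply, ← Units.coe_prod]
  rw [hp] at hPF
  have hprodJ : (((List.ofFn fun j => J j).prod : (Mat r R)ˣ) : Mat r R) =
      diagonal (fun i => (p (σ i) : R)) + Δ • F := by
    rw [← hPF, ← List.ofFn_eq_map, ← Units.coeHom_apply, map_list_prod, List.map_ofFn]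
    rfl
  -- the triangular part
  obtain ⟨V, hVlow, hVdiag, hV⟩ := exists_comm_tri (fun i => (t i : R)) Δ
    (discwT fun i => (t i : R)) (fun i j hij => by rw [hΔdef]; exact discwT_mul _ i j hij)
    (F * diagonal fun i => (((p (σ i))⁻¹ : Rˣ) : R)) (hF.mul_diag _)
  have hVdet : V.det = 1 := by
    rw [Matrix.det_of_isUpperTriangular]
    · simp [hVdiag]
    · intro i j hij
      exact hVlow i j hij
  obtain ⟨VU, hVU⟩ := exists_unit_of_det (Y := V) (by rw [hVdet]; exact isUnit_one)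
  have hprodX : (((List.ofFn fun j => J j).prod * diagU x : (Mat r R)ˣ) : Mat r R) =
      (1 + Δ • (F * diagonal fun i => (((p (σ i))⁻¹ : Rˣ) : R))) * diagonal fun i => (t i : R) := by
    rw [Units.val_mul, hprodJ]
    change (diagonal (fun i => (p (σ i) : R)) + Δ • F) * (diagonal fun i => (x i : R)) = _
    rw [Matrix.add_mul, Matrix.add_mul, Matrix.one_mul, Matrix.smul_mul, Matrix.smul_mul,
      Matrix.mul_assoc, diagonal_mul_diagonal, diagonal_mul_diagonal]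
    congr 3
    · funext i
      rw [htd]
      exact (Units.val_mul _ _).symm
    · congr 1
      funext i
      rw [htd, ← Units.val_mul, inv_mul_cancel_left]
  have hmain : (List.ofFn fun j => J j).prod *
      (diagU x * (VU * permU π) * (diagU x)⁻¹ * (VU * permU π)⁻¹) = 1 := by
    have h1 : (List.ofFn fun j => J j).prod * diagU x * VU = VU * diagU t := by
      apply Units.ext
      rw [Units.val_mul, hprodX, hVU, Units.val_mul, hVU]
      exact hV.symm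
    have h2 := permU_diagU π x t htπ
    calc (List.ofFn fun j => J j).prod *
          (diagU x * (VU * permU π) * (diagU x)⁻¹ * (VU * permU π)⁻¹) =
        ((List.ofFn fun j => J j).prod * diagU x * VU) * permU π * (diagU x)⁻¹ *
          (VU * permU π)⁻¹ := by simp only [mul_assoc]
      _ = VU * (diagU t * permU π) * (diagU x)⁻¹ * (VU * permU π)⁻¹ := by
          rw [h1]; simp only [mul_assoc]
      _ = 1 := by rw [← h2]; group
  refine finishE φ hφ E C J hconj ?_ x t VU π c ?_ ?_ htπ htinj hcm hcπ hcc ?_ ?_ ?_ _ ?_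
    (freeMod_tB φ u hu hr) hmain
  · intro j
    obtain ⟨c', hc'⟩ := exists_rootHE φ hc hr (∏ i, δ j (σ i))
      (Subgroup.prod_mem _ fun i _ => hδ j _)
    refine ⟨c', ?_⟩
    rw [(hJ j).det, ← Units.coe_prod]
    exact hc'
  · change ∃ c : Rˣ, (diagonal fun i => (x i : R)).det = (c : R) ^ r
    rw [Matrix.det_diagonal, ← Units.coe_prod]
    simp only [x]
    rw [Finset.prod_mul_distrib]
    obtain ⟨c₁, hc₁⟩ : ∃ c₁ : Rˣ, ∏ i, tB r u (c i) = c₁ ^ r := by
      refine ⟨u ^ ∑ i : Fin r, (2 * r + 4) ^ ((c i : Fin r) : ℕ), ?_⟩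
      unfold tB
      rw [Finset.prod_pow_eq_pow_sum, ← pow_mul, ← Finset.mul_sum, mul_comm]
    obtain ⟨c₂, hc₂⟩ := exists_rootHE φ hc hr (∏ i, y i) (Subgroup.prod_mem _ fun i _ => hyE i)
    refine ⟨c₁ * c₂, ?_⟩
    rw [Units.val_mul, hc₁, hc₂, Units.val_mul, mul_pow, Units.val_pow_eq_pow_val]
  · apply exists_rootE φ hc.weak hr
    have h1 : ((VU * permU π : (Mat r R)ˣ) : Mat r R).det ^ 2 = 1 := by
      rw [Units.val_mul, Matrix.det_mul, hVU, hVdet, one_mul, det_permU]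
    have h2 : φ ((VU * permU π : (Mat r R)ˣ) : Mat r R).det ^ 2 = 1 := by
      rw [← map_pow, h1, map_one]
    rw [sq] at h2
    rcases mul_self_eq_one_iff.1 h2 with h | h
    · exact ⟨1, E.one_mem, by rw [h, Units.val_one]⟩
    · exact ⟨-1, hc.neg, by rw [h, Units.val_neg, Units.val_one]⟩
  · intro j i i' hij
    obtain ⟨F, hF, hJF⟩ := hJ j
    rw [hJF, Matrix.add_apply, Matrix.smul_apply, diagonal_apply_ne _ hij.ne',
      hF i i' (not_lt.2 hij.le), smul_zero, add_zero]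
  · intro i i' hij
    rw [hVU]; exact hVlow i i' hij
  · intro i
    rw [hVU]; exact hVdiag i
  · intro i
    obtain ⟨a, rfl⟩ := π.surjective i
    rw [htπ, hcπ]
    refine ⟨Units.map (φ : R →* ℂ) (y a)⁻¹, E.inv_mem (hyE a) |> fun h => by rwa [map_inv], ?_⟩
    simp only [x, mul_inv, Units.val_mul, map_mul]
    rfl

end DataE

end Vale.Agent.P002R
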