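import Vale.Agent.P002R.RBasic
import Vale.Agent.P002.BaseDensity

/-!
# P002R TASK H: the base representations lie in the Zariski closure
-/

namespace Vale.Agent.P002R

open Matrix

variable {m n r : ℕ}

section reps

variable {S T : Type*} [CommRing S] [Algebra ℂ S] [CommRing T] [Algebra ℂ T]

theorem baseRep_inl (ρ : FF (m + 1) n →* (Mat r ℂ)ˣ) (B : (Mat r S)ˣ) (k : Fin n → (Mat r S)ˣ)
    (i : Fin (m + 1) × Bool) :
    baseRep ρ B k (FreeGroup.of (Sum.inl i)) = if i = (Fin.last m, false) then B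
        else baseChange (algebraMap ℂ S) ρ (FreeGroup.of (Sum.inl i)) := by
  rw [baseRep, FreeGroup.lift_apply_of]

theorem baseRep_gD (ρ : FF (m + 1) n →* (Mat r ℂ)ˣ) (B : (Mat r S)ˣ) (k : Fin n → (Mat r S)ˣ)
    (j : Fin n) : baseRep ρ B k (gD j) = k j := by
  rw [baseRep, gD, FreeGroup.lift_apply_of]

theorem baseRep_gE (ρ : FF (m + 1) n →* (Mat r ℂ)ˣ) (B : (Mat r S)ˣ) (k : Fin n → (Mat r S)ˣ)
    (j : Fin n) : baseRep ρ B k (gE j) = baseChange (algebraMap ℂ S) ρ (gE j) := by
  rw [baseRep, gE, FreeGroup.lift_apply_of]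

theorem baseChange_baseRep (θ : S →ₐ[ℂ] T) (ρ : FF (m + 1) n →* (Mat r ℂ)ˣ) (B : (Mat r S)ˣ)
    (k : Fin n → (Mat r S)ˣ) (B' : (Mat r T)ˣ) (k' : Fin n → (Mat r T)ˣ)
    (hB : (B' : Mat r T) = (B : Mat r S).map θ)
    (hk : ∀ j, (k' j : Mat r T) = (k j : Mat r S).map θ) :
    baseChange (θ : S →+* T) (baseRep ρ B k) = baseRep ρ B' k' := by
  have hcc : ∀ w, baseChange (θ : S →+* T) (baseChange (algebraMap ℂ S) ρ) w =
      baseChange (algebraMap ℂ T) ρ w := by
    intro w
    ext a b
    rw [baseChange_apply, baseChange_apply, baseChange_apply, Matrix.map_apply, Matrix.map_apply,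
      Matrix.map_apply]
    exact θ.commutes _
  refine FreeGroup.ext_hom _ _ fun l => ?_
  have h0 : ∀ w, baseChange (θ : S →+* T) (baseRep ρ B k) w =
      Units.map (RingHom.mapMatrix (θ : S →+* T)).toMonoidHom (baseRep ρ B k w) := fun w => rfl
  rcases l with i | ⟨j, b⟩
  · rw [h0, baseRep_inl, baseRep_inl]
    split_ifs with h
    · ext1
      exact hB.symm
    · exact hcc _
  · cases b
    · have h1 := baseRep_gD ρ B k j
      have h2 := baseRep_gD ρ B' k' j
      rw [gD] at h1 h2
      rw [h0, h1, h2]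
      ext1
      exact (hk j).symm
    · have h1 := baseRep_gE ρ B k j
      have h2 := baseRep_gE ρ B' k' j
      rw [gE] at h1 h2
      rw [h0, h1, h2]
      exact hcc _

end reps

/-- Variables: entries of the matrix, and the parameters of the framings. -/
abbrev VarH (n r : ℕ) := (Fin r × Fin r) ⊕ Fin n

/-- The generic matrix. -/
noncomputable def hM (n r : ℕ) : Mat r (MvPolynomial (VarH n r) ℂ) :=
  Matrix.of fun a b => MvPolynomial.X (Sum.inl (a, b))

/-- The generic framings. -/
noncomputable def hK (κ : Fin n → Mat r ℂ) (j : Fin n) : Mat r (MvPolynomial (VarH n r) ℂ) :=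
  1 + (MvPolynomial.X (Sum.inr j) : MvPolynomial (VarH n r) ℂ) •
    (κ j).map (algebraMap ℂ (MvPolynomial (VarH n r) ℂ))

/-- The product of the determinants. -/
noncomputable def hdel (κ : Fin n → Mat r ℂ) : MvPolynomial (VarH n r) ℂ :=
  (hM n r).det * ∏ j, (hK κ j).det

/-- The universal ring. -/
abbrev HU (κ : Fin n → Mat r ℂ) : Type := Localization.Away (hdel κ)

theorem hM_isUnit (κ : Fin n → Mat r ℂ) :
    IsUnit ((hM n r).map (algebraMap (MvPolynomial (VarH n r) ℂ) (HU κ))) := by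
  rw [Matrix.isUnit_iff_isUnit_det]
  have h1 : ((hM n r).map (algebraMap (MvPolynomial (VarH n r) ℂ) (HU κ))).det =
      algebraMap _ (HU κ) (hM n r).det := by
    rw [RingHom.map_det]
    rfl
  rw [h1]
  exact IsLocalization.Away.isUnit_of_dvd (hdel κ) (dvd_mul_right _ _)

theorem hK_isUnit (κ : Fin n → Mat r ℂ) (j : Fin n) :
    IsUnit ((hK κ j).map (algebraMap (MvPolynomial (VarH n r) ℂ) (HU κ))) := by
  rw [Matrix.isUnit_iff_isUnit_det]
  have h1 : ((hK κ j).map (algebraMap (MvPolynomial (VarH n r) ℂ) (HU κ))).det =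
      algebraMap _ (HU κ) (hK κ j).det := by
    rw [RingHom.map_det]
    rfl
  rw [h1]
  refine IsLocalization.Away.isUnit_of_dvd (hdel κ) (Dvd.dvd.mul_left ?_ _)
  exact Finset.dvd_prod_of_mem _ (Finset.mem_univ j)

/-- The universal matrix. -/
noncomputable def hMu (κ : Fin n → Mat r ℂ) : (Mat r (HU κ))ˣ := (hM_isUnit κ).unit

/-- The universal framings. -/
noncomputable def hKu (κ : Fin n → Mat r ℂ) (j : Fin n) : (Mat r (HU κ))ˣ := (hK_isUnit κ j).unit

theorem h_univ (κ : Fin n → Mat r ℂ) {T : Type*} [CommRing T] [Algebra ℂ T] (B : (Mat r T)ˣ)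
    (t : Fin n → T) (k : Fin n → (Mat r T)ˣ)
    (hk : ∀ j, (k j : Mat r T) = 1 + t j • (κ j).map (algebraMap ℂ T))
    (ρ : FF (m + 1) n →* (Mat r ℂ)ˣ) :
    ∃ ψ : HU κ →ₐ[ℂ] T,
      (∀ p : MvPolynomial (VarH n r) ℂ, ψ (algebraMap _ (HU κ) p) =
        MvPolynomial.aeval (Sum.elim (fun q : Fin r × Fin r => (B : Mat r T) q.1 q.2) t) p) ∧
      ∀ f, evalW (baseRep ρ B k) f = ψ (evalW (baseRep ρ (hMu κ) (hKu κ)) f) := by
  obtain ⟨ev, hev⟩ : ∃ ev : MvPolynomial (VarH n r) ℂ →ₐ[ℂ] T, ev =
      MvPolynomial.aeval (Sum.elim (fun q : Fin r × Fin r => (B : Mat r T) q.1 q.2) t) := ⟨_, rfl⟩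
  have hevM : (hM n r).map ev = (B : Mat r T) := by
    ext a b
    simp [hM, hev]
  have hevK : ∀ j, (hK κ j).map ev = (k j : Mat r T) := by
    intro j
    rw [hk]
    ext a b
    simp only [hK, Matrix.map_apply, Matrix.add_apply, Matrix.smul_apply, smul_eq_mul, map_add,
      map_mul, AlgHom.commutes]
    congr 1
    · rw [Matrix.one_apply, Matrix.one_apply]
      split <;> simp
    · rw [hev, MvPolynomial.aeval_X, Sum.elim_inr]
  have hu : IsUnit (ev (hdel κ)) := by
    unfold hdel
    rw [map_mul, map_prod]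
    have h1 : ev (hM n r).det = (B : Mat r T).det := by
      rw [← hevM, AlgHom.map_det]
      rfl
    have h2 : ∀ j, ev (hK κ j).det = (k j : Mat r T).det := by
      intro j
      rw [← hevK, AlgHom.map_det]
      rfl
    rw [h1]
    refine IsUnit.mul ((Matrix.isUnit_iff_isUnit_det _).mp B.isUnit) ?_
    rw [IsUnit.prod_iff]
    intro j _
    rw [h2]
    exact (Matrix.isUnit_iff_isUnit_det _).mp (k j).isUnit
  have hlift : ∀ p : MvPolynomial (VarH n r) ℂ,
      IsLocalization.Away.liftAlgHom (hdel κ) hu (algebraMap _ (HU κ) p) = ev p := by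
    intro p
    rw [IsLocalization.Away.liftAlgHom_apply, IsLocalization.Away.lift_eq]
    rfl
  refine ⟨IsLocalization.Away.liftAlgHom (hdel κ) hu, fun p => ?_, fun f => ?_⟩
  · rw [hlift, hev]
  · rw [← evalW_baseChange]
    congr 2
    symm
    apply baseChange_baseRep
    · rw [← hevM]
      ext a b
      rw [Matrix.map_apply, Matrix.map_apply, ← hlift]
      rfl
    · intro j
      rw [← hevK]
      ext a b
      rw [Matrix.map_apply, Matrix.map_apply, ← hlift]
      rfl

/-- Complex base representations with an integral unimodular matrix are in `DFr`. -/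
theorem baseRep_mem {R : Type*} [CommRing R] (φ : R →+* ℂ) (J : Fin n → (Mat r ℂ)ˣ)
    (ρ : FF (m + 1) n →* (Mat r ℂ)ˣ) (hρ : ρ ∈ DFr φ J) (hb : ρ (gB (Fin.last m)) = 1)
    (hd : ∀ j, ρ (gD j) = 1) (κ : Fin n → Mat r ℂ) (hκ : ∀ j, Commute (κ j) (J j : Mat r ℂ))
    (B : (Mat r ℂ)ˣ) (hB : B ∈ GR r φ) (t : Fin n → ℂ)
    (k : Fin n → (Mat r ℂ)ˣ)
    (hk : ∀ j, (k j : Mat r ℂ) = 1 + t j • (κ j).map (algebraMap ℂ ℂ)) :
    baseRep ρ B k ∈ DFr φ J := by
  have hbc : ∀ w, baseChange (algebraMap ℂ ℂ) ρ w = ρ w := by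
    intro w
    ext a b
    rw [baseChange_apply]
    rfl
  have hE : ∀ j, baseRep ρ B k (gE j) = J j := by
    intro j
    rw [baseRep_gE, hbc]
    exact hρ.2.1 j
  have hC : ∀ j, baseRep ρ B k (gC j) = ρ (gC j) := by
    intro j
    have hcomm : k j * J j = J j * k j := by
      ext1
      rw [Units.val_mul, Units.val_mul, hk]
      have h1 : (κ j).map (algebraMap ℂ ℂ) = κ j := by
        ext a b
        rfl
      rw [h1]
      have h2 : κ j * (J j : Mat r ℂ) = (J j : Mat r ℂ) * κ j := hκ j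
      rw [add_mul, mul_add, one_mul, mul_one, Matrix.smul_mul, Matrix.mul_smul, h2]
    rw [gC, map_mul, map_mul, map_inv, baseRep_gD, hE, hcomm, mul_inv_cancel_right, map_mul,
      map_mul, map_inv, hd, hρ.2.1, one_mul, inv_one, mul_one]
  have hbl : baseRep ρ B k (gB (Fin.last m)) = 1 := by
    rw [gB, baseRep_inl, if_neg (by simp), hbc]
    exact hb
  have hH : ∀ i, baseRep ρ B k (hcomm i) = ρ (hcomm i) := by
    intro i
    by_cases hi : i = Fin.last m
    · subst hi
      rw [hcomm, map_mul, map_mul, map_mul, map_inv, map_inv, hbl, map_mul, map_mul, map_mul,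
        map_inv, map_inv, hb]
      simp
    · have h1 : baseRep ρ B k (gA i) = ρ (gA i) := by
        rw [gA, baseRep_inl, if_neg (by simp [hi]), hbc]
      have h2 : baseRep ρ B k (gB i) = ρ (gB i) := by
        rw [gB, baseRep_inl, if_neg (by simp), hbc]
      rw [hcomm, map_mul, map_mul, map_mul, map_inv, map_inv, h1, h2, map_mul, map_mul, map_mul,
        map_inv, map_inv]
  refine ⟨?_, hE, ?_, ?_⟩
  · rw [← hρ.1, relator, map_mul, map_mul, map_list_prod, map_list_prod, map_list_prod,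
      map_list_prod, List.map_ofFn, List.map_ofFn, List.map_ofFn, List.map_ofFn]
    congr 3
    · funext j
      exact hC j
    · funext i
      exact hH i
  · intro i
    rw [baseRep_inl]
    split_ifs with h
    · exact hB
    · rw [hbc]
      exact hρ.2.2.1 i
  · intro j
    rw [hC]
    exact hρ.2.2.2 j

theorem inZ_baseRep {R : Type*} [CommRing R] (φ : R →+* ℂ) (J : Fin n → (Mat r ℂ)ˣ)
    (ρ : FF (m + 1) n →* (Mat r ℂ)ˣ) (hρ : ρ ∈ DFr φ J) (hb : ρ (gB (Fin.last m)) = 1)
    (hd : ∀ j, ρ (gD j) = 1) (κ : Fin n → Mat r ℂ) (hκ : ∀ j, Commute (κ j) (J j : Mat r ℂ))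
    {S : Type*} [CommRing S] [Algebra ℂ S] (B : (Mat r S)ˣ) (t : Fin n → S)
    (k : Fin n → (Mat r S)ˣ)
    (hk : ∀ j, (k j : Mat r S) = 1 + t j • (κ j).map (algebraMap ℂ S)) :
    InZ (DFr φ J) (baseRep ρ B k) := by
  intro f hf
  obtain ⟨N, a, ha⟩ := IsLocalization.Away.surj (hdel κ)
    (evalW (baseRep ρ (hMu κ) (hKu κ)) f)
  -- `a` vanishes at the points `(c X, t)` with invertible `1 + t κ`
  have key : ∀ (c : ℂˣ) (X : SpecialLinearGroup (Fin r) ℤ) (t : Fin n → ℂ),
      MvPolynomial.eval (Sum.elim (fun q : Fin r × Fin r => (c : ℂ) * ((X.1 q.1 q.2 : ℤ) : ℂ)) t)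
        (a * ∏ j, (hK κ j).det) = 0 := by
    intro c X t
    rw [map_mul]
    by_cases h0 : MvPolynomial.eval
        (Sum.elim (fun q : Fin r × Fin r => (c : ℂ) * ((X.1 q.1 q.2 : ℤ) : ℂ)) t)
        (∏ j, (hK κ j).det) = 0
    · rw [h0, mul_zero]
    · have hk : ∀ j, IsUnit (1 + t j • (κ j).map (algebraMap ℂ ℂ) : Mat r ℂ) := by
        intro j
        rw [Matrix.isUnit_iff_isUnit_det, isUnit_iff_ne_zero]
        intro hdet
        apply h0
        rw [map_prod]
        refine Finset.prod_eq_zero (Finset.mem_univ j) ?_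
        rw [← hdet, RingHom.map_det]
        congr 1
        ext a b
        simp only [hK, RingHom.mapMatrix_apply, Matrix.map_apply, Matrix.add_apply,
          Matrix.smul_apply, smul_eq_mul, map_add, map_mul, MvPolynomial.eval_X, Sum.elim_inr,
          MvPolynomial.algebraMap_eq, MvPolynomial.eval_C]
        congr 1
        rw [Matrix.one_apply, Matrix.one_apply]
        split <;> simp
      choose k hk using hk
      have hGR : scalarU c * slU φ (Matrix.SpecialLinearGroup.map (Int.castRingHom R) X) ∈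
          GR r φ := ⟨c, _, rfl⟩
      have h1 := hf _ (baseRep_mem φ J ρ hρ hb hd κ hκ _ hGR t k hk)
      obtain ⟨ψ, hψ1, hψ2⟩ := h_univ κ
        (scalarU c * slU φ (Matrix.SpecialLinearGroup.map (Int.castRingHom R) X)) t k hk ρ
      rw [hψ2] at h1
      have h2 := congrArg ψ ha
      rw [map_mul, h1, zero_mul, hψ1] at h2
      have h3 : MvPolynomial.eval
          (Sum.elim (fun q : Fin r × Fin r => (c : ℂ) * ((X.1 q.1 q.2 : ℤ) : ℂ)) t) a = 0 := by
        rw [h2, MvPolynomial.aeval_def, Algebra.algebraMap_self, ← MvPolynomial.eval₂_id]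
        congr 1
        funext q
        rcases q with q | j
        · rw [Sum.elim_inl, Sum.elim_inl, Units.val_mul]
          change _ = ((algebraMap ℂ (Mat r ℂ) (c : ℂ)) *
            (slU φ (Matrix.SpecialLinearGroup.map (Int.castRingHom R) X) : Mat r ℂ)) q.1 q.2
          rw [← Algebra.smul_def, Matrix.smul_apply, smul_eq_mul]
          congr 1
          change _ = φ (Int.castRingHom R (X.1 q.1 q.2))
          simp
        · rfl
      rw [h3, zero_mul]
  have h1 : a * ∏ j, (hK κ j).det = 0 := by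
    apply MvPolynomial.funext
    intro x
    rw [map_zero]
    obtain ⟨Q, hQ⟩ : ∃ Q : MvPolynomial (Fin r × Fin r) ℂ, Q =
        MvPolynomial.aeval (Sum.elim (fun q : Fin r × Fin r =>
          (MvPolynomial.X q : MvPolynomial (Fin r × Fin r) ℂ))
          fun j => MvPolynomial.C (x (Sum.inr j))) (a * ∏ j, (hK κ j).det) := ⟨_, rfl⟩
    have hQe : ∀ y : Fin r × Fin r → ℂ, MvPolynomial.eval y Q =
        MvPolynomial.eval (Sum.elim y fun j => x (Sum.inr j)) (a * ∏ j, (hK κ j).det) := by
      intro y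
      rw [hQ]
      generalize a * ∏ j, (hK κ j).det = P
      induction P using MvPolynomial.induction_on with
      | C x => simp
      | add f g hf hg => simp only [map_add, hf, hg]
      | mul_X f p hf =>
        rw [map_mul, map_mul, map_mul, hf]
        congr 1
        rcases p with p | j <;> simp
    have hQ0 : Q = 0 := by
      apply Vale.Agent.P002.scaledSL_dense
      intro c X
      rw [hQe]
      exact key c X _
    have h2 := hQe fun q => x (Sum.inl q)
    rw [hQ0, map_zero] at h2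
    rw [h2]
    congr 2
    funext q
    rcases q with q | j <;> rfl
  have h2 : (∏ j, (hK κ j).det) ≠ 0 := by
    intro h0
    have h3 := congrArg (MvPolynomial.eval fun _ => (0 : ℂ)) h0
    rw [map_prod, map_zero] at h3
    have h4 : ∀ j, MvPolynomial.eval (fun _ => (0 : ℂ)) (hK κ j).det = 1 := by
      intro j
      rw [RingHom.map_det, ← Matrix.det_one (n := Fin r) (R := ℂ)]
      congr 1
      ext a b
      simp only [hK, RingHom.mapMatrix_apply, Matrix.map_apply, Matrix.add_apply,
        Matrix.smul_apply, smul_eq_mul, map_add, map_mul, MvPolynomial.eval_X, zero_mul, add_zero]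
      rw [Matrix.one_apply, Matrix.one_apply]
      split <;> simp
    rw [Finset.prod_congr rfl fun j _ => h4 j, Finset.prod_const_one] at h3
    exact one_ne_zero h3
  have ha0 : a = 0 := (mul_eq_zero.1 h1).resolve_right h2
  rw [ha0, map_zero] at ha
  have h7 : evalW (baseRep ρ (hMu κ) (hKu κ)) f = 0 := by
    have hu : IsUnit (algebraMap (MvPolynomial (VarH n r) ℂ) (HU κ) (hdel κ) ^ N) :=
      (IsLocalization.Away.algebraMap_isUnit (hdel κ)).pow N
    exact (hu.mul_left_eq_zero).mp ha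
  obtain ⟨ψ, _, hψ2⟩ := h_univ κ B t k hk ρ
  rw [hψ2, h7, map_zero]

end Vale.Agent.P002R
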