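import Vale.Agent.P002R.RDefs

/-!
# Basic lemmas for the relative framework
-/

namespace Vale.Agent.P002R

open Matrix

variable {κ : Type*} {r : ℕ} {S T : Type*} [CommRing S] [CommRing T]

theorem evalW_comp [Algebra ℂ S] (x : FreeGroup κ →* (Mat r S)ˣ) (φ : FreeGroup κ →* FreeGroup κ)
    (f : MvPolynomial (FreeGroup κ × Fin r × Fin r) ℂ) :
    evalW (x.comp φ) f = evalW x (MvPolynomial.rename (fun p => (φ p.1, p.2)) f) := by
  simp only [evalW, MvPolynomial.aeval_rename]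
  rfl

theorem InZ.comp' [Algebra ℂ S] {D : Set (FreeGroup κ →* (Mat r ℂ)ˣ)} {x : FreeGroup κ →* (Mat r S)ˣ}
    (hx : InZ D x) (φ : FreeGroup κ →* FreeGroup κ) (hφ : ∀ y ∈ D, y.comp φ ∈ D) :
    InZ D (x.comp φ) := by
  intro f hf
  rw [evalW_comp]
  apply hx
  intro y hy
  rw [← evalW_comp]
  exact hf _ (hφ y hy)

theorem InZ.of_mem {D : Set (FreeGroup κ →* (Mat r ℂ)ˣ)} {x : FreeGroup κ →* (Mat r ℂ)ˣ}
    (hx : x ∈ D) : InZ D x := fun _ hf => hf x hx

theorem InZ.word_eq [Algebra ℂ S] {D : Set (FreeGroup κ →* (Mat r ℂ)ˣ)} (w : FreeGroup κ)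
    (M : Mat r ℂ) (hD : ∀ y ∈ D, (y w : Mat r ℂ) = M)
    {x : FreeGroup κ →* (Mat r S)ˣ} (hx : InZ D x) :
    (x w : Mat r S) = M.map (algebraMap ℂ S) := by
  ext i j
  have := hx (MvPolynomial.X (w, i, j) - MvPolynomial.C (M i j)) ?_
  · simp only [evalW, map_sub, MvPolynomial.aeval_X, MvPolynomial.aeval_C, sub_eq_zero] at this
    rw [this, Matrix.map_apply]
  · intro y hy
    simp only [evalW, map_sub, MvPolynomial.aeval_X, MvPolynomial.aeval_C, sub_eq_zero, hD y hy]
    rfl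

theorem InZ.rel [Algebra ℂ S] {D : Set (FreeGroup κ →* (Mat r ℂ)ˣ)} {w : FreeGroup κ}
    (hD : ∀ y ∈ D, y w = 1) {x : FreeGroup κ →* (Mat r S)ˣ} (hx : InZ D x) : x w = 1 := by
  ext1
  rw [hx.word_eq w 1 (fun y hy => by rw [hD y hy]; rfl)]
  rw [Matrix.map_one _ (map_zero _) (map_one _)]
  rfl

theorem baseChange_apply (θ : S →+* T) (x : FreeGroup κ →* (Mat r S)ˣ) (w : FreeGroup κ) :
    (baseChange θ x w : Mat r T) = (x w : Mat r S).map θ := rfl

theorem baseChange_inv_apply (θ : S →+* T) (x : FreeGroup κ →* (Mat r S)ˣ) (w : FreeGroup κ) :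
    (((baseChange θ x w)⁻¹ : (Mat r T)ˣ) : Mat r T) =
      (((x w)⁻¹ : (Mat r S)ˣ) : Mat r S).map θ := rfl

theorem evalW_baseChange [Algebra ℂ S] [Algebra ℂ T] (θ : S →ₐ[ℂ] T)
    (x : FreeGroup κ →* (Mat r S)ˣ) (f : MvPolynomial (FreeGroup κ × Fin r × Fin r) ℂ) :
    evalW (baseChange (θ : S →+* T) x) f = θ (evalW x f) := by
  have : (evalW (baseChange (θ : S →+* T) x)) = θ.comp (evalW x) := by
    apply MvPolynomial.algHom_ext
    intro p
    simp [evalW, baseChange_apply]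
  rw [this]; rfl

theorem flow_of [DecidableEq κ] (x : FreeGroup κ →* (Mat r S)ˣ) (k : κ) (z : (Mat r S)ˣ) (l : κ) :
    flow x k z (FreeGroup.of l) =
      if l = k then x (FreeGroup.of k) * z else x (FreeGroup.of l) := by
  simp [flow]

/-- The endomorphism `k ↦ k * l ^ n`. -/
def twist [DecidableEq κ] (k l : κ) (n : ℤ) : FreeGroup κ →* FreeGroup κ :=
  FreeGroup.lift fun i => if i = k then FreeGroup.of k * FreeGroup.of l ^ n else FreeGroup.of i

theorem twist_of [DecidableEq κ] (k l : κ) (n : ℤ) (i : κ) :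
    twist k l n (FreeGroup.of i) =
      if i = k then FreeGroup.of k * FreeGroup.of l ^ n else FreeGroup.of i := by
  simp [twist]

theorem twist_comp [DecidableEq κ] {k l : κ} (hkl : k ≠ l) (n : ℤ) :
    (twist k l n).comp (twist k l (-n)) = MonoidHom.id _ := by
  apply FreeGroup.ext_hom
  intro i
  by_cases hi : i = k
  · subst hi
    simp only [MonoidHom.comp_apply, twist_of, if_true, map_mul, map_zpow, hkl.symm, if_false,
      MonoidHom.id_apply]
    group
  · simp [twist_of, hi]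

/-- The automorphism `k ↦ k * l ^ n`. -/
def dehn [DecidableEq κ] {k l : κ} (hkl : k ≠ l) (n : ℤ) : FreeGroup κ ≃* FreeGroup κ :=
  MonoidHom.toMulEquiv (twist k l n) (twist k l (-n))
    (by simpa using twist_comp hkl (-n)) (twist_comp hkl n)

theorem flow_pow [DecidableEq κ] (x : FreeGroup κ →* (Mat r S)ˣ) (k l : κ) (n : ℤ) :
    flow x k (x (FreeGroup.of l) ^ n) = x.comp (twist k l n) := by
  apply FreeGroup.ext_hom
  intro i
  rw [flow_of, MonoidHom.comp_apply, twist_of]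
  split_ifs <;> simp

theorem baseChange_flow [DecidableEq κ] (θ : S →+* T) (x : FreeGroup κ →* (Mat r S)ˣ) (k : κ)
    (z : (Mat r S)ˣ) :
    baseChange θ (flow x k z) =
      flow (baseChange θ x) k (Units.map (RingHom.mapMatrix θ).toMonoidHom z) := by
  apply FreeGroup.ext_hom
  intro i
  rw [flow_of]
  show (Units.map (RingHom.mapMatrix θ).toMonoidHom) (flow x k z (FreeGroup.of i)) = _
  rw [flow_of]
  split_ifs
  · rw [map_mul]; rfl
  · rfl

theorem baseChange_comp (θ : S →+* T) (x : FreeGroup κ →* (Mat r S)ˣ)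
    (φ : FreeGroup κ →* FreeGroup κ) :
    (baseChange θ x).comp φ = baseChange θ (x.comp φ) := rfl

end Vale.Agent.P002R
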