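import Vale.Agent.P002R.RDual

/-!
# The dual lemma for block data, part A: reduction to one matrix `μ`
-/

namespace Vale.Agent.P002R

open Matrix

variable {r : ℕ}

/-- The dual property. -/
def DualProp {L : Type*} (P : L → (Mat r ℂ)ˣ) (A : (Mat r ℂ)ˣ) : Prop :=
  ∀ (R : L → Mat r ℂ) (Q : Mat r ℂ),
    (∀ p : List L, ∀ k : ℕ, 1 ≤ k →
      trace ((Q + theta P R p) * ((wP P p * A : (Mat r ℂ)ˣ) : Mat r ℂ) ^ k) = 0) →
    ∃ η : Mat r ℂ, (∀ q, R q = η - (P q : Mat r ℂ) * η * (((P q)⁻¹ : (Mat r ℂ)ˣ) : Mat r ℂ)) ∧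
      Q = ((A⁻¹ : (Mat r ℂ)ˣ) : Mat r ℂ) * η * (A : Mat r ℂ) - η

/-- The functional of degree `k + 1` in `X`. -/
def Phi {S : Type*} [CommRing S] (k : ℕ) (μ A X : Mat r S) : S :=
  trace ((μ ⊙ X) * A * (X * A) ^ k) - trace ((μᵀ ⊙ A) * X * (A * X) ^ k)

/-- The conditions on `μ`. -/
def MuOK {L : Type*} (P : L → (Mat r ℂ)ˣ) (A μ : Mat r ℂ) : Prop :=
  (∀ (p p' : List L) (i j k : Fin r), (wP P p : Mat r ℂ) i j ≠ 0 → (wP P p' : Mat r ℂ) j k ≠ 0 →
    μ i k = μ i j + μ j k) ∧ ∀ (p : List L) (k : ℕ), Phi k μ A (wP P p : Mat r ℂ) = 0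

theorem single_interp {α : Fin r → ℂ} (hα : Function.Injective α) (c : Fin r → ℂ)
    (h : ∀ n : ℕ, ∑ i, c i * α i ^ n = 0) (i : Fin r) : c i = 0 := by
  classical
  have h1 := interp_zero α (fun s => if s = i then (1 : ℂ) else 0) c
    (fun s s' hs => by rw [hα hs]) h
  simpa using h1

theorem double_interp {α : Fin r → ℂ} (hα : Function.Injective α) (M : Fin r → Fin r → ℂ)
    (h : ∀ n n' : ℕ, ∑ i, ∑ j, M i j * α i ^ n * α j ^ n' = 0) (i j : Fin r) : M i j = 0 := by
  have h1 : ∀ n j, ∑ i, M i j * α i ^ n = 0 := by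
    intro n j
    apply single_interp hα (fun j => ∑ i, M i j * α i ^ n)
    intro n'
    rw [← h n n', Finset.sum_comm]
    refine Finset.sum_congr rfl fun j _ => ?_
    rw [Finset.sum_mul]
  exact single_interp hα (fun i => M i j) (fun n => h1 n j) i

theorem trace_diag_mul (M X : Mat r ℂ) (a b : Fin r → ℂ) :
    trace (M * (diagonal a * X * diagonal b)) = ∑ i, ∑ j, M j i * X i j * a i * b j := by
  simp only [trace, Matrix.diag_apply]
  have h : ∀ j, (M * (diagonal a * X * diagonal b)) j j = ∑ i, M j i * X i j * a i * b j := by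
    intro j
    rw [mul_apply]
    refine Finset.sum_congr rfl fun i _ => ?_
    rw [mul_diagonal, diagonal_mul]
    ring
  simp only [h]
  rw [Finset.sum_comm]

section

variable {L : Type*} (P : L → (Mat r ℂ)ˣ) (A : (Mat r ℂ)ˣ)

/-- The derivation of a word. -/
noncomputable def dW (R : L → Mat r ℂ) (p : List L) : Mat r ℂ := theta P R p * (wP P p : Mat r ℂ)

theorem dW_append (R : L → Mat r ℂ) (p p' : List L) :
    dW P R (p ++ p') = dW P R p * (wP P p' : Mat r ℂ) + (wP P p : Mat r ℂ) * dW P R p' := by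
  unfold dW
  rw [theta_append, wP_append, Units.val_mul, add_mul]
  have h : iv (wP P p) * (wP P p : Mat r ℂ) = 1 := (wP P p).inv_mul
  congr 1
  · simp only [mul_assoc]
  · calc _ = (wP P p : Mat r ℂ) * theta P R p' * (iv (wP P p) * (wP P p : Mat r ℂ)) *
          (wP P p' : Mat r ℂ) := by simp only [mul_assoc]
      _ = _ := by rw [h, mul_one]; simp only [mul_assoc]

theorem wP_replicate (q₀ : L) (α : Fin r → ℂ) (hq₀ : (P q₀ : Mat r ℂ) = diagonal α) (k : ℕ) :
    (wP P (List.replicate k q₀) : Mat r ℂ) = diagonal fun i => α i ^ k := by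
  induction k with
  | zero => simp [wP]
  | succ k ih =>
    rw [List.replicate_succ, wP, Units.val_mul, ih, hq₀, diagonal_mul_diagonal]
    congr 1
    funext i
    rw [pow_succ']

theorem alpha_ne_zero (q₀ : L) (α : Fin r → ℂ) (hq₀ : (P q₀ : Mat r ℂ) = diagonal α)
    (i : Fin r) : α i ≠ 0 := by
  intro h
  have h1 : IsUnit (P q₀ : Mat r ℂ) := (P q₀).isUnit
  rw [hq₀, Matrix.isUnit_iff_isUnit_det, det_diagonal, isUnit_iff_ne_zero] at h1
  exact h1 (Finset.prod_eq_zero (Finset.mem_univ i) h)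

/-- First gauge: make the cocycle zero at `q₀`. -/
theorem gauge_q₀ (R : L → Mat r ℂ) (Q : Mat r ℂ) (q₀ : L) (α : Fin r → ℂ)
    (hinj : Function.Injective α) (hq₀ : (P q₀ : Mat r ℂ) = diagonal α)
    (hA : ∀ i j, (A : Mat r ℂ) i j ≠ 0)
    (H : ∀ p : List L, ∀ k : ℕ, 1 ≤ k →
      trace ((Q + theta P R p) * ((wP P p * A : (Mat r ℂ)ˣ) : Mat r ℂ) ^ k) = 0) :
    ∃ w : Mat r ℂ,
      (R q₀ - (w - (P q₀ : Mat r ℂ) * w * iv (P q₀)) = 0) ∧
      ∀ p : List L, ∀ k : ℕ, 1 ≤ k →
      trace (((Q - (iv A * w * (A : Mat r ℂ) - w)) +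
        theta P (fun q => R q - (w - (P q : Mat r ℂ) * w * iv (P q))) p) *
        ((wP P p * A : (Mat r ℂ)ˣ) : Mat r ℂ) ^ k) = 0 := by
  classical
  have h0 := alpha_ne_zero P q₀ α hq₀
  have hsub : ∀ (R : L → Mat r ℂ) (Q w : Mat r ℂ), (∀ p : List L, ∀ k : ℕ, 1 ≤ k →
      trace ((Q + theta P R p) * ((wP P p * A : (Mat r ℂ)ˣ) : Mat r ℂ) ^ k) = 0) →
      ∀ p : List L, ∀ k : ℕ, 1 ≤ k →
      trace (((Q - (iv A * w * (A : Mat r ℂ) - w)) +
        theta P (fun q => R q - (w - (P q : Mat r ℂ) * w * iv (P q))) p) *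
        ((wP P p * A : (Mat r ℂ)ˣ) : Mat r ℂ) ^ k) = 0 := by
    intro R Q w h p k h1
    rw [theta_sub, theta_cob]
    have e : Q - (iv A * w * (A : Mat r ℂ) - w) + (theta P R p -
        (w - (wP P p : Mat r ℂ) * w * iv (wP P p))) = (Q + theta P R p) -
        (iv A * w * (A : Mat r ℂ) - (wP P p : Mat r ℂ) * w * iv (wP P p)) := by abel
    rw [e, sub_mul, trace_sub, h p k h1, trace_cob, sub_self]
  have hiv : iv (P q₀) = diagonal fun i => (α i)⁻¹ := by
    have h1 : (P q₀ : Mat r ℂ) * (diagonal fun i => (α i)⁻¹) = 1 := by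
      rw [hq₀, diagonal_mul_diagonal]
      have : (fun i => α i * (α i)⁻¹) = fun _ => (1 : ℂ) := by
        funext i; exact mul_inv_cancel₀ (h0 i)
      rw [this, diagonal_one]
    have h2 : iv (P q₀) * (P q₀ : Mat r ℂ) = 1 := (P q₀).inv_mul
    calc iv (P q₀) = iv (P q₀) * ((P q₀ : Mat r ℂ) * (diagonal fun i => (α i)⁻¹)) := by
          rw [h1, mul_one]
      _ = diagonal fun i => (α i)⁻¹ := by rw [← mul_assoc, h2, one_mul]
  have hwP := wP_replicate P q₀ α hq₀
  obtain ⟨w, hw⟩ : ∃ w : Mat r ℂ, w = Matrix.of fun i j =>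
    if i = j then 0 else R q₀ i j / (1 - α i * (α j)⁻¹) := ⟨_, rfl⟩
  obtain ⟨R1, hR1⟩ : ∃ R1 : L → Mat r ℂ, R1 = fun q => R q - (w - (P q : Mat r ℂ) * w * iv (P q)) :=
    ⟨_, rfl⟩
  obtain ⟨Q1, hQ1⟩ : ∃ Q1 : Mat r ℂ, Q1 = Q - (iv A * w * (A : Mat r ℂ) - w) := ⟨_, rfl⟩
  have H1 := hsub R Q w H
  refine ⟨w, ?_, H1⟩
  rw [← hR1, ← hQ1] at H1
  have hR1d : R1 q₀ = diagonal fun i => R q₀ i i := by
    rw [hR1]
    simp only
    rw [hiv, hq₀]
    ext i j
    simp only [Matrix.sub_apply, mul_diagonal, diagonal_mul, hw, Matrix.of_apply]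
    by_cases hij : i = j
    · subst hij; simp
    · have hne : 1 - α i * (α j)⁻¹ ≠ 0 := by
        intro h
        apply hij
        apply hinj
        have h1 := h0 j
        field_simp at h
        linear_combination -h
      simp only [hij, if_false, diagonal_apply_ne _ hij]
      have hq := div_mul_cancel₀ (R q₀ i j) hne
      linear_combination -hq
  have hth : ∀ k : ℕ, theta P R1 (List.replicate k q₀) =
      (k : ℂ) • diagonal fun i => R q₀ i i := by
    intro k
    induction k with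
    | zero => simp [theta]
    | succ k ih =>
      rw [List.replicate_succ, theta, ih, hR1d]
      change _ + (P q₀ : Mat r ℂ) * _ * iv (P q₀) = _
      rw [hiv, hq₀]
      ext i j
      by_cases hij : i = j
      · subst hij
        simp only [Matrix.add_apply, mul_diagonal, diagonal_mul, Matrix.smul_apply,
          diagonal_apply_eq, smul_eq_mul]
        have := h0 i
        push_cast
        field_simp
        ring
      · simp [hij]
  have hρ : ∀ i, R q₀ i i = 0 := by
    have h1 := confluent_zero α (fun i => ((A : Mat r ℂ) * Q1) i i)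
      (fun i => R q₀ i i * (A : Mat r ℂ) i i) hinj h0 (by
        intro k
        have h2 := H1 (List.replicate k q₀) 1 le_rfl
        rw [pow_one, hth, Units.val_mul, hwP, add_mul, trace_add] at h2
        rw [← mul_assoc Q1, Matrix.trace_mul_comm (Q1 * _), ← mul_assoc, trace1,
          Matrix.smul_mul, trace_smul, ← mul_assoc, diagonal_mul_diagonal,
          Matrix.trace_mul_comm (diagonal _), trace1, smul_eq_mul, Finset.mul_sum,
          ← Finset.sum_add_distrib] at h2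
        rw [← h2]
        apply Finset.sum_congr rfl
        intro i _
        ring)
    intro i
    rcases mul_eq_zero.1 (h1 i) with h2 | h2
    · exact h2
    · exact absurd h2 (hA i i)
  have : R1 q₀ = 0 := by
    rw [hR1d]
    simp [hρ]
  rw [hR1] at this
  exact this

theorem pow_shift (X A : Mat r ℂ) (k : ℕ) : (A * X) ^ k * A = A * (X * A) ^ k := by
  induction k with
  | zero => simp
  | succ k ih => rw [pow_succ', mul_assoc, ih, pow_succ']; simp only [mul_assoc]

/-- The conditions in terms of `μ`. -/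
theorem exists_mu (R : L → Mat r ℂ) (Q : Mat r ℂ) (q₀ : L) (α : Fin r → ℂ)
    (hinj : Function.Injective α) (hq₀ : (P q₀ : Mat r ℂ) = diagonal α)
    (hA : ∀ i j, (A : Mat r ℂ) i j ≠ 0) (hR : R q₀ = 0)
    (H : ∀ p : List L, ∀ k : ℕ, 1 ≤ k →
      trace ((Q + theta P R p) * ((wP P p * A : (Mat r ℂ)ˣ) : Mat r ℂ) ^ k) = 0) :
    ∃ μ : Mat r ℂ, MuOK P (A : Mat r ℂ) μ ∧ (∀ p, dW P R p = μ ⊙ (wP P p : Mat r ℂ)) ∧
      (A : Mat r ℂ) * Q = -(μᵀ ⊙ (A : Mat r ℂ)) := by
  have hth : ∀ k : ℕ, dW P R (List.replicate k q₀) = 0 := by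
    intro k
    unfold dW
    have : theta P R (List.replicate k q₀) = 0 := by
      induction k with
      | zero => simp [theta]
      | succ k ih => rw [List.replicate_succ, theta, ih, hR]; simp
    rw [this, zero_mul]
  have hwP := wP_replicate P q₀ α hq₀
  -- the conditions in terms of `dW`
  have H' : ∀ (p : List L) (k : ℕ), trace ((A : Mat r ℂ) * Q * (wP P p : Mat r ℂ) *
      ((A : Mat r ℂ) * (wP P p : Mat r ℂ)) ^ k) +
      trace (dW P R p * (A : Mat r ℂ) * ((wP P p : Mat r ℂ) * (A : Mat r ℂ)) ^ k) = 0 := by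
    intro p k
    have h1 := H p (k + 1) (by omega)
    rw [add_mul, trace_add, Units.val_mul, pow_succ'] at h1
    rw [← h1]
    congr 1
    · calc trace ((A : Mat r ℂ) * Q * (wP P p : Mat r ℂ) *
            ((A : Mat r ℂ) * (wP P p : Mat r ℂ)) ^ k) =
            trace ((A : Mat r ℂ) * (Q * (wP P p : Mat r ℂ) *
            ((A : Mat r ℂ) * (wP P p : Mat r ℂ)) ^ k)) := by simp only [mul_assoc]
        _ = trace (Q * (wP P p : Mat r ℂ) *
            (((A : Mat r ℂ) * (wP P p : Mat r ℂ)) ^ k * (A : Mat r ℂ))) := by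
            rw [Matrix.trace_mul_comm]; simp only [mul_assoc]
        _ = _ := by rw [pow_shift]; simp only [mul_assoc]
    · unfold dW
      simp only [mul_assoc]
  -- first identity
  have K1 : ∀ (p : List L) (i j : Fin r), ((A : Mat r ℂ) * Q) j i * (wP P p : Mat r ℂ) i j +
      dW P R p i j * (A : Mat r ℂ) j i = 0 := by
    intro p
    apply double_interp hinj (fun i j => ((A : Mat r ℂ) * Q) j i * (wP P p : Mat r ℂ) i j +
      dW P R p i j * (A : Mat r ℂ) j i)
    intro n n'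
    have h1 := H' (List.replicate n q₀ ++ (p ++ List.replicate n' q₀)) 0
    rw [pow_zero, pow_zero, mul_one, mul_one, dW_append, dW_append, hth, hth, zero_mul, mul_zero,
      zero_add, add_zero, wP_append, wP_append, Units.val_mul, Units.val_mul, hwP, hwP] at h1
    rw [← mul_assoc (diagonal _) (wP P p : Mat r ℂ), trace_diag_mul] at h1
    have h2 : trace ((diagonal fun i => α i ^ n) * (dW P R p * diagonal fun i => α i ^ n') *
        (A : Mat r ℂ)) = ∑ i, ∑ j, (A : Mat r ℂ) j i * dW P R p i j * α i ^ n * α j ^ n' := by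
      rw [Matrix.trace_mul_comm, ← mul_assoc (diagonal _) (dW P R p), trace_diag_mul]
    rw [h2, ← Finset.sum_add_distrib] at h1
    rw [← h1]
    refine Finset.sum_congr rfl fun i _ => ?_
    rw [← Finset.sum_add_distrib]
    refine Finset.sum_congr rfl fun j _ => ?_
    ring
  obtain ⟨μ, hμ⟩ : ∃ μ : Mat r ℂ, μ = Matrix.of fun i j =>
    -(((A : Mat r ℂ) * Q) j i / (A : Mat r ℂ) j i) := ⟨_, rfl⟩
  have hN : (A : Mat r ℂ) * Q = -(μᵀ ⊙ (A : Mat r ℂ)) := by
    ext j i
    rw [Matrix.neg_apply, Matrix.hadamard_apply, Matrix.transpose_apply, hμ, Matrix.of_apply]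
    have := hA j i
    field_simp
  have hD : ∀ p, dW P R p = μ ⊙ (wP P p : Mat r ℂ) := by
    intro p
    ext i j
    have h1 := K1 p i j
    rw [Matrix.hadamard_apply, hμ, Matrix.of_apply]
    have h2 := hA j i
    field_simp
    linear_combination h1
  refine ⟨μ, ⟨?_, ?_⟩, hD, hN⟩
  · intro p p' i j k h1 h2
    have h3 := single_interp hinj (fun j => (μ i k - μ i j - μ j k) *
      ((wP P p : Mat r ℂ) i j * (wP P p' : Mat r ℂ) j k)) (by
        intro n
        have h4 := hD (p ++ (List.replicate n q₀ ++ p'))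
        rw [dW_append, dW_append, hth, zero_mul, zero_add, hD, hD] at h4
        simp only [wP_append, Units.val_mul, hwP] at h4
        have h5 := congrFun (congrFun h4 i) k
        rw [Matrix.add_apply, Matrix.hadamard_apply, Matrix.mul_apply, Matrix.mul_apply,
          Matrix.mul_apply, Finset.mul_sum, ← Finset.sum_add_distrib] at h5
        rw [← sub_eq_zero, ← Finset.sum_sub_distrib] at h5
        rw [← neg_eq_zero, ← Finset.sum_neg_distrib, ← h5]
        refine Finset.sum_congr rfl fun j _ => ?_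
        simp only [Matrix.hadamard_apply, Matrix.diagonal_mul]
        ring) j
    rcases mul_eq_zero.1 h3 with h | h
    · linear_combination h
    · exact absurd h (mul_ne_zero h1 h2)
  · intro p k
    have h1 := H' p k
    rw [hN, hD] at h1
    unfold Phi
    rw [Matrix.neg_mul, Matrix.neg_mul, trace_neg] at h1
    linear_combination h1

/-- Reduction of the dual property to `μ`. -/
theorem dual_of_mu (q₀ : L) (α : Fin r → ℂ)
    (hinj : Function.Injective α) (hq₀ : (P q₀ : Mat r ℂ) = diagonal α)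
    (hA : ∀ i j, (A : Mat r ℂ) i j ≠ 0)
    (hμ : ∀ μ : Mat r ℂ, MuOK P (A : Mat r ℂ) μ →
      ∃ η : Fin r → ℂ, ∀ i j, μ i j = η i - η j) : DualProp P A := by
  intro R Q H
  obtain ⟨w, hw, H1⟩ := gauge_q₀ P A R Q q₀ α hinj hq₀ hA H
  obtain ⟨R1, hR1⟩ : ∃ R1 : L → Mat r ℂ, R1 = fun q => R q - (w - (P q : Mat r ℂ) * w * iv (P q)) :=
    ⟨_, rfl⟩
  obtain ⟨Q1, hQ1⟩ : ∃ Q1 : Mat r ℂ, Q1 = Q - (iv A * w * (A : Mat r ℂ) - w) := ⟨_, rfl⟩
  rw [← hR1, ← hQ1] at H1
  have hR10 : R1 q₀ = 0 := by rw [hR1]; exact hw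
  obtain ⟨μ, hOK, hD, hN⟩ := exists_mu P A R1 Q1 q₀ α hinj hq₀ hA hR10 H1
  obtain ⟨θ, hθ⟩ := hμ μ hOK
  have hcob : ∀ X : Mat r ℂ, μ ⊙ X = diagonal θ * X - X * diagonal θ := by
    intro X
    ext i j
    rw [Matrix.hadamard_apply, Matrix.sub_apply, Matrix.diagonal_mul, Matrix.mul_diagonal, hθ]
    ring
  have hcobt : ∀ X : Mat r ℂ, -(μᵀ ⊙ X) = diagonal θ * X - X * diagonal θ := by
    intro X
    ext i j
    rw [Matrix.neg_apply, Matrix.hadamard_apply, Matrix.transpose_apply, Matrix.sub_apply,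
      Matrix.diagonal_mul, Matrix.mul_diagonal, hθ]
    ring
  have hR1q : ∀ q, R1 q = diagonal θ - (P q : Mat r ℂ) * diagonal θ * iv (P q) := by
    intro q
    have h1 := hD [q]
    have e1 : theta P R1 [q] = R1 q := by simp [theta]
    have e2 : wP P [q] = P q := by simp [wP]
    rw [dW, e1, e2, hcob] at h1
    have h2 : (P q : Mat r ℂ) * iv (P q) = 1 := (P q).mul_inv
    calc R1 q = R1 q * (P q : Mat r ℂ) * iv (P q) := by rw [mul_assoc, h2, mul_one]
      _ = _ := by rw [h1, sub_mul, mul_assoc, h2, mul_one]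
  have hAi : iv A * (A : Mat r ℂ) = 1 := A.inv_mul
  have hQ1q : Q1 = iv A * diagonal θ * (A : Mat r ℂ) - diagonal θ := by
    calc Q1 = iv A * ((A : Mat r ℂ) * Q1) := by rw [← mul_assoc, hAi, one_mul]
      _ = _ := by rw [hN, hcobt, mul_sub, ← mul_assoc, ← mul_assoc, hAi, one_mul]
  refine ⟨w + diagonal θ, ?_, ?_⟩
  · intro q
    have h1 := hR1q q
    rw [hR1] at h1
    simp only at h1
    rw [sub_eq_iff_eq_add] at h1
    rw [h1, mul_add, add_mul]
    abel
  · rw [hQ1, sub_eq_iff_eq_add] at hQ1q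
    rw [hQ1q, mul_add, add_mul]
    abel

end

end Vale.Agent.P002R
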