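import Vale.Agent.P002R.RBlockB

/-!
# The dual lemma for block data, part C: the limit `A = 1 + ε B`, `ε → 0`
-/

namespace Vale.Agent.P002R

open Matrix Filter Topology

variable {r : ℕ}

/-- Block diagonal matrices. -/
def BD (c : Fin r → Fin r) (X : Mat r ℂ) : Prop := ∀ i j, c i ≠ c j → X i j = 0

theorem BD.mul {c : Fin r → Fin r} {X Y : Mat r ℂ} (hX : BD c X) (hY : BD c Y) : BD c (X * Y) := by
  intro i j hij
  rw [Matrix.mul_apply]
  apply Finset.sum_eq_zero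
  intro l _
  by_cases h : c i = c l
  · rw [hY l j (fun h' => hij (h.trans h')), mul_zero]
  · rw [hX i l h, zero_mul]

theorem BD.pow {c : Fin r → Fin r} {X : Mat r ℂ} (hX : BD c X) (k : ℕ) : BD c (X ^ k) := by
  induction k with
  | zero =>
    intro i j hij
    rw [pow_zero, Matrix.one_apply_ne]
    intro h; exact hij (by rw [h])
  | succ k ih => rw [pow_succ]; exact ih.mul hX

theorem BD.blkD (c : Fin r → Fin r) (X : Mat r ℂ) : BD c (blkD c X) := by
  intro i j hij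
  rw [P002R.blkD, Matrix.of_apply, if_neg hij]

theorem BD.diagonal (c : Fin r → Fin r) (a : Fin r → ℂ) : BD c (diagonal a) := by
  intro i j hij
  exact diagonal_apply_ne _ (fun h => hij (by rw [h]))

theorem trace_mul_BD {c : Fin r → Fin r} {V X : Mat r ℂ} (hV : ∀ i j, c i = c j → V i j = 0)
    (hX : BD c X) : trace (V * X) = 0 := by
  rw [Matrix.trace]
  apply Finset.sum_eq_zero
  intro i _
  rw [Matrix.diag_apply, Matrix.mul_apply]
  apply Finset.sum_eq_zero
  intro j _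
  by_cases h : c i = c j
  · rw [hV i j h, zero_mul]
  · rw [hX j i (Ne.symm h), mul_zero]

theorem pow_expand (ε : ℂ) (B X : Mat r ℂ) (k : ℕ) : ((1 + ε • B) * X) ^ k =
    X ^ k + ε • ∑ l ∈ Finset.range k, ((1 + ε • B) * X) ^ l * (B * X ^ (k - l)) := by
  induction k with
  | zero => simp
  | succ k ih =>
    have h1 : (1 + ε • B) * X = X + ε • (B * X) := by
      rw [add_mul, one_mul, Matrix.smul_mul]
    rw [pow_succ]
    conv_lhs => rw [h1, mul_add]
    conv_lhs => rw [← h1]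
    rw [Finset.sum_range_succ, smul_add, ← add_assoc, Nat.add_sub_cancel_left, pow_one,
      Matrix.mul_smul]
    congr 1
    have h2 : ((1 + ε • B) * X) ^ k * X = X ^ (k + 1) +
        ε • ∑ l ∈ Finset.range k, ((1 + ε • B) * X) ^ l * (B * X ^ (k + 1 - l)) := by
      conv_lhs => rw [ih]
      rw [add_mul, ← pow_succ, Matrix.smul_mul, Finset.sum_mul]
      congr 2
      refine Finset.sum_congr rfl fun l hl => ?_
      have : k + 1 - l = (k - l) + 1 := by
        have := Finset.mem_range.1 hl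
        omega
      rw [this, pow_succ, mul_assoc, mul_assoc]
    exact h2

/-- The functional after division by `ε`. -/
def Gk (k : ℕ) (μ B : Mat r ℂ) (ε : ℂ) (X : Mat r ℂ) : ℂ :=
  ∑ l ∈ Finset.range k, trace ((μᵀ ⊙ B) * X * (((1 + ε • B) * X) ^ l * (B * X ^ (k - l))))

/-- The trilinear functional. -/
def Tri (μ B U₁ U₂ U₃ : Mat r ℂ) : ℂ := trace ((μᵀ ⊙ B) * U₁ * B * U₂ * B * U₃)

/-- The idempotent of a block. -/
def eb (c : Fin r → Fin r) (b : Fin r) : Mat r ℂ := diagonal fun i => if c i = b then 1 else 0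

theorem had_one_add {c : Fin r → Fin r} (μ B : Mat r ℂ) (ε : ℂ)
    (hμ : ∀ i j, c i = c j → μ i j = 0) : μᵀ ⊙ (1 + ε • B) = ε • (μᵀ ⊙ B) := by
  ext i j
  rw [Matrix.hadamard_apply, Matrix.smul_apply, Matrix.hadamard_apply, Matrix.add_apply,
    Matrix.smul_apply, smul_eq_mul, smul_eq_mul, Matrix.transpose_apply]
  by_cases h : i = j
  · subst h; rw [hμ i i rfl]; ring
  · rw [Matrix.one_apply_ne h]; ring

theorem had_BD {c : Fin r → Fin r} (μ X : Mat r ℂ) (hμ : ∀ i j, c i = c j → μ i j = 0)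
    (hX : BD c X) : μ ⊙ X = 0 := by
  ext i j
  rw [Matrix.hadamard_apply, Matrix.zero_apply]
  by_cases h : c i = c j
  · rw [hμ i j h, zero_mul]
  · rw [hX i j h, mul_zero]

theorem Phi_BD {c : Fin r → Fin r} (k : ℕ) (μ B X : Mat r ℂ) (ε : ℂ) (hε : ε ≠ 0)
    (hμ : ∀ i j, c i = c j → μ i j = 0) (hX : BD c X) (h : Phi k μ (1 + ε • B) X = 0) :
    trace ((μᵀ ⊙ B) * X * ((1 + ε • B) * X) ^ k) = 0 := by
  unfold Phi at h
  rw [had_BD μ X hμ hX, had_one_add μ B ε hμ, zero_mul, zero_mul, trace_zero, zero_sub,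
    neg_eq_zero, Matrix.smul_mul, Matrix.smul_mul, trace_smul, smul_eq_mul] at h
  exact (mul_eq_zero.1 h).resolve_left hε

theorem Gk_eq_zero {c : Fin r → Fin r} (k : ℕ) (μ B X : Mat r ℂ) (ε : ℂ) (hε : ε ≠ 0)
    (hμ : ∀ i j, c i = c j → μ i j = 0) (hX : BD c X) (h : Phi k μ (1 + ε • B) X = 0) :
    Gk k μ B ε X = 0 := by
  have h1 := Phi_BD k μ B X ε hε hμ hX h
  rw [pow_expand, mul_add, trace_add, mul_assoc, ← pow_succ',
    trace_mul_BD (c := c) (V := μᵀ ⊙ B) (fun i j hij => by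
      rw [Matrix.hadamard_apply, Matrix.transpose_apply, hμ j i hij.symm, zero_mul])
      (hX.pow (k + 1)), zero_add, Matrix.mul_smul, trace_smul, smul_eq_mul,
    Finset.mul_sum, trace_sum] at h1
  exact (mul_eq_zero.1 h1).resolve_left hε

theorem eb_mul_eb {c : Fin r → Fin r} {b b' : Fin r} (h : b ≠ b') : eb c b * eb c b' = 0 := by
  rw [eb, eb, diagonal_mul_diagonal, ← diagonal_zero]
  congr 1
  funext i
  by_cases h1 : c i = b
  · rw [if_pos h1, if_neg (fun h2 => h (h1.symm.trans h2)), mul_zero]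
  · rw [if_neg h1, zero_mul]

/-- Sum of the six terms. -/
def Six (μ B : Mat r ℂ) (c : Fin r → Fin r) (b₁ b₂ b₃ : Fin r) : ℂ :=
  Tri μ B (eb c b₁) (eb c b₂) (eb c b₃) + Tri μ B (eb c b₂) (eb c b₃) (eb c b₁) +
  Tri μ B (eb c b₃) (eb c b₁) (eb c b₂) + Tri μ B (eb c b₁) (eb c b₃) (eb c b₂) +
  Tri μ B (eb c b₃) (eb c b₂) (eb c b₁) + Tri μ B (eb c b₂) (eb c b₁) (eb c b₃)

theorem polarize {V A : Mat r ℂ} (e₁ e₂ e₃ : Mat r ℂ)
    (h : ∀ X ∈ ({e₁, e₂, e₃, e₁ + e₂, e₁ + e₃, e₂ + e₃, e₁ + e₂ + e₃} : Set (Mat r ℂ)),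
      trace (V * X * (A * X) ^ 2) = 0) :
    trace (V * e₁ * A * e₂ * A * e₃) + trace (V * e₂ * A * e₃ * A * e₁) +
    trace (V * e₃ * A * e₁ * A * e₂) + trace (V * e₁ * A * e₃ * A * e₂) +
    trace (V * e₃ * A * e₂ * A * e₁) + trace (V * e₂ * A * e₁ * A * e₃) = 0 := by
  have h1 := h e₁ (by simp)
  have h2 := h e₂ (by simp)
  have h3 := h e₃ (by simp)
  have h4 := h (e₁ + e₂) (by simp)
  have h5 := h (e₁ + e₃) (by simp)
  have h6 := h (e₂ + e₃) (by simp)
  have h7 := h (e₁ + e₂ + e₃) (by simp)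
  simp only [pow_two, mul_add, add_mul, trace_add, ← mul_assoc] at h1 h2 h3 h4 h5 h6 h7 ⊢
  linear_combination h7 - h4 - h5 - h6 + h1 + h2 + h3

theorem Six_eq_zero {c : Fin r → Fin r} (μ B : Mat r ℂ) (ε : ℂ) (hε : ε ≠ 0)
    (hμ : ∀ i j, c i = c j → μ i j = 0) (b₁ b₂ b₃ : Fin r) (h12 : b₁ ≠ b₂) (h23 : b₂ ≠ b₃)
    (h13 : b₁ ≠ b₃)
    (h : ∀ δ : Fin r → ℂ, Phi 2 μ (1 + ε • B) (diagonal fun i => δ (c i)) = 0) :
    Six μ B c b₁ b₂ b₃ = 0 := by
  have hX : ∀ δ : Fin r → ℂ, trace ((μᵀ ⊙ B) * (diagonal fun i => δ (c i)) *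
      ((1 + ε • B) * (diagonal fun i => δ (c i))) ^ 2) = 0 := fun δ =>
    Phi_BD 2 μ B _ ε hε hμ (BD.diagonal c _) (h δ)
  have hδ : ∀ (s : Fin r → Prop) [DecidablePred s], (trace ((μᵀ ⊙ B) *
      (diagonal fun i => if s (c i) then (1 : ℂ) else 0) *
      ((1 + ε • B) * (diagonal fun i => if s (c i) then (1 : ℂ) else 0)) ^ 2) = 0) :=
    fun s _ => hX fun b => if s b then 1 else 0
  have hp := polarize (V := μᵀ ⊙ B) (A := 1 + ε • B) (eb c b₁) (eb c b₂) (eb c b₃) (by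
    intro X hXm
    simp only [Set.mem_insert_iff, Set.mem_singleton_iff] at hXm
    have key : ∀ (f : Fin r → ℂ), X = (diagonal fun i => f (c i)) → trace ((μᵀ ⊙ B) * X *
      ((1 + ε • B) * X) ^ 2) = 0 := by
      intro f hf
      rw [hf]; exact hX f
    rcases hXm with h | h | h | h | h | h | h
    · exact key (fun b => if b = b₁ then 1 else 0) h
    · exact key (fun b => if b = b₂ then 1 else 0) h
    · exact key (fun b => if b = b₃ then 1 else 0) h
    · exact key (fun b => (if b = b₁ then 1 else 0) + (if b = b₂ then 1 else 0)) (by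
        rw [h, eb, eb, diagonal_add])
    · exact key (fun b => (if b = b₁ then 1 else 0) + (if b = b₃ then 1 else 0)) (by
        rw [h, eb, eb, diagonal_add])
    · exact key (fun b => (if b = b₂ then 1 else 0) + (if b = b₃ then 1 else 0)) (by
        rw [h, eb, eb, diagonal_add])
    · exact key (fun b => (if b = b₁ then 1 else 0) + (if b = b₂ then 1 else 0) +
        (if b = b₃ then 1 else 0)) (by
        rw [h, eb, eb, eb, diagonal_add, diagonal_add]))
  have hA : ∀ {b b' : Fin r}, b ≠ b' → eb c b * (1 + ε • B) * eb c b' =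
      ε • (eb c b * B * eb c b') := by
    intro b b' hb
    rw [mul_add, add_mul, mul_one, eb_mul_eb hb, zero_add, Matrix.mul_smul, Matrix.smul_mul]
  have hT : ∀ {b b' b'' : Fin r}, b ≠ b' → b' ≠ b'' →
      trace ((μᵀ ⊙ B) * eb c b * (1 + ε • B) * eb c b' * (1 + ε • B) * eb c b'') =
        ε ^ 2 * Tri μ B (eb c b) (eb c b') (eb c b'') := by
    intro b b' b'' h1 h2
    have hid : eb c b' * eb c b' = eb c b' := by
      rw [eb, diagonal_mul_diagonal]
      congr 1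
      funext i
      split_ifs <;> simp
    have e1 : (μᵀ ⊙ B) * eb c b * (1 + ε • B) * eb c b' * (1 + ε • B) * eb c b'' =
        (μᵀ ⊙ B) * (eb c b * (1 + ε • B) * eb c b') * (eb c b' * (1 + ε • B) * eb c b'') := by
      calc _ = (μᵀ ⊙ B) * eb c b * (1 + ε • B) * (eb c b' * eb c b') * (1 + ε • B) * eb c b'' := by
            rw [hid]
        _ = _ := by simp only [mul_assoc]
    have e2 : (μᵀ ⊙ B) * eb c b * B * eb c b' * B * eb c b'' =
        (μᵀ ⊙ B) * (eb c b * B * eb c b') * (eb c b' * B * eb c b'') := by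
      calc _ = (μᵀ ⊙ B) * eb c b * B * (eb c b' * eb c b') * B * eb c b'' := by
            rw [hid]
        _ = _ := by simp only [mul_assoc]
    unfold Tri
    rw [e1, e2, hA h1, hA h2]
    simp only [Matrix.mul_smul, Matrix.smul_mul, smul_smul, trace_smul, smul_eq_mul]
    ring
  rw [hT h12 h23, hT h23 h13.symm, hT h13.symm h12, hT h13 h23.symm, hT h23.symm h12.symm,
    hT h12.symm h13] at hp
  have hε2 : ε ^ 2 ≠ 0 := pow_ne_zero _ hε
  have : ε ^ 2 * Six μ B c b₁ b₂ b₃ = 0 := by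
    unfold Six
    linear_combination hp
  exact (mul_eq_zero.1 this).resolve_left hε2

/-- The conditions in the limit. -/
structure LimOK {L : Type*} (P : L → (Mat r ℂ)ˣ) (c : Fin r → Fin r) (D : ℕ) (μ B : Mat r ℂ) :
    Prop where
  zero : ∀ i j, c i = c j → μ i j = 0
  two : ∀ (p : List L) (k : ℕ), k + 1 ≤ D → ∀ δ : Fin r → ℂ,
    Gk k μ B 0 (diagonal (fun i => δ (c i)) * blkD c (wP P p : Mat r ℂ)) = 0
  three : ∀ b₁ b₂ b₃ : Fin r, b₁ ≠ b₂ → b₂ ≠ b₃ → b₁ ≠ b₃ → Six μ B c b₁ b₂ b₃ = 0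

theorem tendsto_mul {f g : ℕ → Mat r ℂ} {a b : Mat r ℂ} (hf : Tendsto f atTop (𝓝 a))
    (hg : Tendsto g atTop (𝓝 b)) : Tendsto (fun n => f n * g n) atTop (𝓝 (a * b)) :=
  hf.mul hg

theorem tendsto_trace {f : ℕ → Mat r ℂ} {a : Mat r ℂ} (hf : Tendsto f atTop (𝓝 a)) :
    Tendsto (fun n => trace (f n)) atTop (𝓝 (trace a)) :=
  ((continuous_id (X := Mat r ℂ)).matrix_trace.tendsto a).comp hf

theorem tendsto_had {f g : ℕ → Mat r ℂ} {a b : Mat r ℂ} (hf : Tendsto f atTop (𝓝 a))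
    (hg : Tendsto g atTop (𝓝 b)) : Tendsto (fun n => (f n)ᵀ ⊙ g n) atTop (𝓝 (aᵀ ⊙ b)) := by
  refine tendsto_pi_nhds.2 fun i => tendsto_pi_nhds.2 fun j => ?_
  have h1 : Tendsto (fun n => f n j i) atTop (𝓝 (a j i)) :=
    tendsto_pi_nhds.1 (tendsto_pi_nhds.1 hf j) i
  have h2 : Tendsto (fun n => g n i j) atTop (𝓝 (b i j)) :=
    tendsto_pi_nhds.1 (tendsto_pi_nhds.1 hg i) j
  exact h1.mul h2

/-- Passage to the limit. -/
theorem limOK_of_seq {L : Type*} (P : L → (Mat r ℂ)ˣ) (c : Fin r → Fin r) (D : ℕ) (hD : 3 ≤ D)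
    (μ B : ℕ → Mat r ℂ) (ε : ℕ → ℂ) (hε : ∀ n, ε n ≠ 0) (μ' B' : Mat r ℂ)
    (hμ : Tendsto μ atTop (𝓝 μ')) (hB : Tendsto B atTop (𝓝 B')) (hε0 : Tendsto ε atTop (𝓝 0))
    (hz : ∀ n i j, c i = c j → μ n i j = 0)
    (h : ∀ n (p : List L) (k : ℕ), k + 1 ≤ D → ∀ δ : Fin r → ℂ,
      Phi k (μ n) (1 + ε n • B n) (diagonal (fun i => δ (c i)) * blkD c (wP P p : Mat r ℂ)) = 0) :
    LimOK P c D μ' B' where
  zero i j hij := by
    have h1 : Tendsto (fun n => μ n i j) atTop (𝓝 (μ' i j)) :=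
      (((continuous_id (X := Mat r ℂ)).matrix_elem i j).tendsto μ').comp hμ
    have h2 : (fun n => μ n i j) = fun _ => 0 := funext fun n => hz n i j hij
    rw [h2] at h1
    exact (tendsto_nhds_unique h1 tendsto_const_nhds)
  two p k hk δ := by
    obtain ⟨X, hX⟩ : ∃ X, X = diagonal (fun i => δ (c i)) * blkD c (wP P p : Mat r ℂ) := ⟨_, rfl⟩
    have hXBD : BD c X := by rw [hX]; exact (BD.diagonal c _).mul (BD.blkD c _)
    rw [← hX]
    have h1 : Tendsto (fun n => Gk k (μ n) (B n) (ε n) X) atTop (𝓝 (Gk k μ' B' 0 X)) := by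
      unfold Gk
      apply tendsto_finsetSum
      intro l _
      apply tendsto_trace
      apply tendsto_mul
      · exact tendsto_mul (tendsto_had hμ hB) tendsto_const_nhds
      · apply tendsto_mul
        · exact (tendsto_mul (tendsto_const_nhds.add (hε0.smul hB)) tendsto_const_nhds).pow l
        · exact tendsto_mul hB tendsto_const_nhds
    have h2 : (fun n => Gk k (μ n) (B n) (ε n) X) = fun _ => 0 := by
      funext n
      exact Gk_eq_zero k (μ n) (B n) X (ε n) (hε n) (hz n) hXBD (by rw [hX]; exact h n p k hk δ)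
    rw [h2] at h1
    exact (tendsto_nhds_unique h1 tendsto_const_nhds)
  three b₁ b₂ b₃ h12 h23 h13 := by
    have hT : ∀ U₁ U₂ U₃ : Mat r ℂ, Tendsto (fun n => Tri (μ n) (B n) U₁ U₂ U₃) atTop
        (𝓝 (Tri μ' B' U₁ U₂ U₃)) := by
      intro U₁ U₂ U₃
      unfold Tri
      apply tendsto_trace
      exact tendsto_mul (tendsto_mul (tendsto_mul (tendsto_mul (tendsto_mul (tendsto_had hμ hB)
        tendsto_const_nhds) hB) tendsto_const_nhds) hB) tendsto_const_nhds
    have h1 : Tendsto (fun n => Six (μ n) (B n) c b₁ b₂ b₃) atTop (𝓝 (Six μ' B' c b₁ b₂ b₃)) := by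
      unfold Six
      exact (((((hT _ _ _).add (hT _ _ _)).add (hT _ _ _)).add (hT _ _ _)).add (hT _ _ _)).add
        (hT _ _ _)
    have h2 : (fun n => Six (μ n) (B n) c b₁ b₂ b₃) = fun _ => 0 := by
      funext n
      apply Six_eq_zero (μ n) (B n) (ε n) (hε n) (hz n) b₁ b₂ b₃ h12 h23 h13
      intro δ
      have h3 := h n [] 2 (by omega) δ
      have h4 : blkD c (wP P [] : Mat r ℂ) = 1 := by
        ext i j
        rw [blkD, Matrix.of_apply, wP, Units.val_one]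
        by_cases hij : i = j
        · subst hij; simp
        · rw [Matrix.one_apply_ne hij]; simp
      rwa [h4, mul_one] at h3
    rw [h2] at h1
    exact (tendsto_nhds_unique h1 tendsto_const_nhds)

end Vale.Agent.P002R
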