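import Vale.Agent.P002R.RBlockC
import Mathlib.LinearAlgebra.Vandermonde
import Mathlib.LinearAlgebra.Matrix.Charpoly.Coeff

/-!
# The dual lemma for block data, part D: consequences of the limit conditions
-/

namespace Vale.Agent.P002R

open Matrix

variable {r : ℕ}

/-- The bilinear functional. -/
def T2 (V B u v : Mat r ℂ) : ℂ := trace (V * u * (B * v))

theorem add_pow_of_mul_zero {x y : Mat r ℂ} (h1 : x * y = 0) (h2 : y * x = 0) (s : ℕ) :
    (x + y) ^ (s + 1) = x ^ (s + 1) + y ^ (s + 1) := by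
  induction s with
  | zero => simp
  | succ s ih =>
    rw [pow_succ, ih, add_mul, mul_add, mul_add, pow_succ x s, mul_assoc _ x y, h1,
      pow_succ y s, mul_assoc _ y x, h2, mul_zero, mul_zero, add_zero, zero_add]
    rw [← pow_succ x s, ← pow_succ y s, ← pow_succ, ← pow_succ]

/-- Separation of the bidegrees. -/
theorem T2_separate (V B x y : Mat r ℂ) (h1 : x * y = 0) (h2 : y * x = 0) (k : ℕ)
    (h : ∀ a : ℂ, ∑ l ∈ Finset.range k, T2 V B ((a • x + y) ^ (l + 1)) ((a • x + y) ^ (k - l)) = 0)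
    (s : ℕ) (hs1 : 1 ≤ s) (hsk : s ≤ k) :
    T2 V B (x ^ s) (y ^ (k + 1 - s)) + T2 V B (y ^ (k + 1 - s)) (x ^ s) = 0 := by
  have hpow : ∀ (a : ℂ) (s : ℕ), 1 ≤ s → (a • x + y) ^ s = a ^ s • x ^ s + y ^ s := by
    intro a s hs
    obtain ⟨s, rfl⟩ : ∃ s', s = s' + 1 := ⟨s - 1, by omega⟩
    rw [add_pow_of_mul_zero (by rw [Matrix.smul_mul, h1, smul_zero])
      (by rw [Matrix.mul_smul, h2, smul_zero]), smul_pow]
  obtain ⟨p, hp⟩ : ∃ p : Polynomial ℂ, p = ∑ l ∈ Finset.range k,
    (Polynomial.monomial (k + 1) (T2 V B (x ^ (l + 1)) (x ^ (k - l))) +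
      Polynomial.monomial (l + 1) (T2 V B (x ^ (l + 1)) (y ^ (k - l))) +
      Polynomial.monomial (k - l) (T2 V B (y ^ (l + 1)) (x ^ (k - l))) +
      Polynomial.monomial 0 (T2 V B (y ^ (l + 1)) (y ^ (k - l)))) := ⟨_, rfl⟩
  have hp0 : p = 0 := by
    apply Polynomial.funext
    intro a
    rw [Polynomial.eval_zero, ← h a, hp, Polynomial.eval_finsetSum]
    refine Finset.sum_congr rfl fun l hl => ?_
    have hl' := Finset.mem_range.1 hl
    simp only [Polynomial.eval_add, Polynomial.eval_monomial]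
    rw [hpow a (l + 1) (by omega), hpow a (k - l) (by omega)]
    have e : a ^ (k + 1) = a ^ (l + 1) * a ^ (k - l) := by
      rw [← pow_add]; congr 1; omega
    unfold T2
    simp only [mul_add, add_mul, Matrix.mul_smul, Matrix.smul_mul, trace_add, trace_smul,
      smul_eq_mul, smul_smul, pow_zero]
    rw [e]
    ring
  have h3 := congrArg (fun q : Polynomial ℂ => q.coeff s) hp0
  simp only [hp, Polynomial.coeff_zero, Polynomial.finsetSum_coeff, Polynomial.coeff_add,
    Polynomial.coeff_monomial, Finset.sum_add_distrib] at h3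
  have e1 : (∑ l ∈ Finset.range k, if k + 1 = s then T2 V B (x ^ (l + 1)) (x ^ (k - l)) else 0) =
      0 := Finset.sum_eq_zero fun l _ => if_neg (by omega)
  have e4 : (∑ l ∈ Finset.range k, if 0 = s then T2 V B (y ^ (l + 1)) (y ^ (k - l)) else 0) =
      0 := Finset.sum_eq_zero fun l _ => if_neg (by omega)
  have e2 : (∑ l ∈ Finset.range k, if l + 1 = s then T2 V B (x ^ (l + 1)) (y ^ (k - l)) else 0) =
      T2 V B (x ^ s) (y ^ (k + 1 - s)) := by
    rw [Finset.sum_eq_single (s - 1)]
    · rw [if_pos (by omega)]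
      congr 2
      · omega
      · omega
    · intro l _ hl
      exact if_neg (by omega)
    · intro hl
      exact absurd (Finset.mem_range.2 (by omega)) hl
  have e3 : (∑ l ∈ Finset.range k, if k - l = s then T2 V B (y ^ (l + 1)) (x ^ (k - l)) else 0) =
      T2 V B (y ^ (k + 1 - s)) (x ^ s) := by
    rw [Finset.sum_eq_single (k - s)]
    · rw [if_pos (by omega)]
      congr 2
      · omega
      · omega
    · intro l hl hl'
      have := Finset.mem_range.1 hl
      exact if_neg (by omega)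
    · intro hl
      exact absurd (Finset.mem_range.2 (by omega)) hl
  rw [e1, e2, e3, e4] at h3
  linear_combination h3

theorem eb_comm_BD {c : Fin r → Fin r} {X : Mat r ℂ} (hX : BD c X) (b : Fin r) :
    eb c b * X = X * eb c b := by
  ext i j
  rw [eb, diagonal_mul, mul_diagonal]
  by_cases h : c i = c j
  · rw [h, mul_comm]
  · rw [hX i j h]; ring

theorem eb_idem (c : Fin r → Fin r) (b : Fin r) : eb c b * eb c b = eb c b := by
  rw [eb, diagonal_mul_diagonal]
  congr 1
  funext i
  split_ifs <;> simp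

theorem eb_mul_pow {c : Fin r → Fin r} {X : Mat r ℂ} (hX : BD c X) (b : Fin r) (s : ℕ) :
    (eb c b * X) ^ (s + 1) = eb c b * X ^ (s + 1) := by
  induction s with
  | zero => simp
  | succ s ih =>
    rw [pow_succ, ih, pow_succ X (s + 1)]
    calc eb c b * X ^ (s + 1) * (eb c b * X) = eb c b * (X ^ (s + 1) * eb c b) * X := by
          simp only [mul_assoc]
      _ = (eb c b * eb c b) * X ^ (s + 1) * X := by
          rw [← eb_comm_BD (hX.pow _)]; simp only [mul_assoc]
      _ = _ := by rw [eb_idem]; simp only [mul_assoc]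

section

variable {L : Type*} (P : L → (Mat r ℂ)ˣ)

/-- The bidegree relations. -/
theorem LimOK.bideg {P : L → (Mat r ℂ)ˣ} {c : Fin r → Fin r} {D : ℕ} {μ B : Mat r ℂ}
    (hL : LimOK P c D μ B) (p : List L) {b b' : Fin r} (hb : b ≠ b') (s t : ℕ) (hs : 1 ≤ s)
    (ht : 1 ≤ t) (hst : s + t ≤ D) :
    T2 (μᵀ ⊙ B) B (eb c b * blkD c (wP P p : Mat r ℂ) ^ s)
      (eb c b' * blkD c (wP P p : Mat r ℂ) ^ t) +
    T2 (μᵀ ⊙ B) B (eb c b' * blkD c (wP P p : Mat r ℂ) ^ t)
      (eb c b * blkD c (wP P p : Mat r ℂ) ^ s) = 0 := by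
  obtain ⟨X, hX⟩ : ∃ X, X = blkD c (wP P p : Mat r ℂ) := ⟨_, rfl⟩
  have hXBD : BD c X := by rw [hX]; exact BD.blkD c _
  rw [← hX]
  have h12 : (eb c b * X) * (eb c b' * X) = 0 := by
    calc (eb c b * X) * (eb c b' * X) = eb c b * (X * eb c b') * X := by simp only [mul_assoc]
      _ = (eb c b * eb c b') * X * X := by rw [← eb_comm_BD hXBD]; simp only [mul_assoc]
      _ = 0 := by rw [eb_mul_eb hb, zero_mul, zero_mul]
  have h21 : (eb c b' * X) * (eb c b * X) = 0 := by
    calc (eb c b' * X) * (eb c b * X) = eb c b' * (X * eb c b) * X := by simp only [mul_assoc]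
      _ = (eb c b' * eb c b) * X * X := by rw [← eb_comm_BD hXBD]; simp only [mul_assoc]
      _ = 0 := by rw [eb_mul_eb hb.symm, zero_mul, zero_mul]
  have h := T2_separate (μᵀ ⊙ B) B (eb c b * X) (eb c b' * X) h12 h21 (s + t - 1) (by
    intro a
    have h1 := hL.two p (s + t - 1) (by omega) (fun d => if d = b then a else if d = b' then 1 else 0)
    rw [← hX] at h1
    have h2 : (diagonal fun i => if c i = b then a else if c i = b' then (1 : ℂ) else 0) * X =
        a • (eb c b * X) + eb c b' * X := by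
      rw [eb, eb, ← Matrix.smul_mul, ← add_mul, ← diagonal_smul, diagonal_add]
      congr 2
      funext i
      simp only [Pi.smul_apply, smul_eq_mul]
      by_cases h3 : c i = b
      · rw [if_pos h3, if_pos h3, if_neg (fun h4 => hb (h3.symm.trans h4))]; ring
      · rw [if_neg h3, if_neg h3]; ring
    rw [h2] at h1
    rw [← h1]
    unfold Gk T2
    refine Finset.sum_congr rfl fun l _ => ?_
    rw [zero_smul, add_zero, one_mul, pow_succ']
    simp only [mul_assoc]) s hs (by omega)
  have e : s + t - 1 + 1 - s = t := by omega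
  rw [e] at h
  obtain ⟨s, rfl⟩ : ∃ s', s = s' + 1 := ⟨s - 1, by omega⟩
  obtain ⟨t, rfl⟩ : ∃ t', t = t' + 1 := ⟨t - 1, by omega⟩
  rwa [eb_mul_pow hXBD, eb_mul_pow hXBD] at h

theorem vander_zero {α : Fin r → ℂ} (hα : Function.Injective α) (h0 : ∀ i, α i ≠ 0)
    (v : Fin r → ℂ) (h : ∀ s : ℕ, 1 ≤ s → s ≤ r → ∑ i, v i * α i ^ s = 0) (i : Fin r) :
    v i = 0 := by
  have h1 := Matrix.eq_zero_of_forall_pow_sum_mul_pow_eq_zero (v := fun i => v i * α i) hα (by
    intro s
    rw [← h (s + 1) (by omega) (by have := s.2; omega)]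
    refine Finset.sum_congr rfl fun j _ => ?_
    rw [pow_succ]; ring)
  have h2 := congrFun h1 i
  simp only [Pi.zero_apply] at h2
  exact (mul_eq_zero.1 h2).resolve_right (h0 i)

/-- Antisymmetry. -/
theorem LimOK.anti {P : L → (Mat r ℂ)ˣ} {c : Fin r → Fin r} {D : ℕ} {μ B : Mat r ℂ}
    (hL : LimOK P c D μ B) (hD : 2 * r ≤ D) (q₀ : L) (α : Fin r → ℂ)
    (hα : Function.Injective α) (hq₀ : (P q₀ : Mat r ℂ) = diagonal α) (i j : Fin r)
    (hij : c i ≠ c j) : B i j * B j i * (μ i j + μ j i) = 0 := by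
  have h0 := alpha_ne_zero P q₀ α hq₀
  have hX : blkD c (wP P [q₀] : Mat r ℂ) = diagonal α := by
    rw [wP, wP, mul_one, hq₀]
    ext a b
    rw [blkD, Matrix.of_apply]
    split_ifs with h
    · rfl
    · exact (BD.diagonal c α a b h).symm
  obtain ⟨b, hb⟩ : ∃ b, b = c i := ⟨_, rfl⟩
  obtain ⟨b', hb'⟩ : ∃ b', b' = c j := ⟨_, rfl⟩
  have hbb : b ≠ b' := by rw [hb, hb']; exact hij
  have key : ∀ s t : ℕ, 1 ≤ s → s ≤ r → 1 ≤ t → t ≤ r →
      ∑ i, (∑ j, (if c i = b then (if c j = b' then B i j * B j i * (μ i j + μ j i) else 0) else 0) *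
        α j ^ t) * α i ^ s = 0 := by
    intro s t hs hs' ht ht'
    have h1 := hL.bideg [q₀] hbb s t hs ht (by omega)
    rw [hX, diagonal_pow, diagonal_pow, eb, eb, diagonal_mul_diagonal, diagonal_mul_diagonal] at h1
    have h2 : ∀ u v : Fin r → ℂ, T2 (μᵀ ⊙ B) B (diagonal u) (diagonal v) =
        ∑ i, ∑ j, μ i j * B j i * B i j * u i * v j := by
      intro u v
      have h3 := trace_diag_mul (μᵀ ⊙ B) B u v
      unfold T2
      rw [mul_assoc, ← mul_assoc (diagonal u), h3]
      refine Finset.sum_congr rfl fun i _ => Finset.sum_congr rfl fun j _ => ?_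
      rw [Matrix.hadamard_apply, Matrix.transpose_apply]
    rw [h2, h2] at h1
    rw [Finset.sum_comm (f := fun i j => μ i j * B j i * B i j *
      ((if c i = b' then (1 : ℂ) else 0) * (α ^ t) i) *
      ((if c j = b then (1 : ℂ) else 0) * (α ^ s) j))] at h1
    rw [← Finset.sum_add_distrib] at h1
    refine Eq.trans ?_ h1
    refine Finset.sum_congr rfl fun i _ => ?_
    rw [Finset.sum_mul, ← Finset.sum_add_distrib]
    refine Finset.sum_congr rfl fun j _ => ?_
    simp only [Pi.pow_apply]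
    by_cases h4 : c i = b
    · by_cases h5 : c j = b'
      · simp only [h4, h5, if_true]; ring
      · simp only [h4, h5, if_true, if_false]; ring
    · simp only [h4, if_false]; ring
  have h1 : ∀ t : ℕ, 1 ≤ t → t ≤ r → ∑ j', (if c i = b then
      (if c j' = b' then B i j' * B j' i * (μ i j' + μ j' i) else 0) else 0) * α j' ^ t = 0 :=
    fun t ht ht' => vander_zero hα h0 (fun i => ∑ j, (if c i = b then
      (if c j = b' then B i j * B j i * (μ i j + μ j i) else 0) else 0) * α j ^ t)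
      (fun s hs hs' => key s t hs hs' ht ht') i
  have h2 := vander_zero hα h0 _ h1 j
  rwa [if_pos hb.symm, if_pos hb'.symm] at h2

/-- A functional which vanishes at the positive powers of an invertible matrix. -/
theorem functional_one (X : Mat r ℂ) (hX : X.det ≠ 0) (f : Mat r ℂ →ₗ[ℂ] ℂ)
    (h : ∀ t : ℕ, 1 ≤ t → t ≤ r → f (X ^ t) = 0) : f 1 = 0 := by
  rcases Nat.eq_zero_or_pos r with hr | hr
  · subst hr
    have : (1 : Mat 0 ℂ) = 0 := Subsingleton.elim _ _
    rw [this, map_zero]
  have h1 := Matrix.aeval_self_charpoly X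
  have h2 : f (Polynomial.aeval X X.charpoly) = X.charpoly.coeff 0 * f 1 := by
    rw [Polynomial.aeval_eq_sum_range, map_sum, Finset.sum_range_succ', Finset.sum_eq_zero]
    · rw [zero_add, map_smul, pow_zero, smul_eq_mul]
    · intro t ht
      have ht' := Finset.mem_range.1 ht
      rw [Matrix.charpoly_natDegree_eq_dim, Fintype.card_fin] at ht'
      rw [map_smul, h (t + 1) (by omega) (by omega), smul_zero]
  rw [h1, map_zero] at h2
  have h3 : X.charpoly.coeff 0 ≠ 0 := by
    intro h4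
    apply hX
    rw [Matrix.det_eq_sign_charpoly_coeff, h4, mul_zero]
  exact (mul_eq_zero.1 h2.symm).resolve_left h3

theorem det_blkD {c : Fin r → Fin r} {X : Mat r ℂ} (hX : ∀ i j, c j < c i → X i j = 0) :
    (blkD c X).det = X.det := by
  have h1 : BlockTriangular X c := fun i j h => hX i j h
  have h2 : BlockTriangular (blkD c X) c := fun i j h => by
    rw [blkD, Matrix.of_apply, if_neg (ne_of_gt h)]
  rw [h1.det, h2.det]
  refine Finset.prod_congr rfl fun k _ => ?_
  congr 1
  ext ⟨i, hi⟩ ⟨j, hj⟩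
  simp [toSquareBlock, toSquareBlockProp, blkD, hi, hj]

/-- The linear relations between two blocks. -/
theorem LimOK.rel {P : L → (Mat r ℂ)ˣ} {c : Fin r → Fin r} {D : ℕ} {μ B : Mat r ℂ}
    (hL : LimOK P c D μ B) (hD : r + 1 ≤ D) (q₀ : L) (α : Fin r → ℂ)
    (hα : Function.Injective α) (hq₀ : (P q₀ : Mat r ℂ) = diagonal α)
    (htri : ∀ q i j, c j < c i → (P q : Mat r ℂ) i j = 0) (i j b' : Fin r)
    (hij : c i = c j) (hib : c i ≠ b') (p : List L) (hp : (wP P p : Mat r ℂ) i j ≠ 0) :
    ∑ l, (if c l = b' then B j l * B l i * (μ i l + μ l j) else 0) = 0 := by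
  obtain ⟨b, hb⟩ : ∃ b, b = c i := ⟨_, rfl⟩
  have hbb : b ≠ b' := by rw [hb]; exact hib
  have h1 : ∀ p : List L, T2 (μᵀ ⊙ B) B (eb c b * blkD c (wP P p : Mat r ℂ)) (eb c b') +
      T2 (μᵀ ⊙ B) B (eb c b') (eb c b * blkD c (wP P p : Mat r ℂ)) = 0 := by
    intro p
    obtain ⟨X, hX⟩ : ∃ X, X = blkD c (wP P p : Mat r ℂ) := ⟨_, rfl⟩
    have hdet : X.det ≠ 0 := by
      rw [hX, det_blkD (wP_tri P c htri p)]
      have := (wP P p).isUnit
      rw [Matrix.isUnit_iff_isUnit_det, isUnit_iff_ne_zero] at this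
      exact this
    have h2 := functional_one X hdet
      { toFun := fun Z => T2 (μᵀ ⊙ B) B (eb c b * X) (eb c b' * Z) +
          T2 (μᵀ ⊙ B) B (eb c b' * Z) (eb c b * X)
        map_add' := fun Z Z' => by
          unfold T2
          simp only [mul_add, add_mul, trace_add]
          ring
        map_smul' := fun a Z => by
          unfold T2
          simp only [Matrix.mul_smul, Matrix.smul_mul, trace_smul, smul_eq_mul, RingHom.id_apply]
          ring } (by
        intro t ht ht'
        have h3 := hL.bideg p hbb 1 t le_rfl ht (by omega)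
        rw [← hX, pow_one] at h3
        exact h3)
    simp only [LinearMap.coe_mk, AddHom.coe_mk, mul_one] at h2
    rw [← hX]
    exact h2
  obtain ⟨W, hW⟩ : ∃ W : Mat r ℂ, W = B * eb c b' * (μᵀ ⊙ B) + (μᵀ ⊙ B) * eb c b' * B := ⟨_, rfl⟩
  have h2 : ∀ p : List L, trace (W * (eb c b * blkD c (wP P p : Mat r ℂ))) = 0 := by
    intro p
    rw [← h1 p, hW, add_mul, trace_add]
    unfold T2
    congr 1
    · rw [Matrix.trace_mul_comm ((μᵀ ⊙ B) * (eb c b * blkD c (wP P p : Mat r ℂ))) (B * eb c b')]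
      simp only [mul_assoc]
    · simp only [mul_assoc]
  have h3 := double_interp hα (fun i j => W j i * (eb c b * blkD c (wP P p : Mat r ℂ)) i j) (by
    intro n n'
    have h4 := h2 (List.replicate n q₀ ++ (p ++ List.replicate n' q₀))
    rw [wP_append, wP_append, Units.val_mul, Units.val_mul, wP_replicate P q₀ α hq₀,
      wP_replicate P q₀ α hq₀] at h4
    have h5 : eb c b * blkD c ((diagonal fun i => α i ^ n) * ((wP P p : Mat r ℂ) *
        diagonal fun i => α i ^ n')) = (diagonal fun i => α i ^ n) *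
        (eb c b * blkD c (wP P p : Mat r ℂ)) * (diagonal fun i => α i ^ n') := by
      ext i j
      rw [eb, diagonal_mul, mul_diagonal, diagonal_mul, diagonal_mul, blkD, blkD, Matrix.of_apply,
        Matrix.of_apply, diagonal_mul, mul_diagonal]
      split_ifs <;> ring
    rw [h5, trace_diag_mul] at h4
    exact h4) i j
  have h4 : (eb c b * blkD c (wP P p : Mat r ℂ)) i j = (wP P p : Mat r ℂ) i j := by
    rw [eb, diagonal_mul, blkD, Matrix.of_apply, if_pos hb.symm, if_pos hij, one_mul]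
  simp only [h4] at h3
  have h5 := (mul_eq_zero.1 h3).resolve_right hp
  rw [hW, Matrix.add_apply, eb, Matrix.mul_assoc, Matrix.mul_assoc, Matrix.mul_apply,
    Matrix.mul_apply, ← Finset.sum_add_distrib] at h5
  refine Eq.trans ?_ h5
  refine Finset.sum_congr rfl fun l _ => ?_
  rw [diagonal_mul, diagonal_mul, Matrix.hadamard_apply, Matrix.hadamard_apply,
    Matrix.transpose_apply, Matrix.transpose_apply]
  split_ifs <;> ring

end

end Vale.Agent.P002R
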