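import Mathlib.Analysis.Complex.Basic
import Mathlib.Algebra.BigOperators.Fin
import Mathlib.Tactic

/-!
# The dual lemma for block data, part F: a rigid linear system
-/

namespace Vale.Agent.P002R

/-- A positive definite system. -/
theorem posdef_zero {k : ℕ} (s : ℕ → ℝ) (hs : ∀ l, 0 < s l) (z : Fin k → ℂ)
    (h : ∀ i : Fin k, ∑ j : Fin k, (z i + z j) / ((s i + s j : ℝ) : ℂ) = 0) (i : Fin k) :
    z i = 0 := by
  have h1 : ∑ i : Fin k, ∑ j : Fin k, (starRingEnd ℂ (z i)) * ((z i + z j) / ((s i + s j : ℝ) : ℂ)) = 0 := by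
    apply Finset.sum_eq_zero
    intro i _
    rw [← Finset.mul_sum, h, mul_zero]
  have h2 : ∑ i : Fin k, ∑ j : Fin k, (starRingEnd ℂ (z j)) * ((z i + z j) / ((s i + s j : ℝ) : ℂ)) = 0 := by
    rw [Finset.sum_comm, ← h1]
    refine Finset.sum_congr rfl fun i _ => Finset.sum_congr rfl fun j _ => ?_
    rw [add_comm (z j), add_comm (s j)]
  have h3 : ∑ i : Fin k, ∑ j : Fin k, Complex.normSq (z i + z j) / (s i + s j) = 0 := by
    have h4 : ((∑ i : Fin k, ∑ j : Fin k, Complex.normSq (z i + z j) / (s i + s j) : ℝ) : ℂ) = 0 := by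
      push_cast
      have h5 := congrArg₂ (· + ·) h1 h2
      simp only [← Finset.sum_add_distrib, add_zero] at h5
      rw [← h5]
      refine Finset.sum_congr rfl fun i _ => Finset.sum_congr rfl fun j _ => ?_
      rw [← Complex.mul_conj, map_add]
      push_cast
      ring
    exact_mod_cast h4
  have hnn : ∀ i j : Fin k, 0 ≤ Complex.normSq (z i + z j) / (s i + s j) := fun i j =>
    div_nonneg (Complex.normSq_nonneg _) (add_pos (hs _) (hs _)).le
  have h4 := (Finset.sum_eq_zero_iff_of_nonneg (fun i _ => Finset.sum_nonneg fun j _ => hnn i j)).1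
    h3 i (Finset.mem_univ _)
  have h5 := (Finset.sum_eq_zero_iff_of_nonneg (fun j _ => hnn i j)).1 h4 i (Finset.mem_univ _)
  rw [div_eq_zero_iff] at h5
  rcases h5 with h5 | h5
  · rw [Complex.normSq_eq_zero] at h5
    have : (2 : ℂ) * z i = 0 := by rw [two_mul]; exact h5
    simpa using this
  · exact absurd h5 (add_pos (hs _) (hs _)).ne'

theorem sum_expand {k : ℕ} (i j : ℕ) (hij : i ≠ j) (a b : ℂ) (f : Fin k → ℂ) :
    ∑ l : Fin k, (1 + if (l : ℕ) = j then a else 0) * (1 - if (l : ℕ) = i then b else 0) * f l =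
      ∑ l : Fin k, f l + (if h : j < k then a * f ⟨j, h⟩ else 0) -
        (if h : i < k then b * f ⟨i, h⟩ else 0) := by
  have h1 : ∀ (j : ℕ) (a : ℂ), ∑ l : Fin k, (if (l : ℕ) = j then a else 0) * f l =
      if h : j < k then a * f ⟨j, h⟩ else 0 := by
    intro j a
    split_ifs with h
    · rw [Finset.sum_eq_single (⟨j, h⟩ : Fin k)]
      · simp
      · intro l _ hl
        have : (l : ℕ) ≠ j := fun h' => hl (Fin.ext h')
        simp [this]
      · simp
    · apply Finset.sum_eq_zero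
      intro l _
      have : (l : ℕ) ≠ j := fun h' => h (h' ▸ l.2)
      simp [this]
  rw [← h1 j a, ← h1 i b, ← Finset.sum_add_distrib, ← Finset.sum_sub_distrib]
  refine Finset.sum_congr rfl fun l _ => ?_
  by_cases h2 : (l : ℕ) = j
  · have h3 : (l : ℕ) ≠ i := fun h => hij (h.symm.trans h2)
    simp only [h2, if_true, if_neg (fun h => hij (h.symm) : ¬ j = i)]
    ring
  · simp only [h2, if_false]
    ring

/-- The rigid linear system. -/
theorem rigid_system {k k' : ℕ} (hk : k ≤ k') (s : ℕ → ℝ) (hs : ∀ l, 0 < s l)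
    (hinj : Function.Injective s) (M : Fin k → Fin k' → ℂ)
    (hb : ∀ i j : Fin k, i ≠ j → ∑ l : Fin k', (1 + if (l : ℕ) = j then (s j : ℂ) else 0) *
      (1 - if (l : ℕ) = i then (s i : ℂ) else 0) * (M j l - M i l) = 0)
    (ha : ∀ i j : Fin k', i ≠ j → ∑ l : Fin k, (1 + if (l : ℕ) = j then (s j : ℂ) else 0) *
      (1 - if (l : ℕ) = i then (s i : ℂ) else 0) * (M l j - M l i) = 0) :
    ∀ i j i' j', M i j = M i' j' := by
  have hsc : ∀ l, (s l : ℂ) ≠ 0 := fun l => by exact_mod_cast (hs l).ne'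
  have hssc : ∀ l l', (s l : ℂ) + (s l' : ℂ) ≠ 0 := fun l l' => by
    exact_mod_cast (add_pos (hs l) (hs l')).ne'
  obtain ⟨e, he⟩ : ∃ e : Fin k → Fin k', e = Fin.castLE hk := ⟨_, rfl⟩
  have hev : ∀ i : Fin k, ((e i : Fin k') : ℕ) = i := fun i => by rw [he]; rfl
  have hemk : ∀ (i : Fin k) (h : (i : ℕ) < k'), (⟨i, h⟩ : Fin k') = e i := fun i h =>
    Fin.ext (hev i).symm
  have hne : ∀ {N : ℕ} {i j : Fin N}, i ≠ j → (i : ℕ) ≠ j := fun h h' => h (Fin.ext h')
  -- the equations
  have hb' : ∀ i j : Fin k, i ≠ j → ∑ l, (M j l - M i l) + (s j : ℂ) * (M j (e j) - M i (e j)) -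
      (s i : ℂ) * (M j (e i) - M i (e i)) = 0 := by
    intro i j hij
    have h1 := hb i j hij
    rw [sum_expand (i : ℕ) (j : ℕ) (hne hij)] at h1
    rw [dif_pos (lt_of_lt_of_le j.2 hk), dif_pos (lt_of_lt_of_le i.2 hk), hemk, hemk] at h1
    exact h1
  have ha' : ∀ i j : Fin k, i ≠ j → ∑ l, (M l (e j) - M l (e i)) +
      (s j : ℂ) * (M j (e j) - M j (e i)) - (s i : ℂ) * (M i (e j) - M i (e i)) = 0 := by
    intro i j hij
    have hij' : e i ≠ e j := fun h => hij (Fin.ext (by rw [← hev i, ← hev j, h]))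
    have h1 := ha (e i) (e j) hij'
    simp only [hev] at h1
    rw [sum_expand (i : ℕ) (j : ℕ) (hne hij)] at h1
    rw [dif_pos j.2, dif_pos i.2] at h1
    exact h1
  have ha'' : ∀ (i : Fin k) (j : Fin k'), k ≤ (j : ℕ) → ∑ l, (M l j - M l (e i)) -
      (s i : ℂ) * (M i j - M i (e i)) = 0 ∧ ∑ l, (M l (e i) - M l j) +
      (s i : ℂ) * (M i (e i) - M i j) = 0 := by
    intro i j hj
    have hij' : e i ≠ j := fun h => by
      have := hev i
      rw [h] at this
      have := i.2
      omega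
    have hij : (i : ℕ) ≠ (j : ℕ) := by have := i.2; omega
    have h1 := ha (e i) j hij'
    have h2 := ha j (e i) hij'.symm
    simp only [hev] at h1 h2
    rw [sum_expand (i : ℕ) (j : ℕ) hij] at h1
    rw [sum_expand (j : ℕ) (i : ℕ) hij.symm] at h2
    rw [dif_pos i.2, dif_neg (by omega)] at h1
    rw [dif_pos i.2, dif_neg (by omega)] at h2
    constructor
    · rw [← h1]; simp
    · rw [← h2]; simp
  -- symmetry
  have hneg : ∀ {N : ℕ} (f g : Fin N → ℂ), ∑ l, (f l - g l) = -∑ l, (g l - f l) := by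
    intro N f g
    rw [← Finset.sum_neg_distrib]
    exact Finset.sum_congr rfl fun l _ => by ring
  have hsym : ∀ i j : Fin k, M i (e j) = M j (e i) := by
    intro i j
    by_cases hij : i = j
    · rw [hij]
    have b1 := hb' i j hij
    have b2 := hb' j i (Ne.symm hij)
    have a1 := ha' i j hij
    have a2 := ha' j i (Ne.symm hij)
    rw [hneg (fun l => M i l) (fun l => M j l)] at b2
    rw [hneg (fun l => M l (e i)) (fun l => M l (e j))] at a2
    have hs' : (s j : ℂ) - (s i : ℂ) ≠ 0 := by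
      rw [sub_ne_zero]
      intro h
      exact hne hij (hinj (by exact_mod_cast h)).symm
    have : ((s j : ℂ) - (s i : ℂ)) * (M i (e j) - M j (e i)) = 0 := by
      linear_combination -(1 / 2 : ℂ) * b1 - (1 / 2 : ℂ) * b2 + (1 / 2 : ℂ) * a1 +
        (1 / 2 : ℂ) * a2
    rcases mul_eq_zero.1 this with h | h
    · exact absurd h hs'
    · exact sub_eq_zero.1 h
  have hmean : ∀ i j : Fin k, ((s i : ℂ) + (s j : ℂ)) * M i (e j) =
      (s i : ℂ) * M i (e i) + (s j : ℂ) * M j (e j) := by
    intro i j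
    by_cases hij : i = j
    · rw [hij]; ring
    have b1 := hb' i j hij
    have b2 := hb' j i (Ne.symm hij)
    rw [hneg (fun l => M i l) (fun l => M j l)] at b2
    have h1 := hsym i j
    linear_combination -(1 / 2 : ℂ) * b1 - (1 / 2 : ℂ) * b2 + (s i : ℂ) * h1
  have hcol : ∀ i j : Fin k, ∑ l, M l (e i) = ∑ l, M l (e j) := by
    intro i j
    by_cases hij : i = j
    · rw [hij]
    have a1 := ha' i j hij
    have h1 := hsym i j
    have h2 := hmean i j
    rw [Finset.sum_sub_distrib] at a1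
    linear_combination -a1 - h2 + (s j : ℂ) * h1
  have hfar : ∀ (i : Fin k) (j : Fin k'), k ≤ (j : ℕ) → M i j = M i (e i) := by
    intro i j hj
    obtain ⟨h1, h2⟩ := ha'' i j hj
    rw [hneg] at h2
    have h3 : (s i : ℂ) * (M i j - M i (e i)) = 0 := by
      linear_combination -(1 / 2 : ℂ) * h1 - (1 / 2 : ℂ) * h2
    rcases mul_eq_zero.1 h3 with h | h
    · exact absurd h (hsc _)
    · exact sub_eq_zero.1 h
  -- the diagonal is constant
  have hdiag : ∀ i : Fin k, M i (e i) = (∑ l, M l (e i)) / k := by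
    intro i
    have hk0 : (k : ℂ) ≠ 0 := by
      have := i.2
      exact_mod_cast (by omega : k ≠ 0)
    obtain ⟨C, hC⟩ : ∃ C, C = ∑ l, M l (e i) := ⟨_, rfl⟩
    have hCj : ∀ j, ∑ l, M l (e j) = C := fun j => by rw [hC]; exact hcol j i
    have hz := posdef_zero s hs (fun j => (s j : ℂ) * M j (e j) - C / k * s j) (by
      intro j
      have h1 : ∀ l : Fin k, ((s j : ℂ) * M j (e j) - C / k * s j +
          ((s l : ℂ) * M l (e l) - C / k * s l)) / ((s j + s l : ℝ) : ℂ) = M l (e j) - C / k := by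
        intro l
        have h2 := hmean l j
        have h3 := hssc j l
        push_cast
        rw [div_eq_iff h3]
        linear_combination -h2
      rw [Finset.sum_congr rfl fun l _ => h1 l, Finset.sum_sub_distrib, hCj, Finset.sum_const,
        Finset.card_univ, Fintype.card_fin, nsmul_eq_mul, mul_div_cancel₀ _ hk0, sub_self]) i
    rw [← hC]
    have h4 : (s i : ℂ) * (M i (e i) - C / k) = 0 := by
      linear_combination hz
    rcases mul_eq_zero.1 h4 with h | h
    · exact absurd h (hsc _)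
    · exact sub_eq_zero.1 h
  have hall : ∀ (i : Fin k) (j : Fin k'), M i j = (∑ l, M l (e i)) / k := by
    intro i j
    by_cases hj : (j : ℕ) < k
    · have hje : j = e ⟨j, hj⟩ := Fin.ext (hev ⟨j, hj⟩).symm
      rw [hje]
      have h1 := hmean i ⟨j, hj⟩
      have h2 := hdiag i
      have h3 := hdiag ⟨j, hj⟩
      rw [hcol _ i] at h3
      rw [h2, h3] at h1
      have h4 := hssc i (⟨j, hj⟩ : Fin k)
      apply mul_left_cancel₀ h4
      rw [h1]
      ring
    · rw [hfar i j (by omega), hdiag]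
  intro i j i' j'
  rw [hall, hall, hcol i i']

end Vale.Agent.P002R
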