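import Vale.Agent.P002R.RBlockD
import Vale.Agent.P002R.RBlockF

/-!
# The dual lemma for block data, part E: the special matrix `B`
-/

namespace Vale.Agent.P002R

open Matrix

variable {r : ℕ}

/-- Size of a block. -/
def bk (c : Fin r → Fin r) (b : Fin r) : ℕ := Fintype.card {i : Fin r // c i = b}

/-- Enumeration of a block. -/
noncomputable def be (c : Fin r → Fin r) (b : Fin r) : {i : Fin r // c i = b} ≃ Fin (bk c b) :=
  Fintype.equivFin _

/-- Labels. -/
noncomputable def lab (c : Fin r → Fin r) (i : Fin r) : ℕ := (be c (c i) ⟨i, rfl⟩ : ℕ)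

/-- The element of a block with a given label. -/
noncomputable def bi (c : Fin r → Fin r) (b : Fin r) (l : Fin (bk c b)) : Fin r :=
  ((be c b).symm l : {i : Fin r // c i = b})

theorem c_bi (c : Fin r → Fin r) (b : Fin r) (l : Fin (bk c b)) : c (bi c b l) = b :=
  ((be c b).symm l).2

theorem lab_bi (c : Fin r → Fin r) (b : Fin r) (l : Fin (bk c b)) : lab c (bi c b l) = l := by
  have h : ∀ (i : Fin r) (b : Fin r) (h : c i = b), lab c i = (be c b ⟨i, h⟩ : ℕ) := by
    rintro i b rfl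
    rfl
  rw [h (bi c b l) b (c_bi c b l)]
  have : (⟨bi c b l, c_bi c b l⟩ : {i : Fin r // c i = b}) = (be c b).symm l := rfl
  rw [this, Equiv.apply_symm_apply]

theorem exists_bi (c : Fin r → Fin r) (b : Fin r) (i : Fin r) (h : c i = b) :
    ∃ l, bi c b l = i := ⟨be c b ⟨i, h⟩, by rw [bi, Equiv.symm_apply_apply]⟩

theorem bi_injective (c : Fin r → Fin r) (b : Fin r) : Function.Injective (bi c b) := by
  intro l l' h
  exact (be c b).symm.injective (Subtype.ext h)

theorem sum_block (c : Fin r → Fin r) (b : Fin r) (f : Fin r → ℂ) :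
    ∑ l, (if c l = b then f l else 0) = ∑ l : Fin (bk c b), f (bi c b l) := by
  rw [← Finset.sum_filter]
  symm
  apply Finset.sum_bij (fun l _ => bi c b l)
  · intro l _
    simp [c_bi]
  · intro l _ l' _ h
    exact bi_injective c b h
  · intro i hi
    obtain ⟨l, hl⟩ := exists_bi c b i (Finset.mem_filter.1 hi).2
    exact ⟨l, Finset.mem_univ _, hl⟩
  · intro l _
    rfl

/-- The weights. -/
noncomputable def sw (l : ℕ) : ℝ := 1 / ((l : ℝ) + 2)

theorem sw_pos (l : ℕ) : 0 < sw l := by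
  unfold sw
  positivity

theorem sw_le (l : ℕ) : sw l ≤ 1 / 2 := by
  unfold sw
  apply one_div_le_one_div_of_le (by norm_num)
  have : (0 : ℝ) ≤ l := Nat.cast_nonneg l
  linarith

theorem sw_injective : Function.Injective sw := by
  intro l l' h
  unfold sw at h
  have h1 : (l : ℝ) + 2 = (l' : ℝ) + 2 := by
    have := congrArg (fun x : ℝ => x⁻¹) h
    simpa using this
  have : (l : ℝ) = l' := by linarith
  exact_mod_cast this

/-- The weight of a pair. -/
noncomputable def wt (c : Fin r → Fin r) (i j : Fin r) : ℝ :=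
  if lab c i = lab c j then sw (lab c i) else 0

theorem wt_nonneg (c : Fin r → Fin r) (i j : Fin r) : 0 ≤ wt c i j := by
  unfold wt
  split_ifs
  · exact (sw_pos _).le
  · exact le_rfl

theorem wt_le (c : Fin r → Fin r) (i j : Fin r) : wt c i j ≤ 1 / 2 := by
  unfold wt
  split_ifs
  · exact sw_le _
  · norm_num

theorem wt_symm (c : Fin r → Fin r) (i j : Fin r) : wt c i j = wt c j i := by
  unfold wt
  by_cases h : lab c i = lab c j
  · rw [if_pos h, if_pos h.symm, h]
  · rw [if_neg h, if_neg (Ne.symm h)]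

/-- The special matrix (real entries). -/
noncomputable def Br (c : Fin r → Fin r) (i j : Fin r) : ℝ :=
  if c i < c j then 4 * (1 + wt c i j) else if c j < c i then 1 - wt c i j else 1

/-- The special matrix. -/
noncomputable def Bsp (c : Fin r → Fin r) : Mat r ℂ := Matrix.of fun i j => (Br c i j : ℂ)

theorem Br_pos (c : Fin r → Fin r) (i j : Fin r) : 0 < Br c i j := by
  have h1 := wt_nonneg c i j
  have h2 := wt_le c i j
  unfold Br
  split_ifs
  · linarith
  · linarith
  · norm_num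

theorem Br_lt {c : Fin r → Fin r} {i j : Fin r} (h : c i < c j) :
    Br c i j = 4 * (1 + wt c i j) := by
  unfold Br
  rw [if_pos h]

theorem Br_gt {c : Fin r → Fin r} {i j : Fin r} (h : c j < c i) : Br c i j = 1 - wt c i j := by
  unfold Br
  rw [if_neg (not_lt.2 h.le), if_pos h]

section

variable {L : Type*} {P : L → (Mat r ℂ)ˣ} {c : Fin r → Fin r} {D : ℕ} {μ : Mat r ℂ}

theorem LimOK.anti' (hL : LimOK P c D μ (Bsp c)) (hD : 2 * r ≤ D) (q₀ : L) (α : Fin r → ℂ)
    (hα : Function.Injective α) (hq₀ : (P q₀ : Mat r ℂ) = diagonal α) (i j : Fin r) :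
    μ i j = - μ j i := by
  by_cases h : c i = c j
  · rw [hL.zero i j h, hL.zero j i h.symm, neg_zero]
  · have h1 := hL.anti hD q₀ α hα hq₀ i j h
    have h2 : Bsp c i j * Bsp c j i ≠ 0 := by
      rw [Bsp, Matrix.of_apply, Matrix.of_apply, ← Complex.ofReal_mul]
      exact_mod_cast (mul_pos (Br_pos c i j) (Br_pos c j i)).ne'
    have h3 := (mul_eq_zero.1 h1).resolve_left h2
    linear_combination h3

/-- One half of the hypotheses of the rigid system. -/
theorem LimOK.half (hL : LimOK P c D μ (Bsp c)) (hD : 2 * r ≤ D) (hD' : r + 1 ≤ D) (q₀ : L)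
    (α : Fin r → ℂ) (hα : Function.Injective α) (hq₀ : (P q₀ : Mat r ℂ) = diagonal α)
    (htri : ∀ q i j, c j < c i → (P q : Mat r ℂ) i j = 0)
    (hconn : ∀ i j, c i = c j → ∃ p, (wP P p : Mat r ℂ) i j ≠ 0) (b b' : Fin r) (hb : b ≠ b')
    (i j : Fin (bk c b)) (_hij : i ≠ j) :
    ∑ l : Fin (bk c b'), (1 + if (l : ℕ) = j then (sw j : ℂ) else 0) *
      (1 - if (l : ℕ) = i then (sw i : ℂ) else 0) *
        (μ (bi c b j) (bi c b' l) - μ (bi c b i) (bi c b' l)) = 0 := by
  have hrel : ∀ i j : Fin (bk c b), ∑ l : Fin (bk c b'), Bsp c (bi c b j) (bi c b' l) *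
      Bsp c (bi c b' l) (bi c b i) * (μ (bi c b i) (bi c b' l) - μ (bi c b j) (bi c b' l)) = 0 := by
    intro i j
    obtain ⟨p, hp⟩ := hconn (bi c b i) (bi c b j) (by rw [c_bi c, c_bi c])
    have h1 := hL.rel hD' q₀ α hα hq₀ htri (bi c b i) (bi c b j) b' (by rw [c_bi c, c_bi c])
      (by rw [c_bi c]; exact hb) p hp
    rw [sum_block c b' (fun l => Bsp c (bi c b j) l * Bsp c l (bi c b i) *
      (μ (bi c b i) l + μ l (bi c b j)))] at h1
    refine Eq.trans ?_ h1
    refine Finset.sum_congr rfl fun l _ => ?_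
    rw [hL.anti' hD q₀ α hα hq₀ (bi c b' l) (bi c b j)]
    ring
  have hw : ∀ (i : Fin (bk c b)) (l : Fin (bk c b')), ((wt c (bi c b i) (bi c b' l) : ℝ) : ℂ) =
      if (l : ℕ) = i then (sw i : ℂ) else 0 := by
    intro i l
    unfold wt
    rw [lab_bi, lab_bi]
    by_cases h : (l : ℕ) = i
    · rw [if_pos h.symm, if_pos h]
    · rw [if_neg (Ne.symm h), if_neg h]; simp
  have hw' : ∀ (i : Fin (bk c b)) (l : Fin (bk c b')), ((wt c (bi c b' l) (bi c b i) : ℝ) : ℂ) =
      if (l : ℕ) = i then (sw i : ℂ) else 0 := by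
    intro i l
    rw [wt_symm, hw]
  rcases lt_or_gt_of_ne hb with hlt | hlt
  · have h1 := hrel i j
    have h2 : ∀ l : Fin (bk c b'), Bsp c (bi c b j) (bi c b' l) *
      Bsp c (bi c b' l) (bi c b i) * (μ (bi c b i) (bi c b' l) - μ (bi c b j) (bi c b' l)) =
      -4 * ((1 + if (l : ℕ) = j then (sw j : ℂ) else 0) *
      (1 - if (l : ℕ) = i then (sw i : ℂ) else 0) *
        (μ (bi c b j) (bi c b' l) - μ (bi c b i) (bi c b' l))) := by
      intro l
      rw [Bsp, Matrix.of_apply, Matrix.of_apply,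
        Br_lt (by rw [c_bi c, c_bi c]; exact hlt : c (bi c b j) < c (bi c b' l)),
        Br_gt (by rw [c_bi c, c_bi c]; exact hlt : c (bi c b i) < c (bi c b' l))]
      rw [← hw j l, ← hw' i l]
      push_cast
      ring
    rw [Finset.sum_congr rfl fun l _ => h2 l, ← Finset.mul_sum] at h1
    exact (mul_eq_zero.1 h1).resolve_left (by norm_num)
  · have h1 := hrel j i
    have h2 : ∀ l : Fin (bk c b'), Bsp c (bi c b i) (bi c b' l) *
      Bsp c (bi c b' l) (bi c b j) * (μ (bi c b j) (bi c b' l) - μ (bi c b i) (bi c b' l)) =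
      4 * ((1 + if (l : ℕ) = j then (sw j : ℂ) else 0) *
      (1 - if (l : ℕ) = i then (sw i : ℂ) else 0) *
        (μ (bi c b j) (bi c b' l) - μ (bi c b i) (bi c b' l))) := by
      intro l
      rw [Bsp, Matrix.of_apply, Matrix.of_apply,
        Br_gt (by rw [c_bi c, c_bi c]; exact hlt : c (bi c b' l) < c (bi c b i)),
        Br_lt (by rw [c_bi c, c_bi c]; exact hlt : c (bi c b' l) < c (bi c b j))]
      rw [← hw i l, ← hw' j l]
      push_cast
      ring
    rw [Finset.sum_congr rfl fun l _ => h2 l, ← Finset.mul_sum] at h1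
    exact (mul_eq_zero.1 h1).resolve_left (by norm_num)

/-- `μ` is constant on pairs of blocks. -/
theorem LimOK.const (hL : LimOK P c D μ (Bsp c)) (hD : 2 * r ≤ D) (hD' : r + 1 ≤ D) (q₀ : L)
    (α : Fin r → ℂ) (hα : Function.Injective α) (hq₀ : (P q₀ : Mat r ℂ) = diagonal α)
    (htri : ∀ q i j, c j < c i → (P q : Mat r ℂ) i j = 0)
    (hconn : ∀ i j, c i = c j → ∃ p, (wP P p : Mat r ℂ) i j ≠ 0) (i j i' j' : Fin r)
    (hi : c i = c i') (hj : c j = c j') : μ i j = μ i' j' := by
  by_cases hij : c i = c j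
  · rw [hL.zero i j hij, hL.zero i' j' (by rw [← hi, ← hj, hij])]
  have hanti := hL.anti' hD q₀ α hα hq₀
  have key : ∀ b b' : Fin r, b ≠ b' → bk c b ≤ bk c b' → ∀ (i i' : Fin (bk c b))
      (j j' : Fin (bk c b')), μ (bi c b i) (bi c b' j) = μ (bi c b i') (bi c b' j') := by
    intro b b' hb hk i i' j j'
    apply rigid_system hk sw sw_pos sw_injective (fun i j => μ (bi c b i) (bi c b' j))
    · intro i j hij
      exact hL.half hD hD' q₀ α hα hq₀ htri hconn b b' hb i j hij
    · intro i j hij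
      have h1 := hL.half hD hD' q₀ α hα hq₀ htri hconn b' b hb.symm i j hij
      rw [← neg_eq_zero, ← Finset.sum_neg_distrib] at h1
      refine Eq.trans ?_ h1
      refine Finset.sum_congr rfl fun l _ => ?_
      rw [hanti (bi c b' j) (bi c b l), hanti (bi c b' i) (bi c b l)]
      ring
  obtain ⟨l₁, h1⟩ := exists_bi c (c i) i rfl
  obtain ⟨l₂, h2⟩ := exists_bi c (c i) i' hi.symm
  obtain ⟨l₃, h3⟩ := exists_bi c (c j) j rfl
  obtain ⟨l₄, h4⟩ := exists_bi c (c j) j' hj.symm
  rcases le_total (bk c (c i)) (bk c (c j)) with hk | hk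
  · have := key (c i) (c j) hij hk l₁ l₂ l₃ l₄
    rwa [h1, h2, h3, h4] at this
  · have := key (c j) (c i) (Ne.symm hij) hk l₃ l₄ l₁ l₂
    rw [h1, h2, h3, h4] at this
    rw [hanti i j, hanti i' j', this]

theorem Tri_eq (B : Mat r ℂ) (b₁ b₂ b₃ : Fin r) :
    Tri μ B (eb c b₁) (eb c b₂) (eb c b₃) =
      ∑ k, ∑ i, ∑ j, (if c k = b₃ then (1 : ℂ) else 0) * (if c i = b₁ then (1 : ℂ) else 0) *
        (if c j = b₂ then (1 : ℂ) else 0) * (μ i k * (B k i * B i j * B j k)) := by
  unfold Tri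
  rw [Matrix.trace]
  refine Finset.sum_congr rfl fun k _ => ?_
  rw [Matrix.diag_apply, eb, eb, eb, mul_diagonal]
  have h1 : ((μᵀ ⊙ B) * (diagonal fun i => if c i = b₁ then (1 : ℂ) else 0) * B *
      (diagonal fun i => if c i = b₂ then (1 : ℂ) else 0) * B) k k =
      ∑ i, ∑ j, (μᵀ ⊙ B) k i * (if c i = b₁ then (1 : ℂ) else 0) * B i j *
        (if c j = b₂ then (1 : ℂ) else 0) * B j k := by
    rw [Matrix.mul_apply, Finset.sum_comm]
    refine Finset.sum_congr rfl fun j _ => ?_
    rw [mul_diagonal, Matrix.mul_apply, Finset.sum_mul, Finset.sum_mul]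
    refine Finset.sum_congr rfl fun i _ => ?_
    rw [mul_diagonal]
  rw [h1, Finset.sum_mul]
  refine Finset.sum_congr rfl fun i _ => ?_
  rw [Finset.sum_mul]
  refine Finset.sum_congr rfl fun j _ => ?_
  rw [Matrix.hadamard_apply, Matrix.transpose_apply]
  ring

end

end Vale.Agent.P002R
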