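import Vale.Agent.P002R.RBlockE

/-!
# The dual lemma for block data, part G: the cocycle relation between three blocks
-/

namespace Vale.Agent.P002R

open Matrix

variable {r : ℕ}

theorem Tri_ones (B : Mat r ℂ) (U₁ U₂ U₃ : Mat r ℂ) :
    Tri (Matrix.of fun _ _ => 1) B U₁ U₂ U₃ = trace (B * U₁ * B * U₂ * B * U₃) := by
  unfold Tri
  have : (Matrix.of fun _ _ => (1 : ℂ) : Mat r ℂ)ᵀ ⊙ B = B := by
    ext i j
    rw [Matrix.hadamard_apply, Matrix.transpose_apply, Matrix.of_apply, one_mul]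
  rw [this]

theorem trace_cyc (B e₁ e₂ e₃ : Mat r ℂ) : trace (B * e₂ * B * e₃ * B * e₁) =
    trace (B * e₁ * B * e₂ * B * e₃) := by
  have h : B * e₁ * B * e₂ * B * e₃ = (B * e₁) * (B * e₂ * B * e₃) := by simp only [mul_assoc]
  rw [h, Matrix.trace_mul_comm (B * e₁) (B * e₂ * B * e₃)]
  simp only [mul_assoc]

theorem beta_diff_pos {c : Fin r → Fin r} (i j k : Fin r) (h1 : c i < c j) (h2 : c j < c k) :
    0 < Br c k i * Br c i j * Br c j k - Br c j i * Br c i k * Br c k j := by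
  have h3 : c i < c k := h1.trans h2
  rw [Br_gt h3, Br_lt h1, Br_lt h2, Br_gt h1, Br_lt h3, Br_gt h2]
  have a0 := wt_nonneg c i j
  have a1 := wt_le c i j
  have b0 := wt_nonneg c j k
  have b1 := wt_le c j k
  have d0 := wt_nonneg c i k
  have d1 := wt_le c i k
  rw [wt_symm c k i, wt_symm c j i, wt_symm c k j]
  obtain ⟨a, ha⟩ : ∃ a, a = wt c i j := ⟨_, rfl⟩
  obtain ⟨b, hb⟩ : ∃ b, b = wt c j k := ⟨_, rfl⟩
  obtain ⟨d, hd⟩ : ∃ d, d = wt c i k := ⟨_, rfl⟩
  rw [← ha] at a0 a1 ⊢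
  rw [← hb] at b0 b1 ⊢
  rw [← hd] at d0 d1 ⊢
  have e1 : 1 ≤ (1 + a) * (1 + b) := by nlinarith [mul_nonneg a0 b0]
  have e2 : (1 / 2 : ℝ) ≤ (1 - d) * ((1 + a) * (1 + b)) := by nlinarith
  have e3 : (1 - a) * (1 - b) ≤ 1 := by nlinarith [mul_nonneg a0 b0]
  have e4 : 0 ≤ (1 - a) * (1 - b) := mul_nonneg (by linarith) (by linarith)
  have e5 : (1 + d) * ((1 - a) * (1 - b)) ≤ 3 / 2 := by nlinarith
  nlinarith

theorem beta_ne {c : Fin r → Fin r} (i₀ j₀ k₀ : Fin r) (h1 : c i₀ < c j₀) (h2 : c j₀ < c k₀) :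
    trace (Bsp c * eb c (c i₀) * Bsp c * eb c (c j₀) * Bsp c * eb c (c k₀)) ≠
      trace (Bsp c * eb c (c i₀) * Bsp c * eb c (c k₀) * Bsp c * eb c (c j₀)) := by
  intro h
  rw [← Tri_ones, ← Tri_ones, Tri_eq, Tri_eq] at h
  -- reorder the second sum
  have hre : ∀ F : Fin r → Fin r → Fin r → ℂ, ∑ k, ∑ i, ∑ j, F k i j = ∑ j, ∑ i, ∑ k, F k i j := by
    intro F
    calc ∑ k, ∑ i, ∑ j, F k i j = ∑ k, ∑ j, ∑ i, F k i j :=
          Finset.sum_congr rfl fun k _ => Finset.sum_comm
      _ = ∑ j, ∑ k, ∑ i, F k i j := Finset.sum_comm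
      _ = ∑ j, ∑ i, ∑ k, F k i j := Finset.sum_congr rfl fun k _ => Finset.sum_comm
  rw [hre (fun k i j => (if c k = c j₀ then (1 : ℂ) else 0) * (if c i = c i₀ then (1 : ℂ) else 0) *
        (if c j = c k₀ then (1 : ℂ) else 0) * ((Matrix.of fun _ _ => 1 : Mat r ℂ) i k *
          (Bsp c k i * Bsp c i j * Bsp c j k)))] at h
  have h3 : ∑ k, ∑ i, ∑ j, (if c k = c k₀ then (if c i = c i₀ then (if c j = c j₀ then
      (Br c k i * Br c i j * Br c j k - Br c j i * Br c i k * Br c k j) else 0) else 0) else 0) =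
        0 := by
    rw [← sub_eq_zero, ← Finset.sum_sub_distrib] at h
    have h4 : ((∑ k, ∑ i, ∑ j, (if c k = c k₀ then (if c i = c i₀ then (if c j = c j₀ then
      (Br c k i * Br c i j * Br c j k - Br c j i * Br c i k * Br c k j) else 0) else 0) else 0) :
        ℝ) : ℂ) = 0 := by
      push_cast
      refine Eq.trans ?_ h
      refine Finset.sum_congr rfl fun k _ => ?_
      rw [← Finset.sum_sub_distrib]
      refine Finset.sum_congr rfl fun i _ => ?_
      rw [← Finset.sum_sub_distrib]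
      refine Finset.sum_congr rfl fun j _ => ?_
      simp only [Matrix.of_apply, Bsp]
      by_cases hk : c k = c k₀
      · by_cases hi : c i = c i₀
        · by_cases hj : c j = c j₀
          · simp only [hk, hi, hj, if_true]
            push_cast
            ring
          · simp only [hk, hi, hj, if_true, if_false]
            push_cast
            ring
        · simp only [hk, hi, if_true, if_false]
          push_cast
          ring
      · simp only [hk, if_false]
        push_cast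
        ring
    exact_mod_cast h4
  have hnn : ∀ k i j, 0 ≤ (if c k = c k₀ then (if c i = c i₀ then (if c j = c j₀ then
      (Br c k i * Br c i j * Br c j k - Br c j i * Br c i k * Br c k j) else 0) else 0) else 0) := by
    intro k i j
    split_ifs with hk hi hj
    · exact (beta_diff_pos i j k (by rw [hi, hj]; exact h1) (by rw [hj, hk]; exact h2)).le
    · exact le_rfl
    · exact le_rfl
    · exact le_rfl
  have h5 := (Finset.sum_eq_zero_iff_of_nonneg (fun k _ => Finset.sum_nonneg fun i _ =>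
    Finset.sum_nonneg fun j _ => hnn k i j)).1 h3 k₀ (Finset.mem_univ _)
  have h6 := (Finset.sum_eq_zero_iff_of_nonneg (fun i _ =>
    Finset.sum_nonneg fun j _ => hnn k₀ i j)).1 h5 i₀ (Finset.mem_univ _)
  have h7 := (Finset.sum_eq_zero_iff_of_nonneg (fun j _ => hnn k₀ i₀ j)).1 h6 j₀
    (Finset.mem_univ _)
  rw [if_pos rfl, if_pos rfl, if_pos rfl] at h7
  exact (beta_diff_pos i₀ j₀ k₀ h1 h2).ne' h7

section

variable {L : Type*} {P : L → (Mat r ℂ)ˣ} {c : Fin r → Fin r} {D : ℕ} {μ : Mat r ℂ}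

theorem Tri_const (B : Mat r ℂ)
    (hc : ∀ i j i' j', c i = c i' → c j = c j' → μ i j = μ i' j') (i₁ k₃ : Fin r) (b₂ : Fin r) :
    Tri μ B (eb c (c i₁)) (eb c b₂) (eb c (c k₃)) =
      μ i₁ k₃ * trace (B * eb c (c i₁) * B * eb c b₂ * B * eb c (c k₃)) := by
  have h1 : eb c (c k₃) * (μᵀ ⊙ B) * eb c (c i₁) = μ i₁ k₃ • (eb c (c k₃) * B * eb c (c i₁)) := by
    ext k i
    rw [Matrix.smul_apply, eb, eb, mul_diagonal, mul_diagonal, diagonal_mul, diagonal_mul,
      Matrix.hadamard_apply, Matrix.transpose_apply, smul_eq_mul]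
    by_cases hk : c k = c k₃
    · by_cases hi : c i = c i₁
      · rw [hc i k i₁ k₃ hi hk]
        ring
      · rw [if_neg hi]; ring
    · rw [if_neg hk]; ring
  have h2 : ∀ V : Mat r ℂ, trace (V * eb c (c i₁) * B * eb c b₂ * B * eb c (c k₃)) =
      trace (eb c (c k₃) * V * eb c (c i₁) * (B * eb c b₂ * B)) := by
    intro V
    rw [Matrix.trace_mul_comm (V * eb c (c i₁) * B * eb c b₂ * B)]
    simp only [mul_assoc]
  unfold Tri
  rw [h2, h2, h1, Matrix.smul_mul, trace_smul, smul_eq_mul]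

/-- The cocycle relation for three different blocks in increasing order. -/
theorem LimOK.sorted (hL : LimOK P c D μ (Bsp c)) (hanti : ∀ i j, μ i j = -μ j i)
    (hc : ∀ i j i' j', c i = c i' → c j = c j' → μ i j = μ i' j') (i j k : Fin r)
    (h1 : c i < c j) (h2 : c j < c k) : μ i j + μ j k + μ k i = 0 := by
  have h3 := hL.three (c i) (c j) (c k) h1.ne h2.ne (h1.trans h2).ne
  unfold Six at h3
  rw [Tri_const (Bsp c) hc, Tri_const (Bsp c) hc, Tri_const (Bsp c) hc, Tri_const (Bsp c) hc,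
    Tri_const (Bsp c) hc, Tri_const (Bsp c) hc] at h3
  have e1 := trace_cyc (Bsp c) (eb c (c i)) (eb c (c j)) (eb c (c k))
  have e2 := trace_cyc (Bsp c) (eb c (c j)) (eb c (c k)) (eb c (c i))
  have e3 := trace_cyc (Bsp c) (eb c (c i)) (eb c (c k)) (eb c (c j))
  have e4 := trace_cyc (Bsp c) (eb c (c k)) (eb c (c j)) (eb c (c i))
  have hne := beta_ne (c := c) i j k h1 h2
  obtain ⟨β₁, hβ₁⟩ : ∃ β, β = trace (Bsp c * eb c (c i) * Bsp c * eb c (c j) * Bsp c * eb c (c k)) :=
    ⟨_, rfl⟩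
  obtain ⟨β₂, hβ₂⟩ : ∃ β, β = trace (Bsp c * eb c (c i) * Bsp c * eb c (c k) * Bsp c * eb c (c j)) :=
    ⟨_, rfl⟩
  rw [← hβ₁, ← hβ₂] at hne
  rw [e2, e1] at h3
  rw [e1] at e2
  rw [e4, e3] at h3
  rw [← hβ₁, ← hβ₂] at h3
  have h4 : (μ i j + μ j k + μ k i) * (β₂ - β₁) = 0 := by
    rw [hanti i k, hanti j i, hanti k j] at h3
    linear_combination h3
  rcases mul_eq_zero.1 h4 with h | h
  · exact h
  · exact absurd (sub_eq_zero.1 h).symm hne

/-- The cocycle relation. -/
theorem LimOK.cocycle (hL : LimOK P c D μ (Bsp c)) (hD : 2 * r ≤ D) (hD' : r + 1 ≤ D) (q₀ : L)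
    (α : Fin r → ℂ) (hα : Function.Injective α) (hq₀ : (P q₀ : Mat r ℂ) = diagonal α)
    (htri : ∀ q i j, c j < c i → (P q : Mat r ℂ) i j = 0)
    (hconn : ∀ i j, c i = c j → ∃ p, (wP P p : Mat r ℂ) i j ≠ 0) (i j k : Fin r) :
    μ i k = μ i j + μ j k := by
  have hanti := hL.anti' hD q₀ α hα hq₀
  have hc := hL.const hD hD' q₀ α hα hq₀ htri hconn
  have hs := hL.sorted hanti hc
  by_cases hij : c i = c j
  · rw [hL.zero i j hij, zero_add]
    exact hc i k j k hij rfl
  by_cases hjk : c j = c k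
  · rw [hL.zero j k hjk, add_zero]
    exact hc i k i j rfl hjk.symm
  by_cases hik : c i = c k
  · rw [hL.zero i k hik, hc j k j i rfl hik.symm, hanti j i]
    ring
  have key : μ i j + μ j k + μ k i = 0 := by
    rcases lt_or_gt_of_ne hij with h1 | h1 <;> rcases lt_or_gt_of_ne hjk with h2 | h2 <;>
      rcases lt_or_gt_of_ne hik with h3 | h3
    · exact hs i j k h1 h2
    · exact absurd (h1.trans h2) (not_lt.2 h3.le)
    · have := hs i k j h3 h2
      rw [hanti i k, hanti k j, hanti j i] at this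
      linear_combination -this
    · have := hs k i j h3 h1
      linear_combination this
    · have := hs j i k h1 h3
      rw [hanti j i, hanti i k, hanti k j] at this
      linear_combination -this
    · have := hs j k i h2 h3
      linear_combination this
    · exact absurd (h2.trans h1) (not_lt.2 h3.le)
    · have := hs k j i h2 h1
      rw [hanti k j, hanti j i, hanti i k] at this
      linear_combination -this
  rw [hanti k i] at key
  linear_combination -key

end

end Vale.Agent.P002R
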