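import Mathlib

/-!
# Statement of the density theorem: definitions
-/

namespace Vale.Agent.P002R.Statement

open Matrix NumberField

variable {g n r : ℕ}

/-- Generators of the fundamental group of a surface of genus `g` with `n` punctures:
`inl (i, false) = a_i`, `inl (i, true) = b_i` for `i < g`, and `inr j = c_j`, the boundary loop
around the `j`-th puncture. -/
abbrev Gens (g n : ℕ) := (Fin g × Bool) ⊕ Fin n

/-- `Rep_r(X)(A)`: tuples `(A_i, B_i, C_j)` in `SL_r(A)` with `∏ [A_i, B_i] * ∏ C_j = 1`, that is,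
representations of the fundamental group `⟨a_i, b_i, c_j | ∏ [a_i, b_i] * ∏ c_j⟩`. -/
def IsRep {A : Type*} [CommRing A] (X : Gens g n → SpecialLinearGroup (Fin r) A) : Prop :=
  (List.ofFn fun i : Fin g => X (Sum.inl (i, false)) * X (Sum.inl (i, true)) *
    (X (Sum.inl (i, false)))⁻¹ * (X (Sum.inl (i, true)))⁻¹).prod *
  (List.ofFn fun j : Fin n => X (Sum.inr j)).prod = 1

/-- The value of a polynomial in the matrix entries of the generators. -/
noncomputable def value {S A : Type*} [CommRing S] [CommRing A] [Algebra S A]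
    (F : MvPolynomial (Gens g n × Fin r × Fin r) S)
    (X : Gens g n → SpecialLinearGroup (Fin r) A) : A :=
  MvPolynomial.eval₂ (algebraMap S A) (fun p => (X p.1).1 p.2.1 p.2.2) F

/-- `F` defines an element of `𝒪(Rep_r)^{SL_r}` over `S`: a function on the scheme of
representations (over `S`) which is invariant under conjugation by the group scheme `SL_r`. -/
def IsInvariant {S : Type} [CommRing S] (F : MvPolynomial (Gens g n × Fin r × Fin r) S) : Prop :=
  ∀ (A : Type) [CommRing A] [Algebra S A] (X : Gens g n → SpecialLinearGroup (Fin r) A)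
    (P : SpecialLinearGroup (Fin r) A), IsRep X → value F (fun k => P * X k * P⁻¹) = value F X

/-- `W` is an invariant subspace. -/
def IsInvSubspace (X : Gens g n → SpecialLinearGroup (Fin r) ℂ)
    (W : Submodule ℂ (Fin r → ℂ)) : Prop :=
  ∀ k, ∀ v ∈ W, (X k).1 *ᵥ v ∈ W

/-- The points of `Y`, represented by the semisimple representations (every invariant subspace has
an invariant complement) with `ρ(c_j)` in the conjugacy class of `C j`. -/
def Y (g : ℕ) (C : Fin n → SpecialLinearGroup (Fin r) ℂ) :
    Set (Gens g n → SpecialLinearGroup (Fin r) ℂ) :=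
  {X | IsRep X ∧ (∀ W, IsInvSubspace X W → ∃ W', IsInvSubspace X W' ∧ IsCompl W W') ∧
    ∀ j, IsConj (C j) (X (Sum.inr j))}

/-- `z` is an eigenvalue of `M`. -/
def IsEigenvalue (M : SpecialLinearGroup (Fin r) ℂ) (z : ℂ) : Prop := M.1.charpoly.IsRoot z

/-- The `𝓞 L`-integral points of `M_r(X)(ℂ)`: all conjugation-invariant functions defined over
`ℤ` take values in `𝓞 L`. -/
def IsIntegralPoint (L : IntermediateField ℚ ℂ) (X : Gens g n → SpecialLinearGroup (Fin r) ℂ) :
    Prop :=
  ∀ F : MvPolynomial (Gens g n × Fin r × Fin r) ℤ, IsInvariant F → ∃ a : 𝓞 L, value F X = a.1.1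

/-- All matrices have entries in `𝓞 L`, that is, `X` comes from a representation into
`SL_r(𝓞 L)`. -/
def IsIntegralRep (L : IntermediateField ℚ ℂ) (X : Gens g n → SpecialLinearGroup (Fin r) ℂ) :
    Prop :=
  ∀ k i j, ∃ a : 𝓞 L, (X k).1 i j = a.1.1

/-- The classes of the elements of `S ⊆ T` are Zariski dense in the image of `T` in
`M_r(X)(ℂ)`: every invariant function that vanishes on `S` vanishes on `T`. -/
def IsZariskiDense (S T : Set (Gens g n → SpecialLinearGroup (Fin r) ℂ)) : Prop :=
  S ⊆ T ∧ ∀ F : MvPolynomial (Gens g n × Fin r × Fin r) ℂ, IsInvariant F →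
    (∀ X ∈ S, value F X = 0) → ∀ X ∈ T, value F X = 0

/-- `S ⊆ T` is Zariski dense in `T` as a set of points of the representation variety. -/
def IsZariskiDenseRep (S T : Set (Gens g n → SpecialLinearGroup (Fin r) ℂ)) : Prop :=
  S ⊆ T ∧ ∀ F : MvPolynomial (Gens g n × Fin r × Fin r) ℂ,
    (∀ X ∈ S, value F X = 0) → ∀ X ∈ T, value F X = 0

end Vale.Agent.P002R.Statement
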