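import Vale.Agent.P002R.RMain
import Vale.Agent.P002R.RStatement

/-!
# Translation of the main theorem into the language of representations of surface groups
-/

namespace Vale.Agent.P002R.Statement

open Matrix NumberField

variable {g n r : ℕ}

/-- The handle part and the boundary part of the relator. -/
theorem relators (g n : ℕ) : ∃ H P : FU g n, relatorU g n = P * H ∧
    ∀ {A : Type} [CommRing A] (X : Gens g n → SpecialLinearGroup (Fin r) A),
      IsRep X ↔ FreeGroup.lift X H * FreeGroup.lift X P = 1 := by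
  refine ⟨_, _, relatorU_eqn, ?_⟩
  intro A _ X
  rw [map_list_prod, map_list_prod, List.map_ofFn, List.map_ofFn]
  have e1 : (⇑(FreeGroup.lift X) ∘ fun j : Fin n => (FreeGroup.of (Sum.inr j) : FU g n)) =
      fun j => X (Sum.inr j) := by
    funext j
    simp
  have e2 : (⇑(FreeGroup.lift X) ∘ fun i : Fin g => (FreeGroup.of (Sum.inl (i, false)) *
      FreeGroup.of (Sum.inl (i, true)) * (FreeGroup.of (Sum.inl (i, false)))⁻¹ *
      (FreeGroup.of (Sum.inl (i, true)))⁻¹ : FU g n)) = fun i => X (Sum.inl (i, false)) *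
        X (Sum.inl (i, true)) * (X (Sum.inl (i, false)))⁻¹ * (X (Sum.inl (i, true)))⁻¹ := by
    funext i
    simp
  rw [e1, e2]
  exact Iff.rfl

theorem isRep_iff {A : Type} [CommRing A] (X : Gens g n → SpecialLinearGroup (Fin r) A) :
    IsRep X ↔ FreeGroup.lift X (relatorU g n) = 1 := by
  obtain ⟨H, P, h1, h2⟩ := relators (r := r) g n
  rw [h1, h2, map_mul]
  exact mul_eq_one_comm

/-- The representation of the free group attached to a complex representation. -/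
noncomputable def toU (X : Gens g n → SpecialLinearGroup (Fin r) ℂ) : FU g n →* (Mat r ℂ)ˣ :=
  SpecialLinearGroup.toGL.comp (FreeGroup.lift X)

theorem toU_coe (X : Gens g n → SpecialLinearGroup (Fin r) ℂ) (w : FU g n) :
    (toU X w : Mat r ℂ) = (FreeGroup.lift X w).1 := rfl

theorem toU_of (X : Gens g n → SpecialLinearGroup (Fin r) ℂ) (k : Gens g n) :
    toU X (FreeGroup.of k) = SpecialLinearGroup.toGL (X k) := by
  rw [toU, MonoidHom.comp_apply, FreeGroup.lift_apply_of]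

theorem evalG_toU (F : MvPolynomial (Gens g n × Fin r × Fin r) ℂ)
    (X : Gens g n → SpecialLinearGroup (Fin r) ℂ) : evalG (toU X) F = value F X := by
  rw [evalG_eqn, MvPolynomial.aeval_def, value]
  congr 1
  funext p
  rw [toU_of]
  rfl

theorem inv_stable (M : (Mat r ℂ)ˣ) (W : Submodule ℂ (Fin r → ℂ))
    (h : ∀ v ∈ W, (M : Mat r ℂ) *ᵥ v ∈ W) : ∀ v ∈ W, ((M⁻¹ : (Mat r ℂ)ˣ) : Mat r ℂ) *ᵥ v ∈ W := by
  intro v hv
  obtain ⟨T, hT⟩ : ∃ T : W →ₗ[ℂ] W, ∀ v, ((T v : W) : Fin r → ℂ) = (M : Mat r ℂ) *ᵥ v :=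
    ⟨(Matrix.mulVecLin (M : Mat r ℂ)).restrict h, fun v => rfl⟩
  have hMi : ((M⁻¹ : (Mat r ℂ)ˣ) : Mat r ℂ) * (M : Mat r ℂ) = 1 := M.inv_mul
  have hinj : Function.Injective T := by
    intro a b hab
    have h1 : (M : Mat r ℂ) *ᵥ (a : Fin r → ℂ) = (M : Mat r ℂ) *ᵥ (b : Fin r → ℂ) := by
      rw [← hT, ← hT, hab]
    apply Subtype.ext
    have h2 := congrArg (fun u => ((M⁻¹ : (Mat r ℂ)ˣ) : Mat r ℂ) *ᵥ u) h1
    simpa [Matrix.mulVec_mulVec, hMi] using h2
  obtain ⟨a, ha⟩ := (LinearMap.injective_iff_surjective.1 hinj) ⟨v, hv⟩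
  have h1 : v = (M : Mat r ℂ) *ᵥ (a : Fin r → ℂ) := by rw [← hT, ha]
  rw [h1, Matrix.mulVec_mulVec, hMi, Matrix.one_mulVec]
  exact a.2

theorem stable_iff (X : Gens g n → SpecialLinearGroup (Fin r) ℂ) (W : Submodule ℂ (Fin r → ℂ)) :
    (∀ w, ∀ v ∈ W, (toU X w : Mat r ℂ) *ᵥ v ∈ W) ↔ IsInvSubspace X W := by
  constructor
  · intro h k
    have := h (FreeGroup.of k)
    rw [toU_of] at this
    exact this
  · intro h w
    obtain ⟨H, hH⟩ : ∃ H : Subgroup (Mat r ℂ)ˣ, ∀ M, M ∈ H ↔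
        ∀ v ∈ W, (M : Mat r ℂ) *ᵥ v ∈ W :=
      ⟨{ carrier := {M | ∀ v ∈ W, (M : Mat r ℂ) *ᵥ v ∈ W}
         mul_mem' := fun {a b} ha hb v hv => by
          rw [Units.val_mul, ← Matrix.mulVec_mulVec]
          exact ha _ (hb v hv)
         one_mem' := fun v hv => by rwa [Units.val_one, Matrix.one_mulVec]
         inv_mem' := fun {a} ha => inv_stable a W ha }, fun M => Iff.rfl⟩
    have h1 : (⊤ : Subgroup (FU g n)) ≤ H.comap (toU X) := by
      rw [← FreeGroup.closure_range_of, Subgroup.closure_le]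
      rintro _ ⟨k, rfl⟩
      rw [SetLike.mem_coe, Subgroup.mem_comap, hH, toU_of]
      exact h k
    exact (hH _).1 (h1 (Subgroup.mem_top w))

theorem SS_toU (X : Gens g n → SpecialLinearGroup (Fin r) ℂ) :
    SS (toU X) ↔ ∀ W, IsInvSubspace X W → ∃ W', IsInvSubspace X W' ∧ IsCompl W W' := by
  unfold SS
  simp only [stable_iff]

theorem isConj_toGL (A B : SpecialLinearGroup (Fin r) ℂ)
    (h : IsConj (SpecialLinearGroup.toGL A : (Mat r ℂ)ˣ) (SpecialLinearGroup.toGL B)) :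
    IsConj A B := by
  rcases Nat.eq_zero_or_pos r with hr | hr
  · subst hr
    have : A = B := Subsingleton.elim _ _
    rw [this]
  obtain ⟨P, hP⟩ := isConj_iff.1 h
  have hd : (P : Mat r ℂ).det ≠ 0 := by
    have := P.isUnit
    rwa [Matrix.isUnit_iff_isUnit_det, isUnit_iff_ne_zero] at this
  obtain ⟨c, hc⟩ := IsAlgClosed.exists_pow_nat_eq ((P : Mat r ℂ).det⁻¹) hr
  have hQ : (c • (P : Mat r ℂ)).det = 1 := by
    rw [Matrix.det_smul, Fintype.card_fin, hc, inv_mul_cancel₀ hd]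
  obtain ⟨Q, hQ'⟩ : ∃ Q : SpecialLinearGroup (Fin r) ℂ,
      (Q : Matrix (Fin r) (Fin r) ℂ) = c • (P : Mat r ℂ) := ⟨⟨_, hQ⟩, rfl⟩
  rw [isConj_iff]
  refine ⟨Q, ?_⟩
  rw [mul_inv_eq_iff_eq_mul]
  apply Subtype.ext
  have h1 : (P : Mat r ℂ) * (A : Mat r ℂ) = (B : Mat r ℂ) * (P : Mat r ℂ) := by
    rw [mul_inv_eq_iff_eq_mul] at hP
    exact congrArg Units.val hP
  change (Q : Matrix (Fin r) (Fin r) ℂ) * (A : Matrix (Fin r) (Fin r) ℂ) =
    (B : Matrix (Fin r) (Fin r) ℂ) * (Q : Matrix (Fin r) (Fin r) ℂ)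
  rw [hQ', smul_mul_assoc, mul_smul_comm, h1]

theorem toGL_isConj (A B : SpecialLinearGroup (Fin r) ℂ) (h : IsConj A B) :
    IsConj (SpecialLinearGroup.toGL A : (Mat r ℂ)ˣ) (SpecialLinearGroup.toGL B) :=
  MonoidHom.map_isConj SpecialLinearGroup.toGL h

theorem IsIntegralRep.exists_lift {L : IntermediateField ℚ ℂ}
    {X : Gens g n → SpecialLinearGroup (Fin r) ℂ} (h : IsIntegralRep L X) :
    ∃ Z : Gens g n → SpecialLinearGroup (Fin r) (𝓞 L),
      ∀ k, X k = SpecialLinearGroup.map (phiO (algebraMap L ℂ)) (Z k) := by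
  choose a ha using h
  have h1 : ∀ k, (X k).1 = (Matrix.of (a k)).map (phiO (algebraMap L ℂ)) := by
    intro k
    ext i j
    exact ha k i j
  have h2 : ∀ k, (Matrix.of (a k)).det = 1 := by
    intro k
    apply phiO_injective (algebraMap L ℂ)
    rw [map_one, RingHom.map_det]
    have := (X k).2
    rw [h1] at this
    exact this
  refine ⟨fun k => ⟨Matrix.of (a k), h2 k⟩, fun k => Subtype.ext ?_⟩
  rw [h1]
  rfl

theorem isIntegralRep_map {L : IntermediateField ℚ ℂ}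
    (Z : Gens g n → SpecialLinearGroup (Fin r) (𝓞 L)) :
    IsIntegralRep L fun k => SpecialLinearGroup.map (phiO (algebraMap L ℂ)) (Z k) :=
  fun k i j => ⟨(Z k).1 i j, rfl⟩

theorem IsIntegralRep.isIntegralPoint {L : IntermediateField ℚ ℂ}
    {X : Gens g n → SpecialLinearGroup (Fin r) ℂ} (h : IsIntegralRep L X) :
    IsIntegralPoint L X := by
  obtain ⟨Z, hZ⟩ := h.exists_lift
  intro F _
  refine ⟨value F Z, ?_⟩
  have h1 : (phiO (algebraMap L ℂ)).comp (algebraMap ℤ (𝓞 L)) = algebraMap ℤ ℂ :=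
    RingHom.ext_int _ _
  rw [value, value, ← h1]
  change _ = phiO (algebraMap L ℂ) _
  rw [MvPolynomial.hom_eval₂]
  congr 1
  funext p
  rw [hZ]
  rfl

theorem IsZariskiDenseRep.isZariskiDense {L : IntermediateField ℚ ℂ}
    {T : Set (Gens g n → SpecialLinearGroup (Fin r) ℂ)}
    (h : IsZariskiDenseRep {X ∈ T | IsIntegralRep L X} T) :
    IsZariskiDense {X ∈ T | IsIntegralPoint L X} T :=
  ⟨fun _ hX => hX.1, fun F _ hF X hX =>
    h.2 F (fun X' hX' => hF X' ⟨hX'.1, hX'.2.isIntegralPoint⟩) X hX⟩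

theorem density_aux (C : Fin n → SpecialLinearGroup (Fin r) ℂ) (N : ℕ) (hN : 0 < N)
    (hCN : ∀ j, IsNilpotent ((C j : Mat r ℂ) ^ N - 1)) (hg : 3 ≤ g ∨ n = 0 ∨ (2 ≤ g ∧ N = 1))
    (L : IntermediateField ℚ ℂ) (hL : FiniteDimensional ℚ L)
    (hμ : ∀ k : ℕ, 0 < k → k ≤ r → ∀ z : ℂ, z ^ (2 * N * k) = 1 → z ∈ L)
    (hu : Infinite (𝓞 L)ˣ) :
    IsZariskiDenseRep {X ∈ Y g C | IsIntegralRep L X} (Y g C) := by
  have : NumberField L := { to_charZero := inferInstance, to_finiteDimensional := hL }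
  obtain ⟨u, hu⟩ := exists_unit_infinite_order (L := L) (algebraMap L ℂ)
  obtain ⟨φ, hφ⟩ : ∃ φ, φ = phiO (algebraMap L ℂ) := ⟨_, rfl⟩
  rw [← hφ] at hu
  have hφi : Function.Injective φ := by rw [hφ]; exact phiO_injective _
  obtain ⟨C', hC'⟩ : ∃ C' : Fin n → (Mat r ℂ)ˣ, C' = fun j => SpecialLinearGroup.toGL (C j) :=
    ⟨_, rfl⟩
  refine ⟨fun _ hX => hX.1, fun F hF X hX => ?_⟩
  rw [← evalG_toU]
  refine main_SL φ hφi u hu N hN (fun k hk hkr z hz => ?_) hg C' ?_ ?_ F ?_ (toU X) ?_ ?_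
  · rw [hφ]
    exact mem_range_phiO _ (by positivity) hz ⟨⟨z, hμ k hk hkr z hz⟩, rfl⟩
  · intro j
    rw [hC']
    exact hCN j
  · intro j
    rw [hC']
    exact (C j).2
  · intro y hy hyC hyS
    obtain ⟨Z, hZ⟩ : ∃ Z : Gens g n → SpecialLinearGroup (Fin r) (𝓞 L),
        ∀ k, Z k = y (FreeGroup.of k) := ⟨_, fun _ => rfl⟩
    obtain ⟨X', hX'⟩ : ∃ X' : Gens g n → SpecialLinearGroup (Fin r) ℂ,
        X' = fun k => SpecialLinearGroup.map (phiO (algebraMap L ℂ)) (Z k) := ⟨_, rfl⟩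
    have h0 : FreeGroup.lift X' = (SpecialLinearGroup.map (phiO (algebraMap L ℂ))).comp y := by
      apply FreeGroup.ext_hom
      intro k
      rw [FreeGroup.lift_apply_of, hX', MonoidHom.comp_apply, ← hZ]
    have h1 : (slU φ).comp y = toU X' := by
      rw [toU, h0, hφ]; rfl
    rw [h1, evalG_toU]
    refine hF _ ⟨⟨?_, ?_, fun j => isConj_toGL _ _ ?_⟩, ?_⟩
    · rw [isRep_iff, h0, MonoidHom.comp_apply, hy, map_one]
    · rw [← SS_toU, ← h1]; exact hyS
    · have := hyC j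
      rw [hC', ← MonoidHom.comp_apply, h1, toU_of] at this
      exact this
    · rw [hX']; exact isIntegralRep_map Z
  · refine ⟨?_, fun j => ?_, (SS_toU X).2 hX.2.1⟩
    · rw [toU, MonoidHom.comp_apply, (isRep_iff X).1 hX.1, map_one]
    · rw [hC', toU_of]
      exact toGL_isConj _ _ (hX.2.2 j)
  · intro w
    rw [toU_coe]
    exact (FreeGroup.lift X w).2

/-- The density theorem. -/
theorem density (C : Fin n → SpecialLinearGroup (Fin r) ℂ) (N : ℕ) (hN : 0 < N)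
    (hC : ∀ j z, IsEigenvalue (C j) z → z ^ N = 1)
    (hg : 3 ≤ g ∨ n = 0 ∨ (g = 2 ∧ ∀ j z, IsEigenvalue (C j) z → z = 1))
    (L : IntermediateField ℚ ℂ) (hL : FiniteDimensional ℚ L)
    (hμ : ∀ z : ℂ, z ^ (2 * N * r.factorial) = 1 → z ∈ L) (hu : Infinite (𝓞 L)ˣ) :
    IsZariskiDenseRep {X ∈ Y g C | IsIntegralRep L X} (Y g C) := by
  have hroots : ∀ N' : ℕ, N' ∣ N → ∀ k, 0 < k → k ≤ r → ∀ z : ℂ, z ^ (2 * N' * k) = 1 → z ∈ L := by
    intro N' hN' k hk hkr z hz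
    apply hμ
    obtain ⟨c, hc⟩ := mul_dvd_mul (mul_dvd_mul_left 2 hN') (Nat.dvd_factorial hk hkr)
    rw [hc, pow_mul, hz, one_pow]
  rcases hg with h | h | ⟨h, h'⟩
  · exact density_aux C N hN (fun j => isNilpotent_pow_sub_one_of_roots _ N fun z hz =>
      hC j z (Polynomial.isRoot_of_mem_roots hz)) (Or.inl h) L hL (hroots N dvd_rfl) hu
  · exact density_aux C N hN (fun j => isNilpotent_pow_sub_one_of_roots _ N fun z hz =>
      hC j z (Polynomial.isRoot_of_mem_roots hz)) (Or.inr (Or.inl h)) L hL (hroots N dvd_rfl) hu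
  · exact density_aux C 1 one_pos (fun j => isNilpotent_pow_sub_one_of_roots _ 1 fun z hz =>
      by rw [pow_one]; exact h' j z (Polynomial.isRoot_of_mem_roots hz))
      (Or.inr (Or.inr ⟨by omega, rfl⟩)) L hL (hroots 1 (one_dvd _)) hu

theorem exists_exponent (C : Fin n → SpecialLinearGroup (Fin r) ℂ)
    (hC : ∀ j z, IsEigenvalue (C j) z → ∃ k : ℕ, 0 < k ∧ z ^ k = 1) :
    ∃ N : ℕ, 0 < N ∧ ∀ j z, IsEigenvalue (C j) z → z ^ N = 1 := by
  classical
  obtain ⟨N, hN, h⟩ := exists_common_exponent_isRoot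
    (fun j => (C j : Matrix (Fin r) (Fin r) ℂ)) hC
  refine ⟨N, hN, fun j z hz => ?_⟩
  -- an eigenvector
  have hdet : (scalar (Fin r) z - (C j : Matrix (Fin r) (Fin r) ℂ)).det = 0 := by
    rw [← Matrix.eval_charpoly]
    exact hz
  obtain ⟨v, hv, hv'⟩ := Matrix.exists_mulVec_eq_zero_iff.2 hdet
  have h1 : (C j : Matrix (Fin r) (Fin r) ℂ) *ᵥ v = z • v := by
    rw [Matrix.sub_mulVec, sub_eq_zero] at hv'
    rw [← hv', Matrix.scalar_apply, ← Matrix.smul_one_eq_diagonal, Matrix.smul_mulVec,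
      Matrix.one_mulVec]
  have h2 : ∀ k : ℕ, (C j : Matrix (Fin r) (Fin r) ℂ) ^ k *ᵥ v = z ^ k • v := by
    intro k
    induction k with
    | zero => simp
    | succ k ih => rw [pow_succ, ← Matrix.mulVec_mulVec, h1, Matrix.mulVec_smul, ih, smul_smul,
        pow_succ']
  have h3 : ∀ k : ℕ, ((C j : Matrix (Fin r) (Fin r) ℂ) ^ N - 1) ^ k *ᵥ v =
      (z ^ N - 1) ^ k • v := by
    intro k
    induction k with
    | zero => simp
    | succ k ih => rw [pow_succ, ← Matrix.mulVec_mulVec, Matrix.sub_mulVec, h2, Matrix.one_mulVec,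
        show z ^ N • v - v = (z ^ N - 1) • v by rw [sub_smul, one_smul], Matrix.mulVec_smul, ih,
        smul_smul, pow_succ']
  obtain ⟨k, hk⟩ := h j
  have h4 := h3 k
  rw [hk, Matrix.zero_mulVec] at h4
  rcases smul_eq_zero.1 h4.symm with h5 | h5
  · exact sub_eq_zero.1 (eq_zero_of_pow_eq_zero h5)
  · exact absurd h5 hv

theorem exists_field (M : ℕ) (hM : 0 < M) : ∃ L : IntermediateField ℚ ℂ,
    FiniteDimensional ℚ L ∧ (∀ z : ℂ, z ^ M = 1 → z ∈ L) ∧ Infinite (𝓞 L)ˣ := by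
  obtain ⟨L, hL, hμ, u, hu⟩ := exists_numberField M hM
  refine ⟨L, hL, fun z hz => ?_, ?_⟩
  · obtain ⟨w, rfl⟩ := hμ z hz
    exact (algebraMap (𝓞 L) L w).2
  · refine Infinite.of_injective (fun k : ℕ => u ^ k) ?_
    intro a b hab
    by_contra hne
    wlog hlt : a < b generalizing a b
    · exact this hab.symm (Ne.symm hne) (lt_of_le_of_ne (not_lt.1 hlt) (Ne.symm hne))
    have h1 : u ^ (b - a) = 1 := by
      have h2 : u ^ a * u ^ (b - a) = u ^ a * 1 := by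
        rw [← pow_add, mul_one, Nat.add_sub_cancel' hlt.le]
        exact hab.symm
      exact mul_left_cancel h2
    refine hu (b - a) (by omega) ?_
    rw [← map_pow, ← Units.val_pow_eq_pow_val, h1, Units.val_one, map_one]

end Vale.Agent.P002R.Statement
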