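import Vale.Agent.P002R.RFreeE
import Vale.Agent.P002R.RProd

/-!
# Products of families of groups
-/

namespace Vale.Agent.P002R

open Matrix

section equiv

variable {κ ι κ' ι' : Type} {r : ℕ}

/-- Renaming of the generators. -/
def renE (e₁ : κ ≃ κ') (e₂ : ι ≃ ι') : FreeGroup (κ ⊕ ι) →* FreeGroup (κ' ⊕ ι') :=
  FreeGroup.map (Sum.map e₁ e₂)

theorem renE_inl (e₁ : κ ≃ κ') (e₂ : ι ≃ ι') (k : κ) :
    renE e₁ e₂ (FreeGroup.of (Sum.inl k)) = FreeGroup.of (Sum.inl (e₁ k)) := by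
  simp [renE]

theorem renE_inr (e₁ : κ ≃ κ') (e₂ : ι ≃ ι') (k : ι) :
    renE e₁ e₂ (FreeGroup.of (Sum.inr k)) = FreeGroup.of (Sum.inr (e₂ k)) := by
  simp [renE]

theorem renE_symm (e₁ : κ ≃ κ') (e₂ : ι ≃ ι') (w : FreeGroup (κ ⊕ ι)) :
    renE e₁.symm e₂.symm (renE e₁ e₂ w) = w := by
  have h : (renE e₁.symm e₂.symm).comp (renE e₁ e₂) = MonoidHom.id _ := by
    apply FreeGroup.ext_hom
    rintro (k | k)
    · rw [MonoidHom.comp_apply, renE_inl, renE_inl, Equiv.symm_apply_apply]; rfl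
    · rw [MonoidHom.comp_apply, renE_inr, renE_inr, Equiv.symm_apply_apply]; rfl
  exact DFunLike.congr_fun h w

theorem renE_symm' (e₁ : κ ≃ κ') (e₂ : ι ≃ ι') (w : FreeGroup (κ' ⊕ ι')) :
    renE e₁ e₂ (renE e₁.symm e₂.symm w) = w := renE_symm e₁.symm e₂.symm w

theorem SS.renE (e₁ : κ ≃ κ') (e₂ : ι ≃ ι') {x : FreeGroup (κ' ⊕ ι') →* (Mat r ℂ)ˣ} (hx : SS x) :
    SS (x.comp (P002R.renE e₁ e₂)) := by
  intro W hW
  obtain ⟨W', h1, h2⟩ := hx W (fun w v hv => by
    have := hW (P002R.renE e₁.symm e₂.symm w) v hv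
    rwa [MonoidHom.comp_apply, renE_symm'] at this)
  exact ⟨W', fun w v hv => h1 _ v hv, h2⟩

theorem range_renE (e₁ : κ ≃ κ') (e₂ : ι ≃ ι') (x : FreeGroup (κ' ⊕ ι') →* (Mat r ℂ)ˣ) :
    (Set.range fun w => ((x.comp (renE e₁ e₂)) w : Mat r ℂ)) = Set.range fun w => (x w : Mat r ℂ) := by
  ext M
  constructor
  · rintro ⟨w, rfl⟩
    exact ⟨_, rfl⟩
  · rintro ⟨w, rfl⟩
    refine ⟨renE e₁.symm e₂.symm w, ?_⟩
    simp only [MonoidHom.comp_apply, renE_symm']

theorem evalG_renE (e₁ : κ ≃ κ') (e₂ : ι ≃ ι') (x : FreeGroup (κ' ⊕ ι') →* (Mat r ℂ)ˣ)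
    (f : MvPolynomial ((κ' ⊕ ι') × Fin r × Fin r) ℂ) :
    evalG (x.comp (renE e₁ e₂)) (MvPolynomial.rename
      (fun p => (Sum.map e₁.symm e₂.symm p.1, p.2)) f) = evalG x f := by
  rw [evalG, evalG, MvPolynomial.aeval_rename]
  congr 2
  funext p
  rcases p with ⟨k | k, q⟩
  · simp [renE_inl, MonoidHom.comp_apply]
  · simp [renE_inr, MonoidHom.comp_apply]

theorem mem_DGT_renE (e₁ : κ ≃ κ') (e₂ : ι ≃ ι') {R : Type*} [CommRing R] (φ : R →+* ℂ)
    (Rel : Set (FreeGroup (κ ⊕ ι))) (Rel' : Set (FreeGroup (κ' ⊕ ι')))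
    (h : ∀ y : FreeGroup (κ ⊕ ι) →* (Mat r ℂ)ˣ, (∀ w ∈ Rel, y w = 1) →
      ∀ w ∈ Rel', y (renE e₁.symm e₂.symm w) = 1)
    (C' : ι' → (Mat r ℂ)ˣ) (y : FreeGroup (κ ⊕ ι) →* (Mat r ℂ)ˣ)
    (hy : y ∈ DGT Rel φ (C' ∘ e₂)) : y.comp (renE e₁.symm e₂.symm) ∈ DGT Rel' φ C' := by
  obtain ⟨⟨⟨h1, h2, h3⟩, h4⟩, h5⟩ := hy
  refine ⟨⟨⟨fun w hw => h y h1 w hw, fun j => ?_, h3.renE e₁.symm e₂.symm⟩, fun k => ?_⟩, ?_⟩
  · rw [MonoidHom.comp_apply, renE_inr]
    have := h2 (e₂.symm j)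
    rwa [Function.comp, Equiv.apply_symm_apply] at this
  · rcases k with k | k
    · rw [MonoidHom.comp_apply, renE_inl]; exact h4 _
    · rw [MonoidHom.comp_apply, renE_inr]; exact h4 _
  · rw [range_renE]; exact h5

/-- Invariance under renaming of the generators and change of the relators. -/
theorem IrrDense.congr (e₁ : κ ≃ κ') (e₂ : ι ≃ ι') {R : Type*} [CommRing R] {φ : R →+* ℂ}
    {E : Subgroup ℂˣ} (Rel : Set (FreeGroup (κ ⊕ ι))) (Rel' : Set (FreeGroup (κ' ⊕ ι')))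
    (h : ∀ y : FreeGroup (κ ⊕ ι) →* (Mat r ℂ)ˣ, (∀ w ∈ Rel, y w = 1) ↔
      ∀ w ∈ Rel', y (renE e₁.symm e₂.symm w) = 1)
    (hI : IrrDense Rel φ E r) : IrrDense Rel' φ E r := by
  intro C' hC' x' hx' hirr f' hf'
  rw [← evalG_renE e₁ e₂ x' f']
  refine hI (C' ∘ e₂) (fun j => hC' _) (x'.comp (renE e₁ e₂)) ?_ ?_ _ ?_
  · refine ⟨(h _).2 fun w hw => ?_, fun j => ?_, hx'.2.2.renE e₁ e₂⟩
    · rw [MonoidHom.comp_apply, renE_symm']
      exact hx'.1 w hw
    · rw [MonoidHom.comp_apply, renE_inr]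
      exact hx'.2.1 _
  · intro M hM
    refine hirr M fun w => ?_
    have := hM (renE e₁.symm e₂.symm w)
    rwa [MonoidHom.comp_apply, renE_symm'] at this
  · intro y hy
    have h1 := hf' _ (mem_DGT_renE e₁ e₂ φ Rel Rel' (fun y hy => (h y).1 hy) C' y hy)
    have h2 := evalG_renE e₁ e₂ (y.comp (renE e₁.symm e₂.symm)) f'
    have h3 : (y.comp (renE e₁.symm e₂.symm)).comp (renE e₁ e₂) = y := by
      ext1 w
      simp only [MonoidHom.comp_apply, renE_symm]
    rw [h3] at h2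
    rw [h2, h1]

end equiv

/-! ### Families -/

/-- Inclusion of the generators of a factor. -/
def incS {k : ℕ} {κ ι : Fin k → Type} (i : Fin k) :
    κ i ⊕ ι i → (Σ i, κ i) ⊕ (Σ i, ι i) := Sum.map (Sigma.mk i) (Sigma.mk i)

/-- The relators of the product of a family of groups. -/
def famRel {k : ℕ} {κ ι : Fin k → Type} (Rel : ∀ i, Set (FreeGroup (κ i ⊕ ι i))) :
    Set (FreeGroup ((Σ i, κ i) ⊕ (Σ i, ι i))) :=
  {w | ∃ i, ∃ v ∈ Rel i, w = FreeGroup.map (incS i) v} ∪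
    {w | ∃ (i j : Fin k) (p : κ i ⊕ ι i) (q : κ j ⊕ ι j), i ≠ j ∧ w =
      FreeGroup.of (incS i p) * FreeGroup.of (incS j q) * (FreeGroup.of (incS i p))⁻¹ *
        (FreeGroup.of (incS j q))⁻¹}

theorem famRel_charOK {k : ℕ} {κ ι : Fin k → Type} (Rel : ∀ i, Set (FreeGroup (κ i ⊕ ι i)))
    (h : ∀ i, CharOK (Rel i)) : CharOK (famRel Rel) := by
  rintro w (⟨i, v, hv, rfl⟩ | ⟨i, j, p, q, -, rfl⟩) A _ χ hχ
  · exact h i v hv A (χ.comp (FreeGroup.map (incS i))) fun j => by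
      rw [MonoidHom.comp_apply, FreeGroup.map.of]
      exact hχ ⟨i, j⟩
  · rw [map_mul, map_mul, map_mul, map_inv, map_inv, mul_inv_eq_one, mul_inv_eq_iff_eq_mul,
      mul_comm]

/-- The first factor and the others. -/
def splitSig {k : ℕ} (κ : Fin (k + 1) → Type) : (κ 0 ⊕ Σ i : Fin k, κ i.succ) → Σ i, κ i :=
  Sum.elim (Sigma.mk 0) fun p => ⟨p.1.succ, p.2⟩

theorem splitSig_bijective {k : ℕ} (κ : Fin (k + 1) → Type) :
    Function.Bijective (splitSig κ) := by
  constructor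
  · rintro (a | ⟨i, a⟩) (b | ⟨j, b⟩) h
    · simp only [splitSig, Sum.elim_inl, Sigma.mk.injEq, heq_eq_eq, true_and] at h
      rw [h]
    · simp only [splitSig, Sum.elim_inl, Sum.elim_inr, Sigma.mk.injEq] at h
      exact absurd h.1 (Fin.succ_ne_zero j).symm
    · simp only [splitSig, Sum.elim_inl, Sum.elim_inr, Sigma.mk.injEq] at h
      exact absurd h.1 (Fin.succ_ne_zero i)
    · simp only [splitSig, Sum.elim_inr, Sigma.mk.injEq] at h
      obtain ⟨h1, h2⟩ := h
      have h3 := Fin.succ_injective k h1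
      subst h3
      rw [eq_of_heq h2]
  · rintro ⟨i, a⟩
    induction i using Fin.cases with
    | zero => exact ⟨Sum.inl a, rfl⟩
    | succ i => exact ⟨Sum.inr ⟨i, a⟩, rfl⟩

/-- The first factor and the others. -/
noncomputable def splitE {k : ℕ} (κ : Fin (k + 1) → Type) :
    (κ 0 ⊕ Σ i : Fin k, κ i.succ) ≃ Σ i, κ i :=
  Equiv.ofBijective _ (splitSig_bijective κ)

theorem splitE_inl {k : ℕ} (κ : Fin (k + 1) → Type) (a : κ 0) :
    splitE κ (Sum.inl a) = ⟨0, a⟩ := rfl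

theorem splitE_inr {k : ℕ} (κ : Fin (k + 1) → Type) (i : Fin k) (a : κ i.succ) :
    splitE κ (Sum.inr ⟨i, a⟩) = ⟨i.succ, a⟩ := rfl

theorem splitE_symm_zero {k : ℕ} (κ : Fin (k + 1) → Type) (a : κ 0) :
    (splitE κ).symm ⟨0, a⟩ = Sum.inl a := by
  rw [Equiv.symm_apply_eq, splitE_inl]

theorem splitE_symm_succ {k : ℕ} (κ : Fin (k + 1) → Type) (i : Fin k) (a : κ i.succ) :
    (splitE κ).symm ⟨i.succ, a⟩ = Sum.inr ⟨i, a⟩ := by
  rw [Equiv.symm_apply_eq, splitE_inr]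

/-- Representations without generators. -/
theorem irrDense_of_isEmpty {κ ι : Type} [IsEmpty κ] [IsEmpty ι] {r : ℕ}
    {R : Type*} [CommRing R] (φ : R →+* ℂ) (E : Subgroup ℂˣ) (Rel : Set (FreeGroup (κ ⊕ ι))) :
    IrrDense Rel φ E r := by
  intro C _ x hx hirr f hf
  exact hf x ⟨⟨hx, fun k => by rcases k with k | k <;> exact isEmptyElim k⟩,
    burnside_top x hx.2.2 hirr⟩

theorem fam_irrDense {R : Type*} [CommRing R] (φ : R →+* ℂ) (E : Subgroup ℂˣ) (r : ℕ) (k : ℕ) :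
    ∀ (κ ι : Fin k → Type) (Rel : ∀ i, Set (FreeGroup (κ i ⊕ ι i))),
      (∀ i, ∀ r' ≤ r, 0 < r' → IrrDense (Rel i) φ E r') →
      ∀ r' ≤ r, 0 < r' → IrrDense (famRel Rel) φ E r' := by
  induction k with
  | zero =>
    intro κ ι Rel _ r' _ _
    have : IsEmpty (Σ i, κ i) := ⟨fun p => p.1.elim0⟩
    have : IsEmpty (Σ i, ι i) := ⟨fun p => p.1.elim0⟩
    exact irrDense_of_isEmpty φ E _
  | succ k ih =>
    intro κ ι Rel hRel r' hr' hr'0
    have h1 := ih (fun i => κ i.succ) (fun i => ι i.succ) (fun i => Rel i.succ)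
      (fun i => hRel i.succ)
    have h2 := prod_irrDense φ E (Rel 0) (famRel fun i : Fin k => Rel i.succ) (hRel 0) h1 r' hr' hr'0
    refine IrrDense.congr (splitE κ) (splitE ι) _ _ ?_ h2
    intro y
    obtain ⟨G, hG⟩ : ∃ G : FreeGroup ((Σ i, κ i) ⊕ (Σ i, ι i)) →*
        FreeGroup ((κ 0 ⊕ Σ i : Fin k, κ i.succ) ⊕ (ι 0 ⊕ Σ i : Fin k, ι i.succ)),
        G = renE (splitE κ).symm (splitE ι).symm := ⟨_, rfl⟩
    rw [← hG]
    have hz : ∀ p : κ 0 ⊕ ι 0, G (FreeGroup.of (incS 0 p)) = FreeGroup.of (inc₁ p) := by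
      rintro (p | p)
      · rw [hG, incS, Sum.map_inl, renE_inl, splitE_symm_zero]; rfl
      · rw [hG, incS, Sum.map_inr, renE_inr, splitE_symm_zero]; rfl
    have hs : ∀ (i : Fin k) (p : κ i.succ ⊕ ι i.succ), G (FreeGroup.of (incS i.succ p)) =
        FreeGroup.of (inc₂ (incS (κ := fun i => κ i.succ) (ι := fun i => ι i.succ) i p)) := by
      rintro i (p | p)
      · rw [hG, incS, Sum.map_inl, renE_inl, splitE_symm_succ]; rfl
      · rw [hG, incS, Sum.map_inr, renE_inr, splitE_symm_succ]; rfl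
    have hz' : ∀ w, G (FreeGroup.map (incS 0) w) = FreeGroup.map inc₁ w := by
      intro w
      have : G.comp (FreeGroup.map (incS 0)) = FreeGroup.map inc₁ := by
        apply FreeGroup.ext_hom
        intro p
        rw [MonoidHom.comp_apply, FreeGroup.map.of, FreeGroup.map.of, hz]
      exact DFunLike.congr_fun this w
    have hs' : ∀ (i : Fin k) w, G (FreeGroup.map (incS i.succ) w) =
        FreeGroup.map inc₂ (FreeGroup.map (incS (κ := fun i => κ i.succ)
          (ι := fun i => ι i.succ) i) w) := by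
      intro i w
      have : G.comp (FreeGroup.map (incS i.succ)) = (FreeGroup.map inc₂).comp
          (FreeGroup.map (incS (κ := fun i => κ i.succ) (ι := fun i => ι i.succ) i)) := by
        apply FreeGroup.ext_hom
        intro p
        rw [MonoidHom.comp_apply, MonoidHom.comp_apply, FreeGroup.map.of, FreeGroup.map.of,
          FreeGroup.map.of, hs]
      exact DFunLike.congr_fun this w
    constructor
    · intro hy
      have hy1 : ∀ w ∈ Rel 0, y (FreeGroup.map inc₁ w) = 1 := fun w hw =>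
        hy _ (Or.inl (Or.inl ⟨w, hw, rfl⟩))
      have hy2 : ∀ w ∈ famRel (fun i : Fin k => Rel i.succ), y (FreeGroup.map inc₂ w) = 1 :=
        fun w hw => hy _ (Or.inl (Or.inr ⟨w, hw, rfl⟩))
      have hy3 : ∀ (p : κ 0 ⊕ ι 0) (q : (Σ i : Fin k, κ i.succ) ⊕ (Σ i : Fin k, ι i.succ)),
          Commute (y (FreeGroup.of (inc₁ p))) (y (FreeGroup.of (inc₂ q))) := by
        intro p q
        have := hy _ (Or.inr ⟨p, q, rfl⟩)
        rw [map_mul, map_mul, map_mul, map_inv, map_inv, mul_inv_eq_one, mul_inv_eq_iff_eq_mul]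
          at this
        exact this
      rintro w (⟨i, v, hv, rfl⟩ | ⟨i, j, p, q, hij, rfl⟩)
      · induction i using Fin.cases with
        | zero => rw [hz']; exact hy1 v hv
        | succ i => rw [hs']; exact hy2 _ (Or.inl ⟨i, v, hv, rfl⟩)
      · suffices h : Commute (y (G (FreeGroup.of (incS i p)))) (y (G (FreeGroup.of (incS j q)))) by
          rw [map_mul, map_mul, map_mul, map_inv, map_inv, map_mul, map_mul, map_mul, map_inv,
            map_inv, mul_inv_eq_one, mul_inv_eq_iff_eq_mul]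
          exact h
        induction i using Fin.cases with
        | zero =>
          induction j using Fin.cases with
          | zero => exact absurd rfl hij
          | succ j => rw [hz, hs]; exact hy3 _ _
        | succ i =>
          induction j using Fin.cases with
          | zero => rw [hz, hs]; exact (hy3 _ _).symm
          | succ j =>
            rw [hs, hs]
            have := hy2 _ (Or.inr ⟨i, j, p, q, fun h => hij (by rw [h]), rfl⟩)
            rw [map_mul, map_mul, map_mul, map_inv, map_inv, FreeGroup.map.of, FreeGroup.map.of,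
              map_mul, map_mul, map_mul, map_inv, map_inv, mul_inv_eq_one,
              mul_inv_eq_iff_eq_mul] at this
            exact this
    · intro hy
      have hcm : ∀ (i j : Fin (k + 1)) (p : κ i ⊕ ι i) (q : κ j ⊕ ι j), i ≠ j →
          Commute (y (G (FreeGroup.of (incS i p)))) (y (G (FreeGroup.of (incS j q)))) := by
        intro i j p q hij
        have := hy _ (Or.inr ⟨i, j, p, q, hij, rfl⟩)
        rw [map_mul, map_mul, map_mul, map_inv, map_inv, map_mul, map_mul, map_mul, map_inv,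
          map_inv, mul_inv_eq_one, mul_inv_eq_iff_eq_mul] at this
        exact this
      rintro w ((⟨v, hv, rfl⟩ | ⟨v, hv, rfl⟩) | ⟨p, q, rfl⟩)
      · rw [← hz']
        exact hy _ (Or.inl ⟨0, v, hv, rfl⟩)
      · rcases hv with ⟨i, v, hv, rfl⟩ | ⟨i, j, p, q, hij, rfl⟩
        · rw [← hs']
          exact hy _ (Or.inl ⟨i.succ, v, hv, rfl⟩)
        · have := hcm i.succ j.succ p q (fun h => hij (Fin.succ_injective k h))
          rw [hs, hs] at this
          rw [map_mul, map_mul, map_mul, map_inv, map_inv, FreeGroup.map.of, FreeGroup.map.of,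
            map_mul, map_mul, map_mul, map_inv, map_inv, mul_inv_eq_one, mul_inv_eq_iff_eq_mul]
          exact this
      · have hq : ∃ (j : Fin k) (q' : κ j.succ ⊕ ι j.succ),
            q = incS (κ := fun i => κ i.succ) (ι := fun i => ι i.succ) j q' := by
          rcases q with ⟨j, q⟩ | ⟨j, q⟩
          · exact ⟨j, Sum.inl q, rfl⟩
          · exact ⟨j, Sum.inr q, rfl⟩
        obtain ⟨j, q', rfl⟩ := hq
        have := hcm 0 j.succ p q' (Fin.succ_ne_zero j).symm
        rw [hz, hs] at this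
        rw [map_mul, map_mul, map_mul, map_inv, map_inv, mul_inv_eq_one, mul_inv_eq_iff_eq_mul]
        exact this

end Vale.Agent.P002R
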