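import Vale.Agent.P002R.RGDefs
import Vale.Agent.P002R.RFinalLemmas

/-!
# Number fields which contain enough roots of a group of units, and enough units
-/

namespace Vale.Agent.P002R

open Matrix NumberField

theorem coefOK_of_field (E : Subgroup ℂˣ) (hE : ∀ z ∈ E, IsIntegral ℤ (z : ℂ)) (hneg : -1 ∈ E)
    (r : ℕ) (L : IntermediateField ℚ ℂ)
    (hroot : ∀ k : ℕ, 0 < k → k ≤ r → ∀ z : ℂˣ, z ^ k ∈ E → (z : ℂ) ∈ L)
    (hunit : ∃ u : (𝓞 L)ˣ, ∀ k : ℕ, 0 < k →
      ∀ e ∈ E, phiO (algebraMap L ℂ) (u : 𝓞 L) ^ k ≠ (e : ℂ)) :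
    CoefOK (phiO (algebraMap L ℂ)) E r := by
  refine ⟨phiO_injective _, hneg, fun k hk hkr z hz => ?_, ?_⟩
  · have hzL := hroot k hk hkr z hz
    have h1 : IsIntegral ℤ ((z : ℂ) ^ k) := by
      have := hE _ hz
      rwa [Units.val_pow_eq_pow_val] at this
    have h2 : IsIntegral ℤ (z : ℂ) := h1.of_pow hk
    have h3 : IsIntegral ℤ (⟨(z : ℂ), hzL⟩ : L) := by
      rw [← isIntegral_algebraMap_iff (A := L) (B := ℂ) (algebraMap L ℂ).injective]
      exact h2
    exact ⟨⟨_, h3⟩, rfl⟩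
  · obtain ⟨u, hu⟩ := hunit
    refine ⟨u, fun k hk h => hu k hk _ h ?_⟩
    rw [Units.val_pow_eq_pow_val]
    rfl

/-- Roots of elements of a subgroup of `ℂˣ`, in terms of generators. -/
theorem root_mem_closure (S : Set ℂˣ) (k : ℕ) (hk : 0 < k) (z : ℂˣ)
    (hz : z ^ k ∈ Subgroup.closure S) :
    z ∈ Subgroup.closure {w : ℂˣ | w ^ k ∈ insert 1 S} := by
  obtain ⟨H, hH⟩ : ∃ H, H = Subgroup.closure {w : ℂˣ | w ^ k ∈ insert 1 S} := ⟨_, rfl⟩
  rw [← hH]
  have h1 : ∀ e ∈ Subgroup.closure S, ∃ w ∈ H, w ^ k = e := by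
    intro e he
    induction he using Subgroup.closure_induction with
    | mem x hx =>
      obtain ⟨w, hw⟩ := IsAlgClosed.exists_pow_nat_eq (x : ℂ) hk
      have hw0 : w ≠ 0 := by
        rintro rfl
        rw [zero_pow hk.ne'] at hw
        exact x.ne_zero hw.symm
      have hw' : (Units.mk0 w hw0) ^ k = x := by
        apply Units.ext
        rw [Units.val_pow_eq_pow_val, Units.val_mk0, hw]
      refine ⟨Units.mk0 w hw0, ?_, hw'⟩
      rw [hH]
      apply Subgroup.subset_closure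
      rw [Set.mem_ofPred_eq, hw']
      exact Or.inr hx
    | one => exact ⟨1, H.one_mem, one_pow k⟩
    | mul x y _ _ hx hy =>
      obtain ⟨a, ha, rfl⟩ := hx
      obtain ⟨b, hb, rfl⟩ := hy
      exact ⟨a * b, H.mul_mem ha hb, mul_pow a b k⟩
    | inv x _ hx =>
      obtain ⟨a, ha, rfl⟩ := hx
      exact ⟨a⁻¹, H.inv_mem ha, inv_pow a k⟩
  obtain ⟨w, hw, hwk⟩ := h1 _ hz
  have h2 : z * w⁻¹ ∈ H := by
    rw [hH]
    apply Subgroup.subset_closure
    rw [Set.mem_ofPred_eq, mul_pow, inv_pow, hwk, mul_inv_cancel]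
    exact Or.inl rfl
  have h3 := H.mul_mem h2 hw
  rwa [inv_mul_cancel_right] at h3

/-- The set of roots is finite. -/
theorem roots_finite (S : Set ℂˣ) (hS : S.Finite) (k : ℕ) (hk : 0 < k) :
    {w : ℂˣ | w ^ k ∈ S}.Finite := by
  have h1 : {w : ℂˣ | w ^ k ∈ S} = ⋃ s ∈ S, {w : ℂˣ | w ^ k = s} := by
    ext w
    simp
  rw [h1]
  refine hS.biUnion fun s _ => ?_
  have h2 : {z : ℂ | z ^ k = (s : ℂ)}.Finite := by
    have : {z : ℂ | z ^ k = (s : ℂ)} ⊆
        ((Polynomial.X ^ k - Polynomial.C (s : ℂ)).roots.toFinset : Set ℂ) := by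
      intro z hz
      have hne : (Polynomial.X ^ k - Polynomial.C (s : ℂ)) ≠ 0 :=
        (Polynomial.monic_X_pow_sub_C _ hk.ne').ne_zero
      simp only [Finset.mem_coe, Multiset.mem_toFinset, Polynomial.mem_roots hne]
      have hz' : z ^ k = (s : ℂ) := hz
      simp [hz']
    exact (Finset.finite_toSet _).subset this
  refine Set.Finite.of_finite_image (f := ((↑) : ℂˣ → ℂ)) (h2.subset ?_)
    (Units.val_injective.injOn)
  rintro _ ⟨w, hw, rfl⟩
  have hw' : w ^ k = s := hw
  change (w : ℂ) ^ k = (s : ℂ)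
  rw [← hw', Units.val_pow_eq_pow_val]

/-- A number field of large degree has units which are free modulo a given finitely generated
group. -/
theorem exists_free_unit (L : IntermediateField ℚ ℂ) [NumberField L] (S : Set ℂˣ) (hS : S.Finite)
    (hdeg : 2 * (S.ncard + 2) ≤ Module.finrank ℚ L) :
    ∃ u : (𝓞 L)ˣ, ∀ k : ℕ, 0 < k →
      ∀ e ∈ Subgroup.closure S, phiO (algebraMap L ℂ) (u : 𝓞 L) ^ k ≠ (e : ℂ) := by
  by_contra hcon
  push Not at hcon
  choose k hk e he hke using hcon
  -- the units, as complex numbers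
  obtain ⟨ι, hι⟩ : ∃ ι : (𝓞 L)ˣ →* ℂˣ, ι = Units.map (phiO (algebraMap L ℂ) : 𝓞 L →* ℂ) :=
    ⟨_, rfl⟩
  have hιinj : Function.Injective ι := by
    intro a b hab
    apply Units.ext
    apply phiO_injective (algebraMap L ℂ)
    have := congrArg Units.val hab
    rw [hι] at this
    exact this
  have hιk : ∀ u : (𝓞 L)ˣ, ι u ^ k u = e u := by
    intro u
    apply Units.ext
    rw [Units.val_pow_eq_pow_val, hι, ← hke]
    rfl
  -- the fundamental units
  obtain ⟨v, hv⟩ : ∃ v : Fin (Units.rank L) → Additive (𝓞 L)ˣ,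
    v = fun i => Additive.ofMul (Units.fundSystem L i) := ⟨_, rfl⟩
  have hvli : LinearIndependent ℤ v := by
    refine LinearIndependent.of_comp (Units.logEmbedding L).toIntLinearMap ?_
    have h1 : (Units.logEmbedding L).toIntLinearMap ∘ v =
        fun i => (Units.basisUnitLattice L i : Units.dirichletUnitTheorem.logSpace L) := by
      funext i
      rw [Function.comp_apply, hv]
      exact Units.logEmbedding_fundSystem L i
    rw [h1]
    exact (Units.basisUnitLattice L).linearIndependent.map' (Submodule.subtype _)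
      (Submodule.ker_subtype _)
  obtain ⟨j, hj⟩ : ∃ j : Additive (𝓞 L)ˣ →ₗ[ℤ] Additive ℂˣ,
      ∀ u : (𝓞 L)ˣ, j (Additive.ofMul u) = Additive.ofMul (ι u) :=
    ⟨(MonoidHom.toAdditive ι).toIntLinearMap, fun u => rfl⟩
  have hjinj : Function.Injective j := by
    intro a b hab
    have h1 := hj (Additive.toMul a)
    have h2 := hj (Additive.toMul b)
    rw [ofMul_toMul] at h1 h2
    rw [h1, h2] at hab
    exact Additive.toMul.injective (hιinj (Additive.ofMul.injective hab))
  have hjv : LinearIndependent ℤ (j ∘ v) := hvli.map' j (LinearMap.ker_eq_bot.2 hjinj)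
  -- the powers in the group
  have hkv : LinearIndependent ℤ (fun i => (k (Units.fundSystem L i) : ℤ) • (j ∘ v) i) := by
    rw [Fintype.linearIndependent_iff] at hjv ⊢
    intro a ha i
    have h1 := hjv (fun i => a i * (k (Units.fundSystem L i) : ℤ)) (by
      rw [← ha]
      refine Finset.sum_congr rfl fun i _ => ?_
      rw [mul_smul]) i
    have h2 : (k (Units.fundSystem L i) : ℤ) ≠ 0 := by
      exact_mod_cast (hk _).ne'
    exact (mul_eq_zero.1 h1).resolve_right h2
  have hspan : ∀ x ∈ Subgroup.closure S,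
      Additive.ofMul x ∈ Submodule.span ℤ (Additive.ofMul '' S : Set (Additive ℂˣ)) := by
    intro x hx
    induction hx using Subgroup.closure_induction with
    | mem x hx => exact Submodule.subset_span ⟨x, hx, rfl⟩
    | one =>
      rw [ofMul_one]
      exact Submodule.zero_mem _
    | mul x y _ _ hx hy =>
      rw [ofMul_mul]
      exact Submodule.add_mem _ hx hy
    | inv x _ hx =>
      rw [ofMul_inv]
      exact Submodule.neg_mem _ hx
  have hfin : (Additive.ofMul '' S : Set (Additive ℂˣ)).Finite := hS.image _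
  have : Fintype (Additive.ofMul '' S : Set (Additive ℂˣ)) := hfin.fintype
  have h1 := linearIndependent_le_span' _ hkv (Additive.ofMul '' S : Set (Additive ℂˣ)) (by
    rintro _ ⟨i, rfl⟩
    have h2 : (k (Units.fundSystem L i) : ℤ) • (j ∘ v) i =
        Additive.ofMul (e (Units.fundSystem L i)) := by
      rw [Function.comp_apply, hv, hj, ← hιk]
      rw [natCast_zsmul]
      rfl
    change (k (Units.fundSystem L i) : ℤ) • (j ∘ v) i ∈ _
    rw [h2]
    exact hspan _ (he _))
  have h2 : Units.rank L ≤ S.ncard := by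
    rw [Cardinal.mk_fin] at h1
    have h3 : Fintype.card (Additive.ofMul '' S : Set (Additive ℂˣ)) ≤ S.ncard := by
      rw [← Nat.card_eq_fintype_card, Nat.card_coe_set_eq]
      exact Set.ncard_image_le hS
    exact (Nat.cast_le.1 h1).trans h3
  have h3 := InfinitePlace.card_add_two_mul_card_eq_rank L
  have h4 := InfinitePlace.card_eq_nrRealPlaces_add_nrComplexPlaces L
  have h5 : Units.rank L = Fintype.card (InfinitePlace L) - 1 := rfl
  omega

theorem exists_field_E (S : Set ℂˣ) (hS : S.Finite)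
    (hint : ∀ z ∈ S, IsIntegral ℤ (z : ℂ) ∧ IsIntegral ℤ ((z⁻¹ : ℂˣ) : ℂ)) (r : ℕ) :
    ∃ L : IntermediateField ℚ ℂ, FiniteDimensional ℚ L ∧
      CoefOK (phiO (algebraMap L ℂ)) (Subgroup.closure (insert (-1) S)) r := by
  obtain ⟨S', hS'⟩ : ∃ S' : Set ℂˣ, S' = insert (-1) S := ⟨_, rfl⟩
  rw [← hS']
  have hS'fin : S'.Finite := by
    rw [hS']
    exact hS.insert _
  have hint' : ∀ z ∈ S', IsIntegral ℤ (z : ℂ) ∧ IsIntegral ℤ ((z⁻¹ : ℂˣ) : ℂ) := by
    intro z hz
    rw [hS'] at hz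
    rcases hz with rfl | hz
    · rw [inv_neg, inv_one, Units.val_neg, Units.val_one]
      exact ⟨isIntegral_one.neg, isIntegral_one.neg⟩
    · exact hint z hz
  have hE : ∀ z ∈ Subgroup.closure S', IsIntegral ℤ (z : ℂ) ∧
      IsIntegral ℤ ((z⁻¹ : ℂˣ) : ℂ) := by
    intro z hz
    induction hz using Subgroup.closure_induction with
    | mem x hx => exact hint' x hx
    | one =>
      rw [inv_one, Units.val_one]
      exact ⟨isIntegral_one, isIntegral_one⟩
    | mul x y _ _ hx hy =>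
      rw [mul_inv, Units.val_mul, Units.val_mul]
      exact ⟨hx.1.mul hy.1, hx.2.mul hy.2⟩
    | inv x _ hx =>
      rw [inv_inv]
      exact ⟨hx.2, hx.1⟩
  -- the roots of the generators
  obtain ⟨T, hT⟩ : ∃ T : ℕ → Set ℂˣ, T = fun k => {w : ℂˣ | w ^ k ∈ insert 1 S'} := ⟨_, rfl⟩
  have hTfin : ∀ k, 0 < k → (T k).Finite := by
    intro k hk
    rw [hT]
    exact roots_finite _ (hS'fin.insert 1) k hk
  have hTint : ∀ k, 0 < k → ∀ z ∈ T k, IsIntegral ℤ (z : ℂ) := by
    intro k hk z hz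
    rw [hT] at hz
    have hz' : z ^ k ∈ insert 1 S' := hz
    have h1 : IsIntegral ℤ ((z ^ k : ℂˣ) : ℂ) := by
      rcases hz' with h | h
      · rw [h, Units.val_one]
        exact isIntegral_one
      · exact (hint' _ h).1
    rw [Units.val_pow_eq_pow_val] at h1
    exact h1.of_pow hk
  -- a root of unity of large degree
  obtain ⟨p, hp1, hp⟩ := Nat.exists_infinite_primes (2 * (S'.ncard + 2) + 1)
  obtain ⟨ζ, hζ⟩ : ∃ ζ : ℂ, IsPrimitiveRoot ζ p := ⟨_, Complex.isPrimitiveRoot_exp p hp.ne_zero⟩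
  have hζint : IsIntegral ℤ ζ := hζ.isIntegral hp.pos
  obtain ⟨V, hV⟩ : ∃ V : Set ℂ, V = insert ζ (((↑) : ℂˣ → ℂ) '' ⋃ k ∈ Finset.Icc 1 r, T k) :=
    ⟨_, rfl⟩
  have hVfin : V.Finite := by
    rw [hV]
    refine Set.Finite.insert _ (Set.Finite.image _ ?_)
    refine Set.Finite.biUnion (Finset.finite_toSet _) fun k hk => hTfin k ?_
    have := Finset.mem_coe.1 hk
    rw [Finset.mem_Icc] at this
    omega
  have hVint : ∀ x ∈ V, IsIntegral ℚ x := by
    intro x hx
    refine IsIntegral.tower_top (R := ℤ) ?_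
    rw [hV] at hx
    rcases hx with rfl | ⟨w, hw, rfl⟩
    · exact hζint
    · rw [Set.mem_iUnion₂] at hw
      obtain ⟨k, hk, hw⟩ := hw
      rw [Finset.mem_Icc] at hk
      exact hTint k (by omega) w hw
  obtain ⟨L, hL⟩ : ∃ L : IntermediateField ℚ ℂ, L = IntermediateField.adjoin ℚ V := ⟨_, rfl⟩
  have hLfin : FiniteDimensional ℚ L := by
    have : Finite V := hVfin
    rw [hL]
    exact IntermediateField.finiteDimensional_adjoin fun x hx => hVint x hx
  have hLmem : ∀ z ∈ V, z ∈ L := fun z hz => by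
    rw [hL]
    exact IntermediateField.subset_adjoin ℚ V hz
  have : NumberField L := { to_charZero := inferInstance, to_finiteDimensional := hLfin }
  refine ⟨L, hLfin, coefOK_of_field _ (fun z hz => (hE z hz).1) ?_ r L ?_ ?_⟩
  · apply Subgroup.subset_closure
    rw [hS']
    exact Set.mem_insert _ _
  · intro k hk hkr z hz
    have h2 : ∀ w ∈ Subgroup.closure {w : ℂˣ | w ^ k ∈ insert 1 S'}, (w : ℂ) ∈ L := ?_
    · exact h2 z (root_mem_closure S' k hk z hz)
    intro w hw
    induction hw using Subgroup.closure_induction with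
    | mem x hx =>
      apply hLmem
      rw [hV]
      refine Or.inr ⟨x, ?_, rfl⟩
      rw [Set.mem_iUnion₂]
      refine ⟨k, Finset.mem_Icc.2 ⟨hk, hkr⟩, ?_⟩
      rw [hT]
      exact hx
    | one => exact L.one_mem
    | mul x y _ _ hx hy =>
      rw [Units.val_mul]
      exact L.mul_mem hx hy
    | inv x _ hx =>
      rw [Units.val_inv_eq_inv_val]
      exact L.inv_mem hx
  · refine exists_free_unit L S' hS'fin ?_
    have h1 : (minpoly ℚ ζ).natDegree = p - 1 := by
      rw [← Polynomial.cyclotomic_eq_minpoly_rat hζ hp.pos, Polynomial.natDegree_cyclotomic,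
        Nat.totient_prime hp]
    have h2 : (minpoly ℚ (⟨ζ, hLmem ζ (by rw [hV]; exact Set.mem_insert _ _)⟩ : L)).natDegree ≤
        Module.finrank ℚ L := minpoly.natDegree_le _
    have h3 : minpoly ℚ (⟨ζ, hLmem ζ (by rw [hV]; exact Set.mem_insert _ _)⟩ : L) =
        minpoly ℚ ζ := by
      rw [← minpoly.algebraMap_eq (algebraMap L ℂ).injective]
      rfl
    rw [h3, h1] at h2
    omega

end Vale.Agent.P002R
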