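import Vale.Agent.P002R.RGDefs
import Vale.Agent.P002.Unscale

/-!
# From scaled representations to representations into `SL_r`, for general groups
-/

set_option linter.unusedSectionVars false

namespace Vale.Agent.P002R

open Matrix

variable {κ ι : Type} {r : ℕ}

section

variable [Fintype κ] [Fintype ι]

/-- Multidegree of an exponent with respect to the matrices. -/
noncomputable def mdegG (m : ((κ ⊕ ι) × Fin r × Fin r) →₀ ℕ) : κ ⊕ ι →₀ ℕ :=
  Finsupp.mapDomain Prod.fst m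

theorem evalGG_monomial_twist (x x' : FreeGroup (κ ⊕ ι) →* (Mat r ℂ)ˣ) (t : κ → ℂ)
    (h : ∀ k, (x' (FreeGroup.of (Sum.inl k)) : Mat r ℂ) =
      t k • (x (FreeGroup.of (Sum.inl k)) : Mat r ℂ))
    (h' : ∀ j, (x' (FreeGroup.of (Sum.inr j)) : Mat r ℂ) =
      (x (FreeGroup.of (Sum.inr j)) : Mat r ℂ))
    (m : ((κ ⊕ ι) × Fin r × Fin r) →₀ ℕ) (c : ℂ) :
    evalG x' (MvPolynomial.monomial m c) =
      (∏ k, t k ^ mdegG m (Sum.inl k)) * evalG x (MvPolynomial.monomial m c) := by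
  obtain ⟨t', ht', ht''⟩ : ∃ t' : κ ⊕ ι → ℂ, (∀ k, t' (Sum.inl k) = t k) ∧
      ∀ j, t' (Sum.inr j) = 1 := ⟨Sum.elim t fun _ => 1, fun _ => rfl, fun _ => rfl⟩
  have hh : ∀ k, (x' (FreeGroup.of k) : Mat r ℂ) = t' k • (x (FreeGroup.of k) : Mat r ℂ) := by
    rintro (k | j)
    · rw [h, ht']
    · rw [h', ht'', one_smul]
  unfold evalG
  rw [MvPolynomial.aeval_monomial, MvPolynomial.aeval_monomial]
  have h1 : (m.prod fun p n => ((x' (FreeGroup.of p.1) : Mat r ℂ) p.2.1 p.2.2) ^ n) =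
      (m.prod fun p n => t' p.1 ^ n) *
        m.prod fun p n => ((x (FreeGroup.of p.1) : Mat r ℂ) p.2.1 p.2.2) ^ n := by
    rw [← Finsupp.prod_mul]
    refine Finsupp.prod_congr fun p _ => ?_
    rw [hh, Matrix.smul_apply, smul_eq_mul, mul_pow]
  have h2 : (m.prod fun p n => t' p.1 ^ n) = ∏ k, t k ^ mdegG m (Sum.inl k) := by
    have h3 : ∏ k, t k ^ mdegG m (Sum.inl k) = ∏ k, t' k ^ mdegG m k := by
      rw [Fintype.prod_sum_type]
      simp only [ht', ht'', one_pow, Finset.prod_const_one, mul_one]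
    rw [h3, mdegG, ← Finsupp.prod_fintype (Finsupp.mapDomain Prod.fst m) (fun k n => t' k ^ n)
      (fun k => pow_zero _), Finsupp.prod_mapDomain_index (fun k => pow_zero _)
        (fun k a b => pow_add _ _ _)]
  rw [h1, h2]
  ring

theorem evalGG_eq_sum (x : FreeGroup (κ ⊕ ι) →* (Mat r ℂ)ˣ)
    (f : MvPolynomial ((κ ⊕ ι) × Fin r × Fin r) ℂ) :
    evalG x f = ∑ m ∈ f.support, evalG x (MvPolynomial.monomial m (MvPolynomial.coeff m f)) := by
  conv_lhs => rw [MvPolynomial.as_sum f]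
  rw [map_sum]

/-- Semisimplicity is unchanged under twisting. -/
theorem SS.twistG {G : Type*} [Group G] {x x' : G →* (Mat r ℂ)ˣ} (c : G → ℂ)
    (hc : ∀ w, c w ≠ 0)
    (h : ∀ w, (x' w : Mat r ℂ) = c w • (x w : Mat r ℂ)) (hx : SS x) : SS x' := by
  have key : ∀ W : Submodule ℂ (Fin r → ℂ), (∀ w, ∀ v ∈ W, (x' w : Mat r ℂ) *ᵥ v ∈ W) ↔
      (∀ w, ∀ v ∈ W, (x w : Mat r ℂ) *ᵥ v ∈ W) := by
    intro W
    refine forall_congr' fun w => forall_congr' fun v => forall_congr' fun hv => ?_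
    rw [h, Matrix.smul_mulVec, Submodule.smul_mem_iff _ (hc w)]
  intro W hW
  obtain ⟨W', h1, h2⟩ := hx W ((key W).1 hW)
  exact ⟨W', (key W').2 h1, h2⟩

/-- The determinant of the generic matrix of a generator. -/
noncomputable def detXG (k : κ ⊕ ι) : MvPolynomial ((κ ⊕ ι) × Fin r × Fin r) ℂ :=
  det (Matrix.of fun i j => (MvPolynomial.X (k, i, j) :
    MvPolynomial ((κ ⊕ ι) × Fin r × Fin r) ℂ))

theorem evalGG_detX (x : FreeGroup (κ ⊕ ι) →* (Mat r ℂ)ˣ) (k : κ ⊕ ι) :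
    evalG x (detXG k) = (x (FreeGroup.of k) : Mat r ℂ).det := by
  unfold detXG
  rw [AlgHom.map_det]
  congr 1
  ext i j
  simp [evalG]

theorem coe_scalarU_mulG (c : ℂˣ) (u : (Mat r ℂ)ˣ) :
    ((scalarU c * u : (Mat r ℂ)ˣ) : Mat r ℂ) = (c : ℂ) • (u : Mat r ℂ) := by
  rw [Units.val_mul]
  show algebraMap ℂ (Mat r ℂ) (c : ℂ) * (u : Mat r ℂ) = _
  rw [Algebra.algebraMap_eq_smul_one, Matrix.smul_mul, Matrix.one_mul]

theorem coe_slUG {R : Type*} [CommRing R] (φ : R →+* ℂ) (y : SpecialLinearGroup (Fin r) R) :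
    ((slU φ y : (Mat r ℂ)ˣ) : Mat r ℂ) = (y : Mat r R).map φ := rfl

theorem det_slUG {R : Type*} [CommRing R] (φ : R →+* ℂ) (y : SpecialLinearGroup (Fin r) R) :
    ((slU φ y : (Mat r ℂ)ˣ) : Mat r ℂ).det = 1 := by
  rw [coe_slUG]
  have := (φ.map_det (y : Mat r R))
  rw [Matrix.SpecialLinearGroup.det_coe, map_one] at this
  exact this.symm

/-- Twisting an integral representation by powers of a root of unity. -/
theorem exists_twistG {R : Type*} [CommRing R] (ζ : R) (hζ : ζ ^ r = 1) (hr : 0 < r)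
    (y : FreeGroup (κ ⊕ ι) →* SpecialLinearGroup (Fin r) R) (e : κ → ℕ) :
    ∃ (y' : FreeGroup (κ ⊕ ι) →* SpecialLinearGroup (Fin r) R) (χ : FreeGroup (κ ⊕ ι) →* Rˣ),
      (∀ w, (y' w : Mat r R) = (χ w : R) • (y w : Mat r R)) ∧
        (∀ k, (χ (FreeGroup.of (Sum.inl k)) : R) = ζ ^ e k) ∧
          ∀ j, χ (FreeGroup.of (Sum.inr j)) = 1 := by
  obtain ⟨ζu, hζu⟩ : ∃ ζu : Rˣ, (ζu : R) = ζ := by
    refine ⟨⟨ζ, ζ ^ (r - 1), ?_, ?_⟩, rfl⟩
    · rw [← pow_succ', Nat.sub_add_cancel hr, hζ]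
    · rw [← pow_succ, Nat.sub_add_cancel hr, hζ]
  obtain ⟨χ, hχ, hχ'⟩ : ∃ χ : FreeGroup (κ ⊕ ι) →* Rˣ, (∀ k, χ (FreeGroup.of (Sum.inl k)) = ζu ^ e k) ∧
      ∀ j, χ (FreeGroup.of (Sum.inr j)) = 1 :=
    ⟨FreeGroup.lift (Sum.elim (fun k => ζu ^ e k) fun _ => 1), fun k => FreeGroup.lift_apply_of,
      fun k => FreeGroup.lift_apply_of⟩
  have hχr : ∀ w, (χ w) ^ r = 1 := by
    intro w
    have : (powMonoidHom r).comp χ = 1 := by
      refine FreeGroup.ext_hom _ _ fun k => ?_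
      rcases k with k | j
      · rw [MonoidHom.comp_apply, hχ, powMonoidHom_apply, MonoidHom.one_apply, ← pow_mul,
          mul_comm, pow_mul]
        have : ζu ^ r = 1 := by
          apply Units.ext
          rw [Units.val_pow_eq_pow_val, hζu, hζ, Units.val_one]
        rw [this, one_pow]
      · rw [MonoidHom.comp_apply, hχ', powMonoidHom_apply, MonoidHom.one_apply, one_pow]
    exact DFunLike.congr_fun this w
  have hdet : ∀ w, ((χ w : R) • (y w : Mat r R)).det = 1 := by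
    intro w
    rw [det_smul, Fintype.card_fin, Matrix.SpecialLinearGroup.det_coe, mul_one,
      ← Units.val_pow_eq_pow_val, hχr, Units.val_one]
  refine ⟨⟨⟨fun w => ⟨(χ w : R) • (y w : Mat r R), hdet w⟩, ?_⟩, ?_⟩, χ, fun w => rfl,
    fun k => ?_, hχ'⟩
  · apply Subtype.ext
    show (χ 1 : R) • (y 1 : Mat r R) = 1
    rw [map_one, map_one, Units.val_one, one_smul]
    rfl
  · intro w w'
    apply Subtype.ext
    show (χ (w * w') : R) • (y (w * w') : Mat r R) =
      ((χ w : R) • (y w : Mat r R)) * ((χ w' : R) • (y w' : Mat r R))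
    rw [map_mul, map_mul, Units.val_mul, Matrix.SpecialLinearGroup.coe_mul, Matrix.smul_mul,
      Matrix.mul_smul, smul_smul]
  · rw [hχ, Units.val_pow_eq_pow_val, hζu]

/-- A semisimple representation integral up to scalars, with boundary classes of determinant one,
is a twist of a representation into `SL_r(R)`. -/
theorem exists_descentG {R : Type*} [CommRing R] (φ : R →+* ℂ) (ζ : R) (hζ : ζ ^ r = 1)
    (hζ' : IsPrimitiveRoot (φ ζ) r) (hr : 0 < r)
    (Rel : Set (FreeGroup (κ ⊕ ι))) (C : ι → (Mat r ℂ)ˣ)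
    (hC : ∀ j, (C j : Mat r ℂ).det = 1) (y' : FreeGroup (κ ⊕ ι) →* (Mat r ℂ)ˣ)
    (hy' : y' ∈ DG Rel φ C) :
    ∃ (y : FreeGroup (κ ⊕ ι) →* SpecialLinearGroup (Fin r) R) (χ : FreeGroup (κ ⊕ ι) →* ℂˣ),
      (∀ w, y' w = scalarU (χ w) * slU φ (y w)) ∧ ∀ j, χ (FreeGroup.of (Sum.inr j)) = 1 := by
  have h1 : ∀ k : κ ⊕ ι, ∃ (c : ℂˣ) (s : SpecialLinearGroup (Fin r) R),
      y' (FreeGroup.of k) = scalarU c * slU φ s ∧ ∀ j, k = Sum.inr j → c = 1 := by
    rintro (k | j)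
    · obtain ⟨c, s, h⟩ := hy'.2 (Sum.inl k)
      exact ⟨c, s, h, fun j hj => by simp at hj⟩
    · obtain ⟨c, s, h⟩ := hy'.2 (Sum.inr j)
      have hdet : (y' (FreeGroup.of (Sum.inr j)) : Mat r ℂ).det = 1 := by
        obtain ⟨P, hP⟩ := hy'.1.2.1 j
        rw [← hC j]
        have h2 : (y' (FreeGroup.of (Sum.inr j)) : Mat r ℂ) =
            ((P : (Mat r ℂ)ˣ) * C j * P⁻¹ : (Mat r ℂ)ˣ) := by
          congr 1
          have h4 : (P : (Mat r ℂ)ˣ) * C j = y' (FreeGroup.of (Sum.inr j)) * P := hP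
          rw [h4, mul_assoc]
          simp
        have h5 : (((P : (Mat r ℂ)ˣ) * C j * P⁻¹ : (Mat r ℂ)ˣ) : Mat r ℂ).det =
            (((P : (Mat r ℂ)ˣ) : Mat r ℂ) * (C j : Mat r ℂ) *
              ((((P : (Mat r ℂ)ˣ)⁻¹ : (Mat r ℂ)ˣ)) : Mat r ℂ)).det := by
          simp
        rw [h2, h5, det_mul_comm, ← mul_assoc, ← Units.val_mul, inv_mul_cancel, Units.val_one,
          one_mul]
      have hcr : (c : ℂ) ^ r = 1 := by
        rw [h, coe_scalarU_mulG, det_smul, det_slUG, mul_one, Fintype.card_fin] at hdet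
        exact hdet
      have : NeZero r := ⟨hr.ne'⟩
      obtain ⟨e, -, he⟩ := hζ'.eq_pow_of_pow_eq_one hcr
      have hdet' : ((ζ ^ e) • (s : Mat r R)).det = 1 := by
        rw [det_smul, Fintype.card_fin, Matrix.SpecialLinearGroup.det_coe, mul_one, ← pow_mul,
          mul_comm, pow_mul, hζ, one_pow]
      refine ⟨1, ⟨(ζ ^ e) • (s : Mat r R), hdet'⟩, ?_, fun _ _ => rfl⟩
      rw [map_one, one_mul, h]
      ext1
      rw [coe_scalarU_mulG, coe_slUG]
      show (c : ℂ) • (s : Mat r R).map φ = ((ζ ^ e) • (s : Mat r R)).map φ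
      rw [← he]
      ext i j
      simp
  choose c s hcs hc1 using h1
  refine ⟨FreeGroup.lift s, FreeGroup.lift c, ?_, fun j => ?_⟩
  · have : y' = (⟨⟨fun w => scalarU (FreeGroup.lift c w) * slU φ (FreeGroup.lift s w), by simp⟩,
        by
          intro w w'
          show scalarU (FreeGroup.lift c (w * w')) * slU φ (FreeGroup.lift s (w * w')) =
            (scalarU (FreeGroup.lift c w) * slU φ (FreeGroup.lift s w)) *
              (scalarU (FreeGroup.lift c w') * slU φ (FreeGroup.lift s w'))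
          rw [map_mul, map_mul, map_mul, map_mul, mul_assoc, mul_assoc]
          congr 1
          rw [← mul_assoc, ← mul_assoc, scalarU_comm]⟩ : FreeGroup (κ ⊕ ι) →* (Mat r ℂ)ˣ) := by
      refine FreeGroup.ext_hom _ _ fun k => ?_
      show y' (FreeGroup.of k) =
        scalarU (FreeGroup.lift c (FreeGroup.of k)) * slU φ (FreeGroup.lift s (FreeGroup.of k))
      rw [FreeGroup.lift_apply_of, FreeGroup.lift_apply_of, hcs]
    intro w
    exact DFunLike.congr_fun this w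
  · rw [FreeGroup.lift_apply_of]
    exact hc1 _ j rfl

/-- The version for `φ` not necessarily injective. -/
theorem unscaleG' {R : Type*} [CommRing R] (φ : R →+* ℂ) (ζ : R) (hζ : ζ ^ r = 1)
    (hζ' : IsPrimitiveRoot (φ ζ) r) (hr : 0 < r) (Rel : Set (FreeGroup (κ ⊕ ι)))
    (hchar : CharOK Rel) (C : ι → (Mat r ℂ)ˣ) (hC : ∀ j, (C j : Mat r ℂ).det = 1)
    (f : MvPolynomial ((κ ⊕ ι) × Fin r × Fin r) ℂ)
    (hf : ∀ y : FreeGroup (κ ⊕ ι) →* SpecialLinearGroup (Fin r) R,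
      (∀ w ∈ Rel, slU φ (y w) = 1) →
      (∀ j, IsConj (C j) (slU φ (y (FreeGroup.of (Sum.inr j))))) →
      SS ((slU φ).comp y) → evalG ((slU φ).comp y) f = 0)
    (x : FreeGroup (κ ⊕ ι) →* (Mat r ℂ)ˣ) (hdet : ∀ w, (x w : Mat r ℂ).det = 1)
    (hall : ∀ f' : MvPolynomial ((κ ⊕ ι) × Fin r × Fin r) ℂ,
      (∀ y ∈ DG Rel φ C, evalG y f' = 0) → evalG x f' = 0) :
    evalG x f = 0 := by
  classical
  obtain ⟨z, hz⟩ : ∃ z, z = φ ζ := ⟨_, rfl⟩
  rw [← hz] at hζ'
  have hz0 : z ≠ 0 := hζ'.ne_zero hr.ne'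
  -- the components of `f` vanish at integral representations
  have comp : ∀ y : FreeGroup (κ ⊕ ι) →* SpecialLinearGroup (Fin r) R,
      (∀ w ∈ Rel, slU φ (y w) = 1) →
      (∀ j, IsConj (C j) (slU φ (y (FreeGroup.of (Sum.inr j))))) →
      SS ((slU φ).comp y) → ∀ δ : κ → ℕ,
        ∑ m ∈ f.support with (fun k => z ^ mdegG m (Sum.inl k)) = (fun k => z ^ δ k),
          evalG ((slU φ).comp y) (MvPolynomial.monomial m (MvPolynomial.coeff m f)) = 0 := by
    intro y hy hyC hyS δ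
    refine Vale.Agent.P002.fourier_inversion hζ' hr f.support
      (fun m (k : κ) => mdegG m (Sum.inl k)) _ (fun e => ?_) δ
    obtain ⟨y', χ, h1, h2, h2'⟩ := exists_twistG ζ hζ hr y e
    have h3 : ∀ w, (((slU φ).comp y' w : (Mat r ℂ)ˣ) : Mat r ℂ) =
        φ (χ w : R) • (((slU φ).comp y w : (Mat r ℂ)ˣ) : Mat r ℂ) := by
      intro w
      rw [MonoidHom.comp_apply, MonoidHom.comp_apply, coe_slUG, coe_slUG, h1]
      ext i j
      simp
    have hy' : ∀ w ∈ Rel, slU φ (y' w) = 1 := by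
      intro w hw
      have h4 := h3 w
      have h5 := congrArg Units.val (hchar w hw ℂˣ ((Units.map (φ : R →* ℂ)).comp χ) (fun j => by
        rw [MonoidHom.comp_apply, h2', map_one]))
      have h6 : φ (χ w : R) = 1 := h5
      rw [h6, one_smul, MonoidHom.comp_apply, MonoidHom.comp_apply, hy w hw] at h4
      exact Units.ext h4
    have hyC' : ∀ j, slU φ (y' (FreeGroup.of (Sum.inr j))) =
        slU φ (y (FreeGroup.of (Sum.inr j))) := by
      intro j
      have h4 := h3 (FreeGroup.of (Sum.inr j))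
      rw [h2', Units.val_one, map_one, one_smul, MonoidHom.comp_apply,
        MonoidHom.comp_apply] at h4
      exact Units.ext h4
    have hy'S : SS ((slU φ).comp y') :=
      hyS.twistG (fun w => φ (χ w : R)) (fun w => ((χ w).isUnit.map φ).ne_zero) h3
    have h4 := hf y' hy' (fun j => by rw [hyC' j]; exact hyC j) hy'S
    rw [evalGG_eq_sum] at h4
    rw [← h4]
    refine Finset.sum_congr rfl fun m _ => ?_
    rw [evalGG_monomial_twist ((slU φ).comp y) ((slU φ).comp y') (fun k => z ^ e k) ?_ ?_]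
    · intro k
      rw [h3, h2, map_pow, hz]
    · intro j
      rw [h3, h2', Units.val_one, map_one, one_smul]
  -- now the components of `f` vanish at `x`
  have compx : ∀ m₀ ∈ f.support,
      ∑ m ∈ f.support with (fun k => z ^ mdegG m (Sum.inl k)) =
          (fun k : κ => z ^ mdegG m₀ (Sum.inl k)),
        evalG x (MvPolynomial.monomial m (MvPolynomial.coeff m f)) = 0 := by
    intro m₀ hm₀
    obtain ⟨B, hB⟩ : ∃ B : ℕ, ∀ m ∈ f.support, ∀ k : κ, mdegG m (Sum.inl k) ≤ B := by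
      refine ⟨∑ m ∈ f.support, ∑ k : κ, mdegG m (Sum.inl k), fun m hm k => ?_⟩
      exact (Finset.single_le_sum (f := fun k : κ => mdegG m (Sum.inl k))
        (fun _ _ => Nat.zero_le _)
        (Finset.mem_univ k)).trans (Finset.single_le_sum
          (f := fun m => ∑ k : κ, mdegG m (Sum.inl k))
          (fun _ _ => Nat.zero_le _) hm)
    obtain ⟨N, hN⟩ : ∃ N : κ → ℕ, ∀ k, N k = mdegG m₀ (Sum.inl k) + r * B :=
      ⟨_, fun k => rfl⟩
    obtain ⟨q, hq⟩ : ∃ q : (((κ ⊕ ι) × Fin r × Fin r) →₀ ℕ) → κ → ℕ,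
        ∀ m ∈ f.support, (fun k => z ^ mdegG m (Sum.inl k)) =
            (fun k : κ => z ^ mdegG m₀ (Sum.inl k)) →
          ∀ k, N k = mdegG m (Sum.inl k) + r * q m k := by
      have : ∀ m : ((κ ⊕ ι) × Fin r × Fin r) →₀ ℕ, ∀ k : κ, ∃ q : ℕ, m ∈ f.support →
          (fun k => z ^ mdegG m (Sum.inl k)) =
            (fun k : κ => z ^ mdegG m₀ (Sum.inl k)) →
            N k = mdegG m (Sum.inl k) + r * q := by
        intro m k
        by_cases hm : m ∈ f.support ∧ (fun k => z ^ mdegG m (Sum.inl k)) =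
            (fun k : κ => z ^ mdegG m₀ (Sum.inl k))
        · have h1 : z ^ mdegG m (Sum.inl k) = z ^ mdegG m₀ (Sum.inl k) := congrFun hm.2 k
          have h2 : z ^ mdegG m (Sum.inl k) = z ^ N k := by
            rw [h1, hN, pow_add, pow_mul, hζ'.pow_eq_one, one_pow, mul_one]
          have hfin : IsOfFinOrder z := isOfFinOrder_iff_pow_eq_one.2 ⟨r, hr, hζ'.pow_eq_one⟩
          rw [hfin.pow_eq_pow_iff_modEq, ← hζ'.eq_orderOf] at h2
          have h3 : mdegG m (Sum.inl k) ≤ N k := by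
            rw [hN]
            calc mdegG m (Sum.inl k) ≤ B := hB m hm.1 k
              _ ≤ r * B := Nat.le_mul_of_pos_left B hr
              _ ≤ _ := Nat.le_add_left _ _
          obtain ⟨q, hq⟩ := (Nat.modEq_iff_dvd' h3).1 h2
          exact ⟨q, fun _ _ => by omega⟩
        · exact ⟨0, fun h1 h2 => absurd ⟨h1, h2⟩ hm⟩
      choose q hq using this
      exact ⟨q, fun m h1 h2 k => hq m k h1 h2⟩
    -- the homogenized component
    obtain ⟨f', hf'⟩ : ∃ f' : MvPolynomial ((κ ⊕ ι) × Fin r × Fin r) ℂ, f' =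
        ∑ m ∈ f.support with (fun k => z ^ mdegG m (Sum.inl k)) =
            (fun k : κ => z ^ mdegG m₀ (Sum.inl k)),
          MvPolynomial.monomial m (MvPolynomial.coeff m f) *
            ∏ k : κ, detXG (Sum.inl k) ^ q m k := ⟨_, rfl⟩
    have heval : ∀ (x₀ x' : FreeGroup (κ ⊕ ι) →* (Mat r ℂ)ˣ) (t : κ → ℂ),
        (∀ k, (x' (FreeGroup.of (Sum.inl k)) : Mat r ℂ) =
          t k • (x₀ (FreeGroup.of (Sum.inl k)) : Mat r ℂ)) →
        (∀ j, (x' (FreeGroup.of (Sum.inr j)) : Mat r ℂ) =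
          (x₀ (FreeGroup.of (Sum.inr j)) : Mat r ℂ)) →
        (∀ k, (x₀ (FreeGroup.of (Sum.inl k)) : Mat r ℂ).det = 1) →
        evalG x' f' = (∏ k, t k ^ N k) *
          ∑ m ∈ f.support with (fun k => z ^ mdegG m (Sum.inl k)) =
              (fun k : κ => z ^ mdegG m₀ (Sum.inl k)),
            evalG x₀ (MvPolynomial.monomial m (MvPolynomial.coeff m f)) := by
      intro x₀ x' t h1 h1' h2
      rw [hf', map_sum, Finset.mul_sum]
      refine Finset.sum_congr rfl fun m hm => ?_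
      rw [Finset.mem_filter] at hm
      rw [map_mul, map_prod, evalGG_monomial_twist x₀ x' t h1 h1', mul_right_comm]
      congr 1
      rw [← Finset.prod_mul_distrib]
      refine Finset.prod_congr rfl fun k _ => ?_
      rw [map_pow, evalGG_detX, h1, det_smul, h2, mul_one, Fintype.card_fin, ← pow_mul, ← pow_add,
        hq m hm.1 hm.2 k]
    have hx' := hall f' ?_
    · rw [heval x x (fun _ => 1) (fun k => (one_smul _ _).symm) (fun j => rfl)
        (fun k => hdet _)] at hx'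
      simpa using hx'
    · intro y' hy'
      obtain ⟨y, χ, hχ, hχ'⟩ := exists_descentG φ ζ hζ (hz ▸ hζ') hr Rel C hC y' hy'
      have h1 : ∀ w, (y' w : Mat r ℂ) = (χ w : ℂ) • (((slU φ).comp y w : (Mat r ℂ)ˣ) : Mat r ℂ) := by
        intro w
        rw [hχ, coe_scalarU_mulG, MonoidHom.comp_apply]
      have hyS' : SS ((slU φ).comp y) := by
        refine hy'.1.2.2.twistG (fun w => ((χ w)⁻¹ : ℂˣ)) (fun w => Units.ne_zero _) fun w => ?_
        rw [h1, smul_smul, Units.inv_mul, one_smul]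
      have hrel : ∀ w ∈ Rel, slU φ (y w) = 1 := by
        intro w hw
        have h2 := hχ w
        rw [hy'.1.1 w hw, hchar w hw ℂˣ χ hχ', map_one, one_mul] at h2
        exact h2.symm
      have hcj : ∀ j, slU φ (y (FreeGroup.of (Sum.inr j))) = y' (FreeGroup.of (Sum.inr j)) := by
        intro j
        rw [hχ, hχ', map_one, one_mul]
      rw [heval ((slU φ).comp y) y' (fun k => (χ (FreeGroup.of (Sum.inl k)) : ℂ)) (fun k => h1 _)
        (fun j => by rw [MonoidHom.comp_apply, hcj])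
        (fun k => by rw [MonoidHom.comp_apply]; exact det_slUG φ _),
        comp y hrel (fun j => by rw [hcj]; exact hy'.1.2.1 j) hyS'
          (fun k => mdegG m₀ (Sum.inl k)), mul_zero]
  rw [evalGG_eq_sum, ← Finset.sum_fiberwise_of_maps_to
    (g := fun m => (fun k => z ^ mdegG m (Sum.inl k) : κ → ℂ))
    (t := f.support.image fun m => (fun k => z ^ mdegG m (Sum.inl k) : κ → ℂ))
    (fun m hm => Finset.mem_image_of_mem _ hm)]
  refine Finset.sum_eq_zero fun δ hδ => ?_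
  rw [Finset.mem_image] at hδ
  obtain ⟨m₀, hm₀, rfl⟩ := hδ
  exact compx m₀ hm₀

end

/-- From representations which are integral up to scalars to integral ones. -/
theorem unscaleG [Finite κ] [Finite ι] {R : Type*} [CommRing R] (φ : R →+* ℂ)
    (hφ : Function.Injective φ) (ζ : R) (hζ : ζ ^ r = 1)
    (hζ' : IsPrimitiveRoot (φ ζ) r) (hr : 0 < r) (Rel : Set (FreeGroup (κ ⊕ ι)))
    (hchar : CharOK Rel) (C : ι → (Mat r ℂ)ˣ) (hC : ∀ j, (C j : Mat r ℂ).det = 1)
    (f : MvPolynomial ((κ ⊕ ι) × Fin r × Fin r) ℂ)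
    (hf : ∀ y : FreeGroup (κ ⊕ ι) →* SpecialLinearGroup (Fin r) R, (∀ w ∈ Rel, y w = 1) →
      (∀ j, IsConj (C j) (slU φ (y (FreeGroup.of (Sum.inr j))))) →
      SS ((slU φ).comp y) → evalG ((slU φ).comp y) f = 0)
    (x : FreeGroup (κ ⊕ ι) →* (Mat r ℂ)ˣ) (hdet : ∀ w, (x w : Mat r ℂ).det = 1)
    (hall : ∀ f' : MvPolynomial ((κ ⊕ ι) × Fin r × Fin r) ℂ,
      (∀ y ∈ DG Rel φ C, evalG y f' = 0) → evalG x f' = 0) :
    evalG x f = 0 := by
  cases nonempty_fintype κ
  cases nonempty_fintype ι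
  refine unscaleG' φ ζ hζ hζ' hr Rel hchar C hC f (fun y hy => hf y fun w hw => ?_) x hdet hall
  apply Subtype.ext
  have h1 : ((slU φ (y w) : (Mat r ℂ)ˣ) : Mat r ℂ) = 1 := by
    rw [hy w hw, Units.val_one]
  rw [coe_slUG] at h1
  refine Matrix.map_injective hφ ?_
  show (y w : Mat r R).map φ = (1 : Mat r R).map φ
  rw [h1, Matrix.map_one _ (map_zero φ) (map_one φ)]

end Vale.Agent.P002R
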