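import Vale.Agent.P002R.RBridge
import Vale.Agent.P002R.RStatementP
import Vale.Agent.P002R.RSurfE
import Vale.Agent.P002R.RFam
import Vale.Agent.P002R.RAbelE
import Vale.Agent.P002R.RUnscaleG
import Vale.Agent.P002R.RFieldE

/-!
# Translation of the main theorem into the language of representations: products of curves
-/

namespace Vale.Agent.P002R.Product

open Matrix NumberField

variable {k r : ℕ} {g n : Fin k → ℕ}

/-- The relators of the product of surface groups. -/
def FRel (g n : Fin k → ℕ) : Set (FreeGroup (Gens g n)) :=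
  famRel (κ := fun i => Fin (g i) × Bool) (ι := fun i => Fin (n i)) fun i => {relatorU (g i) (n i)}

/-- The generators of a factor. -/
def incG (i : Fin k) : GenU (g i) (n i) → Gens g n :=
  incS (κ := fun i => Fin (g i) × Bool) (ι := fun i => Fin (n i)) i

theorem factor_incG (i : Fin k) (p : GenU (g i) (n i)) : factor (incG (g := g) i p) = i := by
  rcases p with p | p <;> rfl

theorem exists_incG (p : Gens g n) : ∃ q, p = incG (factor p) q := by
  rcases p with ⟨i, p⟩ | ⟨i, p⟩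
  · exact ⟨Sum.inl p, rfl⟩
  · exact ⟨Sum.inr p, rfl⟩

theorem isRep_iff {A : Type} [CommRing A] (X : Gens g n → SpecialLinearGroup (Fin r) A) :
    IsRep X ↔ ∀ w ∈ FRel g n, FreeGroup.lift X w = 1 := by
  have h1 : ∀ i, (FreeGroup.lift X (FreeGroup.map (incG i) (relatorU (g i) (n i))) = 1 ↔
      (List.ofFn fun l : Fin (g i) => X (Sum.inl ⟨i, l, false⟩) * X (Sum.inl ⟨i, l, true⟩) *
        (X (Sum.inl ⟨i, l, false⟩))⁻¹ * (X (Sum.inl ⟨i, l, true⟩))⁻¹).prod *
          (List.ofFn fun j : Fin (n i) => X (Sum.inr ⟨i, j⟩)).prod = 1) := by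
    intro i
    have h2 := (Statement.isRep_iff (fun q => X (incG i q))).symm
    have h3 : FreeGroup.lift (fun q => X (incG i q)) =
        (FreeGroup.lift X).comp (FreeGroup.map (incG i)) := by
      apply FreeGroup.ext_hom
      intro q
      rw [MonoidHom.comp_apply, FreeGroup.map.of, FreeGroup.lift_apply_of, FreeGroup.lift_apply_of]
    rw [h3] at h2
    exact h2
  constructor
  · rintro ⟨hX1, hX2⟩ w (⟨i, v, hv, rfl⟩ | ⟨i, j, p, q, hij, rfl⟩)
    · rw [Set.mem_singleton_iff.1 hv]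
      exact (h1 i).2 (hX1 i)
    · rw [map_mul, map_mul, map_mul, map_inv, map_inv, mul_inv_eq_one, mul_inv_eq_iff_eq_mul,
        FreeGroup.lift_apply_of, FreeGroup.lift_apply_of]
      exact hX2 _ _ (by
        change factor (incG i p) ≠ factor (incG j q)
        rw [factor_incG, factor_incG]
        exact hij)
  · intro hX
    refine ⟨fun i => (h1 i).1 (hX _ (Or.inl ⟨i, _, rfl, rfl⟩)), fun p q hpq => ?_⟩
    obtain ⟨p', hp'⟩ := exists_incG p
    obtain ⟨q', hq'⟩ := exists_incG q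
    have h2 := hX _ (Or.inr ⟨factor p, factor q, p', q', hpq, rfl⟩)
    rw [map_mul, map_mul, map_mul, map_inv, map_inv, mul_inv_eq_one, mul_inv_eq_iff_eq_mul,
        FreeGroup.lift_apply_of, FreeGroup.lift_apply_of] at h2
    rw [hp', hq']
    exact h2

/-- The representation of the free group attached to a complex representation. -/
noncomputable def toU (X : Gens g n → SpecialLinearGroup (Fin r) ℂ) :
    FreeGroup (Gens g n) →* (Mat r ℂ)ˣ :=
  SpecialLinearGroup.toGL.comp (FreeGroup.lift X)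

theorem toU_coe (X : Gens g n → SpecialLinearGroup (Fin r) ℂ) (w : FreeGroup (Gens g n)) :
    (toU X w : Mat r ℂ) = (FreeGroup.lift X w).1 := rfl

theorem toU_of (X : Gens g n → SpecialLinearGroup (Fin r) ℂ) (p : Gens g n) :
    toU X (FreeGroup.of p) = SpecialLinearGroup.toGL (X p) := by
  rw [toU, MonoidHom.comp_apply, FreeGroup.lift_apply_of]

theorem evalG_toU (F : MvPolynomial (Gens g n × Fin r × Fin r) ℂ)
    (X : Gens g n → SpecialLinearGroup (Fin r) ℂ) : evalG (toU X) F = value F X := by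
  rw [evalG_eqn, MvPolynomial.aeval_def, value]
  congr 1
  funext p
  rw [toU_of]
  rfl

theorem stable_iff (X : Gens g n → SpecialLinearGroup (Fin r) ℂ) (W : Submodule ℂ (Fin r → ℂ)) :
    (∀ w, ∀ v ∈ W, (toU X w : Mat r ℂ) *ᵥ v ∈ W) ↔ IsInvSubspace X W := by
  constructor
  · intro h p
    have := h (FreeGroup.of p)
    rw [toU_of] at this
    exact this
  · intro h w
    obtain ⟨H, hH⟩ : ∃ H : Subgroup (Mat r ℂ)ˣ, ∀ M, M ∈ H ↔
        ∀ v ∈ W, (M : Mat r ℂ) *ᵥ v ∈ W :=
      ⟨{ carrier := {M | ∀ v ∈ W, (M : Mat r ℂ) *ᵥ v ∈ W}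
         mul_mem' := fun {a b} ha hb v hv => by
          rw [Units.val_mul, ← Matrix.mulVec_mulVec]
          exact ha _ (hb v hv)
         one_mem' := fun v hv => by rwa [Units.val_one, Matrix.one_mulVec]
         inv_mem' := fun {a} ha => Statement.inv_stable a W ha }, fun M => Iff.rfl⟩
    have h1 : (⊤ : Subgroup (FreeGroup (Gens g n))) ≤ H.comap (toU X) := by
      rw [← FreeGroup.closure_range_of, Subgroup.closure_le]
      rintro _ ⟨k, rfl⟩
      rw [SetLike.mem_coe, Subgroup.mem_comap, hH, toU_of]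
      exact h k
    exact (hH _).1 (h1 (Subgroup.mem_top w))

theorem SS_toU (X : Gens g n → SpecialLinearGroup (Fin r) ℂ) :
    SS (toU X) ↔ ∀ W, IsInvSubspace X W → ∃ W', IsInvSubspace X W' ∧ IsCompl W W' := by
  unfold SS
  simp only [stable_iff]

theorem IsIntegralRep.exists_lift {L : IntermediateField ℚ ℂ}
    {X : Gens g n → SpecialLinearGroup (Fin r) ℂ} (h : IsIntegralRep L X) :
    ∃ Z : Gens g n → SpecialLinearGroup (Fin r) (𝓞 L),
      ∀ p, X p = SpecialLinearGroup.map (phiO (algebraMap L ℂ)) (Z p) := by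
  choose a ha using h
  have h1 : ∀ p, (X p).1 = (Matrix.of (a p)).map (phiO (algebraMap L ℂ)) := by
    intro p
    ext i j
    exact ha p i j
  have h2 : ∀ p, (Matrix.of (a p)).det = 1 := by
    intro p
    apply phiO_injective (algebraMap L ℂ)
    rw [map_one, RingHom.map_det]
    have := (X p).2
    rw [h1] at this
    exact this
  refine ⟨fun p => ⟨Matrix.of (a p), h2 p⟩, fun p => Subtype.ext ?_⟩
  rw [h1]
  rfl

theorem isIntegralRep_map {L : IntermediateField ℚ ℂ}
    (Z : Gens g n → SpecialLinearGroup (Fin r) (𝓞 L)) :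
    IsIntegralRep L fun p => SpecialLinearGroup.map (phiO (algebraMap L ℂ)) (Z p) :=
  fun p i j => ⟨(Z p).1 i j, rfl⟩

theorem IsIntegralRep.isIntegralPoint {L : IntermediateField ℚ ℂ}
    {X : Gens g n → SpecialLinearGroup (Fin r) ℂ} (h : IsIntegralRep L X) :
    IsIntegralPoint L X := by
  obtain ⟨Z, hZ⟩ := h.exists_lift
  intro F _
  refine ⟨value F Z, ?_⟩
  have h1 : (phiO (algebraMap L ℂ)).comp (algebraMap ℤ (𝓞 L)) = algebraMap ℤ ℂ :=
    RingHom.ext_int _ _
  rw [value, value, ← h1]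
  change _ = phiO (algebraMap L ℂ) _
  rw [MvPolynomial.hom_eval₂]
  congr 1
  funext p
  rw [hZ]
  rfl

theorem IsZariskiDenseRep.isZariskiDense {L : IntermediateField ℚ ℂ}
    {T : Set (Gens g n → SpecialLinearGroup (Fin r) ℂ)}
    (h : IsZariskiDenseRep {X ∈ T | IsIntegralRep L X} T) :
    IsZariskiDense {X ∈ T | IsIntegralPoint L X} T :=
  ⟨fun _ hX => hX.1, fun F _ hF X hX =>
    h.2 F (fun X' hX' => hF X' ⟨hX'.1, hX'.2.isIntegralPoint⟩) X hX⟩

theorem surface_charOK (g n : ℕ) :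
    CharOK ({relatorU g n} : Set (FreeGroup ((Fin g × Bool) ⊕ Fin n))) := by
  intro w hw A _ χ hχ
  rw [Set.mem_singleton_iff.1 hw, relatorU_eqn, map_mul, map_list_prod, map_list_prod,
    List.map_ofFn, List.map_ofFn]
  have e1 : (⇑χ ∘ fun j : Fin n => (FreeGroup.of (Sum.inr j) : FU g n)) = fun _ => 1 := by
    funext j
    exact hχ j
  have e2 : (⇑χ ∘ fun i : Fin g => (FreeGroup.of (Sum.inl (i, false)) *
      FreeGroup.of (Sum.inl (i, true)) * (FreeGroup.of (Sum.inl (i, false)))⁻¹ *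
      (FreeGroup.of (Sum.inl (i, true)))⁻¹ : FU g n)) = fun _ => 1 := by
    funext i
    rw [Function.comp, map_mul, map_mul, map_mul, map_inv, map_inv, mul_inv_eq_one,
      mul_inv_eq_iff_eq_mul, mul_comm]
  rw [e1, e2]
  simp

/-- The allowed curves. -/
def OKCurve (g n : ℕ) : Prop := 2 ≤ g ∨ n = 0 ∨ (g = 0 ∧ n ≤ 2)

theorem FRel_irrDense {R : Type*} [CommRing R] (φ : R →+* ℂ) (E : Subgroup ℂˣ)
    (hc : CoefOK φ E r) (hg : ∀ i, OKCurve (g i) (n i)) :
    ∀ r' ≤ r, 0 < r' → IrrDense (FRel g n) φ E r' := by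
  refine fam_irrDense φ E r k _ _ _ fun i r' hr' hr'0 => ?_
  by_cases h : 2 ≤ g i ∨ n i = 0
  · exact surface_irrDense φ E hc h r' hr' hr'0
  · have h1 : g i = 0 ∧ n i ≤ 2 := by
      have := hg i
      unfold OKCurve at this
      omega
    exact abel_irrDense φ E _ (fun r'' x hx => surface_comm (Or.inl h1) r'' x hx) r' hr'0

theorem FRel_charOK (g n : Fin k → ℕ) : CharOK (FRel g n) :=
  famRel_charOK _ fun i => surface_charOK (g i) (n i)

theorem density_E (C : ∀ i, Fin (n i) → SpecialLinearGroup (Fin r) ℂ) (E : Subgroup ℂˣ)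
    (hC : ∀ i j, EigIn E ((C i j).1)) (hg : ∀ i, OKCurve (g i) (n i))
    (L : IntermediateField ℚ ℂ) (hL : FiniteDimensional ℚ L)
    (hc : CoefOK (phiO (algebraMap L ℂ)) E r) :
    IsZariskiDenseRep {X ∈ Y g C | IsIntegralRep L X} (Y g C) := by
  have : NumberField L := { to_charZero := inferInstance, to_finiteDimensional := hL }
  obtain ⟨φ, hφ⟩ : ∃ φ, φ = phiO (algebraMap L ℂ) := ⟨_, rfl⟩
  rw [← hφ] at hc
  have hφi : Function.Injective φ := hc.inj
  obtain ⟨C', hC'⟩ : ∃ C' : ((i : Fin k) × Fin (n i)) → (Mat r ℂ)ˣ,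
      C' = fun p => SpecialLinearGroup.toGL (C p.1 p.2) := ⟨_, rfl⟩
  refine ⟨fun _ hX => hX.1, fun F hF X hX => ?_⟩
  rw [← evalG_toU]
  -- integral representations
  have key : ∀ y : FreeGroup (Gens g n) →* SpecialLinearGroup (Fin r) (𝓞 L),
      (∀ w ∈ FRel g n, y w = 1) →
      (∀ p, IsConj (C' p) (slU φ (y (FreeGroup.of (Sum.inr p))))) →
      SS ((slU φ).comp y) → evalG ((slU φ).comp y) F = 0 := by
    intro y hy hyC hyS
    obtain ⟨Z, hZ⟩ : ∃ Z : Gens g n → SpecialLinearGroup (Fin r) (𝓞 L),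
        ∀ p, Z p = y (FreeGroup.of p) := ⟨_, fun _ => rfl⟩
    obtain ⟨X', hX'⟩ : ∃ X' : Gens g n → SpecialLinearGroup (Fin r) ℂ,
        X' = fun p => SpecialLinearGroup.map (phiO (algebraMap L ℂ)) (Z p) := ⟨_, rfl⟩
    have h0 : FreeGroup.lift X' = (SpecialLinearGroup.map (phiO (algebraMap L ℂ))).comp y := by
      apply FreeGroup.ext_hom
      intro p
      rw [FreeGroup.lift_apply_of, hX', MonoidHom.comp_apply, ← hZ]
    have h1 : (slU φ).comp y = toU X' := by
      rw [toU, h0, hφ]; rfl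
    rw [h1, evalG_toU]
    refine hF _ ⟨⟨⟨?_, ?_⟩, fun i j => Statement.isConj_toGL _ _ ?_⟩, ?_⟩
    · rw [isRep_iff]
      intro w hw
      rw [h0, MonoidHom.comp_apply, hy w hw, map_one]
    · rw [← SS_toU, ← h1]; exact hyS
    · have := hyC ⟨i, j⟩
      rw [hC', ← MonoidHom.comp_apply, h1, toU_of] at this
      exact this
    · rw [hX']; exact isIntegralRep_map Z
  rcases Nat.eq_zero_or_pos r with hr | hr
  · subst hr
    have h1 : toU X = (slU φ).comp 1 := by
      ext w i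
      exact i.elim0
    rw [h1]
    refine key 1 (fun w _ => rfl) (fun p => ?_) ?_
    · have : C' p = slU φ ((1 : FreeGroup (Gens g n) →* SpecialLinearGroup (Fin 0) (𝓞 L))
          (FreeGroup.of (Sum.inr p))) := Units.ext (Subsingleton.elim _ _)
      rw [← this]
    · rw [← h1]; exact (SS_toU X).2 hX.1.2
  · have hEig : ∀ p, EigIn E (C' p : Mat r ℂ) := by
      intro p
      rw [hC']
      exact hC p.1 p.2
    have hYG : toU X ∈ YG (FRel g n) C' := by
      refine ⟨fun w hw => ?_, fun p => ?_, (SS_toU X).2 hX.1.2⟩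
      · rw [toU, MonoidHom.comp_apply, (isRep_iff X).1 hX.1.1 w hw, map_one]
      · rw [hC', toU_of]
        exact Statement.toGL_isConj _ _ (hX.2 p.1 p.2)
    obtain ⟨ζ, hζ⟩ := hc.root r hr le_rfl
      (Units.mk0 (Complex.exp (2 * Real.pi * Complex.I / r)) (Complex.exp_ne_zero _)) (by
        have h1 : (Units.mk0 (Complex.exp (2 * Real.pi * Complex.I / r))
            (Complex.exp_ne_zero _)) ^ r = 1 := by
          ext1
          rw [Units.val_pow_eq_pow_val, Units.val_mk0, Units.val_one,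
            (Complex.isPrimitiveRoot_exp r hr.ne').pow_eq_one]
        rw [h1]
        exact one_mem _)
    rw [Units.val_mk0] at hζ
    have hζp : IsPrimitiveRoot (φ ζ) r := by
      rw [hζ]
      exact Complex.isPrimitiveRoot_exp r hr.ne'
    refine unscaleG φ hφi ζ (hφi ?_) hζp hr (FRel g n) (FRel_charOK g n) C' ?_ F key (toU X) ?_
      fun f' hf' => partIVG φ E hc (FRel g n) (FRel_charOK g n) (FRel_irrDense φ E hc hg) C' hEig
        (toU X) hYG f' hf'
    · rw [map_pow, map_one]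
      exact hζp.pow_eq_one
    · intro p
      rw [hC']
      exact (C p.1 p.2).2
    · intro w
      rw [toU_coe]
      exact (FreeGroup.lift X w).2

theorem density_roots (C : ∀ i, Fin (n i) → SpecialLinearGroup (Fin r) ℂ) (N : ℕ) (hN : 0 < N)
    (hC : ∀ i j z, IsEigenvalue (C i j) z → z ^ N = 1) (hg : ∀ i, OKCurve (g i) (n i))
    (L : IntermediateField ℚ ℂ) (hL : FiniteDimensional ℚ L)
    (hμ : ∀ z : ℂ, z ^ (2 * N * r.factorial) = 1 → z ∈ L) (hu : Infinite (𝓞 L)ˣ) :
    IsZariskiDenseRep {X ∈ Y g C | IsIntegralRep L X} (Y g C) := by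
  have : NumberField L := { to_charZero := inferInstance, to_finiteDimensional := hL }
  obtain ⟨u, hu⟩ := exists_unit_infinite_order (L := L) (algebraMap L ℂ)
  obtain ⟨E, hE⟩ : ∃ E : Subgroup ℂˣ, ∀ z, z ∈ E ↔ z ^ (2 * N) = 1 :=
    ⟨(powMonoidHom (2 * N)).ker, fun z => Iff.rfl⟩
  refine density_E C E ?_ hg L hL (coefOK_of_field E ?_ ?_ r L ?_ ⟨u, ?_⟩)
  · intro i j z hz
    have h1 : z ^ N = 1 := hC i j z hz
    have h0 : z ≠ 0 := by
      rintro rfl
      rw [zero_pow hN.ne'] at h1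
      exact zero_ne_one h1
    refine ⟨Units.mk0 z h0, ?_, rfl⟩
    rw [hE]
    ext1
    rw [Units.val_pow_eq_pow_val, Units.val_mk0, Units.val_one, mul_comm, pow_mul, h1, one_pow]
  · intro z hz
    rw [hE] at hz
    refine IsIntegral.of_pow (n := 2 * N) (by positivity) ?_
    rw [← Units.val_pow_eq_pow_val, hz, Units.val_one]
    exact isIntegral_one
  · rw [hE, pow_mul, neg_one_sq, one_pow]
  · intro m hm hmr z hz
    rw [hE] at hz
    apply hμ
    obtain ⟨c, hc⟩ := mul_dvd_mul_left (2 * N) (Nat.dvd_factorial hm hmr)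
    have h1 : (z : ℂ) ^ (2 * N * m) = 1 := by
      rw [mul_comm (2 * N) m, pow_mul, ← Units.val_pow_eq_pow_val, ← Units.val_pow_eq_pow_val, hz,
        Units.val_one]
    rw [hc, pow_mul, h1, one_pow]
  · intro m hm e he h
    rw [hE] at he
    refine hu (m * (2 * N)) (by positivity) ?_
    rw [pow_mul, h, ← Units.val_pow_eq_pow_val, he, Units.val_one]

theorem exists_density (C : ∀ i, Fin (n i) → SpecialLinearGroup (Fin r) ℂ)
    (hC : ∀ i j z, IsEigenvalue (C i j) z → IsIntegral ℤ z ∧ IsIntegral ℤ z⁻¹)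
    (hg : ∀ i, OKCurve (g i) (n i)) :
    ∃ L : IntermediateField ℚ ℂ, FiniteDimensional ℚ L ∧
      IsZariskiDenseRep {X ∈ Y g C | IsIntegralRep L X} (Y g C) := by
  have h0 : ∀ i j z, IsEigenvalue (C i j) z → z ≠ 0 := by
    rintro i j z hz rfl
    have h1 : (C i j).1.charpoly.eval 0 = 0 := hz
    rw [Matrix.eval_charpoly, map_zero, zero_sub, Matrix.det_neg, (C i j).2, mul_one] at h1
    exact pow_ne_zero _ (by norm_num) h1
  obtain ⟨S, hS⟩ : ∃ S : Set ℂˣ, S = {z : ℂˣ | ∃ i j, IsEigenvalue (C i j) (z : ℂ)} :=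
    ⟨_, rfl⟩
  have hSf : S.Finite := by
    have h1 : (⋃ p : (i : Fin k) × Fin (n i), {z : ℂ | (C p.1 p.2).1.charpoly.IsRoot z}).Finite :=
      Set.finite_iUnion fun p => Polynomial.finite_setOfPred_isRoot
        (Matrix.charpoly_monic _).ne_zero
    refine Set.Finite.of_injOn (f := fun z : ℂˣ => (z : ℂ)) ?_ (Units.val_injective.injOn) h1
    intro z hz
    rw [hS] at hz
    obtain ⟨i, j, hz⟩ := hz
    exact Set.mem_iUnion.2 ⟨⟨i, j⟩, hz⟩
  obtain ⟨L, hL, hc⟩ := exists_field_E S hSf (fun z hz => by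
    rw [hS] at hz
    obtain ⟨i, j, hz⟩ := hz
    rw [Units.val_inv_eq_inv_val]
    exact hC i j z hz) r
  refine ⟨L, hL, density_E C _ ?_ hg L hL hc⟩
  intro i j z hz
  refine ⟨Units.mk0 z (h0 i j z hz), Subgroup.subset_closure (Set.mem_insert_of_mem _ ?_), rfl⟩
  rw [hS]
  exact ⟨i, j, hz⟩

end Vale.Agent.P002R.Product
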