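import Mathlib

/-!
# P002, relative version: surface groups with punctures and prescribed boundary classes
-/

namespace Vale.Agent.P002R

open Matrix

/-- Square matrices of size `r`. -/
abbrev Mat (r : ℕ) (S : Type*) := Matrix (Fin r) (Fin r) S

section general

variable {κ : Type*} {r : ℕ} {S T : Type*} [CommRing S] [CommRing T]

/-- Evaluation of a polynomial in the entries of all group words at a representation. -/
noncomputable def evalW [Algebra ℂ S] (x : FreeGroup κ →* (Mat r S)ˣ) :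
    MvPolynomial (FreeGroup κ × Fin r × Fin r) ℂ →ₐ[ℂ] S :=
  MvPolynomial.aeval fun p => (x p.1 : Mat r S) p.2.1 p.2.2

/-- Evaluation of a polynomial in the entries of the generators and of their inverses at a tuple
of invertible matrices. -/
noncomputable def evalP [Algebra ℂ S] (X : κ → (Mat r S)ˣ) :
    MvPolynomial (κ × Bool × Fin r × Fin r) ℂ →ₐ[ℂ] S :=
  MvPolynomial.aeval fun p => if p.2.1 then (((X p.1)⁻¹ : (Mat r S)ˣ) : Mat r S) p.2.2.1 p.2.2.2
    else (X p.1 : Mat r S) p.2.2.1 p.2.2.2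

/-- The same for a tuple of complex matrices (with the nonsingular inverse). -/
noncomputable def evalM (X : κ → Mat r ℂ) :
    MvPolynomial (κ × Bool × Fin r × Fin r) ℂ →ₐ[ℂ] ℂ :=
  MvPolynomial.aeval fun p => if p.2.1 then (X p.1)⁻¹ p.2.2.1 p.2.2.2
    else X p.1 p.2.2.1 p.2.2.2

/-- Evaluation of a polynomial in the entries of the generators at a representation. -/
noncomputable def evalG (x : FreeGroup κ →* (Mat r ℂ)ˣ) :
    MvPolynomial (κ × Fin r × Fin r) ℂ →ₐ[ℂ] ℂ :=
  MvPolynomial.aeval fun p => (x (FreeGroup.of p.1) : Mat r ℂ) p.2.1 p.2.2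

/-- `x` is an `S`-point of the Zariski closure of `D`. -/
def InZ [Algebra ℂ S] (D : Set (FreeGroup κ →* (Mat r ℂ)ˣ)) (x : FreeGroup κ →* (Mat r S)ˣ) :
    Prop :=
  ∀ f : MvPolynomial (FreeGroup κ × Fin r × Fin r) ℂ, (∀ y ∈ D, evalW y f = 0) → evalW x f = 0

/-- Change the value at the generator `k` from `x k` to `x k * z`. -/
def flow [DecidableEq κ] (x : FreeGroup κ →* (Mat r S)ˣ) (k : κ) (z : (Mat r S)ˣ) :
    FreeGroup κ →* (Mat r S)ˣ :=
  FreeGroup.lift fun l => if l = k then x (FreeGroup.of k) * z else x (FreeGroup.of l)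

/-- Base change of a representation. -/
def baseChange (θ : S →+* T) (x : FreeGroup κ →* (Mat r S)ˣ) : FreeGroup κ →* (Mat r T)ˣ :=
  (Units.map (RingHom.mapMatrix θ).toMonoidHom).comp x

/-- `E` is a derivation over the representation `x`. -/
def IsDer (x : FreeGroup κ →* (Mat r ℂ)ˣ) (E : FreeGroup κ → Mat r ℂ) : Prop :=
  ∀ w w' : FreeGroup κ, E (w * w') = E w * (x w' : Mat r ℂ) + (x w : Mat r ℂ) * E w'

/-- A family of invertible matrices is semisimple: every invariant subspace has an invariant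
complement. -/
def SS {G : Type*} [Group G] {r : ℕ} (x : G →* (Mat r ℂ)ˣ) : Prop :=
  ∀ W : Submodule ℂ (Fin r → ℂ), (∀ w, ∀ v ∈ W, (x w : Mat r ℂ) *ᵥ v ∈ W) →
    ∃ W' : Submodule ℂ (Fin r → ℂ), (∀ w, ∀ v ∈ W', (x w : Mat r ℂ) *ᵥ v ∈ W') ∧ IsCompl W W'

end general

/-! ### Integral matrices up to scalars -/

/-- The scalar matrix `c` as a unit. -/
noncomputable def scalarU {r : ℕ} : ℂˣ →* (Mat r ℂ)ˣ :=
  Units.map (algebraMap ℂ (Mat r ℂ)).toMonoidHom

/-- The invertible complex matrix attached to an element of `SL_r(R)` and a ring homomorphism. -/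
noncomputable def slU {r : ℕ} {R : Type*} [CommRing R] (φ : R →+* ℂ) :
    SpecialLinearGroup (Fin r) R →* (Mat r ℂ)ˣ :=
  SpecialLinearGroup.toGL.comp (SpecialLinearGroup.map φ)

theorem scalarU_comm {r : ℕ} (c : ℂˣ) (x : (Mat r ℂ)ˣ) : scalarU c * x = x * scalarU c := by
  ext1
  simp only [Units.val_mul]
  exact Algebra.commutes (c : ℂ) (x : Mat r ℂ)

/-- The group `ℂ^* · SL_r(R)`. -/
noncomputable def GR (r : ℕ) {R : Type*} [CommRing R] (φ : R →+* ℂ) : Subgroup (Mat r ℂ)ˣ where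
  carrier := {x | ∃ (c : ℂˣ) (y : SpecialLinearGroup (Fin r) R), x = scalarU c * slU φ y}
  mul_mem' := by
    rintro a b ⟨c, y, rfl⟩ ⟨c', y', rfl⟩
    refine ⟨c * c', y * y', ?_⟩
    rw [map_mul, map_mul, mul_assoc, ← mul_assoc (slU φ y), ← scalarU_comm c' (slU φ y),
      mul_assoc, mul_assoc]
  one_mem' := ⟨1, 1, by simp⟩
  inv_mem' := by
    rintro a ⟨c, y, rfl⟩
    refine ⟨c⁻¹, y⁻¹, ?_⟩
    rw [_root_.mul_inv_rev, map_inv (slU φ), map_inv scalarU, ← map_inv scalarU, scalarU_comm]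

/-! ### The framed surface group: generators `a_i, b_i, d_j, e_j` and `c_j = d_j e_j d_j⁻¹` -/

/-- Generators: `inl (i, false) = a_i`, `inl (i, true) = b_i`, `inr (j, false) = d_j`,
`inr (j, true) = e_j`. -/
abbrev Gen (g n : ℕ) := (Fin g × Bool) ⊕ (Fin n × Bool)

/-- The free group on the `a_i, b_i, d_j, e_j`. -/
abbrev FF (g n : ℕ) := FreeGroup (Gen g n)

variable {g m n r : ℕ}

/-- The generator `a_i`. -/
def gA (i : Fin g) : FF g n := FreeGroup.of (Sum.inl (i, false))

/-- The generator `b_i`. -/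
def gB (i : Fin g) : FF g n := FreeGroup.of (Sum.inl (i, true))

/-- The generator `d_j`. -/
def gD (j : Fin n) : FF g n := FreeGroup.of (Sum.inr (j, false))

/-- The generator `e_j`. -/
def gE (j : Fin n) : FF g n := FreeGroup.of (Sum.inr (j, true))

/-- The boundary loop `c_j = d_j e_j d_j⁻¹`. -/
def gC (j : Fin n) : FF g n := gD j * gE j * (gD j)⁻¹

/-- The commutator `[a_i, b_i]`. -/
def hcomm (i : Fin g) : FF g n := gA i * gB i * (gA i)⁻¹ * (gB i)⁻¹

/-- The surface relator `c_0 ... c_{n-1} [a_0,b_0] ... [a_{g-1},b_{g-1}]`. -/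
def relator (g n : ℕ) : FF g n :=
  (List.ofFn fun j : Fin n => gC j).prod * (List.ofFn fun i : Fin g => hcomm i).prod

/-- The subgroup generated by the `a_i, b_i, c_j`. -/
def Fc (g n : ℕ) : Subgroup (FF g n) :=
  Subgroup.closure ({w | ∃ k, w = FreeGroup.of (Sum.inl k)} ∪ {w | ∃ j, w = gC j})

/-- Admissible automorphisms. -/
structure Adm (τ : FF g n ≃* FF g n) : Prop where
  rel : τ (relator g n) = relator g n
  he : ∀ j, τ (gE j) = gE j
  hd : ∀ j, ∃ u ∈ Fc g n, τ (gD j) = u * gD j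
  hab : ∀ k, τ (FreeGroup.of (Sum.inl k)) ∈ Fc g n

/-- Framed representations of the surface group which are integral up to scalars, with
`e_j ↦ J_j`. -/
def DFr {R : Type*} [CommRing R] (φ : R →+* ℂ) (J : Fin n → (Mat r ℂ)ˣ) :
    Set (FF g n →* (Mat r ℂ)ˣ) :=
  {x | x (relator g n) = 1 ∧ (∀ j, x (gE j) = J j) ∧
    (∀ k, x (FreeGroup.of (Sum.inl k)) ∈ GR r φ) ∧ ∀ j, x (gC j) ∈ GR r φ}

/-- The relation for a tuple of matrices. -/
noncomputable def relM (X : Gen g n → Mat r ℂ) : Mat r ℂ :=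
  (List.ofFn fun j : Fin n =>
    X (Sum.inr (j, false)) * X (Sum.inr (j, true)) * (X (Sum.inr (j, false)))⁻¹).prod *
  (List.ofFn fun i : Fin g =>
    X (Sum.inl (i, false)) * X (Sum.inl (i, true)) * (X (Sum.inl (i, false)))⁻¹ *
      (X (Sum.inl (i, true)))⁻¹).prod

/-! ### Slides of the last handle -/

/-- Loops around which the last handle is slid: `inl j` is `c_j`, `inr (i, false)` is
`b_i a_i⁻¹ b_i⁻¹` and `inr (i, true)` is `b_i⁻¹` (each conjugated, see `loopW`). -/
abbrev Loop (m n : ℕ) := Fin n ⊕ (Fin m × Bool)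

/-- The blocks of the relator before the last handle. -/
def blocks (m n : ℕ) : List (Fin n ⊕ Fin m) :=
  (List.finRange n).map Sum.inl ++ (List.finRange m).map Sum.inr

/-- The word of a block. -/
def bw : Fin n ⊕ Fin m → FF (m + 1) n
  | Sum.inl j => gC j
  | Sum.inr i => hcomm i.castSucc

/-- The product of the blocks of the list `l` after the (first) block `b`. -/
def aftL (b : Fin n ⊕ Fin m) : List (Fin n ⊕ Fin m) → FF (m + 1) n
  | [] => 1
  | b' :: l => if b' = b then (l.map bw).prod else aftL b l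

/-- The block of a loop. -/
def blk : Loop m n → Fin n ⊕ Fin m
  | Sum.inl j => Sum.inl j
  | Sum.inr (i, _) => Sum.inr i

/-- The product of the blocks after the block of the loop `q`, before the last handle. -/
def kap (q : Loop m n) : FF (m + 1) n := aftL (blk q) (blocks m n)

/-- The unconjugated loop. -/
def loop0 : Loop m n → FF (m + 1) n
  | Sum.inl j => gC j
  | Sum.inr (i, false) => gB i.castSucc * (gA i.castSucc)⁻¹ * (gB i.castSucc)⁻¹
  | Sum.inr (i, true) => (gB i.castSucc)⁻¹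

/-- The loop around which the last handle is slid. -/
def loopW (q : Loop m n) : FF (m + 1) n := (kap q)⁻¹ * loop0 q * kap q

/-- The effect of a slide on derivations. -/
noncomputable def Lam (x : FF (m + 1) n →* (Mat r ℂ)ˣ) (q : Loop m n) (ε : Mat r ℂ)
    (k : Gen (m + 1) n) : Mat r ℂ :=
  let ε' : Mat r ℂ := (x (kap q) : Mat r ℂ) * ε * (((x (kap q))⁻¹ : (Mat r ℂ)ˣ) : Mat r ℂ)
  match q with
  | Sum.inl j => if k = Sum.inr (j, false) then -(ε' * (x (gD j) : Mat r ℂ)) else 0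
  | Sum.inr (i, false) =>
      if k = Sum.inl (i.castSucc, true) then -(ε' * (x (gB i.castSucc) : Mat r ℂ)) else 0
  | Sum.inr (i, true) =>
      if k = Sum.inl (i.castSucc, false) then (x (gA i.castSucc) : Mat r ℂ) * ε'
      else if k = Sum.inl (i.castSucc, true) then
        (x (gB i.castSucc) : Mat r ℂ) * ε' - ε' * (x (gB i.castSucc) : Mat r ℂ)
      else 0

/-! ### The dual lemma -/

/-- Products of three of the numbers determine the multiset of the indices. -/
def Reg3 (α : Fin r → ℂ) : Prop :=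
  (∀ i, α i ≠ 0) ∧ ∀ s t : Multiset (Fin r), s.card = 3 → t.card = 3 →
    (s.map α).prod = (t.map α).prod → s = t

/-- Genericity conditions on a matrix. -/
def Gen3 (A : Mat r ℂ) : Prop :=
  (∀ i j, A i j ≠ 0) ∧ ∀ i j k, i ≠ j → j ≠ k → i ≠ k →
    A i j * A j k * A k i ≠ A i k * A k j * A j i

/-- Product of a word. -/
def wP {L : Type*} (P : L → (Mat r ℂ)ˣ) : List L → (Mat r ℂ)ˣ
  | [] => 1
  | q :: p => P q * wP P p

/-- The cocycle of a word. -/
def theta {L : Type*} (P : L → (Mat r ℂ)ˣ) (R : L → Mat r ℂ) : List L → Mat r ℂ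
  | [] => 0
  | q :: p => R q + (P q : Mat r ℂ) * theta P R p * (((P q)⁻¹ : (Mat r ℂ)ˣ) : Mat r ℂ)

/-! ### The base representation -/

/-- The representation with `a_m ↦ B`, `d_j ↦ k_j` and the other generators as in `ρ`. -/
noncomputable def baseRep {S : Type*} [CommRing S] [Algebra ℂ S]
    (ρ : FF (m + 1) n →* (Mat r ℂ)ˣ) (B : (Mat r S)ˣ) (k : Fin n → (Mat r S)ˣ) :
    FF (m + 1) n →* (Mat r S)ˣ :=
  FreeGroup.lift fun l =>
    match l with
    | Sum.inl i => if i = (Fin.last m, false) then B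
        else baseChange (algebraMap ℂ S) ρ (FreeGroup.of (Sum.inl i))
    | Sum.inr (j, false) => k j
    | Sum.inr (j, true) => baseChange (algebraMap ℂ S) ρ (FreeGroup.of (Sum.inr (j, true)))

/-! ### The unframed surface group -/

/-- Generators: `inl (i, false) = a_i`, `inl (i, true) = b_i`, `inr j = c_j`. -/
abbrev GenU (g n : ℕ) := (Fin g × Bool) ⊕ Fin n

/-- The free group on the `a_i, b_i, c_j`. -/
abbrev FU (g n : ℕ) := FreeGroup (GenU g n)

/-- The surface relator `c_0 ... c_{n-1} [a_0,b_0] ... [a_{g-1},b_{g-1}]`. -/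
def relatorU (g n : ℕ) : FU g n :=
  (List.ofFn fun j : Fin n => (FreeGroup.of (Sum.inr j) : FU g n)).prod *
  (List.ofFn fun i : Fin g => (FreeGroup.of (Sum.inl (i, false)) * FreeGroup.of (Sum.inl (i, true)) *
    (FreeGroup.of (Sum.inl (i, false)))⁻¹ * (FreeGroup.of (Sum.inl (i, true)))⁻¹ : FU g n)).prod

/-- Semisimple representations of the surface group with boundary classes `C_j`. -/
def YU (g : ℕ) (C : Fin n → (Mat r ℂ)ˣ) : Set (FU g n →* (Mat r ℂ)ˣ) :=
  {x | x (relatorU g n) = 1 ∧ (∀ j, IsConj (C j) (x (FreeGroup.of (Sum.inr j)))) ∧ SS x}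

/-- Semisimple representations of the surface group with boundary classes `C_j` which are
integral up to scalars. -/
def DU (g : ℕ) {R : Type*} [CommRing R] (φ : R →+* ℂ) (C : Fin n → (Mat r ℂ)ˣ) :
    Set (FU g n →* (Mat r ℂ)ˣ) :=
  {x | x ∈ YU g C ∧ ∀ k, x (FreeGroup.of k) ∈ GR r φ}

/-! ### Equations (stated here so that they are generated in this file) -/

theorem gA_eqn (i : Fin g) : (gA i : FF g n) = FreeGroup.of (Sum.inl (i, false)) := by rw [gA]

theorem gB_eqn (i : Fin g) : (gB i : FF g n) = FreeGroup.of (Sum.inl (i, true)) := by rw [gB]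

theorem gD_eqn (j : Fin n) : (gD j : FF g n) = FreeGroup.of (Sum.inr (j, false)) := by rw [gD]

theorem gE_eqn (j : Fin n) : (gE j : FF g n) = FreeGroup.of (Sum.inr (j, true)) := by rw [gE]

theorem gC_eqn (j : Fin n) : (gC j : FF g n) = gD j * gE j * (gD j)⁻¹ := by rw [gC]

theorem hcomm_eqn (i : Fin g) : (hcomm i : FF g n) = gA i * gB i * (gA i)⁻¹ * (gB i)⁻¹ := by
  rw [hcomm]

theorem relator_eqn : relator g n =
    (List.ofFn fun j : Fin n => gC j).prod * (List.ofFn fun i : Fin g => hcomm i).prod := by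
  rw [relator]

theorem relatorU_eqn : relatorU g n = (List.ofFn fun j : Fin n =>
    (FreeGroup.of (Sum.inr j) : FU g n)).prod * (List.ofFn fun i : Fin g =>
      (FreeGroup.of (Sum.inl (i, false)) * FreeGroup.of (Sum.inl (i, true)) *
        (FreeGroup.of (Sum.inl (i, false)))⁻¹ * (FreeGroup.of (Sum.inl (i, true)))⁻¹ :
          FU g n)).prod := by
  rw [relatorU]

theorem kap_eqn (q : Loop m n) : kap q = aftL (blk q) (blocks m n) := by rw [kap]

theorem loopW_eqn (q : Loop m n) : loopW q = (kap q)⁻¹ * loop0 q * kap q := by rw [loopW]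

theorem aftL_nil_eqn (b : Fin n ⊕ Fin m) : aftL b [] = 1 := by rw [aftL]

theorem aftL_cons_eqn (b b' : Fin n ⊕ Fin m) (l : List (Fin n ⊕ Fin m)) :
    aftL b (b' :: l) = if b' = b then (l.map bw).prod else aftL b l := by rw [aftL]

theorem aftL_cases_eqn (b : Fin n ⊕ Fin m) (l : List (Fin n ⊕ Fin m)) :
    aftL b l = 1 ∨ l ≠ [] := by
  unfold aftL
  split
  · exact Or.inl rfl
  · exact Or.inr (List.cons_ne_nil _ _)

theorem wP_nil_eqn {L : Type*} (P : L → (Mat r ℂ)ˣ) : wP P [] = 1 := by rw [wP]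

theorem wP_cons_eqn {L : Type*} (P : L → (Mat r ℂ)ˣ) (q : L) (p : List L) :
    wP P (q :: p) = P q * wP P p := by rw [wP]

theorem wP_cases_eqn {L : Type*} (P : L → (Mat r ℂ)ˣ) (p : List L) : wP P p = 1 ∨ p ≠ [] := by
  unfold wP
  split
  · exact Or.inl rfl
  · exact Or.inr (List.cons_ne_nil _ _)

theorem theta_nil_eqn {L : Type*} (P : L → (Mat r ℂ)ˣ) (R : L → Mat r ℂ) :
    theta P R [] = 0 := by rw [theta]

theorem theta_cons_eqn {L : Type*} (P : L → (Mat r ℂ)ˣ) (R : L → Mat r ℂ) (q : L) (p : List L) :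
    theta P R (q :: p) = R q + (P q : Mat r ℂ) * theta P R p * (((P q)⁻¹ : (Mat r ℂ)ˣ) : Mat r ℂ) := by
  rw [theta]

theorem blk_eqn (j : Fin n) : blk (Sum.inl j : Loop m n) = Sum.inl j := by rw [blk]

theorem bw_eqn (j : Fin n) : (bw (Sum.inl j) : FF (m + 1) n) = gC j := by rw [bw]

theorem loop0_eqn₁ (j : Fin n) : loop0 (Sum.inl j : Loop m n) = gC j := by rw [loop0]

theorem loop0_cases_eqn (q : Loop m n) : loop0 q = loop0 q := by
  unfold loop0
  split <;> rfl

theorem Lam_eqn₁ (x : FF (m + 1) n →* (Mat r ℂ)ˣ) (j : Fin n) (ε : Mat r ℂ)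
    (k : Gen (m + 1) n) : Lam x (Sum.inl j) ε k =
      let ε' : Mat r ℂ := (x (kap (Sum.inl j)) : Mat r ℂ) * ε *
        (((x (kap (Sum.inl j)))⁻¹ : (Mat r ℂ)ˣ) : Mat r ℂ)
      if k = Sum.inr (j, false) then -(ε' * (x (gD j) : Mat r ℂ)) else 0 := by
  rw [Lam]

theorem evalG_eqn {κ : Type*} (x : FreeGroup κ →* (Mat r ℂ)ˣ)
    (f : MvPolynomial (κ × Fin r × Fin r) ℂ) : evalG x f =
      MvPolynomial.aeval (fun p => (x (FreeGroup.of p.1) : Mat r ℂ) p.2.1 p.2.2) f := by
  rw [evalG]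

theorem evalW_eqn {κ S : Type*} [CommRing S] [Algebra ℂ S] (x : FreeGroup κ →* (Mat r S)ˣ)
    (f : MvPolynomial (FreeGroup κ × Fin r × Fin r) ℂ) : evalW x f =
      MvPolynomial.aeval (fun p => (x p.1 : Mat r S) p.2.1 p.2.2) f := by
  rw [evalW]

end Vale.Agent.P002R
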