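import Vale.Agent.P002R.RDefs
import Vale.Agent.P002.GenHandle

/-!
# P002R TASK N7: near every irreducible point there are points all of whose handles have scalar
commutant
-/

namespace Vale.Agent.P002R

open Matrix Module Vale.Agent.P002

variable {g n r : ℕ}

/-- Variables: handles and framings. -/
abbrev Var (g n : ℕ) := (Fin g × Bool) ⊕ Fin n

/-- Extension by the fixed matrices `J`. -/
def extV (J : Fin n → P002R.Mat r ℂ) (Y : Var g n → P002R.Mat r ℂ) : Gen g n → P002R.Mat r ℂ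
  | Sum.inl k => Y (Sum.inl k)
  | Sum.inr (j, false) => Y (Sum.inr j)
  | Sum.inr (j, true) => J j

/-- The blocks of the relation. -/
noncomputable def bv (J : Fin n → P002R.Mat r ℂ) (b : Fin n ⊕ Fin g)
    (Y : Var g n → P002R.Mat r ℂ) : P002R.Mat r ℂ :=
  match b with
  | Sum.inl j => Y (Sum.inr j) * J j * (Y (Sum.inr j))⁻¹
  | Sum.inr i => cm (Y (Sum.inl (i, false))) (Y (Sum.inl (i, true)))

/-- The list of the blocks. -/
def bl (g n : ℕ) : List (Fin n ⊕ Fin g) :=
  (List.finRange n).map Sum.inl ++ (List.finRange g).map Sum.inr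

theorem nodup_bl : (bl g n).Nodup := by
  unfold bl
  rw [List.nodup_append]
  refine ⟨(List.nodup_finRange n).map Sum.inl_injective,
    (List.nodup_finRange g).map Sum.inr_injective, ?_⟩
  intro a ha b hb hab
  rw [List.mem_map] at ha hb
  obtain ⟨x, -, rfl⟩ := ha
  obtain ⟨y, -, rfl⟩ := hb
  cases hab

theorem mem_bl (b : Fin n ⊕ Fin g) : b ∈ bl g n := by
  unfold bl
  rw [List.mem_append]
  cases b with
  | inl j => exact Or.inl (List.mem_map_of_mem (List.mem_finRange j))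
  | inr i => exact Or.inr (List.mem_map_of_mem (List.mem_finRange i))

theorem relM_extV (J : Fin n → P002R.Mat r ℂ) (Y : Var g n → P002R.Mat r ℂ) :
    relM (extV J Y) = ((bl g n).map fun b => bv J b Y).prod := by
  unfold relM bl
  rw [List.map_append, List.prod_append, List.map_map, List.map_map, List.ofFn_eq_map,
    List.ofFn_eq_map]
  rfl

/-- The block of a variable. -/
def blkOf : Var g n → Fin n ⊕ Fin g
  | Sum.inl (i, _) => Sum.inr i
  | Sum.inr j => Sum.inl j

theorem bv_congr (J : Fin n → P002R.Mat r ℂ) (b : Fin n ⊕ Fin g) {Y Y' : Var g n → P002R.Mat r ℂ}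
    (h : ∀ k, blkOf k = b → Y k = Y' k) : bv J b Y = bv J b Y' := by
  cases b with
  | inl j => unfold bv; simp only; rw [h (Sum.inr j) rfl]
  | inr i => unfold bv; simp only; rw [h (Sum.inl (i, false)) rfl, h (Sum.inl (i, true)) rfl]

/-- Restriction to the variables of a block. -/
def prj (b : Fin n ⊕ Fin g) : (Var g n → P002R.Mat r ℂ) →ₗ[ℂ] (Var g n → P002R.Mat r ℂ) where
  toFun H k := if blkOf k = b then H k else 0
  map_add' H H' := by
    funext k
    simp only [Pi.add_apply]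
    split_ifs
    · rfl
    · rw [add_zero]
  map_smul' c H := by
    funext k
    simp only [Pi.smul_apply, RingHom.id_apply]
    split_ifs
    · rfl
    · rw [smul_zero]

theorem prj_apply (b : Fin n ⊕ Fin g) (H : Var g n → P002R.Mat r ℂ) (k : Var g n) :
    prj b H k = if blkOf k = b then H k else 0 := rfl

theorem isUnit_bv {J : Fin n → P002R.Mat r ℂ} (hJ : ∀ j, IsUnit (J j)) (b : Fin n ⊕ Fin g)
    {Y : Var g n → P002R.Mat r ℂ} (hY : ∀ k, IsUnit (Y k)) : IsUnit (bv J b Y) := by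
  cases b with
  | inl j => exact ((hY _).mul (hJ j)).mul (Matrix.isUnit_nonsing_inv_iff.2 (hY _))
  | inr i => exact isUnit_cm (hY _) (hY _)

theorem isUnit_prod {J : Fin n → P002R.Mat r ℂ} (hJ : ∀ j, IsUnit (J j))
    {Y : Var g n → P002R.Mat r ℂ} (hY : ∀ k, IsUnit (Y k)) (l : List (Fin n ⊕ Fin g)) :
    IsUnit (l.map fun b => bv J b Y).prod := by
  induction l with
  | nil => simp
  | cons b l ih =>
    rw [List.map_cons, List.prod_cons]
    exact (isUnit_bv hJ b hY).mul ih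

/-- The elements of a block. -/
def CommBlk (J : Fin n → P002R.Mat r ℂ) (Y : Var g n → P002R.Mat r ℂ) (b : Fin n ⊕ Fin g)
    (T : P002R.Mat r ℂ) : Prop :=
  match b with
  | Sum.inl j => Commute T (bv J (Sum.inl j : Fin n ⊕ Fin g) Y)
  | Sum.inr i => Commute T (Y (Sum.inl (i, false))) ∧ Commute T (Y (Sum.inl (i, true)))

theorem CommBlk.comm {J : Fin n → P002R.Mat r ℂ} {Y : Var g n → P002R.Mat r ℂ}
    (hY : ∀ k, IsUnit (Y k)) {b : Fin n ⊕ Fin g} {T : P002R.Mat r ℂ} (h : CommBlk J Y b T) :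
    Commute T (bv J b Y) := by
  cases b with
  | inl j => exact h
  | inr i => exact commute_cm (hY _) (hY _) h.1 h.2

section normed

open scoped Matrix.Norms.Operator

theorem good_bv (K₀ : Subfield ℂ) {J : Fin n → P002R.Mat r ℂ} (hJK : ∀ j a b, J j a b ∈ K₀)
    (b : Fin n ⊕ Fin g) {Y : Var g n → P002R.Mat r ℂ} (hY : ∀ k, IsUnit (Y k)) :
    GoodG K₀ (bv J b) Y := by
  cases b with
  | inl j =>
    exact ((GoodG.proj _).mul (GoodG.const (hJK j))).mul (GoodG.inv (GoodG.proj _) (hY _))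
  | inr i =>
    exact (((GoodG.proj _).mul (GoodG.proj _)).mul (GoodG.inv (GoodG.proj _) (hY _))).mul
      (GoodG.inv (GoodG.proj _) (hY _))

theorem good_rel (K₀ : Subfield ℂ) {J : Fin n → P002R.Mat r ℂ} (hJK : ∀ j a b, J j a b ∈ K₀)
    {Y : Var g n → P002R.Mat r ℂ} (hY : ∀ k, IsUnit (Y k)) :
    GoodG K₀ (fun Y : Var g n → P002R.Mat r ℂ => relM (extV J Y)) Y := by
  have h1 : (fun Y : Var g n → P002R.Mat r ℂ => relM (extV J Y)) =
      fun Y => ((bl g n).map fun b => bv J b Y).prod := funext fun Y => relM_extV J Y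
  rw [h1]
  exact GoodG.list_prod (fun b => bv J b) (bl g n) fun b _ => good_bv K₀ hJK b hY

/-- The derivative of one block. -/
theorem exists_block_deriv {J : Fin n → P002R.Mat r ℂ} (b : Fin n ⊕ Fin g)
    {Y : Var g n → P002R.Mat r ℂ} (hY : ∀ k, IsUnit (Y k)) :
    ∃ D : (Var g n → P002R.Mat r ℂ) →L[ℂ] P002R.Mat r ℂ, HasStrictFDerivAt (bv J b) D Y ∧
      ∀ S : P002R.Mat r ℂ, (∀ H, trace (S * D H) = 0) → CommBlk J Y b (S * bv J b Y) := by
  have hp : ∀ k : Var g n,
      HasStrictFDerivAt (fun Y : Var g n → P002R.Mat r ℂ => Y k)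
        (ContinuousLinearMap.proj k : (Var g n → P002R.Mat r ℂ) →L[ℂ] P002R.Mat r ℂ) Y :=
    fun k => (ContinuousLinearMap.proj k :
      (Var g n → P002R.Mat r ℂ) →L[ℂ] P002R.Mat r ℂ).hasStrictFDerivAt
  cases b with
  | inl j =>
    obtain ⟨D1, h1, e1⟩ := exists_deriv_inv (hp (Sum.inr j)) (hY _)
    obtain ⟨D2, h2, e2⟩ := exists_deriv_mul (hp (Sum.inr j))
      (hasStrictFDerivAt_const (J j) Y)
    obtain ⟨D3, h3, e3⟩ := exists_deriv_mul h2 h1
    refine ⟨D3, h3, fun S hS => ?_⟩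
    have hud : IsUnit (Y (Sum.inr j)).det := (Matrix.isUnit_iff_isUnit_det _).1 (hY _)
    have a1 : Y (Sum.inr j) * (Y (Sum.inr j))⁻¹ = 1 := Matrix.mul_nonsing_inv _ hud
    have a2 : (Y (Sum.inr j))⁻¹ * Y (Sum.inr j) = 1 := Matrix.nonsing_inv_mul _ hud
    have key : J j * (Y (Sum.inr j))⁻¹ * S =
        (Y (Sum.inr j))⁻¹ * S * Y (Sum.inr j) * J j * (Y (Sum.inr j))⁻¹ := by
      refine eq_of_trace_eq fun H => ?_
      obtain ⟨Z, hZ⟩ : ∃ Z : Var g n → P002R.Mat r ℂ, ∀ k, Z (Sum.inr k) = H :=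
        ⟨fun _ => H, fun _ => rfl⟩
      have eqn : D3 Z = (Z (Sum.inr j) * J j + Y (Sum.inr j) * 0) * (Y (Sum.inr j))⁻¹ +
          Y (Sum.inr j) * J j * -((Y (Sum.inr j))⁻¹ * Z (Sum.inr j) * (Y (Sum.inr j))⁻¹) :=
        (e3 Z).trans (congrArg₂ (fun M N => M + N)
          (congrArg (fun M => M * (Y (Sum.inr j))⁻¹) (e2 Z))
          (congrArg (fun M => Y (Sum.inr j) * J j * M) (e1 Z)))
      have h0 := (congrArg (fun M => trace (S * M)) eqn).symm.trans (hS Z)
      simp only [hZ] at h0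
      have e : S * ((H * J j + Y (Sum.inr j) * 0) * (Y (Sum.inr j))⁻¹ +
          Y (Sum.inr j) * J j * -((Y (Sum.inr j))⁻¹ * H * (Y (Sum.inr j))⁻¹)) =
          (S * H) * (J j * (Y (Sum.inr j))⁻¹) -
            (S * Y (Sum.inr j) * J j * (Y (Sum.inr j))⁻¹ * H) * (Y (Sum.inr j))⁻¹ := by
        noncomm_ring
      rw [e, trace_sub, Matrix.trace_mul_comm (S * H),
        Matrix.trace_mul_comm (S * Y (Sum.inr j) * J j * (Y (Sum.inr j))⁻¹ * H),
        sub_eq_zero] at h0
      simpa only [Matrix.mul_assoc] using h0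
    have key2 : bv J (Sum.inl j : Fin n ⊕ Fin g) Y * S = S * bv J (Sum.inl j : Fin n ⊕ Fin g) Y := by
      show Y (Sum.inr j) * J j * (Y (Sum.inr j))⁻¹ * S = S * (Y (Sum.inr j) * J j * (Y (Sum.inr j))⁻¹)
      calc Y (Sum.inr j) * J j * (Y (Sum.inr j))⁻¹ * S
          = Y (Sum.inr j) * (J j * (Y (Sum.inr j))⁻¹ * S) := by simp only [Matrix.mul_assoc]
        _ = Y (Sum.inr j) * (Y (Sum.inr j))⁻¹ * (S * (Y (Sum.inr j) * J j *
              (Y (Sum.inr j))⁻¹)) := by rw [key]; simp only [Matrix.mul_assoc]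
        _ = _ := by rw [a1, Matrix.one_mul]
    show Commute (S * bv J (Sum.inl j : Fin n ⊕ Fin g) Y) (bv J (Sum.inl j : Fin n ⊕ Fin g) Y)
    exact Commute.mul_left key2.symm (Commute.refl _)
  | inr i =>
    obtain ⟨D1, h1, e1⟩ := exists_deriv_cm (hp (Sum.inl (i, false))) (hp (Sum.inl (i, true)))
      (hY _) (hY _)
    refine ⟨D1, h1, fun S hS => ?_⟩
    refine commute_of_trace (hY _) (hY _) fun H K => ?_
    obtain ⟨Z, hZ⟩ : ∃ Z : Var g n → P002R.Mat r ℂ, Z = fun k => match k with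
        | Sum.inl (_, b) => if b then K else H
        | Sum.inr _ => 0 := ⟨_, rfl⟩
    have hZ0 : Z (Sum.inl (i, false)) = H := by rw [hZ]; rfl
    have hZ1 : Z (Sum.inl (i, true)) = K := by rw [hZ]; rfl
    have h2 : trace (S * (Z (Sum.inl (i, false)) * Y (Sum.inl (i, true)) *
        (Y (Sum.inl (i, false)))⁻¹ * (Y (Sum.inl (i, true)))⁻¹ +
        Y (Sum.inl (i, false)) * Z (Sum.inl (i, true)) * (Y (Sum.inl (i, false)))⁻¹ *
          (Y (Sum.inl (i, true)))⁻¹ -
        Y (Sum.inl (i, false)) * Y (Sum.inl (i, true)) * (Y (Sum.inl (i, false)))⁻¹ *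
          Z (Sum.inl (i, false)) * (Y (Sum.inl (i, false)))⁻¹ * (Y (Sum.inl (i, true)))⁻¹ -
        Y (Sum.inl (i, false)) * Y (Sum.inl (i, true)) * (Y (Sum.inl (i, false)))⁻¹ *
          (Y (Sum.inl (i, true)))⁻¹ * Z (Sum.inl (i, true)) * (Y (Sum.inl (i, true)))⁻¹)) = 0 :=
      (congrArg (fun M => trace (S * M)) (e1 Z)).symm.trans (hS Z)
    rw [hZ0, hZ1] at h2
    exact h2

/-- The derivative of the relation in the direction of one block. -/
theorem deriv_block {J : Fin n → P002R.Mat r ℂ} {Y : Var g n → P002R.Mat r ℂ}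
    {D : (Var g n → P002R.Mat r ℂ) →L[ℂ] P002R.Mat r ℂ}
    (hD : HasStrictFDerivAt (fun Y : Var g n → P002R.Mat r ℂ => relM (extV J Y)) D Y)
    (b : Fin n ⊕ Fin g) {Db : (Var g n → P002R.Mat r ℂ) →L[ℂ] P002R.Mat r ℂ}
    (hDb : HasStrictFDerivAt (bv J b) Db Y) (l₁ l₂ : List (Fin n ⊕ Fin g))
    (hl : bl g n = l₁ ++ b :: l₂) (H : Var g n → P002R.Mat r ℂ) :
    D (prj b H) = (l₁.map fun b => bv J b Y).prod * Db H * (l₂.map fun b => bv J b Y).prod := by
  have hnd : (l₁ ++ b :: l₂).Nodup := hl ▸ nodup_bl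
  have hb1 : ∀ b' ∈ l₁, b' ≠ b := by
    intro b' hb' h
    rw [List.nodup_append] at hnd
    exact hnd.2.2 b' hb' b List.mem_cons_self h
  have hb2 : ∀ b' ∈ l₂, b' ≠ b := by
    intro b' hb' h
    rw [List.nodup_append, List.nodup_cons] at hnd
    exact hnd.2.1.1 (h ▸ hb')
  have hprod : ∀ l : List (Fin n ⊕ Fin g), (∀ b' ∈ l, b' ≠ b) → ∀ H : Var g n → P002R.Mat r ℂ,
      (l.map fun b' => bv J b' (Y + prj b H)).prod = (l.map fun b' => bv J b' Y).prod := by
    intro l hl H
    congr 1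
    refine List.map_congr_left fun b' hb' => bv_congr J b' fun k hk => ?_
    rw [Pi.add_apply, prj_apply, if_neg, add_zero]
    rw [hk]
    exact hl b' hb'
  have hfun : ∀ H : Var g n → P002R.Mat r ℂ, relM (extV J (Y + prj b H)) =
      (l₁.map fun b => bv J b Y).prod * bv J b (Y + H) * (l₂.map fun b => bv J b Y).prod := by
    intro H
    rw [relM_extV, hl, List.map_append, List.prod_append, List.map_cons, List.prod_cons,
      hprod l₁ hb1, hprod l₂ hb2, ← Matrix.mul_assoc]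
    congr 2
    refine bv_congr J b fun k hk => ?_
    rw [Pi.add_apply, Pi.add_apply, prj_apply, if_pos hk]
  -- the derivatives
  have e1 : HasFDerivAt (fun H : Var g n → P002R.Mat r ℂ => relM (extV J (Y + prj b H)))
      (D.comp (LinearMap.toContinuousLinearMap (prj b))) 0 := by
    have hD' : HasFDerivAt (fun Y : Var g n → P002R.Mat r ℂ => relM (extV J Y)) D
        (Y + (LinearMap.toContinuousLinearMap (prj b :
          (Var g n → P002R.Mat r ℂ) →ₗ[ℂ] _)) 0) := by
      rw [map_zero, add_zero]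
      exact hD.hasFDerivAt
    exact hD'.comp 0 ((LinearMap.toContinuousLinearMap (prj b :
      (Var g n → P002R.Mat r ℂ) →ₗ[ℂ] _)).hasFDerivAt.const_add Y)
  have e2 : HasFDerivAt (fun H : Var g n → P002R.Mat r ℂ =>
      (l₁.map fun b => bv J b Y).prod * bv J b (Y + H) * (l₂.map fun b => bv J b Y).prod)
      ((ContinuousLinearMap.mulLeftRight ℂ (P002R.Mat r ℂ) (l₁.map fun b => bv J b Y).prod
        (l₂.map fun b => bv J b Y).prod).comp Db) 0 := by
    have hDb' : HasFDerivAt (bv J b) Db (Y + 0) := by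
      rw [add_zero]; exact hDb.hasFDerivAt
    have h3 := hDb'.comp (0 : Var g n → P002R.Mat r ℂ) ((hasFDerivAt_id _).const_add Y)
    exact (ContinuousLinearMap.mulLeftRight ℂ (P002R.Mat r ℂ) (l₁.map fun b => bv J b Y).prod
        (l₂.map fun b => bv J b Y).prod).hasFDerivAt.comp 0 h3
  have e3 : (fun H : Var g n → P002R.Mat r ℂ => relM (extV J (Y + prj b H))) =
      (fun H : Var g n → P002R.Mat r ℂ =>
        (l₁.map fun b => bv J b Y).prod * bv J b (Y + H) * (l₂.map fun b => bv J b Y).prod) :=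
    funext hfun
  rw [e3] at e1
  have e4 := e1.unique e2
  exact congrArg (fun L : (Var g n → P002R.Mat r ℂ) →L[ℂ] P002R.Mat r ℂ => L H) e4

/-- A matrix which is orthogonal to the image of the derivative commutes with everything. -/
theorem comm_of_orth {J : Fin n → P002R.Mat r ℂ} (hJ : ∀ j, IsUnit (J j))
    {Y : Var g n → P002R.Mat r ℂ} (hY : ∀ k, IsUnit (Y k)) (hrel : relM (extV J Y) = 1)
    {D : (Var g n → P002R.Mat r ℂ) →L[ℂ] P002R.Mat r ℂ}
    (hD : HasStrictFDerivAt (fun Y : Var g n → P002R.Mat r ℂ => relM (extV J Y)) D Y)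
    (N : P002R.Mat r ℂ) (hN : ∀ H, trace (N * D H) = 0) (b : Fin n ⊕ Fin g) :
    CommBlk J Y b N := by
  have key : ∀ l₁ l₂ : List (Fin n ⊕ Fin g), bl g n = l₁ ++ l₂ →
      Commute N (l₁.map fun b => bv J b Y).prod ∧ ∀ b ∈ l₁, CommBlk J Y b N := by
    intro l₁
    induction l₁ using List.reverseRecOn with
    | nil => exact fun l₂ _ => ⟨by simp, by simp⟩
    | append_singleton l b ih =>
      intro l₂ hl
      have hl' : bl g n = l ++ b :: l₂ := by simpa using hl
      obtain ⟨h1, h2⟩ := ih (b :: l₂) hl'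
      obtain ⟨Db, hDb, hkill⟩ := exists_block_deriv b hY
      obtain ⟨P, hP⟩ : ∃ P, P = (l.map fun b => bv J b Y).prod := ⟨_, rfl⟩
      obtain ⟨Q, hQ⟩ : ∃ Q, Q = (l₂.map fun b => bv J b Y).prod := ⟨_, rfl⟩
      have hS : ∀ H, trace (Q * N * P * Db H) = 0 := by
        intro H
        have h3 := hN (prj b H)
        rw [deriv_block hD b hDb l l₂ hl' H, ← hP, ← hQ] at h3
        rw [← h3, ← Matrix.mul_assoc, ← Matrix.mul_assoc, Matrix.trace_mul_comm _ Q]
        simp only [Matrix.mul_assoc]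
      have hPFQ : P * bv J b Y * Q = 1 := by
        rw [← hrel, relM_extV, hl', List.map_append, List.prod_append, List.map_cons,
          List.prod_cons, ← hP, ← hQ, Matrix.mul_assoc]
      have hk := hkill _ hS
      have hc := hk.comm hY
      rw [← hP] at h1
      have hPu : IsUnit P := hP ▸ isUnit_prod hJ hY l
      have hFu : IsUnit (bv J b Y) := isUnit_bv hJ b hY
      have hT : Q * N * P * bv J b Y = N := by
        have e1 : P * (bv J b Y * (Q * N * P * bv J b Y)) = P * (N * bv J b Y) := by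
          calc P * (bv J b Y * (Q * N * P * bv J b Y))
              = (P * bv J b Y * Q) * (N * P) * bv J b Y := by simp only [Matrix.mul_assoc]
            _ = P * (N * bv J b Y) := by
                rw [hPFQ, Matrix.one_mul, h1.eq, Matrix.mul_assoc]
        have e2 := hPu.mul_left_cancel e1
        rw [← hc.eq] at e2
        exact hFu.mul_right_cancel e2
      rw [hT] at hk hc
      refine ⟨?_, ?_⟩
      · rw [List.map_append, List.prod_append, ← hP]
        simp only [List.map_cons, List.map_nil, List.prod_cons, List.prod_nil, mul_one]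
        exact h1.mul_right hc
      · intro b' hb'
        rcases List.mem_append.1 hb' with h | h
        · exact h2 b' h
        · rw [List.mem_singleton] at h
          rw [h]
          exact hk
  exact (key (bl g n) [] (by simp)).2 b (mem_bl b)

end normed

/-- Variations of one handle. -/
def inc (n : ℕ) (i : Fin g) : (Bool → P002R.Mat r ℂ) →ₗ[ℂ] (Var g n → P002R.Mat r ℂ) where
  toFun u k := match k with
    | Sum.inl (i', b) => if i' = i then u b else 0
    | Sum.inr _ => 0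
  map_add' u v := by
    funext k
    rcases k with ⟨i', b⟩ | j
    · simp only [Pi.add_apply]
      split_ifs
      · rfl
      · rw [add_zero]
    · simp
  map_smul' c u := by
    funext k
    rcases k with ⟨i', b⟩ | j
    · simp only [Pi.smul_apply, RingHom.id_apply]
      split_ifs
      · rfl
      · rw [smul_zero]
    · simp

theorem inc_inl (i i' : Fin g) (b : Bool) (u : Bool → P002R.Mat r ℂ) :
    inc n i u (Sum.inl (i', b)) = if i' = i then u b else 0 := rfl

theorem inc_inr (i : Fin g) (j : Fin n) (u : Bool → P002R.Mat r ℂ) :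
    inc n i u (Sum.inr j) = 0 := rfl

theorem prj_inr (i : Fin g) (H : Var g n → P002R.Mat r ℂ) :
    prj (Sum.inr i) H = inc n i fun b => H (Sum.inl (i, b)) := by
  funext k
  rcases k with ⟨i', b⟩ | j
  · rw [prj_apply, inc_inl]
    by_cases h : i' = i
    · subst h; simp [blkOf]
    · rw [if_neg h, if_neg]
      intro h1
      exact h (Sum.inr_injective h1)
  · rw [prj_apply, inc_inr, if_neg]
    intro h1
    cases h1

section normed

open scoped Matrix.Norms.Operator

/-- The annihilator of the image of the variations of one handle. -/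
theorem finrank_ann_handle {J : Fin n → P002R.Mat r ℂ} (hJ : ∀ j, IsUnit (J j))
    {Y : Var g n → P002R.Mat r ℂ} (hY : ∀ k, IsUnit (Y k))
    {D : (Var g n → P002R.Mat r ℂ) →L[ℂ] P002R.Mat r ℂ}
    (hD : HasStrictFDerivAt (fun Y : Var g n → P002R.Mat r ℂ => relM (extV J Y)) D Y)
    (i : Fin g) (D' : (Var g n → P002R.Mat r ℂ) →ₗ[ℂ] P002R.Mat r ℂ) (hD' : ∀ H, D' H = D H) :
    finrank ℂ (annT (LinearMap.range (D'.comp (inc n i)))) ≤
      finrank ℂ (centr fun b : Bool => Y (Sum.inl (i, b))) := by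
  obtain ⟨l₁, l₂, hl⟩ := List.append_of_mem (mem_bl (n := n) (Sum.inr i : Fin n ⊕ Fin g))
  obtain ⟨Db, hDb, hkill⟩ := exists_block_deriv (J := J) (Sum.inr i : Fin n ⊕ Fin g) hY
  obtain ⟨P, hP⟩ : ∃ P, P = (l₁.map fun b => bv J b Y).prod := ⟨_, rfl⟩
  obtain ⟨Q, hQ⟩ : ∃ Q, Q = (l₂.map fun b => bv J b Y).prod := ⟨_, rfl⟩
  have hPu : IsUnit P := hP ▸ isUnit_prod hJ hY l₁
  have hQu : IsUnit Q := hQ ▸ isUnit_prod hJ hY l₂
  have hFu : IsUnit (bv J (Sum.inr i : Fin n ⊕ Fin g) Y) := isUnit_bv hJ _ hY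
  obtain ⟨Θ, hΘ⟩ : ∃ Θ : P002R.Mat r ℂ →ₗ[ℂ] P002R.Mat r ℂ,
      ∀ N, Θ N = Q * N * P * bv J (Sum.inr i : Fin n ⊕ Fin g) Y :=
    ⟨(LinearMap.mulRight ℂ (bv J (Sum.inr i : Fin n ⊕ Fin g) Y)).comp
      ((LinearMap.mulRight ℂ P).comp (LinearMap.mulLeft ℂ Q)), fun N => rfl⟩
  have hinj : Function.Injective Θ := by
    intro N N' h
    rw [hΘ, hΘ] at h
    exact hQu.mul_left_cancel (hPu.mul_right_cancel (hFu.mul_right_cancel h))
  rw [← finrank_map_inj Θ hinj]
  refine Submodule.finrank_mono ?_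
  rintro _ ⟨N, hN, rfl⟩
  have hS : ∀ H, trace (Q * N * P * Db H) = 0 := by
    intro H
    have h3 : trace (N * D (prj (Sum.inr i) H)) = 0 := by
      rw [prj_inr, ← hD']
      exact hN _ ⟨_, rfl⟩
    rw [deriv_block hD _ hDb l₁ l₂ hl H, ← hP, ← hQ] at h3
    rw [← h3, ← Matrix.mul_assoc, ← Matrix.mul_assoc, Matrix.trace_mul_comm _ Q]
    simp only [Matrix.mul_assoc]
  have hk := hkill _ hS
  rw [hΘ]
  intro b
  cases b with
  | false => exact hk.1
  | true => exact hk.2

/-- Two handles. -/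
theorem two_handles (hr : 1 ≤ r) {J : Fin n → P002R.Mat r ℂ} (hJ : ∀ j, IsUnit (J j))
    {Y : Var g n → P002R.Mat r ℂ} (hY : ∀ k, IsUnit (Y k))
    {D : (Var g n → P002R.Mat r ℂ) →L[ℂ] P002R.Mat r ℂ}
    (hD : HasStrictFDerivAt (fun Y : Var g n → P002R.Mat r ℂ => relM (extV J Y)) D Y)
    (hdet : ∀ᶠ Y' in nhds Y, (relM (extV J Y')).det = 1)
    (i j : Fin g) (D' : (Var g n → P002R.Mat r ℂ) →ₗ[ℂ] P002R.Mat r ℂ) (hD' : ∀ H, D' H = D H) :
    2 * (r * r) + 1 ≤ finrank ℂ ((LinearMap.range (D'.comp (inc n j))).comap (D'.comp (inc n i))) +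
      finrank ℂ (centr fun b : Bool => Y (Sum.inl (j, b))) := by
  have h1 := finrank_eq_map_add ((LinearMap.range (D'.comp (inc n j))).comap (D'.comp (inc n i)))
    (D'.comp (inc n i))
  rw [Submodule.map_comap_eq] at h1
  have h2 : ((LinearMap.range (D'.comp (inc n j))).comap (D'.comp (inc n i)) ⊓
      LinearMap.ker (D'.comp (inc n i)) : Submodule ℂ (Bool → P002R.Mat r ℂ)) =
        LinearMap.ker (D'.comp (inc n i)) := by
    refine inf_eq_right.2 fun x hx => ?_
    rw [Submodule.mem_comap, LinearMap.mem_ker.1 hx]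
    exact Submodule.zero_mem _
  rw [h2] at h1
  have h3 := LinearMap.finrank_range_add_finrank_ker (D'.comp (inc (r := r) n i))
  have h4 : finrank ℂ (Bool → P002R.Mat r ℂ) = 2 * (r * r) := by
    rw [Module.finrank_pi_fintype]
    simp [Module.finrank_matrix]
  rw [h4] at h3
  have h5 := Submodule.finrank_sup_add_finrank_inf_eq (LinearMap.range (D'.comp (inc n i)))
    (LinearMap.range (D'.comp (inc (r := r) n j)))
  have h6 : finrank ℂ (LinearMap.range (D'.comp (inc n i)) ⊔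
      LinearMap.range (D'.comp (inc n j)) : Submodule ℂ (P002R.Mat r ℂ)) < r * r := by
    have h7 : LinearMap.range (D'.comp (inc n i)) ⊔ LinearMap.range (D'.comp (inc n j)) ≤
        LinearMap.range D' := sup_le (LinearMap.range_comp_le_range _ _)
          (LinearMap.range_comp_le_range _ _)
    have h8 : LinearMap.range D' < ⊤ := by
      rw [lt_top_iff_ne_top]
      intro h9
      apply range_ne_top hr hD hdet
      rw [← h9]
      ext M
      constructor
      · rintro ⟨H, rfl⟩; exact ⟨H, hD' H⟩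
      · rintro ⟨H, rfl⟩; exact ⟨H, (hD' H).symm⟩
    have h10 := Submodule.finrank_lt_finrank_of_lt h8
    rw [finrank_top, Module.finrank_matrix, Fintype.card_fin, Module.finrank_self, mul_one] at h10
    exact (Submodule.finrank_mono h7).trans_lt h10
  have h11 : finrank ℂ (LinearMap.range (D'.comp (inc (r := r) n j))) +
      finrank ℂ (annT (LinearMap.range (D'.comp (inc (r := r) n j)))) = r * r := finrank_annT _
  have h12 := finrank_ann_handle hJ hY hD j D' hD'
  omega

theorem det_rel {J : Fin n → P002R.Mat r ℂ} {Y Y' : Var g n → P002R.Mat r ℂ}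
    (hY : ∀ k, IsUnit (Y k)) (hY' : ∀ k, IsUnit (Y' k)) :
    (relM (extV J Y)).det = (relM (extV J Y')).det := by
  have h1 : ∀ Z : Var g n → P002R.Mat r ℂ, (∀ k, IsUnit (Z k)) → (relM (extV J Z)).det =
      ((bl g n).map fun b => Sum.elim (fun j => (J j).det) (fun _ => (1 : ℂ)) b).prod := by
    intro Z hZ
    rw [relM_extV, ← Matrix.coe_detMonoidHom, map_list_prod, List.map_map]
    congr 1
    refine List.map_congr_left fun b _ => ?_
    rw [Function.comp_apply, Matrix.coe_detMonoidHom]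
    cases b with
    | inl j =>
      show (Z (Sum.inr j) * J j * (Z (Sum.inr j))⁻¹).det = (J j).det
      have hud : IsUnit (Z (Sum.inr j)).det := (Matrix.isUnit_iff_isUnit_det _).1 (hZ _)
      rw [det_mul, det_mul, det_nonsing_inv, mul_right_comm, Ring.mul_inverse_cancel _ hud,
        one_mul]
    | inr i => exact det_cm (hZ _) (hZ _)
  rw [h1 Y hY, h1 Y' hY']

theorem one_mem_centr {κ : Type*} (y : κ → P002R.Mat r ℂ) : (1 : P002R.Mat r ℂ) ∈ centr y :=
  fun _ => Commute.one_left _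

theorem finrank_centr_pos (hr : 1 ≤ r) {κ : Type*} (y : κ → P002R.Mat r ℂ) :
    1 ≤ finrank ℂ (centr y) := by
  have : Nonempty (Fin r) := ⟨⟨0, hr⟩⟩
  have h : 0 < finrank ℂ (centr y) := by
    rw [Module.finrank_pos_iff]
    refine ⟨⟨⟨1, one_mem_centr y⟩, 0, fun h => ?_⟩⟩
    exact one_ne_zero (congrArg Subtype.val h)
  exact h

theorem finrank_centr_le_one {κ : Type*} (y : κ → P002R.Mat r ℂ)
    (h : ∀ N ∈ centr y, ∃ a : ℂ, N = a • (1 : P002R.Mat r ℂ)) : finrank ℂ (centr y) ≤ 1 := by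
  have h1 : centr y ≤ Submodule.span ℂ {(1 : P002R.Mat r ℂ)} := by
    intro N hN
    obtain ⟨a, ha⟩ := h N hN
    rw [ha]
    exact Submodule.smul_mem _ _ (Submodule.mem_span_singleton_self _)
  refine (Submodule.finrank_mono h1).trans ((finrank_span_le_card _).trans ?_)
  simp

theorem continuous_extV (J : Fin n → P002R.Mat r ℂ) :
    Continuous (extV (g := g) J) := by
  refine continuous_pi fun k => ?_
  rcases k with k | ⟨j, b⟩
  · exact continuous_apply (Sum.inl k : Var g n)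
  · cases b with
    | false => exact continuous_apply (Sum.inr j : Var g n)
    | true => exact continuous_const

theorem dense_handles_norm (hg : 2 ≤ g) (hr : 1 ≤ r) (X : Gen g n → P002R.Mat r ℂ)
    (hX : ∀ k, IsUnit (X k)) (hrel : relM X = 1)
    (hc : ∀ N : P002R.Mat r ℂ, (∀ k, Commute N (X (Sum.inl k))) →
      (∀ j, Commute N (X (Sum.inr (j, false)) * X (Sum.inr (j, true)) *
        (X (Sum.inr (j, false)))⁻¹)) → ∃ c : ℂ, N = c • (1 : P002R.Mat r ℂ))
    (U : Set (Gen g n → P002R.Mat r ℂ)) (hU : U ∈ nhds X) :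
    ∃ X' ∈ U, (∀ k, IsUnit (X' k)) ∧ (∀ j, X' (Sum.inr (j, true)) = X (Sum.inr (j, true))) ∧
      relM X' = 1 ∧ ∀ i : Fin g, ∀ N : P002R.Mat r ℂ, Commute N (X' (Sum.inl (i, false))) →
        Commute N (X' (Sum.inl (i, true))) → ∃ c : ℂ, N = c • (1 : P002R.Mat r ℂ) := by
  classical
  obtain ⟨J, hJ⟩ : ∃ J : Fin n → P002R.Mat r ℂ, ∀ j, J j = X (Sum.inr (j, true)) :=
    ⟨_, fun _ => rfl⟩
  have hJu : ∀ j, IsUnit (J j) := fun j => by rw [hJ]; exact hX _
  obtain ⟨Y₀, hY₀⟩ : ∃ Y₀ : Var g n → P002R.Mat r ℂ, extV J Y₀ = X := by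
    refine ⟨fun k => match k with
      | Sum.inl k => X (Sum.inl k)
      | Sum.inr j => X (Sum.inr (j, false)), ?_⟩
    funext k
    rcases k with k | ⟨j, b⟩
    · rfl
    · cases b with
      | false => rfl
      | true => exact hJ j
  have hY₀u : ∀ k, IsUnit (Y₀ k) := by
    intro k
    rcases k with k | j
    · have := hX (Sum.inl k); rw [← hY₀] at this; exact this
    · have := hX (Sum.inr (j, false)); rw [← hY₀] at this; exact this
  have hrel₀ : relM (extV J Y₀) = 1 := by rw [hY₀]; exact hrel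
  obtain ⟨K₀, hK₀, hK₀J⟩ := exists_countable_subfield'
    (Set.range fun p : Fin n × Fin r × Fin r => J p.1 p.2.1 p.2.2) (Set.countable_range _)
  have hJK : ∀ j a b, J j a b ∈ K₀ := fun j a b => hK₀J ⟨(j, a, b), rfl⟩
  have hdet : ∀ Y : Var g n → P002R.Mat r ℂ, (∀ k, IsUnit (Y k)) →
      (relM (extV J Y)).det = 1 := by
    intro Y hY
    rw [det_rel hY hY₀u, hrel₀, det_one]
  have hUn : ∀ Y : Var g n → P002R.Mat r ℂ, (∀ k, IsUnit (Y k)) →
      {Y : Var g n → P002R.Mat r ℂ | ∀ k, IsUnit (Y k)} ∈ nhds Y := by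
    intro Y hY
    have : {Y : Var g n → P002R.Mat r ℂ | ∀ k, IsUnit (Y k)} =
        ⋂ k, {Y : Var g n → P002R.Mat r ℂ | (Y k).det ≠ 0} := by
      ext Y
      simp only [Set.mem_ofPred_eq, Set.mem_iInter]
      exact forall_congr' fun k => by rw [Matrix.isUnit_iff_isUnit_det, isUnit_iff_ne_zero]
    rw [this]
    refine (isOpen_iInter_of_finite fun k => ?_).mem_nhds ?_
    · exact isOpen_ne.preimage (Continuous.matrix_det (continuous_apply k))
    · simp only [Set.mem_iInter, Set.mem_ofPred_eq]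
      intro k
      rw [← isUnit_iff_ne_zero, ← Matrix.isUnit_iff_isUnit_det]
      exact hY k
  have hU' : (extV J) ⁻¹' U ∈ nhds Y₀ := by
    apply (continuous_extV J).continuousAt
    rw [hY₀]
    exact hU
  obtain ⟨Y, hYU, hYu, hYrel, c, hgen⟩ := exists_generic_point_norm hr K₀ hK₀
    (fun Y : Var g n → P002R.Mat r ℂ => relM (extV J Y))
    (fun Y hY => good_rel K₀ hJK hY) hdet Y₀ hY₀u hrel₀
    (fun D hD N hN => by
      have h1 := comm_of_orth hJu hY₀u hrel₀ hD N hN
      refine hc N (fun k => ?_) fun j => ?_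
      · obtain ⟨i, b⟩ := k
        have h2 := h1 (Sum.inr i)
        rw [← hY₀]
        cases b with
        | false => exact h2.1
        | true => exact h2.2
      · have h2 := h1 (Sum.inl j)
        rw [← hY₀]
        exact h2)
    _ hU'
  refine ⟨extV J Y, hYU, ?_, fun j => hJ j, hYrel, ?_⟩
  · intro k
    rcases k with k | ⟨j, b⟩
    · exact hYu _
    · cases b with
      | false => exact hYu _
      | true => exact hJu j
  obtain ⟨D, hD, -⟩ := good_rel K₀ hJK hYu
  obtain ⟨D', hD'⟩ : ∃ D' : (Var g n → P002R.Mat r ℂ) →ₗ[ℂ] P002R.Mat r ℂ, ∀ H, D' H = D H :=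
    ⟨D.toLinearMap, fun _ => rfl⟩
  have hdetY : ∀ᶠ Y' in nhds Y, (relM (extV J Y')).det = 1 := by
    filter_upwards [hUn Y hYu] with Y' hY'
    exact hdet Y' hY'
  have key : ∀ i j : Fin g, i ≠ j →
      (∃ N ∈ centr fun b : Bool => Y (Sum.inl (i, b)), ∀ a : ℂ, N ≠ a • (1 : P002R.Mat r ℂ)) →
      finrank ℂ (centr fun b : Bool => Y (Sum.inl (i, b))) + 1 ≤
        finrank ℂ (centr fun b : Bool => Y (Sum.inl (j, b))) := by
    intro i j hij hN
    have h1 : finrank ℂ ((LinearMap.range (D'.comp (inc n j))).comap (D'.comp (inc n i))) +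
        finrank ℂ (centr fun b : Bool => Y (Sum.inl (i, b))) ≤ Fintype.card Bool * (r * r) := by
      refine count_main (κ := Bool) (by simp) (fun b => Y (Sum.inl (i, b))) c
        ((LinearMap.range (D'.comp (inc n j))).comap (D'.comp (inc n i))) ?_ hN
      intro u hu γ
      obtain ⟨v, hv⟩ := hu
      have hH : D' (inc n i u - inc n j v) = 0 := by
        rw [map_sub, sub_eq_zero]
        exact hv.symm
      rw [hD'] at hH
      obtain ⟨δ, hδ1, hδ2⟩ := hgen D hD _ hH γ
      refine ⟨δ, fun b a a' => ?_, hδ2⟩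
      rw [hδ1, Pi.sub_apply, inc_inl, inc_inl, if_pos rfl, if_neg hij, sub_zero]
    have h2 := two_handles hr hJu hYu hD hdetY i j D' hD'
    rw [Fintype.card_bool] at h1
    omega
  intro i N hN1 hN2
  by_contra hcon
  push Not at hcon
  obtain ⟨j, hij⟩ : ∃ j, i ≠ j := by
    by_cases h : i = ⟨0, by omega⟩
    · exact ⟨⟨1, by omega⟩, fun h2 => by rw [h] at h2; exact absurd (Fin.mk.inj h2) (by omega)⟩
    · exact ⟨_, h⟩
  have h1 := key i j hij ⟨N, fun b => by
    cases b with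
    | false => exact hN1
    | true => exact hN2, hcon⟩
  have h2 := finrank_centr_pos hr fun b : Bool => Y (Sum.inl (i, b))
  have h3 : ∃ N ∈ centr fun b : Bool => Y (Sum.inl (j, b)), ∀ a : ℂ,
      N ≠ a • (1 : P002R.Mat r ℂ) := by
    by_contra hcon2
    push Not at hcon2
    have h4 := finrank_centr_le_one _ hcon2
    omega
  have h5 := key j i hij.symm h3
  omega

end normed

/-- TASK N7 -/
theorem dense_handles (hg : 2 ≤ g) (hr : 1 ≤ r) (X : Gen g n → P002R.Mat r ℂ)
    (hX : ∀ k, IsUnit (X k)) (hrel : relM X = 1)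
    (hc : ∀ N : P002R.Mat r ℂ, (∀ k, Commute N (X (Sum.inl k))) →
      (∀ j, Commute N (X (Sum.inr (j, false)) * X (Sum.inr (j, true)) *
        (X (Sum.inr (j, false)))⁻¹)) → ∃ c : ℂ, N = c • (1 : P002R.Mat r ℂ))
    (U : Set (Gen g n → P002R.Mat r ℂ)) (hU : U ∈ nhds X) :
    ∃ X' ∈ U, (∀ k, IsUnit (X' k)) ∧ (∀ j, X' (Sum.inr (j, true)) = X (Sum.inr (j, true))) ∧
      relM X' = 1 ∧ ∀ i : Fin g, ∀ N : P002R.Mat r ℂ, Commute N (X' (Sum.inl (i, false))) →
        Commute N (X' (Sum.inl (i, true))) → ∃ c : ℂ, N = c • (1 : P002R.Mat r ℂ) :=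
  dense_handles_norm hg hr X hX hrel hc U hU

end Vale.Agent.P002R
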