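import Vale.Agent.P002R.RDefs
import Vale.Agent.P002.PM

namespace Vale.Agent.P002R

open Matrix

variable {r : ℕ}

/-! ### Sequences of powers -/

/-- If all power sums vanish then all sums with weights factoring through the values vanish. -/
theorem interp_zero {S : Type*} [Fintype S] (v w c : S → ℂ) (h : ∀ s s', v s = v s' → w s = w s')
    (hc : ∀ k : ℕ, ∑ s, c s * v s ^ k = 0) : ∑ s, c s * w s = 0 := by
  classical
  have hpoly : ∀ p : Polynomial ℂ, ∑ s, c s * p.eval (v s) = 0 := by
    intro p
    induction p using Polynomial.induction_on' with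
    | add p q hp hq =>
      simp only [Polynomial.eval_add, mul_add, Finset.sum_add_distrib, hp, hq, add_zero]
    | monomial k a =>
      simp only [Polynomial.eval_monomial]
      have : ∀ s, c s * (a * v s ^ k) = a * (c s * v s ^ k) := fun s => by ring
      simp only [this]
      rw [← Finset.mul_sum, hc, mul_zero]
  -- interpolation
  let T : Finset ℂ := Finset.univ.image v
  let W : ℂ → ℂ := fun x => if hx : ∃ s, v s = x then w hx.choose else 0
  have hW : ∀ s, W (v s) = w s := by
    intro s
    have hx : ∃ s', v s' = v s := ⟨s, rfl⟩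
    simp only [W, dif_pos hx]
    exact h _ _ hx.choose_spec
  let p : Polynomial ℂ := Lagrange.interpolate T id W
  have hp : ∀ s, p.eval (v s) = w s := by
    intro s
    have hs : v s ∈ T := Finset.mem_image_of_mem _ (Finset.mem_univ _)
    have h1 := Lagrange.eval_interpolate_at_node (s := T) (v := id) W
      (Function.injective_id.injOn) hs
    rw [← hW s]
    exact h1
  have := hpoly p
  simpa only [hp] using this

/-- Linear independence of the sequences `α ^ k` and `k α ^ k`. -/
theorem confluent_zero {S : Type*} [Fintype S] [DecidableEq S] (α c e : S → ℂ)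
    (hα : Function.Injective α) (h0 : ∀ s, α s ≠ 0)
    (h : ∀ k : ℕ, ∑ s, (c s * α s ^ k + e s * (k * α s ^ k)) = 0) : ∀ s, e s = 0 := by
  have hpoly : ∀ p : Polynomial ℂ,
      ∑ s, (c s * p.eval (α s) + e s * (α s * p.derivative.eval (α s))) = 0 := by
    intro p
    induction p using Polynomial.induction_on' with
    | add p q hp hq =>
      have : ∀ s, c s * (p + q).eval (α s) + e s * (α s * (p + q).derivative.eval (α s)) =
          (c s * p.eval (α s) + e s * (α s * p.derivative.eval (α s))) +
          (c s * q.eval (α s) + e s * (α s * q.derivative.eval (α s))) := by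
        intro s
        simp only [Polynomial.derivative_add, Polynomial.eval_add]
        ring
      simp only [this, Finset.sum_add_distrib, hp, hq, add_zero]
    | monomial k a =>
      have : ∀ s, c s * (Polynomial.monomial k a).eval (α s) +
          e s * (α s * (Polynomial.monomial k a).derivative.eval (α s)) =
          a * (c s * α s ^ k + e s * (k * α s ^ k)) := by
        intro s
        simp only [Polynomial.derivative_monomial, Polynomial.eval_monomial]
        rcases k with _ | k
        · simp; ring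
        · simp only [Nat.add_sub_cancel, pow_succ]
          ring
      simp only [this, ← Finset.mul_sum, h, mul_zero]
  intro s
  let p : Polynomial ℂ := (Polynomial.X - Polynomial.C (α s)) *
    (∏ i ∈ Finset.univ.erase s, (Polynomial.X - Polynomial.C (α i))) ^ 2
  have h1 := hpoly p
  have hval : ∀ i, p.eval (α i) = 0 := by
    intro i
    by_cases hi : i = s
    · subst hi; simp [p]
    · have : (∏ i ∈ Finset.univ.erase s, (Polynomial.X - Polynomial.C (α i))).eval (α i) = 0 := by
        rw [Polynomial.eval_prod]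
        apply Finset.prod_eq_zero (i := i)
        · simp [hi]
        · simp
      simp only [p, Polynomial.eval_mul, Polynomial.eval_pow, this]
      simp
  have hder : ∀ i, i ≠ s → p.derivative.eval (α i) = 0 := by
    intro i hi
    have : (∏ i ∈ Finset.univ.erase s, (Polynomial.X - Polynomial.C (α i))).eval (α i) = 0 := by
      rw [Polynomial.eval_prod]
      apply Finset.prod_eq_zero (i := i)
      · simp [hi]
      · simp
    simp only [p, Polynomial.derivative_mul, Polynomial.derivative_pow, Polynomial.eval_add,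
      Polynomial.eval_mul, Polynomial.eval_pow, this]
    simp
  have hders : p.derivative.eval (α s) =
      ((∏ i ∈ Finset.univ.erase s, (Polynomial.X - Polynomial.C (α i))).eval (α s)) ^ 2 := by
    simp only [p, Polynomial.derivative_mul, Polynomial.eval_add, Polynomial.eval_mul,
      Polynomial.eval_pow]
    simp
  rw [Finset.sum_eq_single s] at h1
  · rw [hval, hders, mul_zero, zero_add] at h1
    rcases mul_eq_zero.1 h1 with h2 | h2
    · exact h2
    · exfalso
      rcases mul_eq_zero.1 h2 with h3 | h3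
      · exact h0 s h3
      · have h4 := pow_eq_zero_iff (two_ne_zero) |>.1 h3
        rw [Polynomial.eval_prod, Finset.prod_eq_zero_iff] at h4
        obtain ⟨i, hi, h5⟩ := h4
        simp only [Polynomial.eval_sub, Polynomial.eval_X, Polynomial.eval_C, sub_eq_zero] at h5
        exact (Finset.ne_of_mem_erase hi) (hα h5).symm
  · intro i _ hi
    rw [hval, hder i hi]; ring
  · intro hs; exact absurd (Finset.mem_univ s) hs

theorem Reg3.inj {α : Fin r → ℂ} (h : Reg3 α) : Function.Injective α := by
  intro i j hij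
  have := h.2 {i, i, i} {j, j, j} (by simp) (by simp) (by simp [hij])
  have hi : i ∈ ({j, j, j} : Multiset (Fin r)) := by rw [← this]; simp
  simpa using hi

theorem Reg3.triple {α : Fin r → ℂ} (h : Reg3 α) (i j k i' j' k' : Fin r)
    (he : α i * α j * α k = α i' * α j' * α k') (d : Fin r → ℂ) :
    d i * d j * d k = d i' * d j' * d k' := by
  have h1 := h.2 {i, j, k} {i', j', k'} (by simp) (by simp)
    (by simp only [Multiset.insert_eq_cons, Multiset.map_cons, Multiset.prod_cons,
          Multiset.map_singleton, Multiset.prod_singleton]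
        linear_combination he)
  have h2 := congrArg (fun s : Multiset (Fin r) => (s.map d).prod) h1
  simp only [Multiset.insert_eq_cons, Multiset.map_cons, Multiset.prod_cons,
          Multiset.map_singleton, Multiset.prod_singleton] at h2
  linear_combination h2

theorem Reg3.pair {α : Fin r → ℂ} (h : Reg3 α) (i j i' j' : Fin r)
    (he : α i * α j = α i' * α j') (d : Fin r → ℂ) :
    d i * d j = d i' * d j' := by
  have h1 := h.triple i j i i' j' i (by rw [he]) (fun k => d k)
  -- use the weights `d + t` to cancel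
  have h2 := h.2 {i, j, i} {i', j', i} (by simp) (by simp)
    (by simp only [Multiset.insert_eq_cons, Multiset.map_cons, Multiset.prod_cons,
          Multiset.map_singleton, Multiset.prod_singleton]
        linear_combination (α i) * he)
  have h3 : ({i, j} : Multiset (Fin r)) = {i', j'} := by
    have e1 : ({i, j, i} : Multiset (Fin r)) = i ::ₘ {i, j} := by
      change i ::ₘ ({j, i} : Multiset (Fin r)) = i ::ₘ ({i, j} : Multiset (Fin r))
      rw [Multiset.pair_comm]
    have e2 : ({i', j', i} : Multiset (Fin r)) = i ::ₘ {i', j'} := by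
      change i' ::ₘ ({j', i} : Multiset (Fin r)) = i ::ₘ (i' ::ₘ {j'})
      rw [Multiset.pair_comm, Multiset.cons_swap i i']
      rfl
    rw [e1, e2] at h2
    exact (Multiset.cons_inj_right i).1 h2
  have h4 := congrArg (fun s : Multiset (Fin r) => (s.map d).prod) h3
  simpa using h4

/-! ### Cocycles -/

section cocycle

variable {L : Type*} (P : L → (Mat r ℂ)ˣ) (A : (Mat r ℂ)ˣ)

/-- The inverse as a matrix. -/
noncomputable abbrev iv (x : (Mat r ℂ)ˣ) : Mat r ℂ := ((x⁻¹ : (Mat r ℂ)ˣ) : Mat r ℂ)

theorem wP_append (p p' : List L) : wP P (p ++ p') = wP P p * wP P p' := by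
  induction p with
  | nil => simp [wP]
  | cons q p ih => rw [List.cons_append, wP, wP, ih, mul_assoc]

theorem theta_append (R : L → Mat r ℂ) (p p' : List L) :
    theta P R (p ++ p') = theta P R p + (wP P p : Mat r ℂ) * theta P R p' * iv (wP P p) := by
  induction p with
  | nil => simp [wP, theta, iv]
  | cons q p ih =>
    rw [List.cons_append, theta, theta, ih, wP]
    simp only [iv, _root_.mul_inv_rev, Units.val_mul, mul_add, add_mul, mul_assoc, add_assoc]

theorem theta_sub (R R' : L → Mat r ℂ) (p : List L) :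
    theta P (fun q => R q - R' q) p = theta P R p - theta P R' p := by
  induction p with
  | nil => simp [theta]
  | cons q p ih =>
    rw [theta, theta, theta, ih, mul_sub, sub_mul]
    abel

theorem theta_cob (w : Mat r ℂ) (p : List L) :
    theta P (fun q => w - (P q : Mat r ℂ) * w * iv (P q)) p =
      w - (wP P p : Mat r ℂ) * w * iv (wP P p) := by
  induction p with
  | nil => simp [theta, wP, iv]
  | cons q p ih =>
    rw [theta, ih, wP]
    simp only [iv, _root_.mul_inv_rev, Units.val_mul, mul_sub, sub_mul, mul_assoc]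
    abel

theorem trace_cob (w : Mat r ℂ) (T : (Mat r ℂ)ˣ) (k : ℕ) :
    trace ((iv A * w * (A : Mat r ℂ) - (T : Mat r ℂ) * w * iv T) *
      ((T * A : (Mat r ℂ)ˣ) : Mat r ℂ) ^ k) = 0 := by
  have h1 : ∀ k : ℕ, (A : Mat r ℂ) * ((T * A : (Mat r ℂ)ˣ) : Mat r ℂ) ^ k =
      ((A * T : (Mat r ℂ)ˣ) : Mat r ℂ) ^ k * (A : Mat r ℂ) := by
    intro k
    induction k with
    | zero => simp
    | succ k ih =>
      rw [pow_succ, ← mul_assoc, ih, pow_succ]
      simp only [Units.val_mul, mul_assoc]
  have h2 : ∀ k : ℕ, ((T * A : (Mat r ℂ)ˣ) : Mat r ℂ) ^ k * (T : Mat r ℂ) =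
      (T : Mat r ℂ) * ((A * T : (Mat r ℂ)ˣ) : Mat r ℂ) ^ k := by
    intro k
    induction k with
    | zero => simp
    | succ k ih =>
      rw [pow_succ', pow_succ', mul_assoc, ih]
      simp only [Units.val_mul, mul_assoc]
  rw [sub_mul, trace_sub, mul_assoc (iv A * w), h1, mul_assoc ((T : Mat r ℂ) * w),
    mul_assoc (iv A), Matrix.trace_mul_comm (iv A), mul_assoc w,
    mul_assoc (((A * T : (Mat r ℂ)ˣ) : Mat r ℂ) ^ k)]
  have h3 : (A : Mat r ℂ) * iv A = 1 := A.mul_inv
  rw [← mul_assoc w (((A * T : (Mat r ℂ)ˣ) : Mat r ℂ) ^ k), h3, mul_one]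
  rw [mul_assoc (T : Mat r ℂ) w, Matrix.trace_mul_comm (T : Mat r ℂ), mul_assoc w, mul_assoc (iv T),
    h2, ← mul_assoc (iv T)]
  have h4 : iv T * (T : Mat r ℂ) = 1 := T.inv_mul
  rw [h4, one_mul, sub_self]

end cocycle

theorem trace1 (X : Mat r ℂ) (d : Fin r → ℂ) : trace (X * diagonal d) = ∑ i, X i i * d i := by
  simp [trace, mul_diagonal]

theorem trace2 (X B : Mat r ℂ) (d : Fin r → ℂ) : trace (X * diagonal d * (B * diagonal d)) =
    ∑ p : Fin r × Fin r, (X p.2 p.1 * B p.1 p.2) * (d p.1 * d p.2) := by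
  rw [Fintype.sum_prod_type, Finset.sum_comm]
  simp only [trace, Matrix.diag_apply]
  apply Finset.sum_congr rfl
  intro j _
  rw [mul_apply]
  apply Finset.sum_congr rfl
  intro i _
  rw [mul_diagonal, mul_diagonal]
  ring

theorem trace3 (X B : Mat r ℂ) (d : Fin r → ℂ) :
    trace (X * diagonal d * (B * diagonal d) * (B * diagonal d)) =
    ∑ p : Fin r × Fin r × Fin r, (X p.2.2 p.1 * B p.1 p.2.1 * B p.2.1 p.2.2) *
      (d p.1 * d p.2.1 * d p.2.2) := by
  rw [Fintype.sum_prod_type]
  simp only [Fintype.sum_prod_type]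
  simp only [trace, Matrix.diag_apply]
  have h1 : ∀ k, (X * diagonal d * (B * diagonal d) * (B * diagonal d)) k k =
      ∑ j, ∑ i, (X k i * B i j * B j k) * (d i * d j * d k) := by
    intro k
    rw [mul_apply]
    apply Finset.sum_congr rfl
    intro j _
    rw [mul_apply, mul_diagonal, Finset.sum_mul]
    apply Finset.sum_congr rfl
    intro i _
    rw [mul_diagonal, mul_diagonal]
    ring
  simp only [h1]
  rw [Finset.sum_comm]
  have h2 : ∀ j, ∑ k, ∑ i, (X k i * B i j * B j k) * (d i * d j * d k) =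
      ∑ i, ∑ k, (X k i * B i j * B j k) * (d i * d j * d k) := fun j => Finset.sum_comm
  simp only [h2]
  rw [Finset.sum_comm]

/-- The dual lemma when the matrix of `q₀` is diagonal. -/
theorem dual3_diag {L : Type*} (P : L → (Mat r ℂ)ˣ) (R : L → Mat r ℂ) (Q : Mat r ℂ)
    (A : (Mat r ℂ)ˣ) (q₀ : L) (α : Fin r → ℂ) (hα : Reg3 α)
    (hq₀ : (P q₀ : Mat r ℂ) = diagonal α) (hA : Gen3 (A : Mat r ℂ))
    (H : ∀ p : List L, ∀ k : ℕ, 1 ≤ k → k ≤ 3 →
      trace ((Q + theta P R p) * ((wP P p * A : (Mat r ℂ)ˣ) : Mat r ℂ) ^ k) = 0) :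
    ∃ η : Mat r ℂ, (∀ q, R q = η - (P q : Mat r ℂ) * η * iv (P q)) ∧
      Q = iv A * η * (A : Mat r ℂ) - η := by
  classical
  have hinj := hα.inj
  have h0 := hα.1
  -- subtracting a coboundary
  have hsub : ∀ (R : L → Mat r ℂ) (Q w : Mat r ℂ), (∀ p : List L, ∀ k : ℕ, 1 ≤ k → k ≤ 3 →
      trace ((Q + theta P R p) * ((wP P p * A : (Mat r ℂ)ˣ) : Mat r ℂ) ^ k) = 0) →
      ∀ p : List L, ∀ k : ℕ, 1 ≤ k → k ≤ 3 →
      trace (((Q - (iv A * w * (A : Mat r ℂ) - w)) +
        theta P (fun q => R q - (w - (P q : Mat r ℂ) * w * iv (P q))) p) *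
        ((wP P p * A : (Mat r ℂ)ˣ) : Mat r ℂ) ^ k) = 0 := by
    intro R Q w h p k h1 h2
    rw [theta_sub, theta_cob]
    have e : Q - (iv A * w * (A : Mat r ℂ) - w) + (theta P R p -
        (w - (wP P p : Mat r ℂ) * w * iv (wP P p))) = (Q + theta P R p) -
        (iv A * w * (A : Mat r ℂ) - (wP P p : Mat r ℂ) * w * iv (wP P p)) := by abel
    rw [e, sub_mul, trace_sub, h p k h1 h2, trace_cob, sub_self]
  have hiv : iv (P q₀) = diagonal fun i => (α i)⁻¹ := by
    have h1 : (P q₀ : Mat r ℂ) * (diagonal fun i => (α i)⁻¹) = 1 := by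
      rw [hq₀, diagonal_mul_diagonal]
      have : (fun i => α i * (α i)⁻¹) = fun _ => (1 : ℂ) := by
        funext i; exact mul_inv_cancel₀ (h0 i)
      rw [this, diagonal_one]
    have h2 : iv (P q₀) * (P q₀ : Mat r ℂ) = 1 := (P q₀).inv_mul
    calc iv (P q₀) = iv (P q₀) * ((P q₀ : Mat r ℂ) * (diagonal fun i => (α i)⁻¹)) := by
          rw [h1, mul_one]
      _ = diagonal fun i => (α i)⁻¹ := by rw [← mul_assoc, h2, one_mul]
  have hwP : ∀ k : ℕ, (wP P (List.replicate k q₀) : Mat r ℂ) = diagonal fun i => α i ^ k := by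
    intro k
    induction k with
    | zero => simp [wP]
    | succ k ih =>
      rw [List.replicate_succ, wP, Units.val_mul, ih, hq₀, diagonal_mul_diagonal]
      congr 1
      funext i
      rw [pow_succ']
  have hivP : ∀ k : ℕ, iv (wP P (List.replicate k q₀)) = diagonal fun i => (α i ^ k)⁻¹ := by
    intro k
    have h1 : (wP P (List.replicate k q₀) : Mat r ℂ) * (diagonal fun i => (α i ^ k)⁻¹) = 1 := by
      rw [hwP, diagonal_mul_diagonal]
      have : (fun i => α i ^ k * (α i ^ k)⁻¹) = fun _ => (1 : ℂ) := by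
        funext i; exact mul_inv_cancel₀ (pow_ne_zero _ (h0 i))
      rw [this, diagonal_one]
    have h2 : iv (wP P (List.replicate k q₀)) * (wP P (List.replicate k q₀) : Mat r ℂ) = 1 :=
      (wP P (List.replicate k q₀)).inv_mul
    calc iv (wP P (List.replicate k q₀)) = iv (wP P (List.replicate k q₀)) *
          ((wP P (List.replicate k q₀) : Mat r ℂ) * (diagonal fun i => (α i ^ k)⁻¹)) := by
          rw [h1, mul_one]
      _ = diagonal fun i => (α i ^ k)⁻¹ := by rw [← mul_assoc, h2, one_mul]
  -- step 1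
  obtain ⟨w, hw⟩ : ∃ w : Mat r ℂ, w = Matrix.of fun i j =>
    if i = j then 0 else R q₀ i j / (1 - α i * (α j)⁻¹) := ⟨_, rfl⟩
  obtain ⟨R1, hR1⟩ : ∃ R1 : L → Mat r ℂ, R1 = fun q => R q - (w - (P q : Mat r ℂ) * w * iv (P q)) :=
    ⟨_, rfl⟩
  obtain ⟨Q1, hQ1⟩ : ∃ Q1 : Mat r ℂ, Q1 = Q - (iv A * w * (A : Mat r ℂ) - w) := ⟨_, rfl⟩
  have H1 := hsub R Q w H
  rw [← hR1, ← hQ1] at H1
  have hR1d : R1 q₀ = diagonal fun i => R q₀ i i := by
    rw [hR1]
    simp only
    rw [hiv, hq₀]
    ext i j
    simp only [Matrix.sub_apply, mul_diagonal, diagonal_mul, hw, Matrix.of_apply]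
    by_cases hij : i = j
    · subst hij; simp
    · have hne : 1 - α i * (α j)⁻¹ ≠ 0 := by
        intro h
        apply hij
        apply hinj
        have h1 := h0 j
        field_simp at h
        linear_combination -h
      simp only [hij, if_false, diagonal_apply_ne _ hij]
      have hq := div_mul_cancel₀ (R q₀ i j) hne
      linear_combination -hq
  have hth : ∀ k : ℕ, theta P R1 (List.replicate k q₀) =
      (k : ℂ) • diagonal fun i => R q₀ i i := by
    intro k
    induction k with
    | zero => simp [theta]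
    | succ k ih =>
      rw [List.replicate_succ, theta, ih, hR1d]
      change _ + (P q₀ : Mat r ℂ) * _ * iv (P q₀) = _
      rw [hiv, hq₀]
      ext i j
      by_cases hij : i = j
      · subst hij
        simp only [Matrix.add_apply, mul_diagonal, diagonal_mul, Matrix.smul_apply,
          diagonal_apply_eq, smul_eq_mul]
        have := h0 i
        push_cast
        field_simp
        ring
      · simp [hij]
  have hρ : ∀ i, R q₀ i i = 0 := by
    have h1 := confluent_zero α (fun i => ((A : Mat r ℂ) * Q1) i i)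
      (fun i => R q₀ i i * (A : Mat r ℂ) i i) hinj h0 (by
        intro k
        have h2 := H1 (List.replicate k q₀) 1 le_rfl (by norm_num)
        rw [pow_one, hth, Units.val_mul, hwP, add_mul, trace_add] at h2
        rw [← mul_assoc Q1, Matrix.trace_mul_comm (Q1 * _), ← mul_assoc, trace1,
          Matrix.smul_mul, trace_smul, ← mul_assoc, diagonal_mul_diagonal,
          Matrix.trace_mul_comm (diagonal _), trace1, smul_eq_mul, Finset.mul_sum,
          ← Finset.sum_add_distrib] at h2
        rw [← h2]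
        apply Finset.sum_congr rfl
        intro i _
        ring)
    intro i
    rcases mul_eq_zero.1 (h1 i) with h2 | h2
    · exact h2
    · exact absurd h2 (hA.1 i i)
  have hR10 : R1 q₀ = 0 := by
    rw [hR1d]
    simp [hρ]
  -- step 2
  have hth1 : ∀ k : ℕ, theta P R1 (List.replicate k q₀) = 0 := by
    intro k
    rw [hth]
    simp [hρ]
  have hpm : ∃ θ : Fin r → ℂ, (A : Mat r ℂ) * Q1 =
      diagonal θ * (A : Mat r ℂ) - (A : Mat r ℂ) * diagonal θ := by
    apply Vale.Agent.P002.principal_minor_lemma (A : Mat r ℂ) ((A : Mat r ℂ) * Q1)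
    · intro d
      rw [trace1]
      apply interp_zero α d (fun i => ((A : Mat r ℂ) * Q1) i i)
      · intro i j hij
        rw [hinj hij]
      · intro k
        have h2 := H1 (List.replicate k q₀) 1 le_rfl (by norm_num)
        rw [pow_one, hth1, add_zero, Units.val_mul, hwP, ← mul_assoc Q1,
          Matrix.trace_mul_comm (Q1 * _), ← mul_assoc, trace1] at h2
        exact h2
    · intro d
      rw [trace2]
      apply interp_zero (fun p : Fin r × Fin r => α p.1 * α p.2)
      · intro p p' hp
        exact hα.pair _ _ _ _ hp d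
      · intro k
        have h2 := H1 (List.replicate k q₀) 2 (by norm_num) (by norm_num)
        rw [pow_two, hth1, add_zero, Units.val_mul, hwP] at h2
        have e : trace (Q1 * ((diagonal fun i => α i ^ k) * (A : Mat r ℂ) *
            ((diagonal fun i => α i ^ k) * (A : Mat r ℂ)))) =
            trace ((A : Mat r ℂ) * Q1 * (diagonal fun i => α i ^ k) *
              ((A : Mat r ℂ) * diagonal fun i => α i ^ k)) := by
          have e1 : Q1 * ((diagonal fun i => α i ^ k) * (A : Mat r ℂ) *
            ((diagonal fun i => α i ^ k) * (A : Mat r ℂ))) =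
            (Q1 * (diagonal fun i => α i ^ k) * (A : Mat r ℂ) *
            (diagonal fun i => α i ^ k)) * (A : Mat r ℂ) := by simp only [mul_assoc]
          rw [e1, Matrix.trace_mul_comm]
          simp only [mul_assoc]
        rw [e, trace2] at h2
        rw [← h2]
        apply Finset.sum_congr rfl
        intro p _
        rw [mul_pow]
    · intro d
      rw [trace3]
      apply interp_zero (fun p : Fin r × Fin r × Fin r => α p.1 * α p.2.1 * α p.2.2)
      · intro p p' hp
        exact hα.triple _ _ _ _ _ _ hp d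
      · intro k
        have h2 := H1 (List.replicate k q₀) 3 (by norm_num) (by norm_num)
        rw [pow_succ, pow_two, hth1, add_zero, Units.val_mul, hwP] at h2
        have e : trace (Q1 * ((diagonal fun i => α i ^ k) * (A : Mat r ℂ) *
            ((diagonal fun i => α i ^ k) * (A : Mat r ℂ)) *
            ((diagonal fun i => α i ^ k) * (A : Mat r ℂ)))) =
            trace ((A : Mat r ℂ) * Q1 * (diagonal fun i => α i ^ k) *
              ((A : Mat r ℂ) * diagonal fun i => α i ^ k) *
              ((A : Mat r ℂ) * diagonal fun i => α i ^ k)) := by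
          have e1 : Q1 * ((diagonal fun i => α i ^ k) * (A : Mat r ℂ) *
            ((diagonal fun i => α i ^ k) * (A : Mat r ℂ)) *
            ((diagonal fun i => α i ^ k) * (A : Mat r ℂ))) =
            (Q1 * (diagonal fun i => α i ^ k) * (A : Mat r ℂ) *
            (diagonal fun i => α i ^ k) * (A : Mat r ℂ) *
            (diagonal fun i => α i ^ k)) * (A : Mat r ℂ) := by simp only [mul_assoc]
          rw [e1, Matrix.trace_mul_comm]
          simp only [mul_assoc]
        rw [e, trace3] at h2
        rw [← h2]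
        apply Finset.sum_congr rfl
        intro p _
        rw [mul_pow, mul_pow]
    · intro i j _
      exact hA.1 i j
    · intro i j k h1 h2 h3
      exact hA.2 i j k h1 h2 h3
  obtain ⟨θ, hθ⟩ := hpm
  have hAi : iv A * (A : Mat r ℂ) = 1 := A.inv_mul
  have hQ1e : Q1 = iv A * diagonal θ * (A : Mat r ℂ) - diagonal θ := by
    calc Q1 = iv A * ((A : Mat r ℂ) * Q1) := by rw [← mul_assoc, hAi, one_mul]
      _ = iv A * diagonal θ * (A : Mat r ℂ) - diagonal θ := by
          rw [hθ, mul_sub, ← mul_assoc, ← mul_assoc, hAi, one_mul]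
  -- step 3
  obtain ⟨R2, hR2⟩ : ∃ R2 : L → Mat r ℂ, R2 = fun q => R1 q -
    (diagonal θ - (P q : Mat r ℂ) * diagonal θ * iv (P q)) := ⟨_, rfl⟩
  have H2 := hsub R1 Q1 (diagonal θ) H1
  rw [← hR2, ← hQ1e, sub_self] at H2
  have hR20 : R2 q₀ = 0 := by
    rw [hR2]
    simp only
    rw [hR10, hiv, hq₀, diagonal_mul_diagonal, diagonal_mul_diagonal, zero_sub, neg_eq_zero,
      sub_eq_zero]
    congr 1
    funext i
    have := h0 i
    field_simp
  have hth2 : ∀ k : ℕ, theta P R2 (List.replicate k q₀) = 0 := by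
    intro k
    induction k with
    | zero => simp [theta]
    | succ k ih => rw [List.replicate_succ, theta, ih, hR20]; simp
  have hR2z : ∀ q, R2 q = 0 := by
    intro q
    have key : ∀ k l : ℕ, ∑ j, (∑ i, ((R2 q * (P q : Mat r ℂ)) i j * (A : Mat r ℂ) j i) *
        α i ^ k) * α j ^ l = 0 := by
      intro k l
      have h2 := H2 (List.replicate k q₀ ++ ([q] ++ List.replicate l q₀)) 1 le_rfl (by norm_num)
      rw [pow_one, zero_add, theta_append, theta_append, hth2, hth2, wP_append, wP_append,
        hivP, hwP] at h2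
      have e1 : theta P R2 [q] = R2 q := by simp [theta]
      have e2 : wP P [q] = P q := by simp [wP]
      rw [e1, e2, mul_zero, zero_mul, add_zero, zero_add] at h2
      simp only [Units.val_mul, hwP] at h2
      have e3 : (diagonal fun i => α i ^ k) * R2 q * (diagonal fun i => (α i ^ k)⁻¹) *
          ((diagonal fun i => α i ^ k) * ((P q : Mat r ℂ) * diagonal fun i => α i ^ l) *
            (A : Mat r ℂ)) = (diagonal fun i => α i ^ k) * (R2 q * (P q : Mat r ℂ)) *
            (diagonal fun i => α i ^ l) * (A : Mat r ℂ) := by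
        have e4 : (diagonal fun i => (α i ^ k)⁻¹) * (diagonal fun i => α i ^ k) =
            (1 : Mat r ℂ) := by
          rw [diagonal_mul_diagonal]
          have : (fun i => (α i ^ k)⁻¹ * α i ^ k) = fun _ => (1 : ℂ) := by
            funext i; exact inv_mul_cancel₀ (pow_ne_zero _ (h0 i))
          rw [this, diagonal_one]
        calc _ = (diagonal fun i => α i ^ k) * R2 q * ((diagonal fun i => (α i ^ k)⁻¹) *
              (diagonal fun i => α i ^ k)) * (P q : Mat r ℂ) * (diagonal fun i => α i ^ l) *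
              (A : Mat r ℂ) := by simp only [mul_assoc]
          _ = _ := by rw [e4, mul_one]; simp only [mul_assoc]
      rw [e3] at h2
      rw [← h2]
      simp only [trace, Matrix.diag_apply]
      have e5 : ∀ i, ((diagonal fun i => α i ^ k) * (R2 q * (P q : Mat r ℂ)) *
            (diagonal fun i => α i ^ l) * (A : Mat r ℂ)) i i =
          ∑ j, (((R2 q * (P q : Mat r ℂ)) i j * (A : Mat r ℂ) j i) * α i ^ k) * α j ^ l := by
        intro i
        rw [mul_apply]
        apply Finset.sum_congr rfl
        intro j _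
        rw [mul_diagonal, diagonal_mul]
        ring
      simp only [e5]
      rw [Finset.sum_comm]
      apply Finset.sum_congr rfl
      intro j _
      rw [Finset.sum_mul]
    have key2 : ∀ j k, ∑ i, ((R2 q * (P q : Mat r ℂ)) i j * (A : Mat r ℂ) j i) * α i ^ k = 0 := by
      intro j k
      have h1 := interp_zero α (fun s => if s = j then (1 : ℂ) else 0)
        (fun j => ∑ i, ((R2 q * (P q : Mat r ℂ)) i j * (A : Mat r ℂ) j i) * α i ^ k)
        (fun s s' hs => by rw [hinj hs]) (key k)
      simpa using h1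
    have key3 : ∀ i j, (R2 q * (P q : Mat r ℂ)) i j = 0 := by
      intro i j
      have h1 := interp_zero α (fun s => if s = i then (1 : ℂ) else 0)
        (fun i => (R2 q * (P q : Mat r ℂ)) i j * (A : Mat r ℂ) j i)
        (fun s s' hs => by rw [hinj hs]) (key2 j)
      simp only [mul_ite, mul_one, mul_zero, Finset.sum_ite_eq', Finset.mem_univ, if_true] at h1
      rcases mul_eq_zero.1 h1 with h2 | h2
      · exact h2
      · exact absurd h2 (hA.1 j i)
    have key4 : R2 q * (P q : Mat r ℂ) = 0 := by
      ext i j; exact key3 i j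
    have h5 : (P q : Mat r ℂ) * iv (P q) = 1 := (P q).mul_inv
    calc R2 q = R2 q * ((P q : Mat r ℂ) * iv (P q)) := by rw [h5, mul_one]
      _ = 0 := by rw [← mul_assoc, key4, zero_mul]
  refine ⟨w + diagonal θ, ?_, ?_⟩
  · intro q
    have h1 := hR2z q
    rw [hR2, hR1] at h1
    simp only at h1
    rw [sub_eq_zero] at h1
    have h2 : R q = (w - (P q : Mat r ℂ) * w * iv (P q)) +
        (diagonal θ - (P q : Mat r ℂ) * diagonal θ * iv (P q)) := by
      rw [← h1]; abel
    rw [h2, mul_add, add_mul]
    abel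
  · have h1 : Q = Q1 + (iv A * w * (A : Mat r ℂ) - w) := by rw [hQ1]; abel
    rw [h1, hQ1e, mul_add, add_mul]
    abel

/-- TASK F1. -/
theorem dual3 {L : Type*} (P : L → (Mat r ℂ)ˣ) (R : L → Mat r ℂ) (Q : Mat r ℂ) (A : (Mat r ℂ)ˣ)
    (q₀ : L) (U : (Mat r ℂ)ˣ) (α : Fin r → ℂ) (hα : Reg3 α)
    (hq₀ : (P q₀ : Mat r ℂ) = (U : Mat r ℂ) * diagonal α * ((U⁻¹ : (Mat r ℂ)ˣ) : Mat r ℂ))
    (hA : Gen3 (((U⁻¹ * A * U : (Mat r ℂ)ˣ)) : Mat r ℂ))
    (H : ∀ p : List L, ∀ k : ℕ, 1 ≤ k → k ≤ 3 →
      trace ((Q + theta P R p) * ((wP P p * A : (Mat r ℂ)ˣ) : Mat r ℂ) ^ k) = 0) :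
    ∃ η : Mat r ℂ, (∀ q, R q = η - (P q : Mat r ℂ) * η * (((P q)⁻¹ : (Mat r ℂ)ˣ) : Mat r ℂ)) ∧
      Q = ((A⁻¹ : (Mat r ℂ)ˣ) : Mat r ℂ) * η * (A : Mat r ℂ) - η := by
  have hU1 : (U : Mat r ℂ) * iv U = 1 := U.mul_inv
  have hU2 : iv U * (U : Mat r ℂ) = 1 := U.inv_mul
  -- conjugated data
  let P' : L → (Mat r ℂ)ˣ := fun q => U⁻¹ * P q * U
  let R' : L → Mat r ℂ := fun q => iv U * R q * (U : Mat r ℂ)
  let Q' : Mat r ℂ := iv U * Q * (U : Mat r ℂ)
  let A' : (Mat r ℂ)ˣ := U⁻¹ * A * U
  have hwP' : ∀ p, wP P' p = U⁻¹ * wP P p * U := by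
    intro p
    induction p with
    | nil => simp [wP]
    | cons q p ih =>
      rw [wP, wP, ih]
      simp only [P']
      group
  have hth' : ∀ p, theta P' R' p = iv U * theta P R p * (U : Mat r ℂ) := by
    intro p
    induction p with
    | nil => simp [theta]
    | cons q p ih =>
      rw [theta, theta, ih]
      have e1 : (P' q : Mat r ℂ) = iv U * (P q : Mat r ℂ) * (U : Mat r ℂ) := by simp [P', iv]
      have e2 : (((P' q)⁻¹ : (Mat r ℂ)ˣ) : Mat r ℂ) = iv U * iv (P q) * (U : Mat r ℂ) := by
        simp [P', iv, mul_assoc]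
      rw [e1, e2, mul_add, add_mul]
      congr 1
      calc _ = iv U * (P q : Mat r ℂ) * ((U : Mat r ℂ) * iv U) * theta P R p *
            ((U : Mat r ℂ) * iv U) * iv (P q) * (U : Mat r ℂ) := by simp only [mul_assoc]
        _ = _ := by rw [hU1, mul_one, mul_one]; simp only [mul_assoc, iv]
  have hpow : ∀ (M : (Mat r ℂ)ˣ) (k : ℕ), ((U⁻¹ * M * U : (Mat r ℂ)ˣ) : Mat r ℂ) ^ k =
      iv U * (M : Mat r ℂ) ^ k * (U : Mat r ℂ) := by
    intro M k
    induction k with
    | zero => simp
    | succ k ih =>
      rw [pow_succ, ih, pow_succ]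
      have e1 : ((U⁻¹ * M * U : (Mat r ℂ)ˣ) : Mat r ℂ) = iv U * (M : Mat r ℂ) * (U : Mat r ℂ) := by
        simp [iv]
      rw [e1]
      calc _ = iv U * (M : Mat r ℂ) ^ k * ((U : Mat r ℂ) * iv U) * (M : Mat r ℂ) *
            (U : Mat r ℂ) := by simp only [mul_assoc]
        _ = _ := by rw [hU1, mul_one]; simp only [mul_assoc]
  obtain ⟨η, h1, h2⟩ := dual3_diag P' R' Q' A' q₀ α hα (by
      have : (P' q₀ : Mat r ℂ) = iv U * (P q₀ : Mat r ℂ) * (U : Mat r ℂ) := by simp [P', iv]
      rw [this, hq₀]
      change iv U * ((U : Mat r ℂ) * diagonal α * iv U) * (U : Mat r ℂ) = _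
      calc _ = (iv U * (U : Mat r ℂ)) * diagonal α * (iv U * (U : Mat r ℂ)) := by
            simp only [mul_assoc]
        _ = _ := by rw [hU2, one_mul, mul_one]) hA (by
      intro p k hk1 hk2
      have e1 : wP P' p * A' = U⁻¹ * (wP P p * A) * U := by
        rw [hwP']; simp only [A']; group
      rw [e1, hth', hpow]
      have e2 : (Q' + iv U * theta P R p * (U : Mat r ℂ)) *
          (iv U * ((wP P p * A : (Mat r ℂ)ˣ) : Mat r ℂ) ^ k * (U : Mat r ℂ)) =
          iv U * ((Q + theta P R p) * ((wP P p * A : (Mat r ℂ)ˣ) : Mat r ℂ) ^ k) *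
            (U : Mat r ℂ) := by
        have e3 : Q' + iv U * theta P R p * (U : Mat r ℂ) = iv U * (Q + theta P R p) *
            (U : Mat r ℂ) := by
          simp only [Q', mul_add, add_mul]
        rw [e3]
        calc _ = iv U * (Q + theta P R p) * ((U : Mat r ℂ) * iv U) *
              ((wP P p * A : (Mat r ℂ)ˣ) : Mat r ℂ) ^ k * (U : Mat r ℂ) := by
              simp only [mul_assoc]
          _ = _ := by rw [hU1, mul_one]; simp only [mul_assoc]
      rw [e2, mul_assoc, Matrix.trace_mul_comm, mul_assoc, hU1, mul_one]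
      exact H p k hk1 hk2)
  refine ⟨(U : Mat r ℂ) * η * iv U, ?_, ?_⟩
  · intro q
    have h3 := h1 q
    have e2 : iv (P' q) = iv U * iv (P q) * (U : Mat r ℂ) := by simp [P', iv, mul_assoc]
    have e1 : (P' q : Mat r ℂ) = iv U * (P q : Mat r ℂ) * (U : Mat r ℂ) := by simp [P', iv]
    have h4 : R q = (U : Mat r ℂ) * R' q * iv U := by
      simp only [R']
      calc R q = ((U : Mat r ℂ) * iv U) * R q * ((U : Mat r ℂ) * iv U) := by
            rw [hU1, one_mul, mul_one]
        _ = _ := by simp only [mul_assoc]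
    rw [h4, h3, e1, e2, mul_sub, sub_mul]
    congr 1
    calc _ = ((U : Mat r ℂ) * iv U) * (P q : Mat r ℂ) * (U : Mat r ℂ) * η * iv U * iv (P q) *
          ((U : Mat r ℂ) * iv U) := by simp only [mul_assoc]
      _ = _ := by rw [hU1, one_mul, mul_one]; simp only [mul_assoc, iv]
  · have e2 : iv A' = iv U * iv A * (U : Mat r ℂ) := by simp [A', iv, mul_assoc]
    have e1 : (A' : Mat r ℂ) = iv U * (A : Mat r ℂ) * (U : Mat r ℂ) := by simp [A', iv]
    have h4 : Q = (U : Mat r ℂ) * Q' * iv U := by
      simp only [Q']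
      calc Q = ((U : Mat r ℂ) * iv U) * Q * ((U : Mat r ℂ) * iv U) := by
            rw [hU1, one_mul, mul_one]
        _ = _ := by simp only [mul_assoc]
    rw [h4, h2, e1, e2, mul_sub, sub_mul]
    congr 1
    calc _ = ((U : Mat r ℂ) * iv U) * iv A * (U : Mat r ℂ) * η * iv U * (A : Mat r ℂ) *
          ((U : Mat r ℂ) * iv U) := by simp only [mul_assoc]
      _ = _ := by rw [hU1, one_mul, mul_one]; simp only [mul_assoc, iv]

end Vale.Agent.P002R
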