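import Vale.Agent.P002R.RBasic
import Vale.Agent.P002.Eigen

/-!
# The flow lemma
-/

namespace Vale.Agent.P002R

open Matrix

variable {κ : Type*} {r : ℕ} {K : Type*} [Field K]

/-- Diagonal invertible matrices. -/
def dgU : (Fin r → Kˣ) →* (Mat r K)ˣ where
  toFun s := ⟨diagonal fun i => (s i : K), diagonal fun i => ((s i)⁻¹ : Kˣ), by
    rw [diagonal_mul_diagonal]; simp, by rw [diagonal_mul_diagonal]; simp⟩
  map_one' := by ext1; simp
  map_mul' s t := by
    ext1
    simp [diagonal_mul_diagonal]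

theorem dgU_val (s : Fin r → Kˣ) : (dgU s : Mat r K) = diagonal fun i => (s i : K) := rfl

theorem dgU_inv_val (s : Fin r → Kˣ) :
    ((dgU s)⁻¹ : (Mat r K)ˣ).val = diagonal fun i => ((s i)⁻¹ : Kˣ).val := rfl

/-- The algebra homomorphism from Laurent polynomials to functions on the torus. -/
noncomputable def torusHom (r : ℕ) (K : Type*) [Field K] :
    MonoidAlgebra K (Multiplicative (Fin r → ℤ)) →ₐ[K] ((Fin r → Kˣ) → K) :=
  MonoidAlgebra.lift K _ _
    { toFun := fun e s => ((∏ i, s i ^ (e.toAdd i) : Kˣ) : K)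
      map_one' := by funext s; simp
      map_mul' := by
        intro a b
        funext s
        simp only [toAdd_mul, Pi.add_apply, _root_.zpow_add, Finset.prod_mul_distrib,
          Pi.mul_apply, Units.val_mul] }

theorem torusHom_single (e : Multiplicative (Fin r → ℤ)) (s : Fin r → Kˣ) :
    torusHom r K (MonoidAlgebra.single e 1) s = ((∏ i, s i ^ (e.toAdd i) : Kˣ) : K) := by
  simp [torusHom]

/-- Functions on the torus that are Laurent polynomials. -/
noncomputable def torusAlg (r : ℕ) (K : Type*) [Field K] : Subalgebra K ((Fin r → Kˣ) → K) :=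
  (torusHom r K).range

theorem coord_mem (i : Fin r) : (fun s : Fin r → Kˣ => (s i : K)) ∈ torusAlg r K := by
  refine ⟨MonoidAlgebra.single (Multiplicative.ofAdd (Pi.single i 1)) 1, ?_⟩
  funext s
  change torusHom r K _ s = _
  rw [torusHom_single]
  simp only [toAdd_ofAdd]
  rw [Finset.prod_eq_single i]
  · simp
  · intro b _ hb
    simp [Pi.single_eq_of_ne hb]
  · simp

theorem coord_inv_mem (i : Fin r) :
    (fun s : Fin r → Kˣ => (((s i)⁻¹ : Kˣ) : K)) ∈ torusAlg r K := by
  refine ⟨MonoidAlgebra.single (Multiplicative.ofAdd (Pi.single i (-1))) 1, ?_⟩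
  funext s
  change torusHom r K _ s = _
  rw [torusHom_single]
  simp only [toAdd_ofAdd]
  rw [Finset.prod_eq_single i]
  · simp
  · intro b _ hb
    simp [Pi.single_eq_of_ne hb]
  · simp

/-- A matrix valued function whose entries are Laurent polynomials. -/
def EntA (M : (Fin r → Kˣ) → Mat r K) : Prop := ∀ i j, (fun s => M s i j) ∈ torusAlg r K

theorem EntA.mul {M N : (Fin r → Kˣ) → Mat r K} (hM : EntA M) (hN : EntA N) :
    EntA fun s => M s * N s := by
  intro i j
  have : (fun s => (M s * N s) i j) = ∑ k, (fun s => M s i k) * (fun s => N s k j) := by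
    funext s
    simp [Matrix.mul_apply]
  rw [this]
  exact Subalgebra.sum_mem _ fun k _ => Subalgebra.mul_mem _ (hM i k) (hN k j)

theorem EntA.const (M : Mat r K) : EntA fun _ : Fin r → Kˣ => M := by
  intro i j
  have : (fun _ : Fin r → Kˣ => M i j) = algebraMap K ((Fin r → Kˣ) → K) (M i j) := rfl
  rw [this]
  exact Subalgebra.algebraMap_mem _ _

theorem entA_dg : EntA fun s : Fin r → Kˣ => (dgU s : Mat r K) := by
  intro i j
  by_cases h : i = j
  · subst h
    simpa [dgU_val] using coord_mem (K := K) i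
  · have : (fun s : Fin r → Kˣ => (dgU s : Mat r K) i j) = 0 := by
      funext s
      simp [dgU_val, Matrix.diagonal_apply_ne _ h]
    rw [this]
    exact Subalgebra.zero_mem _

theorem entA_dg_inv : EntA fun s : Fin r → Kˣ => (((dgU s)⁻¹ : (Mat r K)ˣ) : Mat r K) := by
  intro i j
  by_cases h : i = j
  · subst h
    have : (fun s : Fin r → Kˣ => (((dgU s)⁻¹ : (Mat r K)ˣ) : Mat r K) i i) =
        fun s : Fin r → Kˣ => (((s i)⁻¹ : Kˣ) : K) := by
      funext s
      rw [dgU_inv_val]
      simp only [Matrix.diagonal_apply_eq]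
    rw [this]
    exact coord_inv_mem (K := K) i
  · have : (fun s : Fin r → Kˣ => (((dgU s)⁻¹ : (Mat r K)ˣ) : Mat r K) i j) = 0 := by
      funext s
      rw [dgU_inv_val]
      simp [Matrix.diagonal_apply_ne _ h]
    rw [this]
    exact Subalgebra.zero_mem _

theorem EntA.word [DecidableEq κ] (x : FreeGroup κ →* (Mat r K)ˣ) (j : κ) (P : (Mat r K)ˣ)
    (w : FreeGroup κ) :
    EntA (fun s : Fin r → Kˣ => (flow x j (P * dgU s * P⁻¹) w : Mat r K)) ∧
    EntA (fun s : Fin r → Kˣ => (((flow x j (P * dgU s * P⁻¹) w)⁻¹ : (Mat r K)ˣ) : Mat r K)) := by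
  induction w using FreeGroup.induction_on with
  | C1 =>
    constructor
    · simpa using EntA.const (K := K) (1 : Mat r K)
    · simpa using EntA.const (K := K) (1 : Mat r K)
  | of k =>
    by_cases hk : k = j
    · constructor
      · simp only [flow_of, hk, if_true, Units.val_mul]
        exact (EntA.const _).mul (((EntA.const _).mul entA_dg).mul (EntA.const _))
      · simp only [flow_of, hk, if_true, _root_.mul_inv_rev, inv_inv, Units.val_mul]
        exact ((EntA.const _).mul (entA_dg_inv.mul (EntA.const _))).mul (EntA.const _)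
    · constructor
      · simp only [flow_of, hk, if_false]
        exact EntA.const _
      · simp only [flow_of, hk, if_false]
        exact EntA.const _
  | inv_of k h =>
    constructor
    · simp only [map_inv]
      exact h.2
    · simp only [map_inv, inv_inv]
      exact h.1
  | mul a b ha hb =>
    constructor
    · simp only [map_mul, Units.val_mul]
      exact ha.1.mul hb.1
    · simp only [map_mul, _root_.mul_inv_rev, Units.val_mul]
      exact hb.2.mul ha.2

/-- evaluation over a field extension -/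
noncomputable def evalK (α : ℂ →+* K) (x : FreeGroup κ →* (Mat r K)ˣ)
    (f : MvPolynomial (FreeGroup κ × Fin r × Fin r) ℂ) : K :=
  MvPolynomial.eval₂ α (fun p => (x p.1 : Mat r K) p.2.1 p.2.2) f

theorem evalK_mem [DecidableEq κ] (α : ℂ →+* K) (x : FreeGroup κ →* (Mat r K)ˣ) (j : κ)
    (P : (Mat r K)ˣ) (f : MvPolynomial (FreeGroup κ × Fin r × Fin r) ℂ) :
    (fun s : Fin r → Kˣ => evalK α (flow x j (P * dgU s * P⁻¹)) f) ∈ torusAlg r K := by
  let β : ℂ →+* ((Fin r → Kˣ) → K) := (algebraMap K ((Fin r → Kˣ) → K)).comp α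
  let v : FreeGroup κ × Fin r × Fin r → ((Fin r → Kˣ) → K) :=
    fun p s => (flow x j (P * dgU s * P⁻¹) p.1 : Mat r K) p.2.1 p.2.2
  have h1 : (fun s : Fin r → Kˣ => evalK α (flow x j (P * dgU s * P⁻¹)) f) =
      MvPolynomial.eval₂ β v f := by
    funext s
    have := MvPolynomial.map_eval₂Hom (Pi.evalRingHom (fun _ : Fin r → Kˣ => K) s) 
      (f := β) (g := v) (p := f)
    simp only [MvPolynomial.coe_eval₂Hom, Pi.evalRingHom_apply] at this
    rw [this]
    rfl
  rw [h1]
  apply MvPolynomial.eval₂_mem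
  · intro i _
    exact Subalgebra.algebraMap_mem _ _
  · intro p
    exact (EntA.word x j P p.1).1 p.2.1 p.2.2

theorem zpow_prod_injective {l : Fin r → Kˣ}
    (hl : AlgebraicIndependent ℤ fun i => (l i : K)) :
    Function.Injective fun e : Fin r → ℤ => ∏ i, l i ^ e i := by
  intro e e' h
  simp only at h
  -- exponents p, q natural
  let p : Fin r →₀ ℕ := Finsupp.equivFunOnFinite.symm fun i => (e i - e' i).toNat
  let q : Fin r →₀ ℕ := Finsupp.equivFunOnFinite.symm fun i => (e' i - e i).toNat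
  have h1 : ∏ i, (l i : K) ^ p i = ∏ i, (l i : K) ^ q i := by
    have h2 : ∏ i, l i ^ (e i - e' i) = 1 := by
      simp only [_root_.zpow_sub, Finset.prod_mul_distrib, Finset.prod_inv_distrib]
      rw [h]; simp
    have h3 : ∏ i, l i ^ p i = ∏ i, l i ^ q i := by
      rw [← div_eq_one, ← Finset.prod_div_distrib, ← h2]
      apply Finset.prod_congr rfl
      intro i _
      rw [div_eq_mul_inv, ← zpow_natCast, ← zpow_natCast, ← _root_.zpow_neg, ← _root_.zpow_add]
      congr 1
      simp only [p, q, Finsupp.equivFunOnFinite_symm_apply_apply]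
      omega
    have h4 := congrArg (Units.val) h3
    simpa using h4
  have h5 : MvPolynomial.aeval (fun i => (l i : K))
      (MvPolynomial.monomial p (1 : ℤ) - MvPolynomial.monomial q 1) = 0 := by
    rw [map_sub, MvPolynomial.aeval_monomial, MvPolynomial.aeval_monomial]
    simp only [map_one, one_mul]
    rw [Finsupp.prod_fintype _ _ (by simp), Finsupp.prod_fintype _ _ (by simp), h1, sub_self]
  have h6 := (injective_iff_map_eq_zero _).1 hl _ h5
  rw [sub_eq_zero, MvPolynomial.monomial_left_inj one_ne_zero] at h6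
  funext i
  have h7 := DFunLike.congr_fun h6 i
  simp only [p, q, Finsupp.equivFunOnFinite_symm_apply_apply] at h7
  omega

theorem torusHom_eq_zero {l : Fin r → Kˣ}
    (hl : AlgebraicIndependent ℤ fun i => (l i : K))
    (γ : MonoidAlgebra K (Multiplicative (Fin r → ℤ)))
    (h : ∀ n : ℕ, torusHom r K γ (l ^ n) = 0) : γ = 0 := by
  let ψ : Multiplicative (Fin r → ℤ) → (Multiplicative ℕ →* K) := fun e =>
    (Units.coeHom K).comp (powersHom Kˣ (∏ i, l i ^ (e.toAdd i)))
  have hψ : Function.Injective ψ := by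
    intro e e' hee
    have h1 := DFunLike.congr_fun hee (Multiplicative.ofAdd 1)
    simp only [ψ, MonoidHom.comp_apply, powersHom_apply, toAdd_ofAdd, pow_one, Units.coeHom_apply,
      Units.val_inj] at h1
    have h2 := zpow_prod_injective hl h1
    exact Multiplicative.toAdd.injective h2
  have hlin := (linearIndependent_monoidHom (Multiplicative ℕ) K).comp ψ hψ
  rw [linearIndependent_iff] at hlin
  have hc : γ.coeff = 0 := by
    apply hlin γ.coeff
    funext n
    have hn := h n.toAdd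
    rw [Finsupp.linearCombination_apply]
    rw [torusHom, MonoidAlgebra.lift_apply] at hn
    simp only [Finsupp.sum, Finset.sum_apply, Pi.smul_apply, Pi.zero_apply] at hn ⊢
    rw [← hn]
    apply Finset.sum_congr rfl
    intro e _
    simp only [ψ, Function.comp, MonoidHom.comp_apply, powersHom_apply, Units.coeHom_apply,
      smul_eq_mul, MonoidHom.coe_mk, OneHom.coe_mk, Pi.pow_apply]
    congr 2
    rw [← Finset.prod_pow]
    apply Finset.prod_congr rfl
    intro i _
    rw [← zpow_natCast, ← zpow_natCast, ← _root_.zpow_mul, ← _root_.zpow_mul, mul_comm]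
  ext e
  rw [hc]
  rfl

theorem evalK_eq_zero [DecidableEq κ] (α : ℂ →+* K) (x : FreeGroup κ →* (Mat r K)ˣ) (j : κ)
    (P : (Mat r K)ˣ) (f : MvPolynomial (FreeGroup κ × Fin r × Fin r) ℂ) {l : Fin r → Kˣ}
    (hl : AlgebraicIndependent ℤ fun i => (l i : K))
    (h : ∀ n : ℕ, evalK α (flow x j (P * dgU (l ^ n) * P⁻¹)) f = 0) (s : Fin r → Kˣ) :
    evalK α (flow x j (P * dgU s * P⁻¹)) f = 0 := by
  obtain ⟨γ, hγ⟩ := evalK_mem α x j P f
  have hγ' : ∀ s, torusHom r K γ s = evalK α (flow x j (P * dgU s * P⁻¹)) f := fun s =>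
    congrFun hγ s
  have h0 : γ = 0 := by
    apply torusHom_eq_zero hl
    intro n
    rw [hγ', h]
  rw [← hγ', h0, map_zero, Pi.zero_apply]

theorem adjoin_diag {S : Type*} [CommRing S] (ι : S →+* K) (A : Mat r S) (P : (Mat r K)ˣ)
    (l : Fin r → K)
    (hA : A.map ι = (P : Mat r K) * diagonal l * ((P⁻¹ : (Mat r K)ˣ) : Mat r K))
    (z : Mat r S) (hz : z ∈ Algebra.adjoin S {A}) :
    ∃ d : Fin r → K, z.map ι = (P : Mat r K) * diagonal d * ((P⁻¹ : (Mat r K)ˣ) : Mat r K) := by
  have hP : ((P⁻¹ : (Mat r K)ˣ) : Mat r K) * (P : Mat r K) = 1 := by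
    rw [← Units.val_mul, inv_mul_cancel, Units.val_one]
  have hP' : (P : Mat r K) * ((P⁻¹ : (Mat r K)ˣ) : Mat r K) = 1 := by
    rw [← Units.val_mul, mul_inv_cancel, Units.val_one]
  induction hz using Algebra.adjoin_induction with
  | mem x hx =>
    rw [Set.mem_singleton_iff] at hx
    subst hx
    exact ⟨l, hA⟩
  | algebraMap s =>
    refine ⟨fun _ => ι s, ?_⟩
    have : (algebraMap S (Mat r S) s).map ι = (algebraMap K (Mat r K) (ι s)) := by
      rw [Algebra.algebraMap_eq_smul_one, Algebra.algebraMap_eq_smul_one]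
      ext i j
      by_cases h : i = j
      · subst h; simp
      · simp [Matrix.one_apply_ne h]
    rw [this, show (diagonal fun _ : Fin r => ι s) = algebraMap K (Mat r K) (ι s) from ?_,
      ← Algebra.commutes, Matrix.mul_assoc, hP', Matrix.mul_one]
    rw [Matrix.algebraMap_eq_diagonal]
    rfl
  | add x y _ _ hx hy =>
    obtain ⟨d, hd⟩ := hx
    obtain ⟨d', hd'⟩ := hy
    refine ⟨d + d', ?_⟩
    rw [Matrix.map_add ι (map_add ι), hd, hd', ← Matrix.add_mul, ← Matrix.mul_add, diagonal_add]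
    rfl
  | mul x y _ _ hx hy =>
    obtain ⟨d, hd⟩ := hx
    obtain ⟨d', hd'⟩ := hy
    refine ⟨d * d', ?_⟩
    rw [Matrix.map_mul, hd, hd']
    calc _ = (P : Mat r K) * diagonal d * (((P⁻¹ : (Mat r K)ˣ) : Mat r K) * (P : Mat r K)) *
        diagonal d' * ((P⁻¹ : (Mat r K)ˣ) : Mat r K) := by simp only [Matrix.mul_assoc]
      _ = _ := by
        rw [hP, Matrix.mul_one, Matrix.mul_assoc (P : Mat r K), diagonal_mul_diagonal]
        rfl

theorem diag_ne_zero {S : Type*} [CommRing S] (ι : S →+* K) (P : (Mat r K)ˣ) (d : Fin r → K)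
    (z : (Mat r S)ˣ)
    (hd : (z : Mat r S).map ι = (P : Mat r K) * diagonal d * ((P⁻¹ : (Mat r K)ˣ) : Mat r K)) :
    ∀ i, d i ≠ 0 := by
  have hu : IsUnit (((z : Mat r S).map ι).det) := by
    have h1 : ((z : Mat r S).map ι).det = ι (z : Mat r S).det := (RingHom.map_det ι _).symm
    rw [h1]
    exact ((Matrix.isUnit_iff_isUnit_det _).1 z.isUnit).map ι
  rw [hd, det_mul, det_mul, det_diagonal, mul_right_comm, ← det_mul, ← Units.val_mul,
    mul_inv_cancel, Units.val_one, det_one, one_mul, isUnit_iff_ne_zero] at hu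
  intro i hi
  exact hu (Finset.prod_eq_zero (Finset.mem_univ i) hi)

theorem units_map_dg {S : Type*} [CommRing S] (ι : S →+* K) (P : (Mat r K)ˣ) (d : Fin r → Kˣ)
    (z : (Mat r S)ˣ)
    (hd : (z : Mat r S).map ι = (P : Mat r K) * diagonal (fun i => (d i : K)) *
      ((P⁻¹ : (Mat r K)ˣ) : Mat r K)) :
    (Units.map (RingHom.mapMatrix ι).toMonoidHom) z = P * dgU d * P⁻¹ := by
  ext1
  rw [Units.val_mul, Units.val_mul, dgU_val]
  exact hd

theorem evalK_baseChange {S : Type*} [CommRing S] [Algebra ℂ S] (ι : S →+* K)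
    (y : FreeGroup κ →* (Mat r S)ˣ) (f : MvPolynomial (FreeGroup κ × Fin r × Fin r) ℂ) :
    evalK (ι.comp (algebraMap ℂ S)) (baseChange ι y) f = ι (evalW y f) := by
  rw [evalK, evalW, MvPolynomial.aeval_def, MvPolynomial.eval₂_comp_left ι]
  rfl

theorem flow_aux [DecidableEq κ] [IsAlgClosed K] [CharZero K]
    {D : Set (FreeGroup κ →* (Mat r ℂ)ˣ)} {k l : κ}
    (hD : ∀ y ∈ D, ∀ n : ℤ, y.comp (twist k l n) ∈ D) {S : Type*} [CommRing S]
    [Algebra ℂ S] (ι : S →+* K) (hι : Function.Injective ι)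
    {x : FreeGroup κ →* (Mat r S)ˣ} (hx : InZ D x)
    (hA : AlgebraicIndependent ℤ fun p : Fin r × Fin r =>
      (x (FreeGroup.of l) : Mat r S) p.1 p.2)
    (z : (Mat r S)ˣ) (hz : (z : Mat r S) ∈ Algebra.adjoin S {(x (FreeGroup.of l) : Mat r S)}) :
    InZ D (flow x k z) := by
  intro f hf
  have hAK : AlgebraicIndependent ℤ fun p : Fin r × Fin r =>
      ((x (FreeGroup.of l) : Mat r S).map ι) p.1 p.2 :=
    hA.map' (f := ι.toIntAlgHom) hι
  obtain ⟨P, l', hP, hl'⟩ := P002.exists_diag _ hAK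
  have hl0 : ∀ i, l' i ≠ 0 := fun i => hl'.ne_zero i
  obtain ⟨lu, hlu'⟩ : ∃ lu : Fin r → Kˣ, ∀ i, (lu i : K) = l' i :=
    ⟨fun i => Units.mk0 (l' i) (hl0 i), fun i => rfl⟩
  have hlu'' : l' = fun i => (lu i : K) := funext fun i => (hlu' i).symm
  rw [hlu''] at hl' hP
  have hxK := units_map_dg ι P lu (x (FreeGroup.of l)) hP
  have hpow : ∀ n : ℕ, evalK (ι.comp (algebraMap ℂ S))
      (flow (baseChange ι x) k (P * dgU (lu ^ n) * P⁻¹)) f = 0 := by
    intro n
    have h1 : P * dgU (lu ^ n) * P⁻¹ = (Units.map (RingHom.mapMatrix ι).toMonoidHom)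
        (x (FreeGroup.of l) ^ (n : ℤ)) := by
      rw [map_zpow, hxK, zpow_natCast, map_pow, conj_pow]
    rw [h1, ← baseChange_flow, flow_pow, evalK_baseChange]
    rw [hx.comp' (twist k l n) (fun y hy => hD y hy n) f hf, map_zero]
  have hall := evalK_eq_zero (ι.comp (algebraMap ℂ S)) (baseChange ι x) k P f hl' hpow
  obtain ⟨d, hd⟩ := adjoin_diag ι _ P _ hP (z : Mat r S) hz
  have hd0 := diag_ne_zero ι P d z hd
  obtain ⟨du, hdu'⟩ : ∃ du : Fin r → Kˣ, d = fun i => (du i : K) :=
    ⟨fun i => Units.mk0 (d i) (hd0 i), rfl⟩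
  rw [hdu'] at hd
  have h3 := hall du
  rw [← units_map_dg ι P du z hd, ← baseChange_flow, evalK_baseChange] at h3
  exact hι (by rw [h3, map_zero])

/-- FLOW LEMMA. -/
theorem InZ.flow [DecidableEq κ] {D : Set (FreeGroup κ →* (Mat r ℂ)ˣ)} {k l : κ}
    (hD : ∀ y ∈ D, ∀ n : ℤ, y.comp (twist k l n) ∈ D) {S : Type*} [CommRing S] [IsDomain S]
    [Algebra ℂ S] {x : FreeGroup κ →* (Mat r S)ˣ} (hx : InZ D x)
    (hA : AlgebraicIndependent ℤ fun p : Fin r × Fin r =>
      (x (FreeGroup.of l) : Mat r S) p.1 p.2)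
    (z : (Mat r S)ˣ) (hz : (z : Mat r S) ∈ Algebra.adjoin S {(x (FreeGroup.of l) : Mat r S)}) :
    InZ D (P002R.flow x k z) := by
  have hι : Function.Injective ((algebraMap (FractionRing S) (AlgebraicClosure (FractionRing S))).comp
      (algebraMap S (FractionRing S))) :=
    (algebraMap (FractionRing S) (AlgebraicClosure (FractionRing S))).injective.comp
      (IsFractionRing.injective S (FractionRing S))
  have : CharZero (AlgebraicClosure (FractionRing S)) := charZero_of_injective_ringHom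
    ((((algebraMap (FractionRing S) (AlgebraicClosure (FractionRing S))).comp
      (algebraMap S (FractionRing S))).comp (algebraMap ℂ S)).injective)
  exact flow_aux hD _ hι hx hA z hz

end Vale.Agent.P002R
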