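import Vale.Agent.P002R.RTransfer
import Vale.Agent.P002.Global

namespace Vale.Agent.P002R

open Matrix
open Vale.Agent.P002 (T01 ev0 ev1 lin ev0_lin ev1_lin ev0_C ev1_C isUnit_mat Good sysM sysR kry
  sysM_map sysR_map kry_map mul_kry krylov_comm sys_tm charpoly_eq_of_tm map_inv_of_unit rel_inv
  sysR_zero good_dense open_relT relT continuousAt_matInv isOpen_isUnit)

variable {m n r : ℕ}

/-- The relation in terms of the last handle. -/
theorem relM_eq_last (X : Gen (m + 1) n → Mat r ℂ) :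
    relM X = relW X (fun k => (X k)⁻¹) *
      (X (Sum.inl (Fin.last m, false)) * X (Sum.inl (Fin.last m, true)) *
        (X (Sum.inl (Fin.last m, false)))⁻¹ * (X (Sum.inl (Fin.last m, true)))⁻¹) := by
  rw [relM_eq_relR, relR_eq]

/-- Two points with good last handles are joined by a rational curve. -/
theorem rpath_lemma
    (f h : MvPolynomial (Gen (m + 1) n × Bool × Fin r × Fin r) ℂ) (J : Fin n → Mat r ℂ)
    (hfh : ∀ X : Gen (m + 1) n → Mat r ℂ, (∀ k, IsUnit (X k)) → (∀ j, X (Sum.inr (j, true)) = J j) →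
      relM X = 1 → evalM X h * evalM X f = 0)
    (X0 X1 : Gen (m + 1) n → Mat r ℂ) (hX0 : ∀ k, IsUnit (X0 k)) (hX1 : ∀ k, IsUnit (X1 k))
    (hJ0 : ∀ j, X0 (Sum.inr (j, true)) = J j) (hJ1 : ∀ j, X1 (Sum.inr (j, true)) = J j)
    (hg0 : Good (X0 (Sum.inl (Fin.last m, false))) (X0 (Sum.inl (Fin.last m, true))))
    (hg1 : Good (X1 (Sum.inl (Fin.last m, false))) (X1 (Sum.inl (Fin.last m, true))))
    (hrel0 : relM X0 = 1) (hrel1 : relM X1 = 1)
    (hh : evalM X0 h ≠ 0) : evalM X1 f = 0 := by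
  classical
  set a : Gen (m + 1) n := Sum.inl (Fin.last m, false) with ha
  set b : Gen (m + 1) n := Sum.inl (Fin.last m, true) with hb
  have hab : a ≠ b := by simp [ha, hb]
  obtain ⟨hA0, hB0, hK0, hS0⟩ := hg0
  obtain ⟨hA1, hB1, hK1, hS1⟩ := hg1
  have hW : ∀ X : Gen (m + 1) n → Mat r ℂ, IsUnit (X a) → IsUnit (X b) → relM X = 1 →
      relW X (fun k => (X k)⁻¹) = X b * X a * (X b)⁻¹ * (X a)⁻¹ := by
    intro X hA hB hrel
    apply rel_inv hA hB
    rw [relM_eq_last] at hrel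
    exact hrel
  have hW0 := hW X0 hA0 hB0 hrel0
  have hW1 := hW X1 hA1 hB1 hrel1
  -- the path
  let L : Mat r ℂ → Mat r ℂ → Mat r T01 := fun M N => Matrix.of fun i j => lin (M i j) (N i j)
  have hL0 : ∀ M N, (L M N).map ev0 = M := by intro M N; ext i j; simp [L]
  have hL1 : ∀ M N, (L M N).map ev1 = N := by intro M N; ext i j; simp [L]
  have hLc : ∀ M, L M M = M.map (algebraMap ℂ T01) := by
    intro M; ext i j
    simp [L, lin, Vale.Agent.P002.algebraMap_T01]
  let y : Gen (m + 1) n → Mat r T01 := fun k => L (X0 k) (X1 k)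
  have hyu : ∀ k, IsUnit (y k) := fun k =>
    isUnit_mat _ (by rw [hL0]; exact hX0 k) (by rw [hL1]; exact hX1 k)
  have hyd : ∀ k, IsUnit (y k).det := fun k => (Matrix.isUnit_iff_isUnit_det _).1 (hyu k)
  have hyJ : ∀ j, y (Sum.inr (j, true)) = (J j).map (algebraMap ℂ T01) := by
    intro j
    change L (X0 (Sum.inr (j, true))) (X1 (Sum.inr (j, true))) = _
    rw [hJ0, hJ1, hLc]
  let W : Mat r T01 := relW y (fun k => (y k)⁻¹)
  have hWdet : det W = 1 := by
    have h1 := relW_det y (fun k => (y k)⁻¹) fun k => Matrix.mul_nonsing_inv _ (hyd k)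
    have h2 := relW_det X0 (fun k => (X0 k)⁻¹) fun k =>
      Matrix.mul_nonsing_inv _ ((Matrix.isUnit_iff_isUnit_det _).1 (hX0 k))
    have h3 : det (relW X0 (fun k => (X0 k)⁻¹)) = 1 := by
      rw [hW0]
      have e1 := isUnit_iff_ne_zero.1 ((Matrix.isUnit_iff_isUnit_det _).1 hA0)
      have e2 := isUnit_iff_ne_zero.1 ((Matrix.isUnit_iff_isUnit_det _).1 hB0)
      rw [det_mul, det_mul, det_mul, det_nonsing_inv, det_nonsing_inv, Ring.inverse_eq_inv']
      field_simp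
    change det (relW y (fun k => (y k)⁻¹)) = 1
    rw [h1]
    rw [h3] at h2
    simp only [hJ0] at h2
    have h4 : ∀ j, det (y (Sum.inr (j, true))) = algebraMap ℂ T01 (det (J j)) := by
      intro j
      rw [hyJ]
      exact (RingHom.map_det (algebraMap ℂ T01) (J j)).symm
    simp only [h4]
    rw [← map_prod, ← h2, map_one]
  have hWev0 : W.map ev0 = X0 b * X0 a * (X0 b)⁻¹ * (X0 a)⁻¹ := by
    rw [← hW0]
    change (relW y (fun k => (y k)⁻¹)).map ev0 = _
    rw [relW_map]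
    congr 1
    · funext k; exact hL0 _ _
    · funext k
      rw [map_inv_of_unit _ _ (hyu k), hL0]
  have hWev1 : W.map ev1 = X1 b * X1 a * (X1 b)⁻¹ * (X1 a)⁻¹ := by
    rw [← hW1]
    change (relW y (fun k => (y k)⁻¹)).map ev1 = _
    rw [relW_map]
    congr 1
    · funext k; exact hL1 _ _
    · funext k
      rw [map_inv_of_unit _ _ (hyu k), hL1]
  let Y : Mat r T01 := L (X0 a) (X1 a)
  let θ : T01 := lin (det (X0 a)) (det (X1 a))
  have hMu : IsUnit (sysM W Y) := by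
    apply isUnit_mat
    · rw [sysM_map, hWev0, hL0]; exact hS0
    · rw [sysM_map, hWev1, hL1]; exact hS1
  have hMd := (Matrix.isUnit_iff_isUnit_det _).1 hMu
  let c : Fin r → T01 := (sysM W Y)⁻¹ *ᵥ sysR W Y θ
  have hc : sysM W Y *ᵥ c = sysR W Y θ := by
    simp only [c]
    rw [mulVec_mulVec, Matrix.mul_nonsing_inv _ hMd, one_mulVec]
  have hcφ : ∀ φ : T01 →+* ℂ, sysR (W.map φ) (Y.map φ) (φ θ) = 0 → ∀ i, φ (c i) = 0 := by
    intro φ hφ i
    have h1 := sysR_map φ W Y θ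
    rw [hφ] at h1
    simp only [c, mulVec, dotProduct, map_sum, map_mul]
    apply Finset.sum_eq_zero
    intro j _
    have h2 := congrFun h1 j
    simp only [Pi.zero_apply] at h2
    rw [h2, mul_zero]
  have hc0 : ∀ i, ev0 (c i) = 0 := by
    apply hcφ
    rw [hWev0, hL0, ev0_lin]
    exact sysR_zero hA0 hB0
  have hc1 : ∀ i, ev1 (c i) = 0 := by
    apply hcφ
    rw [hWev1, hL1, ev1_lin]
    exact sysR_zero hA1 hB1
  let A : Mat r T01 := Y + vecMulVec c 1
  have hAφ : ∀ φ : T01 →+* ℂ, (∀ i, φ (c i) = 0) → A.map φ = Y.map φ := by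
    intro φ hφ
    ext i j
    simp [A, hφ]
  have hAev0 : A.map ev0 = X0 a := by rw [hAφ _ hc0, hL0]
  have hAev1 : A.map ev1 = X1 a := by rw [hAφ _ hc1, hL1]
  have hAu : IsUnit A := isUnit_mat _ (by rw [hAev0]; exact hA0) (by rw [hAev1]; exact hA1)
  have hAd := (Matrix.isUnit_iff_isUnit_det _).1 hAu
  let A' : Mat r T01 := W * A
  have : CharZero T01 := by
    refine charZero_of_injective_algebraMap (R := ℂ) ?_
    exact FaithfulSMul.algebraMap_injective ℂ T01
  have hchar : A.charpoly = A'.charpoly := by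
    apply charpoly_eq_of_tm
    · simp only [A']
      rw [det_mul, hWdet, one_mul]
    · intro i hi
      exact sys_tm W Y θ c hc i hi
  have hKu : IsUnit (kry A 1) := by
    apply isUnit_mat
    · rw [kry_map, hAev0]
      have h7 : (fun i => ev0 ((1 : Fin r → T01) i)) = (1 : Fin r → ℂ) := by
        funext i; simp
      rw [h7]
      exact hK0
    · rw [kry_map, hAev1]
      have h7 : (fun i => ev1 ((1 : Fin r → T01) i)) = (1 : Fin r → ℂ) := by
        funext i; simp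
      rw [h7]
      exact hK1
  have hKd := (Matrix.isUnit_iff_isUnit_det _).1 hKu
  let v : Fin r → T01 := fun i => lin ((X0 b *ᵥ 1) i) ((X1 b *ᵥ 1) i)
  let B : Mat r T01 := kry A' v * (kry A 1)⁻¹
  have hBK : B * kry A 1 = kry A' v := by
    simp only [B]
    rw [mul_assoc, Matrix.nonsing_inv_mul _ hKd, mul_one]
  have hBev : ∀ (φ : T01 →+* ℂ) (A2 B2 : Mat r ℂ), IsUnit A2 → IsUnit B2 → IsUnit (kry A2 1) →
      A.map φ = A2 → W.map φ = B2 * A2 * B2⁻¹ * A2⁻¹ → (fun i => φ (v i)) = B2 *ᵥ 1 →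
      B.map φ = B2 := by
    intro φ A2 B2 hA2 hB2 hK2 h1 h2 h3
    have h4 := congrArg (fun N : Mat r T01 => N.map φ) hBK
    beta_reduce at h4
    rw [Matrix.map_mul, kry_map, kry_map, h1, h3] at h4
    have h5 : A'.map φ = B2 * A2 * B2⁻¹ := by
      simp only [A']
      rw [Matrix.map_mul, h1, h2, mul_assoc _ A2⁻¹ A2,
        Matrix.nonsing_inv_mul _ ((Matrix.isUnit_iff_isUnit_det _).1 hA2), mul_one]
    rw [h5] at h4
    have h6 : B2 * kry A2 1 = kry (B2 * A2 * B2⁻¹) (B2 *ᵥ 1) := by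
      apply mul_kry
      rw [mul_assoc (B2 * A2), Matrix.nonsing_inv_mul _ ((Matrix.isUnit_iff_isUnit_det _).1 hB2),
        mul_one]
    have h7 : (fun i => φ ((1 : Fin r → T01) i)) = (1 : Fin r → ℂ) := by
      funext i; simp
    rw [h7, ← h6] at h4
    exact hK2.mul_right_cancel h4
  have hBev0 : B.map ev0 = X0 b :=
    hBev ev0 _ _ hA0 hB0 hK0 hAev0 hWev0 (by funext i; simp [v])
  have hBev1 : B.map ev1 = X1 b :=
    hBev ev1 _ _ hA1 hB1 hK1 hAev1 hWev1 (by funext i; simp [v])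
  have hBu : IsUnit B := isUnit_mat _ (by rw [hBev0]; exact hB0) (by rw [hBev1]; exact hB1)
  have hBd := (Matrix.isUnit_iff_isUnit_det _).1 hBu
  have hcomm : B * A = A' * B := krylov_comm A A' 1 v hchar B hBK hKu
  -- the point over `T01`
  let Z : Gen (m + 1) n → Mat r T01 := fun k => if k = a then A else if k = b then B else y k
  have hZa : Z a = A := by simp [Z]
  have hZb : Z b = B := by simp [Z, Ne.symm hab]
  have hZk : ∀ k, k ≠ a → k ≠ b → Z k = y k := by
    intro k h1 h2; simp [Z, h1, h2]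
  have hZd : ∀ k, IsUnit (Z k).det := by
    intro k
    by_cases h1 : k = a
    · rw [h1, hZa]; exact hAd
    · by_cases h2 : k = b
      · rw [h2, hZb]; exact hBd
      · rw [hZk k h1 h2]; exact hyd k
  have hZu : ∀ k, IsUnit (Z k) := fun k => (Matrix.isUnit_iff_isUnit_det _).2 (hZd k)
  have hXY : ∀ k, Z k * (Z k)⁻¹ = 1 := fun k => Matrix.mul_nonsing_inv _ (hZd k)
  have hZJ : ∀ j, Z (Sum.inr (j, true)) = (J j).map (algebraMap ℂ T01) := by
    intro j
    rw [hZk _ (by simp [ha]) (by simp [hb])]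
    exact hyJ j
  have hrel : relR Z (fun k => (Z k)⁻¹) = 1 := by
    rw [relR_eq]
    change relW Z (fun k => (Z k)⁻¹) * (Z a * Z b * (Z a)⁻¹ * (Z b)⁻¹) = 1
    rw [hZa, hZb]
    have e0 : relW Z (fun k => (Z k)⁻¹) = W := by
      apply relW_congr
      intro k h1 h2
      rw [hZk k h1 h2]
      exact ⟨rfl, rfl⟩
    rw [e0]
    have e1 : W * (A * B * A⁻¹ * B⁻¹) = (A' * B) * A⁻¹ * B⁻¹ := by
      simp only [A', mul_assoc]
    rw [e1, ← hcomm, mul_assoc B, Matrix.mul_nonsing_inv _ hAd, mul_one,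
      Matrix.mul_nonsing_inv _ hBd]
  have hzero := rtransfer (T := T01) J (h * f) (by
    intro X hX hJX hrelX
    rw [map_mul]
    exact hfh X hX hJX hrelX) _ _ hXY hZJ hrel
  rw [map_mul, mul_eq_zero] at hzero
  have hend : ∀ (φ : T01 →+* ℂ) (_ : ∀ c : ℂ, φ (algebraMap ℂ T01 c) = c)
      (F : MvPolynomial (Gen (m + 1) n × Bool × Fin r × Fin r) ℂ)
      (X2 : Gen (m + 1) n → Mat r ℂ), (∀ k, (y k).map φ = X2 k) →
      A.map φ = X2 a → B.map φ = X2 b →
      φ (evalR Z (fun k => (Z k)⁻¹) F) = evalM X2 F := by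
    intro φ hφ F X2 h1 h2 h3
    have hZφ : ∀ k, (Z k).map φ = X2 k := by
      intro k
      by_cases h4 : k = a
      · rw [h4, hZa, h2]
      · by_cases h5 : k = b
        · rw [h5, hZb, h3]
        · rw [hZk k h4 h5]
          exact h1 k
    rw [evalR_map φ hφ, evalM_eq_evalR]
    congr 2
    · funext k; exact hZφ k
    · funext k
      rw [map_inv_of_unit _ _ (hZu k), hZφ]
  rcases hzero with hz | hz
  · exfalso
    apply hh
    rw [← hend ev0 ev0_C h X0 (fun k => hL0 _ _) hAev0 hBev0, hz, map_zero]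
  · rw [← hend ev1 ev1_C f X1 (fun k => hL1 _ _) hAev1 hBev1, hz, map_zero]

open Vale.Agent.P002 (addH addH_last_false addH_last_true addH_castSucc relT_addH)

/-- The product of the puncture words. -/
noncomputable def puncW (X : Gen (m + 1) n → Mat r ℂ) : Mat r ℂ :=
  (List.ofFn fun j : Fin n =>
    X (Sum.inr (j, false)) * X (Sum.inr (j, true)) * (X (Sum.inr (j, false)))⁻¹).prod

theorem relM_eq_relT (X : Gen (m + 1) n → Mat r ℂ) :
    relM X = puncW X * relT fun k => X (Sum.inl k) := rfl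

/-- Replace the handles. -/
def setH (X : Gen (m + 1) n → Mat r ℂ) (y : Fin m × Bool → Mat r ℂ) (A B : Mat r ℂ) :
    Gen (m + 1) n → Mat r ℂ := Sum.elim (addH y A B) fun p => X (Sum.inr p)

theorem eq_setH (X : Gen (m + 1) n → Mat r ℂ) :
    X = setH X (fun k => X (Sum.inl (k.1.castSucc, k.2))) (X (Sum.inl (Fin.last m, false)))
      (X (Sum.inl (Fin.last m, true))) := by
  have h := Vale.Agent.P002.eq_addH fun k => X (Sum.inl k)
  funext k
  rcases k with k | k
  · exact congrFun h k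
  · rfl

theorem relM_setH (X : Gen (m + 1) n → Mat r ℂ) (y : Fin m × Bool → Mat r ℂ) (A B : Mat r ℂ) :
    relM (setH X y A B) = puncW X * (relT y * (A * B * A⁻¹ * B⁻¹)) := by
  rw [relM_eq_relT]
  have : (fun k => setH X y A B (Sum.inl k)) = addH y A B := rfl
  rw [this, relT_addH]
  rfl

/-- Points whose first handles have scalar centralizer are limits of points with a good last
handle. -/
theorem near_good_rel (hr : 0 < r) (X : Gen (m + 1) n → Mat r ℂ) (hX : ∀ k, IsUnit (X k))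
    (hrel : relM X = 1)
    (hc : ∀ N : Mat r ℂ, (∀ (i : Fin m) (b : Bool), Commute N (X (Sum.inl (i.castSucc, b)))) →
      ∃ c : ℂ, N = c • (1 : Mat r ℂ))
    (U : Set (Gen (m + 1) n → Mat r ℂ)) (hU : U ∈ nhds X) :
    ∃ X' ∈ U, (∀ k, IsUnit (X' k)) ∧ (∀ p, X' (Sum.inr p) = X (Sum.inr p)) ∧ relM X' = 1 ∧
      Good (X' (Sum.inl (Fin.last m, false))) (X' (Sum.inl (Fin.last m, true))) := by
  classical
  obtain ⟨y, hy0⟩ : ∃ y : Fin m × Bool → Mat r ℂ, y = fun k => X (Sum.inl (k.1.castSucc, k.2)) :=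
    ⟨_, rfl⟩
  obtain ⟨A, hA0⟩ : ∃ A, A = X (Sum.inl (Fin.last m, false)) := ⟨_, rfl⟩
  obtain ⟨B, hB0⟩ : ∃ B, B = X (Sum.inl (Fin.last m, true)) := ⟨_, rfl⟩
  have hXe : X = setH X y A B := by rw [hy0, hA0, hB0]; exact eq_setH X
  have hy : ∀ k, IsUnit (y k) := fun k => by rw [hy0]; exact hX _
  have hA : IsUnit A := by rw [hA0]; exact hX _
  have hB : IsUnit B := by rw [hB0]; exact hX _
  have hcy : ∀ N : Mat r ℂ, (∀ k, Commute N (y k)) → ∃ c : ℂ, N = c • (1 : Mat r ℂ) := by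
    intro N hN
    apply hc N
    intro i b
    have := hN (i, b)
    rw [hy0] at this
    exact this
  rw [hXe, relM_setH] at hrel
  obtain ⟨P, hP⟩ : ∃ P, P = puncW X := ⟨_, rfl⟩
  rw [← hP] at hrel
  have hAd := (Matrix.isUnit_iff_isUnit_det _).1 hA
  have hBd := (Matrix.isUnit_iff_isUnit_det _).1 hB
  have hPd : IsUnit P.det := Matrix.isUnit_det_of_right_inverse hrel
  have hP' : IsUnit P := (Matrix.isUnit_iff_isUnit_det _).2 hPd
  -- the value of `relT y`
  have hW : P * relT y = B * A * B⁻¹ * A⁻¹ := by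
    apply rel_inv hA hB
    rw [mul_assoc]
    exact hrel
  have hWy : relT y = P⁻¹ * (B * A * B⁻¹ * A⁻¹) := by
    rw [← hW, ← mul_assoc, Matrix.nonsing_inv_mul _ hPd, one_mul]
  have hcomm : ∀ A B : Mat r ℂ, IsUnit A.det → IsUnit B.det → (B * A * B⁻¹ * A⁻¹).det = 1 := by
    intro A B hA hB
    have e1 := isUnit_iff_ne_zero.1 hA
    have e2 := isUnit_iff_ne_zero.1 hB
    rw [det_mul, det_mul, det_mul, det_nonsing_inv, det_nonsing_inv, Ring.inverse_eq_inv']
    field_simp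
  have hPdet : P.det = 1 := by
    have h1 : (P * relT y).det = 1 := by rw [hW]; exact hcomm A B hAd hBd
    rw [det_mul, Vale.Agent.P002.det_relT hy, mul_one] at h1
    exact h1
  -- product neighbourhoods
  have hcont : Continuous fun q : (Fin m × Bool → Mat r ℂ) × (Mat r ℂ × Mat r ℂ) =>
      setH X q.1 q.2.1 q.2.2 := by
    apply continuous_pi
    rintro (⟨i, b⟩ | p)
    · refine Fin.lastCases ?_ (fun i => ?_) i
      · cases b
        · simp only [setH, Sum.elim_inl, addH_last_false]; fun_prop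
        · simp only [setH, Sum.elim_inl, addH_last_true]; fun_prop
      · simp only [setH, Sum.elim_inl, addH_castSucc]; fun_prop
    · simp only [setH, Sum.elim_inr]; fun_prop
  have h1 : (fun q : (Fin m × Bool → Mat r ℂ) × (Mat r ℂ × Mat r ℂ) =>
      setH X q.1 q.2.1 q.2.2) ⁻¹' U ∈ nhds (y, (A, B)) := by
    apply hcont.continuousAt.preimage_mem_nhds
    rw [← hXe]
    exact hU
  rw [nhds_prod_eq, Filter.mem_prod_iff] at h1
  obtain ⟨Uy, hUy, Up, hUp, hsub⟩ := h1
  have h2 : {y' : Fin m × Bool → Mat r ℂ | ∀ k, IsUnit (y' k)} ∈ nhds y := by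
    have : {y' : Fin m × Bool → Mat r ℂ | ∀ k, IsUnit (y' k)} =
        ⋂ k, (fun y' : Fin m × Bool → Mat r ℂ => y' k) ⁻¹' {M : Mat r ℂ | IsUnit M} := by
      ext y'; simp
    rw [this]
    apply (isOpen_iInter_of_finite fun k => isOpen_isUnit.preimage (continuous_apply k)).mem_nhds
    simp only [Set.mem_iInter, Set.mem_preimage]
    exact hy
  obtain ⟨V, hV, hV2⟩ := open_relT y hy hcy (Uy ∩ {y' | ∀ k, IsUnit (y' k)})
    (Filter.inter_mem hUy h2)
  have hcc : ContinuousAt (fun p : Mat r ℂ × Mat r ℂ => P⁻¹ * (p.2 * p.1 * p.2⁻¹ * p.1⁻¹))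
      (A, B) := by
    apply ContinuousAt.mul continuousAt_const
    apply ContinuousAt.mul
    · apply ContinuousAt.mul
      · exact (continuous_snd.mul continuous_fst).continuousAt
      · exact ContinuousAt.comp (f := Prod.snd) (x := (A, B)) (continuousAt_matInv hB)
          continuous_snd.continuousAt
    · exact ContinuousAt.comp (f := Prod.fst) (x := (A, B)) (continuousAt_matInv hA)
          continuous_fst.continuousAt
  have h3 : (fun p : Mat r ℂ × Mat r ℂ => P⁻¹ * (p.2 * p.1 * p.2⁻¹ * p.1⁻¹)) ⁻¹' V ∈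
      nhds (A, B) := by
    apply hcc.preimage_mem_nhds
    simp only
    rw [← hWy]
    exact hV
  obtain ⟨⟨A', B'⟩, ⟨hp1, hp2⟩, hgood⟩ := good_dense hr A B _ (Filter.inter_mem hUp h3)
  simp only [Set.mem_preimage] at hp2
  have hA' := hgood.1
  have hB' := hgood.2.1
  have hAd' := (Matrix.isUnit_iff_isUnit_det _).1 hA'
  have hBd' := (Matrix.isUnit_iff_isUnit_det _).1 hB'
  have hdet : (P⁻¹ * (B' * A' * B'⁻¹ * A'⁻¹)).det = 1 := by
    rw [det_mul, hcomm A' B' hAd' hBd', det_nonsing_inv, hPdet, Ring.inverse_one, mul_one]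
  obtain ⟨y', ⟨hy1, hy2⟩, hy3⟩ := hV2 _ hp2 hdet
  refine ⟨setH X y' A' B', hsub (Set.mk_mem_prod hy1 hp1), ?_, fun p => rfl, ?_, ?_⟩
  · rintro (k | p)
    · exact Vale.Agent.P002.addH_forall (fun M => IsUnit M) y' A' B' hy2 hA' hB' k
    · exact hX _
  · rw [relM_setH, hy3, ← hP]
    simp only at hAd' hBd' ⊢
    have e1 : P * (P⁻¹ * (B' * A' * B'⁻¹ * A'⁻¹) * (A' * B' * A'⁻¹ * B'⁻¹)) =
        P * P⁻¹ * B' * A' * B'⁻¹ * (A'⁻¹ * A') * B' * A'⁻¹ * B'⁻¹ := by
      simp only [mul_assoc]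
    rw [e1, Matrix.mul_nonsing_inv _ hPd, one_mul, Matrix.nonsing_inv_mul _ hAd', mul_one,
      mul_assoc (B' * A') B'⁻¹ B', Matrix.nonsing_inv_mul _ hBd', mul_one, mul_assoc B' A' A'⁻¹,
      Matrix.mul_nonsing_inv _ hAd', mul_one, Matrix.mul_nonsing_inv _ hBd']
  · simpa [setH] using hgood

theorem evalM_continuousAt {κ : Type*} [Finite κ]
    (f : MvPolynomial (κ × Bool × Fin r × Fin r) ℂ) (X : κ → Mat r ℂ)
    (hX : ∀ k, IsUnit (X k)) : ContinuousAt (fun X : κ → Mat r ℂ => evalM X f) X := by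
  have h : (fun X : κ → Mat r ℂ => evalM X f) =
      (fun v => MvPolynomial.eval v f) ∘ fun X : κ → Mat r ℂ =>
        fun p : κ × Bool × Fin r × Fin r => if p.2.1 then (X p.1)⁻¹ p.2.2.1 p.2.2.2
          else X p.1 p.2.2.1 p.2.2.2 := by
    funext X
    simp [evalM]
  rw [h]
  apply ContinuousAt.comp
  · exact (MvPolynomial.continuous_eval f).continuousAt
  · rw [continuousAt_pi]
    rintro ⟨k, b, i, j⟩
    cases b
    · simp only [Bool.false_eq_true, if_false]
      exact ((continuous_apply j).comp ((continuous_apply i).comp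
        (continuous_apply k))).continuousAt
    · simp only [if_true]
      have h1 : ContinuousAt (fun X : κ → Mat r ℂ => (X k)⁻¹) X :=
        ContinuousAt.comp (f := fun X : κ → Mat r ℂ => X k) (x := X)
          (continuousAt_matInv (hX k)) (continuous_apply k).continuousAt
      have h2 : Continuous fun M : Mat r ℂ => M i j :=
        (continuous_apply j).comp (continuous_apply i)
      exact ContinuousAt.comp (f := fun X : κ → Mat r ℂ => (X k)⁻¹) (x := X)
        (g := fun M : Mat r ℂ => M i j) h2.continuousAt h1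

/-- TASK J. -/
theorem partII (hr : 1 ≤ r) (hm : 1 ≤ m)
    (f h : MvPolynomial (Gen (m + 1) n × Bool × Fin r × Fin r) ℂ) (J : Fin n → Mat r ℂ)
    (hJ : ∀ j, IsUnit (J j))
    (hfh : ∀ X : Gen (m + 1) n → Mat r ℂ, (∀ k, IsUnit (X k)) → (∀ j, X (Sum.inr (j, true)) = J j) →
      relM X = 1 → evalM X h * evalM X f = 0)
    (X₀ : Gen (m + 1) n → Mat r ℂ) (hX₀ : ∀ k, IsUnit (X₀ k))
    (hJ₀ : ∀ j, X₀ (Sum.inr (j, true)) = J j) (hrel₀ : relM X₀ = 1)
    (hc₀ : ∀ N : Mat r ℂ, (∀ (i : Fin m) (b : Bool), Commute N (X₀ (Sum.inl (i.castSucc, b)))) →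
      ∃ c : ℂ, N = c • (1 : Mat r ℂ))
    (hh₀ : evalM X₀ h ≠ 0)
    (X₁ : Gen (m + 1) n → Mat r ℂ) (hX₁ : ∀ k, IsUnit (X₁ k))
    (hJ₁ : ∀ j, X₁ (Sum.inr (j, true)) = J j) (hrel₁ : relM X₁ = 1)
    (hc₁ : ∀ N : Mat r ℂ, (∀ (i : Fin m) (b : Bool), Commute N (X₁ (Sum.inl (i.castSucc, b)))) →
      ∃ c : ℂ, N = c • (1 : Mat r ℂ)) :
    evalM X₁ f = 0 := by
  have _ := hm
  have _ := hJ
  obtain ⟨X0, hU0, hX0, hp0, hr0, hg0⟩ := near_good_rel hr X₀ hX₀ hrel₀ hc₀
    {X | evalM X h ≠ 0} ((evalM_continuousAt h X₀ hX₀).preimage_mem_nhds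
      (isOpen_compl_singleton.mem_nhds hh₀))
  by_contra hf
  obtain ⟨X1, hU1, hX1, hp1, hr1, hg1⟩ := near_good_rel hr X₁ hX₁ hrel₁ hc₁
    {X | evalM X f ≠ 0} ((evalM_continuousAt f X₁ hX₁).preimage_mem_nhds
      (isOpen_compl_singleton.mem_nhds hf))
  exact hU1 (rpath_lemma f h J hfh X0 X1 hX0 hX1 (fun j => by rw [hp0, hJ₀])
    (fun j => by rw [hp1, hJ₁]) hg0 hg1 hr0 hr1 hU0)

end Vale.Agent.P002R
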