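import Mathlib.LinearAlgebra.Matrix.Trace
import Mathlib.Analysis.Complex.Basic

namespace Vale.Agent.P002R

open Matrix

variable {r : ℕ}

/-- Puncture algebra. -/
theorem puncture_alg (K Ki d c ci η sd : Matrix (Fin r) (Fin r) ℂ)
    (hK1 : K * Ki = 1)
    (h : ∀ ε : Matrix (Fin r) (Fin r) ℂ, trace (sd * -(K * ε * Ki * d)) =
      trace ((η - (Ki * c * K) * η * (Ki * ci * K)) * ε)) (z : Matrix (Fin r) (Fin r) ℂ) :
    trace (sd * (z * d)) = trace (η * (Ki * (ci * z * c - z) * K)) := by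
  have hK1' : ∀ X : Matrix (Fin r) (Fin r) ℂ, K * (Ki * X) = X := fun X => by
    rw [← mul_assoc, hK1, one_mul]
  have h1 := h (-(Ki * z * K))
  have e1 : sd * -(K * -(Ki * z * K) * Ki * d) = sd * (z * d) := by
    simp only [mul_neg, neg_mul, neg_neg, mul_assoc, hK1']
  have e2 : (η - (Ki * c * K) * η * (Ki * ci * K)) * -(Ki * z * K) =
      (Ki * c * K) * (η * (Ki * (ci * (z * K)))) - η * (Ki * (z * K)) := by
    simp only [mul_neg, sub_mul, mul_assoc, hK1']
    abel
  rw [e1, e2, trace_sub, Matrix.trace_mul_comm (Ki * c * K)] at h1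
  rw [h1, ← trace_sub]
  congr 1
  simp only [mul_sub, sub_mul, mul_assoc, hK1']

/-- Handle algebra. -/
theorem handle_alg (K Ki a ai b bi η sa sb : Matrix (Fin r) (Fin r) ℂ)
    (hK1 : K * Ki = 1) (ha1 : a * ai = 1) (hb2 : bi * b = 1) (hb1 : b * bi = 1)
    (h1 : ∀ ε : Matrix (Fin r) (Fin r) ℂ, trace (sb * -(K * ε * Ki * b)) =
      trace ((η - (Ki * (b * ai * bi) * K) * η * (Ki * (b * a * bi) * K)) * ε))
    (h2 : ∀ ε : Matrix (Fin r) (Fin r) ℂ, trace (sa * (a * (K * ε * Ki))) +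
      trace (sb * (b * (K * ε * Ki) - (K * ε * Ki) * b)) =
      trace ((η - (Ki * bi * K) * η * (Ki * b * K)) * ε))
    (Ea Eb : Matrix (Fin r) (Fin r) ℂ) :
    trace (sa * Ea) + trace (sb * Eb) = trace (η * (Ki * (b * a * bi * (ai * Ea) * b * ai * bi +
      b * a * bi * Eb * ai * bi - b * Ea * ai * bi - Eb * bi) * K)) := by
  have hK1' : ∀ X : Matrix (Fin r) (Fin r) ℂ, K * (Ki * X) = X := fun X => by
    rw [← mul_assoc, hK1, one_mul]
  have ha1' : ∀ X : Matrix (Fin r) (Fin r) ℂ, a * (ai * X) = X := fun X => by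
    rw [← mul_assoc, ha1, one_mul]
  have hb2' : ∀ X : Matrix (Fin r) (Fin r) ℂ, bi * (b * X) = X := fun X => by
    rw [← mul_assoc, hb2, one_mul]
  have hb1' : ∀ X : Matrix (Fin r) (Fin r) ℂ, b * (bi * X) = X := fun X => by
    rw [← mul_assoc, hb1, one_mul]
  have key : ∀ Eb : Matrix (Fin r) (Fin r) ℂ, trace (sb * Eb) =
      trace (η * (Ki * (b * a * bi * Eb * ai * bi - Eb * bi) * K)) := by
    intro Eb
    have h3 := h1 (-(Ki * (Eb * bi) * K))
    have e1 : sb * -(K * -(Ki * (Eb * bi) * K) * Ki * b) = sb * Eb := by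
      simp only [mul_neg, neg_mul, neg_neg, mul_assoc, hK1', hb2, mul_one]
    have e2 : (η - (Ki * (b * ai * bi) * K) * η * (Ki * (b * a * bi) * K)) *
        -(Ki * (Eb * bi) * K) =
        (Ki * (b * ai * bi) * K) * (η * (Ki * (b * (a * (bi * (Eb * (bi * K))))))) -
          η * (Ki * (Eb * (bi * K))) := by
      simp only [mul_neg, sub_mul, mul_assoc, hK1']
      abel
    rw [e1, e2, trace_sub, Matrix.trace_mul_comm (Ki * (b * ai * bi) * K)] at h3
    rw [h3, ← trace_sub]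
    congr 1
    simp only [mul_sub, sub_mul, mul_assoc, hK1', hb2']
  have h3 := h2 (Ki * (ai * Ea) * K)
  have e0 : K * (Ki * (ai * Ea) * K) * Ki = ai * Ea := by
    simp only [mul_assoc, hK1', hK1, mul_one]
  rw [e0, ha1', key] at h3
  have e2 : (η - (Ki * bi * K) * η * (Ki * b * K)) * (Ki * (ai * Ea) * K) =
      η * (Ki * (ai * (Ea * K))) - (Ki * bi * K) * (η * (Ki * (b * (ai * (Ea * K))))) := by
    simp only [sub_mul, mul_assoc, hK1']
  rw [e2, trace_sub, Matrix.trace_mul_comm (Ki * bi * K)] at h3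
  rw [key Eb]
  simp only [mul_sub, sub_mul, mul_add, add_mul, mul_assoc, hK1', ha1', hb1', hb2', trace_sub,
    trace_add] at h3 ⊢
  linear_combination h3

end Vale.Agent.P002R
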