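import Vale.Agent.P002R.RDefs
import Vale.Agent.P002R.RIdentAlg

namespace Vale.Agent.P002R

open Matrix

variable {m n r : ℕ}

section der

variable {κ : Type*} (ρ : FreeGroup κ →* (Mat r ℂ)ˣ) (E : FreeGroup κ → Mat r ℂ)

/-- The inverse as a matrix. -/
noncomputable abbrev vi (x : (Mat r ℂ)ˣ) : Mat r ℂ := ((x⁻¹ : (Mat r ℂ)ˣ) : Mat r ℂ)

theorem vi_mul_self (x : (Mat r ℂ)ˣ) : vi x * (x : Mat r ℂ) = 1 := x.inv_mul

theorem mul_vi_self (x : (Mat r ℂ)ˣ) : (x : Mat r ℂ) * vi x = 1 := x.mul_inv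

/-- Logarithmic derivative. -/
noncomputable def ld (w : FreeGroup κ) : Mat r ℂ := vi (ρ w) * E w

variable {ρ E}

theorem der_one (hE : IsDer ρ E) : E 1 = 0 := by
  have h := hE 1 1
  simp only [mul_one, map_one, Units.val_one, one_mul] at h
  simpa using h

theorem der_inv (hE : IsDer ρ E) (w : FreeGroup κ) :
    E w⁻¹ = -(vi (ρ w) * E w * vi (ρ w)) := by
  have h := hE w⁻¹ w
  rw [inv_mul_cancel, der_one hE, map_inv] at h
  have h1 : E w⁻¹ * (ρ w : Mat r ℂ) = -(vi (ρ w) * E w) := by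
    rw [eq_neg_iff_add_eq_zero]
    exact h.symm
  calc E w⁻¹ = E w⁻¹ * ((ρ w : Mat r ℂ) * vi (ρ w)) := by rw [mul_vi_self, mul_one]
    _ = _ := by rw [← mul_assoc, h1, neg_mul]

theorem ld_mul (hE : IsDer ρ E) (w w' : FreeGroup κ) :
    ld ρ E (w * w') = vi (ρ w') * ld ρ E w * (ρ w' : Mat r ℂ) + ld ρ E w' := by
  unfold ld
  rw [hE, map_mul]
  simp only [vi, _root_.mul_inv_rev, Units.val_mul, mul_add]
  congr 1
  · simp only [mul_assoc]
  · have : vi (ρ w) * (ρ w : Mat r ℂ) = 1 := vi_mul_self _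
    calc _ = vi (ρ w') * (vi (ρ w) * (ρ w : Mat r ℂ)) * E w' := by simp only [mul_assoc, vi]
      _ = _ := by rw [this, mul_one]

end der

/-- The logarithmic derivative of a product of blocks. -/
theorem ld_blocks (ρ : FF (m + 1) n →* (Mat r ℂ)ˣ) (E : FF (m + 1) n → Mat r ℂ) (hE : IsDer ρ E)
    (l : List (Fin n ⊕ Fin m)) (hl : l.Nodup) :
    ld ρ E (l.map bw).prod =
      (l.map fun b => vi (ρ (aftL b l)) * ld ρ E (bw b) * (ρ (aftL b l) : Mat r ℂ)).sum := by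
  induction l with
  | nil => simp [ld, der_one hE]
  | cons c l ih =>
    rw [List.nodup_cons] at hl
    rw [List.map_cons, List.prod_cons, ld_mul hE, ih hl.2, List.map_cons, List.sum_cons]
    have h1 : aftL c (c :: l) = (l.map bw).prod := by rw [aftL, if_pos rfl]
    rw [h1]
    congr 2
    apply List.map_congr_left
    intro b hb
    have h2 : aftL b (c :: l) = aftL b l := by
      rw [aftL, if_neg]
      intro h
      exact hl.1 (h ▸ hb)
    rw [h2]

theorem nodup_blocks : (blocks m n).Nodup := by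
  unfold blocks
  apply List.Nodup.append
  · exact (List.nodup_finRange n).map Sum.inl_injective
  · exact (List.nodup_finRange m).map Sum.inr_injective
  · intro x hx hy
    simp only [List.mem_map] at hx hy
    obtain ⟨a, _, rfl⟩ := hx
    obtain ⟨b, _, h⟩ := hy
    exact Sum.inr_ne_inl h

theorem relator_eq_blocks : relator (m + 1) n = ((blocks m n).map bw).prod * hcomm (Fin.last m) := by
  unfold relator blocks
  rw [List.ofFn_succ', List.prod_concat, List.map_append, List.prod_append, List.map_map,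
    List.map_map, List.ofFn_eq_map, List.ofFn_eq_map, mul_assoc]
  rfl

theorem sum_blocks {M : Type*} [AddCommMonoid M] (f : Fin n ⊕ Fin m → M) :
    ((blocks m n).map f).sum = ∑ j, f (Sum.inl j) + ∑ i, f (Sum.inr i) := by
  unfold blocks
  rw [List.map_append, List.sum_append, List.map_map, List.map_map, Fin.sum_univ_def,
    Fin.sum_univ_def]
  rfl

theorem der_gC (ρ : FF (m + 1) n →* (Mat r ℂ)ˣ) (E : FF (m + 1) n → Mat r ℂ) (hE : IsDer ρ E)
    (hEe : ∀ j, E (gE j) = 0) (j : Fin n) (z : Mat r ℂ)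
    (hz : E (gD j) = z * (ρ (gD j) : Mat r ℂ)) :
    E (gC j) = z * (ρ (gC j) : Mat r ℂ) - (ρ (gC j) : Mat r ℂ) * z := by
  obtain ⟨d, hd⟩ : ∃ d, d = ρ (gD j) := ⟨_, rfl⟩
  obtain ⟨e, he⟩ : ∃ e, e = ρ (gE j) := ⟨_, rfl⟩
  have h1 : (ρ (gC j) : Mat r ℂ) = (d : Mat r ℂ) * (e : Mat r ℂ) * vi d := by
    rw [hd, he]; simp [gC, vi]
  have h2 : vi d * ((d : Mat r ℂ)) = 1 := vi_mul_self d
  have h3 : (d : Mat r ℂ) * vi d = 1 := mul_vi_self d
  rw [← hd] at hz
  have h4 : E (gC j) = E (gD j) * (e : Mat r ℂ) * vi d -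
      (d : Mat r ℂ) * (e : Mat r ℂ) * (vi d * E (gD j) * vi d) := by
    unfold gC
    rw [hE, hE, der_inv hE, hEe, mul_zero, add_zero, map_mul, map_inv, ← hd, ← he, mul_neg,
      ← sub_eq_add_neg, Units.val_mul]
  rw [h4, h1, hz]
  have h5 : (d : Mat r ℂ) * (e : Mat r ℂ) * (vi d * (z * (d : Mat r ℂ)) * vi d) =
      (d : Mat r ℂ) * (e : Mat r ℂ) * vi d * z * ((d : Mat r ℂ) * vi d) := by
    simp only [mul_assoc]
  rw [h5, h3, mul_one]
  simp only [mul_assoc]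

theorem der_hcomm (ρ : FF (m + 1) n →* (Mat r ℂ)ˣ) (E : FF (m + 1) n → Mat r ℂ) (hE : IsDer ρ E)
    (i : Fin (m + 1)) (a b : (Mat r ℂ)ˣ) (ha : a = ρ (gA i)) (hb : b = ρ (gB i)) :
    ld ρ E (hcomm i) = (b : Mat r ℂ) * a * vi b * (vi a * E (gA i)) * b * vi a * vi b +
      (b : Mat r ℂ) * a * vi b * E (gB i) * vi a * vi b - (b : Mat r ℂ) * E (gA i) * vi a * vi b -
        E (gB i) * vi b := by
  have hai : vi a * (a : Mat r ℂ) = 1 := vi_mul_self a
  have hbi : vi b * (b : Mat r ℂ) = 1 := vi_mul_self b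
  have hia : (a : Mat r ℂ) * vi a = 1 := mul_vi_self a
  have hib : (b : Mat r ℂ) * vi b = 1 := mul_vi_self b
  have hai' : ∀ X : Mat r ℂ, vi a * ((a : Mat r ℂ) * X) = X := fun X => by
    rw [← mul_assoc, hai, one_mul]
  have hbi' : ∀ X : Mat r ℂ, vi b * ((b : Mat r ℂ) * X) = X := fun X => by
    rw [← mul_assoc, hbi, one_mul]
  have hia' : ∀ X : Mat r ℂ, (a : Mat r ℂ) * (vi a * X) = X := fun X => by
    rw [← mul_assoc, hia, one_mul]
  have hib' : ∀ X : Mat r ℂ, (b : Mat r ℂ) * (vi b * X) = X := fun X => by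
    rw [← mul_assoc, hib, one_mul]
  have hE1 : E (hcomm i) = E (gA i) * (b : Mat r ℂ) * vi a * vi b +
      (a : Mat r ℂ) * E (gB i) * vi a * vi b - (a : Mat r ℂ) * b * (vi a * E (gA i) * vi a) * vi b -
        (a : Mat r ℂ) * b * vi a * (vi b * E (gB i) * vi b) := by
    unfold hcomm
    rw [hE, hE, hE, der_inv hE, der_inv hE]
    simp only [map_mul, map_inv, ← ha, ← hb, Units.val_mul, vi, add_mul, mul_neg, neg_mul]
    abel
  have hρ : vi (ρ (hcomm i)) = (b : Mat r ℂ) * a * vi b * vi a := by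
    have : (ρ (hcomm i))⁻¹ = b * a * b⁻¹ * a⁻¹ := by
      simp only [hcomm, map_mul, map_inv, ← ha, ← hb]
      group
    rw [vi, this]
    simp only [Units.val_mul, vi]
  unfold ld
  rw [hρ, hE1]
  simp only [mul_sub, mul_add, mul_assoc, hai', hbi', hia', hib']

/-- Puncture step. -/
theorem ident_puncture (ρ : FF (m + 1) n →* (Mat r ℂ)ˣ) (s : Gen (m + 1) n → Mat r ℂ) (η : Mat r ℂ)
    (hR : ∀ q : Loop m n, ∀ ε : Mat r ℂ, ∑ k, trace (s k * Lam ρ q ε k) =
      trace ((η - (ρ (loopW q) : Mat r ℂ) * η * (((ρ (loopW q))⁻¹ : (Mat r ℂ)ˣ) : Mat r ℂ)) * ε))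
    (E : FF (m + 1) n → Mat r ℂ) (hE : IsDer ρ E) (hEe : ∀ j, E (gE j) = 0) (j : Fin n) :
    trace (s (Sum.inr (j, false)) * E (FreeGroup.of (Sum.inr (j, false)))) +
      trace (s (Sum.inr (j, true)) * E (FreeGroup.of (Sum.inr (j, true)))) =
      trace (η * (vi (ρ (aftL (Sum.inl j) (blocks m n))) * ld ρ E (bw (Sum.inl j)) *
        (ρ (aftL (Sum.inl j) (blocks m n)) : Mat r ℂ))) := by
  classical
  obtain ⟨K, hK⟩ : ∃ K, K = ρ (aftL (Sum.inl j) (blocks m n)) := ⟨_, rfl⟩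
  obtain ⟨d, hd⟩ : ∃ d, d = ρ (gD j) := ⟨_, rfl⟩
  obtain ⟨c, hc⟩ : ∃ c, c = ρ (gC j) := ⟨_, rfl⟩
  obtain ⟨z, hz⟩ : ∃ z, z = E (gD j) * vi d := ⟨_, rfl⟩
  have hEd : E (gD j) = z * (d : Mat r ℂ) := by
    rw [hz, mul_assoc, vi_mul_self, mul_one]
  have hee : E (FreeGroup.of (Sum.inr (j, true))) = 0 := hEe j
  have hdd : E (FreeGroup.of (Sum.inr (j, false))) = z * (d : Mat r ℂ) := hEd
  rw [hee, mul_zero, trace_zero, add_zero, hdd]
  have hld : ld ρ E (bw (Sum.inl j)) = vi c * z * (c : Mat r ℂ) - z := by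
    change ld ρ E (gC j) = _
    unfold ld
    rw [der_gC ρ E hE hEe j z (by rw [← hd]; exact hEd), ← hc, mul_sub, ← mul_assoc,
      ← mul_assoc, vi_mul_self, one_mul]
  rw [hld, ← hK]
  apply puncture_alg (K : Mat r ℂ) (vi K) d c (vi c) η _ (mul_vi_self K)
  intro ε
  have h2 := hR (Sum.inl j) ε
  rw [Finset.sum_eq_single (Sum.inr (j, false))] at h2
  · have h3 : ρ (loopW (Sum.inl j : Loop m n)) = K⁻¹ * c * K := by
      rw [hK, hc]
      simp [loopW, loop0, kap, blk]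
    have h4 : Lam ρ (Sum.inl j) ε (Sum.inr (j, false)) =
        -((K : Mat r ℂ) * ε * vi K * (d : Mat r ℂ)) := by
      simp only [Lam, kap, blk, if_true]
      rw [← hK, ← hd]
    rw [h3, h4] at h2
    rw [h2]
    congr 1
    simp [vi, mul_assoc]
  · intro k _ hk
    have : Lam ρ (Sum.inl j) ε k = 0 := by
      simp only [Lam]
      rw [if_neg hk]
    rw [this, mul_zero, trace_zero]
  · simp

/-- First handle relation. -/
theorem ident_handle_a (ρ : FF (m + 1) n →* (Mat r ℂ)ˣ) (s : Gen (m + 1) n → Mat r ℂ) (η : Mat r ℂ)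
    (hR : ∀ q : Loop m n, ∀ ε : Mat r ℂ, ∑ k, trace (s k * Lam ρ q ε k) =
      trace ((η - (ρ (loopW q) : Mat r ℂ) * η * (((ρ (loopW q))⁻¹ : (Mat r ℂ)ˣ) : Mat r ℂ)) * ε))
    (i : Fin m) (K a b : (Mat r ℂ)ˣ) (hK : K = ρ (aftL (Sum.inr i) (blocks m n)))
    (ha : a = ρ (gA i.castSucc)) (hb' : b = ρ (gB i.castSucc)) (ε : Mat r ℂ) :
    trace (s (Sum.inl (i.castSucc, true)) * -((K : Mat r ℂ) * ε * vi K * (b : Mat r ℂ))) =
      trace ((η - (vi K * ((b : Mat r ℂ) * vi a * vi b) * (K : Mat r ℂ)) * η *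
        (vi K * ((b : Mat r ℂ) * (a : Mat r ℂ) * vi b) * (K : Mat r ℂ))) * ε) := by
  classical
  have h2 := hR (Sum.inr (i, false)) ε
  rw [Finset.sum_eq_single (Sum.inl (i.castSucc, true))] at h2
  · have h3 : ρ (loopW (Sum.inr (i, false) : Loop m n)) = K⁻¹ * (b * a⁻¹ * b⁻¹) * K := by
      rw [hK, ha, hb']
      simp [loopW, loop0, kap, blk]
    have h4 : Lam ρ (Sum.inr (i, false)) ε (Sum.inl (i.castSucc, true)) =
        -((K : Mat r ℂ) * ε * vi K * (b : Mat r ℂ)) := by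
      simp only [Lam, kap, blk, if_true]
      rw [← hK, ← hb']
    rw [h3, h4] at h2
    rw [h2]
    congr 1
    simp [vi, mul_assoc]
  · intro k _ hk
    have : Lam ρ (Sum.inr (i, false)) ε k = 0 := by
      simp only [Lam]
      rw [if_neg hk]
    rw [this, mul_zero, trace_zero]
  · simp

/-- Second handle relation. -/
theorem ident_handle_b (ρ : FF (m + 1) n →* (Mat r ℂ)ˣ) (s : Gen (m + 1) n → Mat r ℂ) (η : Mat r ℂ)
    (hR : ∀ q : Loop m n, ∀ ε : Mat r ℂ, ∑ k, trace (s k * Lam ρ q ε k) =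
      trace ((η - (ρ (loopW q) : Mat r ℂ) * η * (((ρ (loopW q))⁻¹ : (Mat r ℂ)ˣ) : Mat r ℂ)) * ε))
    (i : Fin m) (K a b : (Mat r ℂ)ˣ) (hK : K = ρ (aftL (Sum.inr i) (blocks m n)))
    (ha : a = ρ (gA i.castSucc)) (hb' : b = ρ (gB i.castSucc)) (ε : Mat r ℂ) :
    trace (s (Sum.inl (i.castSucc, false)) * ((a : Mat r ℂ) * ((K : Mat r ℂ) * ε * vi K))) +
    trace (s (Sum.inl (i.castSucc, true)) * ((b : Mat r ℂ) * ((K : Mat r ℂ) * ε * vi K) -
              ((K : Mat r ℂ) * ε * vi K) * (b : Mat r ℂ))) =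
      trace ((η - (vi K * vi b * (K : Mat r ℂ)) * η * (vi K * (b : Mat r ℂ) * (K : Mat r ℂ))) *
        ε) := by
  classical
  have hne : (Sum.inl (i.castSucc, true) : Gen (m + 1) n) ≠ Sum.inl (i.castSucc, false) := by
    simp
  have h2 := hR (Sum.inr (i, true)) ε
  rw [Fintype.sum_eq_add (Sum.inl (i.castSucc, false)) (Sum.inl (i.castSucc, true))
    hne.symm] at h2
  · have h3 : ρ (loopW (Sum.inr (i, true) : Loop m n)) = K⁻¹ * b⁻¹ * K := by
      rw [hK, hb']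
      simp [loopW, loop0, kap, blk]
    have h4 : Lam ρ (Sum.inr (i, true)) ε (Sum.inl (i.castSucc, false)) =
        (a : Mat r ℂ) * ((K : Mat r ℂ) * ε * vi K) := by
      simp only [Lam, kap, blk, if_true]
      rw [← hK, ← ha]
    have h5 : Lam ρ (Sum.inr (i, true)) ε (Sum.inl (i.castSucc, true)) =
        (b : Mat r ℂ) * ((K : Mat r ℂ) * ε * vi K) -
          ((K : Mat r ℂ) * ε * vi K) * (b : Mat r ℂ) := by
      simp only [Lam, kap, blk]
      rw [if_neg hne]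
      simp only [if_true]
      rw [← hK, ← hb']
    rw [h3, h4, h5] at h2
    rw [h2]
    congr 1
    simp [vi, mul_assoc]
  · intro k hk
    have : Lam ρ (Sum.inr (i, true)) ε k = 0 := by
      simp only [Lam]
      rw [if_neg hk.1, if_neg hk.2]
    rw [this, mul_zero, trace_zero]

/-- Handle step. -/
theorem ident_handle (ρ : FF (m + 1) n →* (Mat r ℂ)ˣ) (s : Gen (m + 1) n → Mat r ℂ) (η : Mat r ℂ)
    (hR : ∀ q : Loop m n, ∀ ε : Mat r ℂ, ∑ k, trace (s k * Lam ρ q ε k) =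
      trace ((η - (ρ (loopW q) : Mat r ℂ) * η * (((ρ (loopW q))⁻¹ : (Mat r ℂ)ˣ) : Mat r ℂ)) * ε))
    (E : FF (m + 1) n → Mat r ℂ) (hE : IsDer ρ E) (i : Fin m) :
    trace (s (Sum.inl (i.castSucc, false)) * E (FreeGroup.of (Sum.inl (i.castSucc, false)))) +
      trace (s (Sum.inl (i.castSucc, true)) * E (FreeGroup.of (Sum.inl (i.castSucc, true)))) =
      trace (η * (vi (ρ (aftL (Sum.inr i) (blocks m n))) * ld ρ E (bw (Sum.inr i)) *
        (ρ (aftL (Sum.inr i) (blocks m n)) : Mat r ℂ))) := by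
  obtain ⟨K, hK⟩ : ∃ K, K = ρ (aftL (Sum.inr i) (blocks m n)) := ⟨_, rfl⟩
  obtain ⟨a, ha⟩ : ∃ a, a = ρ (gA i.castSucc) := ⟨_, rfl⟩
  obtain ⟨b, hb'⟩ : ∃ b, b = ρ (gB i.castSucc) := ⟨_, rfl⟩
  have hld : ld ρ E (bw (Sum.inr i)) = (b : Mat r ℂ) * a * vi b * (vi a * E (gA i.castSucc)) * b *
      vi a * vi b + (b : Mat r ℂ) * a * vi b * E (gB i.castSucc) * vi a * vi b -
      (b : Mat r ℂ) * E (gA i.castSucc) * vi a * vi b - E (gB i.castSucc) * vi b :=
    der_hcomm ρ E hE i.castSucc a b ha hb'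
  rw [hld, ← hK]
  have h1 := ident_handle_a ρ s η hR i K a b hK ha hb'
  have h2 := ident_handle_b ρ s η hR i K a b hK ha hb'
  exact handle_alg (K : Mat r ℂ) (vi K) (a : Mat r ℂ) (vi a) (b : Mat r ℂ) (vi b) η
    (s (Sum.inl (i.castSucc, false))) (s (Sum.inl (i.castSucc, true))) (mul_vi_self K)
    (mul_vi_self a) (vi_mul_self b) (mul_vi_self b) h1 h2 (E (gA i.castSucc)) (E (gB i.castSucc))

/-- The derivation on the relator. -/
theorem der_relator (ρ : FF (m + 1) n →* (Mat r ℂ)ˣ) (hrel : ρ (relator (m + 1) n) = 1)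
    (hb : ρ (gB (Fin.last m)) = 1) (A : (Mat r ℂ)ˣ) (hA : A = ρ (gA (Fin.last m)))
    (E : FF (m + 1) n → Mat r ℂ) (hE : IsDer ρ E) :
    E (relator (m + 1) n) = ld ρ E ((blocks m n).map bw).prod +
      ((A : Mat r ℂ) * E (gB (Fin.last m)) * vi A - E (gB (Fin.last m))) := by
  have hc1 : ρ (hcomm (Fin.last m)) = 1 := by
    simp only [hcomm, map_mul, map_inv, hb]
    group
  have hP1 : ρ ((blocks m n).map bw).prod = 1 := by
    rw [relator_eq_blocks, map_mul, hc1, mul_one] at hrel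
    exact hrel
  have hEc : E (hcomm (Fin.last m)) = (A : Mat r ℂ) * E (gB (Fin.last m)) * vi A -
      E (gB (Fin.last m)) := by
    have h1 := der_hcomm ρ E hE (Fin.last m) A 1 hA hb.symm
    have h2 : ld ρ E (hcomm (Fin.last m)) = E (hcomm (Fin.last m)) := by
      unfold ld
      rw [hc1]
      simp [vi]
    rw [← h2, h1]
    have h3 : vi (1 : (Mat r ℂ)ˣ) = 1 := by simp [vi]
    rw [h3]
    simp only [Units.val_one, one_mul, mul_one]
    have h4 : (A : Mat r ℂ) * (vi A * E (gA (Fin.last m))) = E (gA (Fin.last m)) := by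
      rw [← mul_assoc, mul_vi_self, one_mul]
    rw [h4]
    abel
  rw [relator_eq_blocks, hE, hP1, hc1, hEc]
  unfold ld
  rw [hP1]
  simp [vi]

/-- TASK F2. -/
theorem identify (ρ : FF (m + 1) n →* (Mat r ℂ)ˣ) (hrel : ρ (relator (m + 1) n) = 1)
    (hb : ρ (gB (Fin.last m)) = 1) (s : Gen (m + 1) n → Mat r ℂ) (η : Mat r ℂ)
    (hlast : s (Sum.inl (Fin.last m, false)) = 0)
    (hQ : s (Sum.inl (Fin.last m, true)) =
      (((ρ (gA (Fin.last m)))⁻¹ : (Mat r ℂ)ˣ) : Mat r ℂ) * η * (ρ (gA (Fin.last m)) : Mat r ℂ) - η)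
    (hR : ∀ q : Loop m n, ∀ ε : Mat r ℂ, ∑ k, trace (s k * Lam ρ q ε k) =
      trace ((η - (ρ (loopW q) : Mat r ℂ) * η * (((ρ (loopW q))⁻¹ : (Mat r ℂ)ˣ) : Mat r ℂ)) * ε))
    (E : FF (m + 1) n → Mat r ℂ) (hE : IsDer ρ E) (hEe : ∀ j, E (gE j) = 0) :
    ∑ k, trace (s k * E (FreeGroup.of k)) = trace (η * E (relator (m + 1) n)) := by
  obtain ⟨A, hA⟩ : ∃ A, A = ρ (gA (Fin.last m)) := ⟨_, rfl⟩
  have hErel := der_relator ρ hrel hb A hA E hE
  have hpun := ident_puncture ρ s η hR E hE hEe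
  have hhan := ident_handle ρ s η hR E hE
  -- the last handle
  have hlastB : trace (s (Sum.inl (Fin.last m, true)) * E (FreeGroup.of (Sum.inl (Fin.last m, true))))
      = trace (η * ((A : Mat r ℂ) * E (gB (Fin.last m)) * vi A - E (gB (Fin.last m)))) := by
    rw [hQ, ← hA]
    change trace ((vi A * η * (A : Mat r ℂ) - η) * E (gB (Fin.last m))) = _
    rw [sub_mul, mul_sub, trace_sub, trace_sub]
    congr 1
    rw [mul_assoc (vi A) η, mul_assoc (vi A), Matrix.trace_mul_comm (vi A)]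
    simp only [mul_assoc]
  rw [hErel, ld_blocks ρ E hE _ nodup_blocks, sum_blocks, mul_add, mul_add, trace_add, trace_add,
    Finset.mul_sum, Finset.mul_sum, trace_sum, trace_sum, ← hlastB]
  rw [Fintype.sum_sum_type, Fintype.sum_prod_type, Fintype.sum_prod_type]
  simp only [Fintype.sum_bool]
  rw [Fin.sum_univ_castSucc, hlast, zero_mul, trace_zero]
  have e1 : ∀ j : Fin n, trace (s (Sum.inr (j, true)) * E (FreeGroup.of (Sum.inr (j, true)))) +
      trace (s (Sum.inr (j, false)) * E (FreeGroup.of (Sum.inr (j, false)))) =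
      trace (η * (vi (ρ (aftL (Sum.inl j) (blocks m n))) * ld ρ E (bw (Sum.inl j)) *
        (ρ (aftL (Sum.inl j) (blocks m n)) : Mat r ℂ))) := fun j => by
    rw [add_comm]; exact hpun j
  have e2 : ∀ i : Fin m,
      trace (s (Sum.inl (i.castSucc, true)) * E (FreeGroup.of (Sum.inl (i.castSucc, true)))) +
      trace (s (Sum.inl (i.castSucc, false)) * E (FreeGroup.of (Sum.inl (i.castSucc, false)))) =
      trace (η * (vi (ρ (aftL (Sum.inr i) (blocks m n))) * ld ρ E (bw (Sum.inr i)) *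
        (ρ (aftL (Sum.inr i) (blocks m n)) : Mat r ℂ))) := fun i => by
    rw [add_comm]; exact hhan i
  rw [Finset.sum_congr rfl fun j _ => e1 j, Finset.sum_congr rfl fun i _ => e2 i]
  ring

end Vale.Agent.P002R
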