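import Vale.Agent.P002R.RBaseRep
import Vale.Agent.P002R.RComp

/-!
# P002R: integral representations that are irreducible on the surface group
-/

namespace Vale.Agent.P002R

open Matrix

variable {m n r : ℕ}

/-- Integral (up to scalars) framed representations whose restriction to the surface group is
absolutely irreducible. -/
def DTop {R : Type*} [CommRing R] (φ : R →+* ℂ) (J : Fin n → (Mat r ℂ)ˣ) :
    Set (FF (m + 1) n →* (Mat r ℂ)ˣ) :=
  {x | x ∈ DFr φ J ∧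
    Algebra.adjoin ℂ {M : Mat r ℂ | ∃ w ∈ Fc (m + 1) n, M = (x w : Mat r ℂ)} = ⊤}

theorem mem_GR_of_Fc {g : ℕ} {R : Type*} [CommRing R] {φ : R →+* ℂ} {J : Fin n → (Mat r ℂ)ˣ}
    {x : FF g n →* (Mat r ℂ)ˣ} (hx : x ∈ DFr φ J) {w : FF g n} (hw : w ∈ Fc g n) :
    x w ∈ GR r φ := by
  have h : Fc g n ≤ (GR r φ).comap x := by
    rw [Fc, Subgroup.closure_le]
    rintro w (⟨k, rfl⟩ | ⟨j, rfl⟩)
    · exact hx.2.2.1 k
    · exact hx.2.2.2 j
  exact h hw

theorem gC_mem_Fc {g : ℕ} (j : Fin n) : (gC j : FF g n) ∈ Fc g n :=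
  Subgroup.subset_closure (Or.inr ⟨j, rfl⟩)

theorem DFr_adm {g : ℕ} {R : Type*} [CommRing R] {φ : R →+* ℂ} {J : Fin n → (Mat r ℂ)ˣ}
    {τ : FF g n ≃* FF g n} (h1 : Adm τ)
    {y : FF g n →* (Mat r ℂ)ˣ} (hy : y ∈ DFr φ J) : y.comp τ.toMonoidHom ∈ DFr φ J := by
  refine ⟨?_, fun j => ?_, fun k => ?_, fun j => ?_⟩
  · change y (τ (relator g n)) = 1
    rw [h1.rel]
    exact hy.1
  · change y (τ (gE j)) = J j
    rw [h1.he]
    exact hy.2.1 j
  · exact mem_GR_of_Fc hy (h1.hab k)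
  · exact mem_GR_of_Fc hy (h1.map_Fc (gC_mem_Fc j))

theorem DTop_adm {R : Type*} [CommRing R] (φ : R →+* ℂ) (J : Fin n → (Mat r ℂ)ˣ)
    (τ : FF (m + 1) n ≃* FF (m + 1) n) (h1 : Adm τ) (h2 : Adm τ.symm)
    (y : FF (m + 1) n →* (Mat r ℂ)ˣ) (hy : y ∈ DTop φ J) : y.comp τ.toMonoidHom ∈ DTop φ J := by
  refine ⟨DFr_adm h1 hy.1, ?_⟩
  rw [← hy.2]
  congr 1
  ext M
  constructor
  · rintro ⟨w, hw, rfl⟩
    exact ⟨τ w, h1.map_Fc hw, rfl⟩
  · rintro ⟨w, hw, rfl⟩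
    refine ⟨τ.symm w, h2.map_Fc hw, ?_⟩
    change (y w : Mat r ℂ) = (y (τ (τ.symm w)) : Mat r ℂ)
    rw [MulEquiv.apply_symm_apply]

/-- irreducible implies SS -/
theorem SS_of_adjoin {G : Type*} [Group G] (x : G →* (Mat r ℂ)ˣ)
    (h : Algebra.adjoin ℂ (Set.range fun w => (x w : Mat r ℂ)) = ⊤) : SS x := by
  intro W hW
  have hall : ∀ M : Mat r ℂ, ∀ v ∈ W, M *ᵥ v ∈ W := by
    intro M
    have hM : M ∈ Algebra.adjoin ℂ (Set.range fun w => (x w : Mat r ℂ)) := by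
      rw [h]
      trivial
    induction hM using Algebra.adjoin_induction with
    | mem M hM =>
      obtain ⟨w, rfl⟩ := hM
      exact hW w
    | algebraMap c =>
      intro v hv
      rw [Algebra.algebraMap_eq_smul_one, smul_mulVec, one_mulVec]
      exact W.smul_mem c hv
    | add M N _ _ hM hN =>
      intro v hv
      rw [add_mulVec]
      exact W.add_mem (hM v hv) (hN v hv)
    | mul M N _ _ hM hN =>
      intro v hv
      rw [← mulVec_mulVec]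
      exact hM _ (hN v hv)
  by_cases hbot : W = ⊥
  · subst hbot
    exact ⟨⊤, fun _ _ _ => trivial, isCompl_bot_top⟩
  · obtain ⟨v, hv, hv0⟩ := (Submodule.ne_bot_iff W).1 hbot
    have htop : W = ⊤ := by
      rw [eq_top_iff]
      intro u _
      obtain ⟨i, hi⟩ : ∃ i, v i ≠ 0 := by
        by_contra hcon
        push Not at hcon
        exact hv0 (funext hcon)
      have h1 : (Matrix.of fun a b => if b = i then u a * (v i)⁻¹ else 0 : Mat r ℂ) *ᵥ v = u := by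
        ext a
        simp only [mulVec, dotProduct, Matrix.of_apply, ite_mul, zero_mul, Finset.sum_ite_eq',
          Finset.mem_univ, if_true]
        rw [mul_assoc, inv_mul_cancel₀ hi, mul_one]
      rw [← h1]
      exact hall _ v hv
    subst htop
    exact ⟨⊥, fun _ v hv => by
      rw [Submodule.mem_bot] at hv
      rw [hv, mulVec_zero]
      exact Submodule.zero_mem _, isCompl_top_bot⟩

/-- A matrix with distinct eigenvalues and a matrix all of whose entries in the eigenbasis are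
nonzero generate the matrix algebra. -/
theorem adjoin_top_of_pair (A : Subalgebra ℂ (Mat r ℂ)) (U : (Mat r ℂ)ˣ) (α : Fin r → ℂ)
    (hα : Function.Injective α)
    (hD : (U : Mat r ℂ) * diagonal α * ((U⁻¹ : (Mat r ℂ)ˣ) : Mat r ℂ) ∈ A)
    (X : Mat r ℂ) (hX : X ∈ A)
    (hXe : ∀ i j, (((U⁻¹ : (Mat r ℂ)ˣ) : Mat r ℂ) * X * (U : Mat r ℂ)) i j ≠ 0) : A = ⊤ := by
  -- the conjugated algebra
  obtain ⟨B, hB⟩ : ∃ B : Subalgebra ℂ (Mat r ℂ), ∀ M, M ∈ B ↔
      (U : Mat r ℂ) * M * ((U⁻¹ : (Mat r ℂ)ˣ) : Mat r ℂ) ∈ A := by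
    refine ⟨{ carrier := {M | (U : Mat r ℂ) * M * ((U⁻¹ : (Mat r ℂ)ˣ) : Mat r ℂ) ∈ A}
              mul_mem' := ?_, add_mem' := ?_, algebraMap_mem' := ?_ }, fun M => Iff.rfl⟩
    · intro M N hM hN
      have := A.mul_mem hM hN
      have h2 : (U : Mat r ℂ) * M * ((U⁻¹ : (Mat r ℂ)ˣ) : Mat r ℂ) *
          ((U : Mat r ℂ) * N * ((U⁻¹ : (Mat r ℂ)ˣ) : Mat r ℂ)) =
          (U : Mat r ℂ) * (M * N) * ((U⁻¹ : (Mat r ℂ)ˣ) : Mat r ℂ) := by
        have h3 : ((U⁻¹ : (Mat r ℂ)ˣ) : Mat r ℂ) * (U : Mat r ℂ) = 1 := Units.inv_mul U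
        calc _ = (U : Mat r ℂ) * M * (((U⁻¹ : (Mat r ℂ)ˣ) : Mat r ℂ) * (U : Mat r ℂ)) * N *
            ((U⁻¹ : (Mat r ℂ)ˣ) : Mat r ℂ) := by noncomm_ring
          _ = _ := by rw [h3, mul_one]; noncomm_ring
      rw [h2] at this
      exact this
    · intro M N hM hN
      have := A.add_mem hM hN
      rw [← Matrix.add_mul, ← Matrix.mul_add] at this
      exact this
    · intro c
      have h3 : (U : Mat r ℂ) * ((U⁻¹ : (Mat r ℂ)ˣ) : Mat r ℂ) = 1 := Units.mul_inv U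
      change (U : Mat r ℂ) * (algebraMap ℂ (Mat r ℂ) c) * ((U⁻¹ : (Mat r ℂ)ˣ) : Mat r ℂ) ∈ A
      rw [← Algebra.commutes, mul_assoc, h3, mul_one]
      exact A.algebraMap_mem c
  have hDB : (diagonal α : Mat r ℂ) ∈ B := (hB _).2 hD
  have hXB : ((U⁻¹ : (Mat r ℂ)ˣ) : Mat r ℂ) * X * (U : Mat r ℂ) ∈ B := by
    rw [hB]
    have h3 : (U : Mat r ℂ) * ((U⁻¹ : (Mat r ℂ)ˣ) : Mat r ℂ) = 1 := Units.mul_inv U
    have : (U : Mat r ℂ) * (((U⁻¹ : (Mat r ℂ)ˣ) : Mat r ℂ) * X * (U : Mat r ℂ)) *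
        ((U⁻¹ : (Mat r ℂ)ˣ) : Mat r ℂ) = X := by
      calc _ = ((U : Mat r ℂ) * ((U⁻¹ : (Mat r ℂ)ˣ) : Mat r ℂ)) * X *
          ((U : Mat r ℂ) * ((U⁻¹ : (Mat r ℂ)ˣ) : Mat r ℂ)) := by noncomm_ring
        _ = X := by rw [h3, one_mul, mul_one]
    rw [this]
    exact hX
  have hs : ∀ i, Matrix.single i i (1 : ℂ) ∈ B := by
    intro i
    have h1 := P002.single_mem_adjoin α hα i
    refine (Algebra.adjoin_le ?_) h1
    rintro _ rfl
    exact hDB
  have hij : ∀ i j, Matrix.single i j (1 : ℂ) ∈ B := by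
    intro i j
    obtain ⟨Y, hY⟩ : ∃ Y, Y = ((U⁻¹ : (Mat r ℂ)ˣ) : Mat r ℂ) * X * (U : Mat r ℂ) := ⟨_, rfl⟩
    have hYij : Y i j ≠ 0 := by
      rw [hY]
      exact hXe i j
    rw [← hY] at hXB
    have : Matrix.single i j (1 : ℂ) = (Y i j)⁻¹ •
        (Matrix.single i i (1 : ℂ) * Y * Matrix.single j j 1) := by
      rw [Matrix.single_mul_mul_single, Matrix.smul_single]
      simp [hYij]
    rw [this]
    exact B.smul_mem (B.mul_mem (B.mul_mem (hs i) hXB) (hs j)) _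
  have hBtop : ∀ M, M ∈ B := by
    intro M
    rw [matrix_eq_sum_single M]
    refine Subalgebra.sum_mem _ fun i _ => Subalgebra.sum_mem _ fun j _ => ?_
    have : Matrix.single i j (M i j) = M i j • Matrix.single i j (1 : ℂ) := by
      rw [Matrix.smul_single, smul_eq_mul, mul_one]
    rw [this]
    exact Subalgebra.smul_mem _ (hij i j) _
  rw [eq_top_iff]
  intro M _
  have h3 : (U : Mat r ℂ) * ((U⁻¹ : (Mat r ℂ)ˣ) : Mat r ℂ) = 1 := Units.mul_inv U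
  have h4 := (hB _).1 (hBtop (((U⁻¹ : (Mat r ℂ)ˣ) : Mat r ℂ) * M * (U : Mat r ℂ)))
  have : (U : Mat r ℂ) * (((U⁻¹ : (Mat r ℂ)ˣ) : Mat r ℂ) * M * (U : Mat r ℂ)) *
      ((U⁻¹ : (Mat r ℂ)ˣ) : Mat r ℂ) = M := by
    calc _ = ((U : Mat r ℂ) * ((U⁻¹ : (Mat r ℂ)ˣ) : Mat r ℂ)) * M *
        ((U : Mat r ℂ) * ((U⁻¹ : (Mat r ℂ)ˣ) : Mat r ℂ)) := by noncomm_ring
      _ = M := by rw [h3, one_mul, mul_one]
  rw [this] at h4
  exact h4

theorem inl_last_mem (m n : ℕ) (w : Gen (m + 1) n) (hw : w ≠ Sum.inl (Fin.last m, false)) :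
    FreeGroup.of w ∈ Fprime m n := of_mem_Fprime hw

/-- Complex representations with arbitrary integral `a_m` and `b_m ↦ 1` are in `DTop` if the matrix
`a_m` is generic. -/
theorem flow_mem_DTop {R : Type*} [CommRing R] (φ : R →+* ℂ) (J : Fin n → (Mat r ℂ)ˣ)
    (ρ : FF (m + 1) n →* (Mat r ℂ)ˣ) (hρ : ρ ∈ DFr φ J) (hb : ρ (gB (Fin.last m)) = 1)
    (w₀ : FF (m + 1) n) (hw₀ : w₀ ∈ Fc (m + 1) n) (hw₀' : w₀ ∈ Fprime m n)
    (U : (Mat r ℂ)ˣ) (α : Fin r → ℂ) (hα : Function.Injective α)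
    (hq : (ρ w₀ : Mat r ℂ) = (U : Mat r ℂ) * diagonal α * ((U⁻¹ : (Mat r ℂ)ˣ) : Mat r ℂ))
    (B : (Mat r ℂ)ˣ) (hB : B ∈ GR r φ)
    (hBe : ∀ i j, (((U⁻¹ : (Mat r ℂ)ˣ) : Mat r ℂ) * B * (U : Mat r ℂ)) i j ≠ 0)
    (y : FF (m + 1) n →* (Mat r ℂ)ˣ)
    (hy : ∀ k : Gen (m + 1) n, k ≠ Sum.inl (Fin.last m, false) →
      y (FreeGroup.of k) = ρ (FreeGroup.of k)) (hyB : y (gA (Fin.last m)) = B) :
    y ∈ DTop φ J := by
  have hF : ∀ w ∈ Fprime m n, y w = ρ w := fun w hw => eq_on_Fprime y ρ hy hw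
  have hyb : y (gB (Fin.last m)) = 1 := by rw [hF _ (gB_mem _), hb]
  have hH : ∀ i, y (hcomm i) = ρ (hcomm i) := by
    intro i
    refine Fin.lastCases ?_ (fun i => ?_) i
    · rw [hcomm, map_mul, map_mul, map_mul, map_inv, map_inv, hyb, map_mul, map_mul, map_mul,
        map_inv, map_inv, hb]
      simp
    · exact hF _ (bw_mem (Sum.inr i))
  have hDFr : y ∈ DFr φ J := by
    refine ⟨?_, fun j => ?_, fun k => ?_, fun j => ?_⟩
    · rw [← hρ.1, relator, map_mul, map_mul, map_list_prod, map_list_prod, map_list_prod,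
        map_list_prod, List.map_ofFn, List.map_ofFn, List.map_ofFn, List.map_ofFn]
      congr 3
      · funext j
        exact hF _ (gC_mem j)
      · funext i
        exact hH i
    · have h1 : (gE j : FF (m + 1) n) ∈ Fprime m n := of_mem_Fprime (by simp)
      rw [hF _ h1]
      exact hρ.2.1 j
    · by_cases hk : (Sum.inl k : Gen (m + 1) n) = Sum.inl (Fin.last m, false)
      · rw [hk]
        change y (gA (Fin.last m)) ∈ _
        rw [hyB]
        exact hB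
      · rw [hF _ (of_mem_Fprime hk)]
        exact hρ.2.2.1 k
    · rw [hF _ (gC_mem j)]
      exact hρ.2.2.2 j
  refine ⟨hDFr, ?_⟩
  refine adjoin_top_of_pair _ U α hα ?_ (B : Mat r ℂ) ?_ hBe
  · refine Algebra.subset_adjoin ⟨w₀, hw₀, ?_⟩
    rw [hF _ hw₀', hq]
  · refine Algebra.subset_adjoin ⟨gA (Fin.last m), Subgroup.subset_closure (Or.inl ⟨_, rfl⟩), ?_⟩
    rw [hyB]

theorem gD_eq_one_add (ρ : FF (m + 1) n →* (Mat r ℂ)ˣ) (T : Type*) [CommRing T] [Algebra ℂ T]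
    (j : Fin n) :
    ((baseChange (algebraMap ℂ T) ρ (gD j) : (Mat r T)ˣ) : Mat r T) =
      1 + (1 : T) • ((ρ (gD j) : Mat r ℂ) - 1).map (algebraMap ℂ T) := by
  rw [baseChange_apply, one_smul]
  ext a b
  simp only [Matrix.map_apply, Matrix.add_apply, Matrix.sub_apply, map_sub]
  rw [Matrix.one_apply, Matrix.one_apply]
  split <;> simp

/-- The polynomial at `t = 1`. -/
noncomputable def atOne (a : MvPolynomial (VarH n r) ℂ) : MvPolynomial (Fin r × Fin r) ℂ :=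
  MvPolynomial.aeval (Sum.elim (fun q : Fin r × Fin r =>
    (MvPolynomial.X q : MvPolynomial (Fin r × Fin r) ℂ)) fun _ => 1) a

theorem aeval_atOne (a : MvPolynomial (VarH n r) ℂ) {T : Type*} [CommRing T] [Algebra ℂ T]
    (v : Fin r × Fin r → T) :
    MvPolynomial.aeval v (atOne a) = MvPolynomial.aeval (Sum.elim v fun _ => (1 : T)) a := by
  unfold atOne
  induction a using MvPolynomial.induction_on with
  | C x => simp
  | add f g hf hg => simp only [map_add, hf, hg]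
  | mul_X f p hf =>
    rw [map_mul, map_mul, map_mul, hf]
    congr 1
    rcases p with p | j <;> simp

theorem inZ_top {R : Type*} [CommRing R] (φ : R →+* ℂ) (J : Fin n → (Mat r ℂ)ˣ)
    (ρ : FF (m + 1) n →* (Mat r ℂ)ˣ) (hρ : ρ ∈ DFr φ J) (hb : ρ (gB (Fin.last m)) = 1)
    (w₀ : FF (m + 1) n) (hw₀ : w₀ ∈ Fc (m + 1) n) (hw₀' : w₀ ∈ Fprime m n)
    (U : (Mat r ℂ)ˣ) (α : Fin r → ℂ) (hα : Function.Injective α)
    (hq : (ρ w₀ : Mat r ℂ) = (U : Mat r ℂ) * diagonal α * ((U⁻¹ : (Mat r ℂ)ˣ) : Mat r ℂ))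
    {S : Type*} [CommRing S] [Algebra ℂ S] (z : (Mat r S)ˣ) :
    InZ (DTop φ J) (flow (baseChange (algebraMap ℂ S) ρ) (Sum.inl (Fin.last m, false)) z) := by
  intro f hf
  obtain ⟨κ, hκ⟩ : ∃ κ : Fin n → Mat r ℂ, κ = fun j => (ρ (gD j) : Mat r ℂ) - 1 := ⟨_, rfl⟩
  obtain ⟨N, a, ha⟩ := IsLocalization.Away.surj (hdel κ)
    (evalW (baseRep ρ (hMu κ) (hKu κ)) f)
  have hbc : ∀ w, baseChange (algebraMap ℂ ℂ) ρ w = ρ w := by
    intro w
    ext a b
    rw [baseChange_apply]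
    rfl
  -- the genericity polynomial
  obtain ⟨GM, hGM⟩ : ∃ GM : Mat r (MvPolynomial (Fin r × Fin r) ℂ), GM =
      (((U⁻¹ : (Mat r ℂ)ˣ) : Mat r ℂ).map MvPolynomial.C :
        Mat r (MvPolynomial (Fin r × Fin r) ℂ)) * mvPolynomialX (Fin r) (Fin r) ℂ *
        ((U : Mat r ℂ).map MvPolynomial.C : Mat r (MvPolynomial (Fin r × Fin r) ℂ)) := ⟨_, rfl⟩
  obtain ⟨G, hG⟩ : ∃ G : MvPolynomial (Fin r × Fin r) ℂ, G = ∏ i, ∏ j, GM i j := ⟨_, rfl⟩
  have hGMe : ∀ (v : Fin r × Fin r → ℂ) (i j : Fin r), MvPolynomial.eval v (GM i j) =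
      (((U⁻¹ : (Mat r ℂ)ˣ) : Mat r ℂ) * (Matrix.of fun a b => v (a, b)) * (U : Mat r ℂ)) i j := by
    intro v i j
    rw [hGM]
    simp only [Matrix.mul_apply, map_sum, map_mul, Matrix.map_apply, MvPolynomial.eval_C,
      mvPolynomialX_apply, MvPolynomial.eval_X, Matrix.of_apply]
  have hGe : ∀ v : Fin r × Fin r → ℂ, MvPolynomial.eval v G = ∏ i, ∏ j,
      (((U⁻¹ : (Mat r ℂ)ˣ) : Mat r ℂ) * (Matrix.of fun a b => v (a, b)) * (U : Mat r ℂ)) i j := by
    intro v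
    rw [hG, map_prod]
    refine Finset.prod_congr rfl fun i _ => ?_
    rw [map_prod]
    exact Finset.prod_congr rfl fun j _ => hGMe v i j
  have hG0 : G ≠ 0 := by
    rw [hG, Finset.prod_ne_zero_iff]
    intro i _
    rw [Finset.prod_ne_zero_iff]
    intro j _ h0
    have h1 := congrArg (MvPolynomial.eval fun p : Fin r × Fin r =>
      ((U : Mat r ℂ) * Matrix.single i j (1 : ℂ) * ((U⁻¹ : (Mat r ℂ)ˣ) : Mat r ℂ)) p.1 p.2) h0
    rw [map_zero, hGMe] at h1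
    have h2 : (((U⁻¹ : (Mat r ℂ)ˣ) : Mat r ℂ) * ((U : Mat r ℂ) * Matrix.single i j (1 : ℂ) *
        ((U⁻¹ : (Mat r ℂ)ˣ) : Mat r ℂ)) * (U : Mat r ℂ)) i j = 0 := h1
    have h3 : ((U⁻¹ : (Mat r ℂ)ˣ) : Mat r ℂ) * (U : Mat r ℂ) = 1 := Units.inv_mul U
    have h4 : ((U⁻¹ : (Mat r ℂ)ˣ) : Mat r ℂ) * ((U : Mat r ℂ) * Matrix.single i j (1 : ℂ) *
        ((U⁻¹ : (Mat r ℂ)ˣ) : Mat r ℂ)) * (U : Mat r ℂ) = Matrix.single i j (1 : ℂ) := by
      calc _ = (((U⁻¹ : (Mat r ℂ)ˣ) : Mat r ℂ) * (U : Mat r ℂ)) * Matrix.single i j (1 : ℂ) *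
          (((U⁻¹ : (Mat r ℂ)ˣ) : Mat r ℂ) * (U : Mat r ℂ)) := by noncomm_ring
        _ = _ := by rw [h3, one_mul, mul_one]
    rw [h4] at h2
    simp at h2
  have key : atOne a * G = 0 := by
    apply Vale.Agent.P002.scaledSL_dense
    intro c X
    rw [map_mul]
    by_cases h0 : MvPolynomial.eval (fun p => (c : ℂ) * ((X.1 p.1 p.2 : ℤ) : ℂ)) G = 0
    · rw [h0, mul_zero]
    · obtain ⟨B, hB⟩ : ∃ B : (Mat r ℂ)ˣ, B =
          scalarU c * slU φ (Matrix.SpecialLinearGroup.map (Int.castRingHom R) X) := ⟨_, rfl⟩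
      have hGR : B ∈ GR r φ := ⟨c, _, hB⟩
      have hBv : ∀ a b, (B : Mat r ℂ) a b = (c : ℂ) * ((X.1 a b : ℤ) : ℂ) := by
        intro a b
        rw [hB, Units.val_mul]
        change ((algebraMap ℂ (Mat r ℂ) (c : ℂ)) *
            (slU φ (Matrix.SpecialLinearGroup.map (Int.castRingHom R) X) : Mat r ℂ)) a b = _
        rw [← Algebra.smul_def, Matrix.smul_apply, smul_eq_mul]
        congr 1
        change φ (Int.castRingHom R (X.1 a b)) = _
        simp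
      have hBm : (Matrix.of fun a b => (c : ℂ) * ((X.1 a b : ℤ) : ℂ)) = (B : Mat r ℂ) := by
        ext a b
        rw [Matrix.of_apply, hBv]
      have hBe : ∀ i j, (((U⁻¹ : (Mat r ℂ)ˣ) : Mat r ℂ) * B * (U : Mat r ℂ)) i j ≠ 0 := by
        rw [hGe] at h0
        simp only [hBm] at h0
        intro i j h1
        exact h0 (Finset.prod_eq_zero (Finset.mem_univ i)
          (Finset.prod_eq_zero (Finset.mem_univ j) h1))
      have hmem : baseRep ρ B (fun j => ρ (gD j)) ∈ DTop φ J := by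
        refine flow_mem_DTop φ J ρ hρ hb w₀ hw₀ hw₀' U α hα hq B hGR hBe _ (fun k hk => ?_) ?_
        · rcases k with i | ⟨j, b⟩
          · rw [baseRep_inl, if_neg (by
              intro h
              exact hk (by rw [h])), hbc]
          · cases b
            · exact baseRep_gD ρ B _ j
            · have := baseRep_gE ρ B (fun j => ρ (gD j)) j
              rw [hbc] at this
              exact this
        · rw [gA, baseRep_inl, if_pos rfl]
      have h1 := hf _ hmem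
      obtain ⟨ψ, hψ1, hψ2⟩ := h_univ κ B (fun _ => (1 : ℂ)) (fun j => ρ (gD j)) (fun j => by
        have := gD_eq_one_add ρ ℂ j
        rw [hbc] at this
        rw [this, hκ]) ρ
      rw [hψ2] at h1
      have h2 := congrArg ψ ha
      rw [map_mul, h1, zero_mul, hψ1, ← aeval_atOne] at h2
      have h3 : MvPolynomial.eval (fun p => (c : ℂ) * ((X.1 p.1 p.2 : ℤ) : ℂ)) (atOne a) = 0 := by
        rw [h2, MvPolynomial.aeval_def, Algebra.algebraMap_self, ← MvPolynomial.eval₂_id]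
        congr 1
        funext q
        exact (hBv q.1 q.2).symm
      rw [h3, zero_mul]
  have ha0 : atOne a = 0 := (mul_eq_zero.1 key).resolve_right hG0
  -- the `S`-point
  obtain ⟨B, hB⟩ : ∃ B : (Mat r S)ˣ, B = baseChange (algebraMap ℂ S) ρ (gA (Fin.last m)) * z :=
    ⟨_, rfl⟩
  have hx : flow (baseChange (algebraMap ℂ S) ρ) (Sum.inl (Fin.last m, false)) z =
      baseRep ρ B (fun j => baseChange (algebraMap ℂ S) ρ (gD j)) := by
    refine FreeGroup.ext_hom _ _ fun k => ?_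
    rw [flow_of]
    rcases k with i | ⟨j, b⟩
    · rw [baseRep_inl]
      by_cases hi : i = (Fin.last m, false)
      · subst hi
        rw [if_pos rfl, if_pos rfl, hB]
        rfl
      · rw [if_neg hi, if_neg (by
          intro h
          exact hi (Sum.inl_injective h))]
    · rw [if_neg (by simp)]
      cases b
      · exact (baseRep_gD ρ B (fun j => baseChange (algebraMap ℂ S) ρ (gD j)) j).symm
      · exact (baseRep_gE ρ B (fun j => baseChange (algebraMap ℂ S) ρ (gD j)) j).symm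
  rw [hx]
  obtain ⟨ψ, hψ1, hψ2⟩ := h_univ κ B (fun _ => (1 : S))
    (fun j => baseChange (algebraMap ℂ S) ρ (gD j)) (fun j => by
      rw [gD_eq_one_add ρ S j, hκ]) ρ
  rw [hψ2]
  have h2 := congrArg ψ ha
  rw [map_mul, hψ1, ← aeval_atOne, ha0, map_zero, map_pow] at h2
  have hu : IsUnit (ψ (algebraMap (MvPolynomial (VarH n r) ℂ) (HU κ) (hdel κ)) ^ N) :=
    ((IsLocalization.Away.algebraMap_isUnit (hdel κ)).map ψ).pow N
  exact (hu.mul_left_eq_zero).mp h2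

end Vale.Agent.P002R
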