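import Vale.Agent.P002R.RLocal
import Vale.Agent.P002R.RTop
import Vale.Agent.P002R.RBase
import Vale.Agent.P002R.RDense
import Vale.Agent.P002R.RGlobal
import Vale.Agent.P002R.RGeneric

/-!
# Irreducible representations are limits of integral ones
-/

namespace Vale.Agent.P002R

open Matrix

variable {g m n r : ℕ}

/-! ### Entries in a subfield -/

/-- The group of invertible matrices with entries (and entries of the inverse) in `K₀`. -/
def GLK (r : ℕ) (K₀ : Subfield ℂ) : Subgroup (Mat r ℂ)ˣ where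
  carrier := {x | (∀ i j, (x : Mat r ℂ) i j ∈ K₀) ∧
    ∀ i j, ((x⁻¹ : (Mat r ℂ)ˣ) : Mat r ℂ) i j ∈ K₀}
  mul_mem' := by
    rintro a b ⟨ha, ha'⟩ ⟨hb, hb'⟩
    constructor
    · intro i j
      rw [Units.val_mul, Matrix.mul_apply]
      exact Subfield.sum_mem _ fun k _ => mul_mem (ha i k) (hb k j)
    · intro i j
      rw [_root_.mul_inv_rev, Units.val_mul, Matrix.mul_apply]
      exact Subfield.sum_mem _ fun k _ => mul_mem (hb' i k) (ha' k j)
  one_mem' := by
    constructor
    · intro i j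
      rw [Units.val_one, Matrix.one_apply]
      split_ifs
      · exact one_mem _
      · exact zero_mem _
    · intro i j
      rw [inv_one, Units.val_one, Matrix.one_apply]
      split_ifs
      · exact one_mem _
      · exact zero_mem _
  inv_mem' := by
    rintro a ⟨ha, ha'⟩
    exact ⟨ha', by simpa using ha⟩

/-- Every finite family of invertible matrices lies in some `GLK` with `K₀` countable. -/
theorem exists_GLK {ι : Type*} [Finite ι] (x : ι → (Mat r ℂ)ˣ) :
    ∃ K₀ : Subfield ℂ, Countable K₀ ∧ ∀ i, x i ∈ GLK r K₀ := by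
  obtain ⟨K₀, hK₀, hs⟩ := exists_countable_subfield
    (Set.range (fun p : ι × Fin r × Fin r => (x p.1 : Mat r ℂ) p.2.1 p.2.2) ∪
      Set.range (fun p : ι × Fin r × Fin r =>
        (((x p.1)⁻¹ : (Mat r ℂ)ˣ) : Mat r ℂ) p.2.1 p.2.2))
    ((Set.countable_range _).union (Set.countable_range _))
  exact ⟨K₀, hK₀, fun i => ⟨fun a b => hs (Or.inl ⟨(i, a, b), rfl⟩),
    fun a b => hs (Or.inr ⟨(i, a, b), rfl⟩)⟩⟩

theorem map_mem_GLK {κ : Type*} {K₀ : Subfield ℂ} (x : FreeGroup κ →* (Mat r ℂ)ˣ)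
    (h : ∀ k, x (FreeGroup.of k) ∈ GLK r K₀) (w : FreeGroup κ) : x w ∈ GLK r K₀ := by
  have : (⊤ : Subgroup (FreeGroup κ)) ≤ (GLK r K₀).comap x := by
    rw [← FreeGroup.closure_range_of, Subgroup.closure_le]
    rintro _ ⟨k, rfl⟩
    exact h k
  exact this (Subgroup.mem_top w)

/-! ### The unframed representation -/

/-- The map from the unframed to the framed free group. -/
def iotaU (g n : ℕ) : FU g n →* FF g n :=
  FreeGroup.lift fun k => match k with
    | Sum.inl k => FreeGroup.of (Sum.inl k)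
    | Sum.inr j => gC j

theorem iotaU_inl (k : Fin g × Bool) :
    iotaU g n (FreeGroup.of (Sum.inl k)) = FreeGroup.of (Sum.inl k) := by simp [iotaU]

theorem iotaU_inr (j : Fin n) : iotaU g n (FreeGroup.of (Sum.inr j)) = gC j := by simp [iotaU]

theorem iotaU_relator : iotaU g n (relatorU g n) = relator g n := by
  unfold relatorU relator
  rw [map_mul, map_list_prod, map_list_prod, List.map_ofFn, List.map_ofFn]
  have e1 : (⇑(iotaU g n) ∘ fun j : Fin n => (FreeGroup.of (Sum.inr j) : FU g n)) =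
      fun j => gC j := by
    funext j
    exact iotaU_inr j
  have e2 : (⇑(iotaU g n) ∘ fun i : Fin g => (FreeGroup.of (Sum.inl (i, false)) *
      FreeGroup.of (Sum.inl (i, true)) * (FreeGroup.of (Sum.inl (i, false)))⁻¹ *
      (FreeGroup.of (Sum.inl (i, true)))⁻¹ : FU g n)) = fun i => hcomm i := by
    funext i
    simp only [Function.comp, map_mul, map_inv, iotaU_inl]
    rfl
  rw [e1, e2]

theorem iotaU_mem (w : FU g n) : iotaU g n w ∈ Fc g n := by
  have : (⊤ : Subgroup (FU g n)) ≤ (Fc g n).comap (iotaU g n) := by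
    rw [← FreeGroup.closure_range_of, Subgroup.closure_le]
    rintro _ ⟨k, rfl⟩
    rw [SetLike.mem_coe, Subgroup.mem_comap]
    rcases k with k | j
    · rw [iotaU_inl]; exact Subgroup.subset_closure (Or.inl ⟨k, rfl⟩)
    · rw [iotaU_inr]; exact Subgroup.subset_closure (Or.inr ⟨j, rfl⟩)
  exact this (Subgroup.mem_top w)

theorem exists_iotaU {w : FF g n} (hw : w ∈ Fc g n) : ∃ v, iotaU g n v = w := by
  have : Fc g n ≤ (iotaU g n).range := by
    rw [Fc, Subgroup.closure_le]
    rintro w (⟨k, rfl⟩ | ⟨j, rfl⟩)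
    · exact ⟨_, iotaU_inl k⟩
    · exact ⟨_, iotaU_inr j⟩
  exact this hw

/-- The polynomial in the entries of words attached to a polynomial in the entries of the
generators of the unframed group. -/
noncomputable def liftU (f : MvPolynomial (GenU g n × Fin r × Fin r) ℂ) :
    MvPolynomial (FF g n × Fin r × Fin r) ℂ :=
  MvPolynomial.rename (fun p => (iotaU g n (FreeGroup.of p.1), p.2)) f

theorem evalW_liftU (y : FF g n →* (Mat r ℂ)ˣ) (f : MvPolynomial (GenU g n × Fin r × Fin r) ℂ) :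
    evalW y (liftU f) = evalG (y.comp (iotaU g n)) f := by
  rw [liftU, evalW, MvPolynomial.aeval_rename, evalG]
  rfl

theorem comp_iotaU_mem_DU {R : Type*} [CommRing R] (φ : R →+* ℂ) (C J : Fin n → (Mat r ℂ)ˣ)
    (hJ : ∀ j, IsConj (C j) (J j)) (y : FF (m + 1) n →* (Mat r ℂ)ˣ) (hy : y ∈ DTop φ J) :
    y.comp (iotaU (m + 1) n) ∈ DU (m + 1) φ C := by
  obtain ⟨⟨h1, h2, h3, h4⟩, h5⟩ := hy
  refine ⟨⟨?_, fun j => ?_, ?_⟩, fun k => ?_⟩
  · rw [MonoidHom.comp_apply, iotaU_relator, h1]
  · rw [MonoidHom.comp_apply, iotaU_inr]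
    refine (hJ j).trans ?_
    rw [isConj_iff]
    refine ⟨y (gD j), ?_⟩
    rw [gC_def, map_mul, map_mul, map_inv, h2]
  · apply SS_of_adjoin
    rw [← h5]
    congr 1
    ext M
    constructor
    · rintro ⟨w, rfl⟩
      exact ⟨iotaU (m + 1) n w, iotaU_mem w, rfl⟩
    · rintro ⟨w, hw, rfl⟩
      obtain ⟨v, rfl⟩ := exists_iotaU hw
      exact ⟨v, rfl⟩
  · rw [MonoidHom.comp_apply]
    rcases k with k | j
    · rw [iotaU_inl]; exact h3 k
    · rw [iotaU_inr]; exact h4 j

/-! ### Tuples of matrices and units -/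

theorem evalM_eq_evalP {κ : Type*} (X : κ → (Mat r ℂ)ˣ)
    (f : MvPolynomial (κ × Bool × Fin r × Fin r) ℂ) :
    evalM (fun k => (X k : Mat r ℂ)) f = evalP X f := by
  rw [evalM, evalP]
  congr 2
  funext p
  simp only [Matrix.coe_units_inv]

theorem relM_eq (X : Gen g n → (Mat r ℂ)ˣ) :
    relM (fun k => (X k : Mat r ℂ)) = (FreeGroup.lift X (relator g n) : Mat r ℂ) := by
  unfold relM relator
  have h : ∀ {N : ℕ} (a : Fin N → (Mat r ℂ)ˣ) (b : Fin N → Mat r ℂ), (∀ i, (a i : Mat r ℂ) = b i) →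
      ((List.ofFn a).prod : Mat r ℂ) = (List.ofFn b).prod := by
    intro N a b hab
    have h1 : ((List.ofFn a).prod : Mat r ℂ) = ((List.ofFn a).map (Units.coeHom (Mat r ℂ))).prod :=
      (map_list_prod (Units.coeHom (Mat r ℂ)) _)
    rw [h1, List.map_ofFn]
    congr 2
    funext i
    exact hab i
  rw [map_mul, Units.val_mul, map_list_prod, map_list_prod, List.map_ofFn, List.map_ofFn]
  congr 1
  · symm
    apply h
    intro j
    simp [gC, gD, gE, Matrix.coe_units_inv]
  · symm
    apply h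
    intro i
    simp [hcomm, gA, gB, Matrix.coe_units_inv]

theorem relM_eq_one_iff (X : Gen g n → (Mat r ℂ)ˣ) :
    relM (fun k => (X k : Mat r ℂ)) = 1 ↔ FreeGroup.lift X (relator g n) = 1 := by
  rw [relM_eq, Units.val_eq_one]

end Vale.Agent.P002R
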