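import Vale.Agent.P002R.RIrred

/-!
# Irreducible representations are limits of integral ones: the theorem
-/

namespace Vale.Agent.P002R

open Matrix

variable {g m n r : ℕ}

theorem det_of_isConj {a b : (Mat r ℂ)ˣ} (h : IsConj a b) :
    (a : Mat r ℂ).det = (b : Mat r ℂ).det := by
  obtain ⟨c, rfl⟩ := isConj_iff.1 h
  have h1 : (c : Mat r ℂ).det * ((c⁻¹ : (Mat r ℂ)ˣ) : Mat r ℂ).det = 1 := by
    rw [← det_mul, ← Units.val_mul, mul_inv_cancel, Units.val_one, det_one]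
  rw [Units.val_mul, Units.val_mul, det_mul, det_mul, mul_right_comm, h1, one_mul]

theorem prod_det_eq_one (C : Fin n → (Mat r ℂ)ˣ) (x : FU g n →* (Mat r ℂ)ˣ)
    (hx : x (relatorU g n) = 1) (hxC : ∀ j, IsConj (C j) (x (FreeGroup.of (Sum.inr j)))) :
    ∏ j, (C j : Mat r ℂ).det = 1 := by
  obtain ⟨δ, hδ⟩ : ∃ δ : FU g n →* ℂ, ∀ w, δ w = (x w : Mat r ℂ).det :=
    ⟨(Matrix.detMonoidHom).comp ((Units.coeHom _).comp x), fun w => rfl⟩
  have h1 : ∀ w, δ w * δ w⁻¹ = 1 := fun w => by rw [← map_mul, mul_inv_cancel, map_one]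
  have h2 : δ (relatorU g n) = 1 := by rw [hδ, hx, Units.val_one, det_one]
  unfold relatorU at h2
  rw [map_mul, map_list_prod, map_list_prod, List.map_ofFn, List.map_ofFn, List.prod_ofFn] at h2
  have h3 : (List.ofFn (⇑δ ∘ fun i : Fin g => (FreeGroup.of (Sum.inl (i, false)) *
      FreeGroup.of (Sum.inl (i, true)) * (FreeGroup.of (Sum.inl (i, false)))⁻¹ *
      (FreeGroup.of (Sum.inl (i, true)))⁻¹ : FU g n))).prod = 1 := by
    apply List.prod_eq_one
    intro a ha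
    rw [List.mem_ofFn] at ha
    obtain ⟨i, rfl⟩ := ha
    simp only [Function.comp, map_mul]
    calc _ = (δ (FreeGroup.of (Sum.inl (i, false))) * δ (FreeGroup.of (Sum.inl (i, false)))⁻¹) *
          (δ (FreeGroup.of (Sum.inl (i, true))) * δ (FreeGroup.of (Sum.inl (i, true)))⁻¹) := by ring
      _ = 1 := by rw [h1, h1, one_mul]
  rw [h3, mul_one] at h2
  rw [← h2]
  refine Finset.prod_congr rfl fun j _ => ?_
  rw [Function.comp, hδ]
  exact det_of_isConj (hxC j)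

theorem scalar_of_comm {α : Fin r → ℂ} (hα : Function.Injective α) (U : (Mat r ℂ)ˣ)
    (A : (Mat r ℂ)ˣ) (hA : ∀ i j, ((U⁻¹ * A * U : (Mat r ℂ)ˣ) : Mat r ℂ) i j ≠ 0) (N : Mat r ℂ)
    (h1 : Commute N ((U : Mat r ℂ) * diagonal α * ((U⁻¹ : (Mat r ℂ)ˣ) : Mat r ℂ)))
    (h2 : Commute N (A : Mat r ℂ)) : ∃ c : ℂ, N = c • (1 : Mat r ℂ) := by
  have hU1 : (U : Mat r ℂ) * ((U⁻¹ : (Mat r ℂ)ˣ) : Mat r ℂ) = 1 := U.mul_inv
  have hU2 : ((U⁻¹ : (Mat r ℂ)ˣ) : Mat r ℂ) * (U : Mat r ℂ) = 1 := U.inv_mul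
  obtain ⟨V, hV⟩ : ∃ V : Mat r ℂ, V = ((U⁻¹ : (Mat r ℂ)ˣ) : Mat r ℂ) := ⟨_, rfl⟩
  rw [← hV] at hU1 hU2 h1
  obtain ⟨M, hM⟩ : ∃ M : Mat r ℂ, M = V * N * U := ⟨_, rfl⟩
  have hN : N = U * M * V := by
    rw [hM]
    calc N = (U * V) * N * (U * V) := by rw [hU1, one_mul, mul_one]
      _ = _ := by simp only [mul_assoc]
  have hMd : M * diagonal α = diagonal α * M := by
    have := h1.eq
    calc M * diagonal α = V * (N * (U * diagonal α * V)) * U := by
          rw [hM]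
          calc V * N * U * diagonal α = V * N * U * diagonal α * (V * U) := by rw [hU2, mul_one]
            _ = _ := by simp only [mul_assoc]
      _ = V * ((U * diagonal α * V) * N) * U := by rw [this]
      _ = (V * U) * diagonal α * M := by rw [hM]; simp only [mul_assoc]
      _ = _ := by rw [hU2, one_mul]
  have hMA : M * ((U⁻¹ * A * U : (Mat r ℂ)ˣ) : Mat r ℂ) =
      ((U⁻¹ * A * U : (Mat r ℂ)ˣ) : Mat r ℂ) * M := by
    rw [Units.val_mul, Units.val_mul, ← hV, hM]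
    calc V * N * U * (V * A * U) = V * N * (U * V) * A * U := by simp only [mul_assoc]
      _ = V * (N * A) * U := by rw [hU1, mul_one]; simp only [mul_assoc]
      _ = V * (A * N) * U := by rw [h2.eq]
      _ = V * A * (U * V) * N * U := by rw [hU1, mul_one]; simp only [mul_assoc]
      _ = _ := by simp only [mul_assoc]
  have hoff : ∀ i j, i ≠ j → M i j = 0 := by
    intro i j hij
    have := congrFun (congrFun hMd i) j
    rw [Matrix.mul_diagonal, Matrix.diagonal_mul] at this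
    have h3 : (α j - α i) * M i j = 0 := by rw [sub_mul, ← this]; ring
    rcases mul_eq_zero.1 h3 with h | h
    · exact absurd (hα (sub_eq_zero.1 h)) (Ne.symm hij)
    · exact h
  have hMdiag : M = diagonal (fun i => M i i) := by
    ext i j
    by_cases hij : i = j
    · subst hij; rw [Matrix.diagonal_apply_eq]
    · rw [hoff i j hij, Matrix.diagonal_apply_ne _ hij]
  have hall : ∀ i j, M i i = M j j := by
    intro i j
    have := congrFun (congrFun hMA i) j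
    rw [hMdiag, Matrix.mul_diagonal, Matrix.diagonal_mul] at this
    have h4 := hA i j
    exact mul_right_cancel₀ h4 (by rw [this]; ring)
  rcases Nat.eq_zero_or_pos r with hr | hr
  · subst hr
    exact ⟨0, Subsingleton.elim _ _⟩
  · refine ⟨M ⟨0, hr⟩ ⟨0, hr⟩, ?_⟩
    have : M = M ⟨0, hr⟩ ⟨0, hr⟩ • (1 : Mat r ℂ) := by
      rw [hMdiag]
      ext i j
      by_cases hij : i = j
      · subst hij
        simp only [Matrix.diagonal_apply_eq, Matrix.smul_apply, Matrix.one_apply_eq, smul_eq_mul,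
          mul_one]
        exact hall _ _
      · simp [Matrix.diagonal_apply_ne _ hij, Matrix.one_apply_ne hij]
    rw [hN, this, mul_smul_comm, smul_mul_assoc, mul_one, hU1]
    simp

theorem flow_flow {κ : Type*} [DecidableEq κ] {S : Type*} [CommRing S]
    (x : FreeGroup κ →* (Mat r S)ˣ) (k : κ) (z z' : (Mat r S)ˣ) :
    flow (flow x k z) k z' = flow x k (z * z') := by
  apply FreeGroup.ext_hom
  intro l
  simp only [flow_of]
  split_ifs with h
  · simp [mul_assoc]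
  · rfl

/-- Irreducible representations are in the Zariski closure of the semisimple integral ones, as soon
as there is a good base point. -/
theorem irreducible_of_base {R : Type*} [CommRing R] (φ : R →+* ℂ) (hr : 1 ≤ r) (hm : 1 ≤ m)
    (C J : Fin n → (Mat r ℂ)ˣ) (hJ : ∀ j, IsConj (C j) (J j))
    (ρ : FF (m + 1) n →* (Mat r ℂ)ˣ) (hρ : ρ ∈ DFr φ J) (hρB : ρ (gB (Fin.last m)) = 1)
    (w₀ : FF (m + 1) n) (hw₀ : w₀ ∈ Fc (m + 1) n) (hw₀' : w₀ ∈ Fprime m n)
    (U : (Mat r ℂ)ˣ) (α : Fin r → ℂ) (hα : Function.Injective α)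
    (hU : (ρ w₀ : Mat r ℂ) = (U : Mat r ℂ) * diagonal α * ((U⁻¹ : (Mat r ℂ)ˣ) : Mat r ℂ))
    (hdual : ∀ K₀ : Subfield ℂ, Countable K₀ → (∀ w, ρ w ∈ GLK r K₀) → U ∈ GLK r K₀ →
      ∃ A : (Mat r ℂ)ˣ, AlgebraicIndependent K₀ (fun p : Fin r × Fin r => (A : Mat r ℂ) p.1 p.2) ∧
        DualProp (fun q : Loop m n => ρ (loopW q)) A)
    (x : FU (m + 1) n →* (Mat r ℂ)ˣ) (hx : x (relatorU (m + 1) n) = 1)
    (hxC : ∀ j, IsConj (C j) (x (FreeGroup.of (Sum.inr j))))
    (hirr : ∀ M : Mat r ℂ, (∀ w, Commute M (x w : Mat r ℂ)) → ∃ c : ℂ, M = c • (1 : Mat r ℂ))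
    (f : MvPolynomial (GenU (m + 1) n × Fin r × Fin r) ℂ)
    (hf : ∀ y ∈ DU (m + 1) φ C, evalG y f = 0) : evalG x f = 0 := by
  classical
  obtain ⟨K₀, hK₀, hρK⟩ := exists_GLK (r := r)
    (Sum.elim (fun k : Gen (m + 1) n => ρ (FreeGroup.of k)) (fun _ : Unit => U))
  have hρw : ∀ w, ρ w ∈ GLK r K₀ := map_mem_GLK ρ fun k => hρK (Sum.inl k)
  have hUK : U ∈ GLK r K₀ := hρK (Sum.inr ())
  obtain ⟨A, hA, hdA⟩ := hdual K₀ hK₀ hρw hUK
  obtain ⟨kA, hkA⟩ : ∃ kA : Gen (m + 1) n, kA = Sum.inl (Fin.last m, false) := ⟨_, rfl⟩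
  obtain ⟨ρA, hρA⟩ : ∃ ρA, ρA = flow ρ kA ((ρ (FreeGroup.of kA))⁻¹ * A) := ⟨_, rfl⟩
  have hρAk : ∀ k, k ≠ Sum.inl (Fin.last m, false) →
      ρA (FreeGroup.of k) = ρ (FreeGroup.of k) := by
    intro k hk
    rw [hρA, flow_of, if_neg (by rw [hkA]; exact hk)]
  have hρAA : ρA (gA (Fin.last m)) = A := by
    rw [hρA, gA, ← hkA, flow_of, if_pos rfl]
    simp
  have hρAF : ∀ w ∈ Fprime m n, ρA w = ρ w := fun w hw => eq_on_Fprime ρA ρ hρAk hw
  have hρAB : ρA (gB (Fin.last m)) = 1 := by rw [hρAF _ (gB_mem _), hρB]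
  have hblk : ((blocks m n).map bw).prod ∈ Fprime m n := by
    apply Subgroup.list_prod_mem
    intro w hw
    rw [List.mem_map] at hw
    obtain ⟨b, -, rfl⟩ := hw
    exact bw_mem b
  have hrelA : ρA (relator (m + 1) n) = 1 := by
    have h1 := hρ.1
    rw [Slides.relator_eq_blocks, map_mul, hcomm, map_mul, map_mul, map_mul, map_inv, map_inv,
      hρB] at h1
    rw [Slides.relator_eq_blocks, map_mul, hcomm, map_mul, map_mul, map_mul, map_inv, map_inv,
      hρAB, hρAF _ hblk]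
    simpa using h1
  have hρAJ : ∀ j, ρA (gE j) = J j := by
    intro j
    rw [gE, hρAk _ (by simp)]
    exact hρ.2.1 j
  have hbase : ∀ z : (Mat r (PowerSeries ℂ))ˣ, InZ (DTop φ J)
      (flow (baseChange (algebraMap ℂ (PowerSeries ℂ)) ρA) (Sum.inl (Fin.last m, false)) z) := by
    intro z
    rw [hρA, hkA, baseChange_flow, flow_flow]
    exact inZ_top φ J ρ hρ hρB w₀ hw₀ hw₀' U α hα hU _
  have hgenmul : ∀ P Q : (Mat r ℂ)ˣ, P ∈ GLK r K₀ → Q ∈ GLK r K₀ →
      AlgebraicIndependent K₀ fun q : Fin r × Fin r => ((P * A * Q : (Mat r ℂ)ˣ) : Mat r ℂ) q.1 q.2 := by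
    intro P Q hP hQ
    exact generic_mul hA P Q hP.1 hQ.1 P.isUnit Q.isUnit
  have hgen : ∀ p : List (Loop m n), AlgebraicIndependent ℤ fun q : Fin r × Fin r =>
      (ρA (wordL p * gA (Fin.last m)) : Mat r ℂ) q.1 q.2 := by
    intro p
    have h1 : ρA (wordL p * gA (Fin.last m)) = ρ (wordL p) * A * 1 := by
      rw [map_mul, hρAA, hρAF _ (wordL_mem p), mul_one]
    rw [h1]
    exact (hgenmul _ _ (hρw _) (one_mem _)).restrictScalars (R := ℤ)
      (algebraMap ℤ K₀).injective_int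
  obtain ⟨h, hh1, hh2⟩ := local_theorem_dual (DTop φ J) J (fun y hy => hy.1.1)
    (fun y hy => hy.1.2.1) (fun τ h1 h2 y hy => DTop_adm φ J τ h1 h2 y hy) ρA hρAB hrelA hρAJ
    hbase hgen (by
      have h1 : (fun q : Loop m n => ρA (loopW q)) = fun q => ρ (loopW q) :=
        funext fun q => hρAF _ (loopW_mem q)
      rw [h1, hρAA]
      exact hdA) (liftU f) (fun y hy => by
      rw [evalW_liftU]
      exact hf _ (comp_iotaU_mem_DU φ C J hJ y hy))
  -- the point `x`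
  have hd : ∀ j, ∃ d : (Mat r ℂ)ˣ, d * J j * d⁻¹ = x (FreeGroup.of (Sum.inr j)) := fun j =>
    isConj_iff.1 (((hJ j).symm).trans (hxC j))
  choose d hd using hd
  obtain ⟨X₁, hX₁⟩ : ∃ X₁ : Gen (m + 1) n → (Mat r ℂ)ˣ, (∀ k, X₁ (Sum.inl k) =
      x (FreeGroup.of (Sum.inl k))) ∧ (∀ j, X₁ (Sum.inr (j, false)) = d j) ∧
      ∀ j, X₁ (Sum.inr (j, true)) = J j :=
    ⟨Sum.elim (fun k => x (FreeGroup.of (Sum.inl k))) fun p => if p.2 then J p.1 else d p.1,
      fun k => rfl, fun j => by simp, fun j => by simp⟩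
  have hX₁c : ∀ j, FreeGroup.lift X₁ (gC j) = x (FreeGroup.of (Sum.inr j)) := by
    intro j
    rw [gC_def, map_mul, map_mul, map_inv, gD, gE, FreeGroup.lift_apply_of,
      FreeGroup.lift_apply_of, hX₁.2.1, hX₁.2.2, hd]
  have hX₁x : (FreeGroup.lift X₁).comp (iotaU (m + 1) n) = x := by
    apply FreeGroup.ext_hom
    rintro (k | j)
    · rw [MonoidHom.comp_apply, iotaU_inl, FreeGroup.lift_apply_of, hX₁.1]
    · rw [MonoidHom.comp_apply, iotaU_inr, hX₁c]
  have hX₁rel : FreeGroup.lift X₁ (relator (m + 1) n) = 1 := by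
    rw [← iotaU_relator, ← MonoidHom.comp_apply, hX₁x, hx]
  have hX₁f : evalP X₁ (toP (liftU f)) = evalG x f := by
    rw [evalP_toP, evalW_liftU, hX₁x]
  by_contra hne
  -- a good point near `X₁`
  have hU₁ : {X : Gen (m + 1) n → Mat r ℂ | evalM X (toP (liftU f)) ≠ 0} ∈
      nhds (fun k => (X₁ k : Mat r ℂ)) :=
    (evalM_continuousAt (toP (liftU f)) _ (fun k => (X₁ k).isUnit)).preimage_mem_nhds
      (isOpen_compl_singleton.mem_nhds (by
        rw [evalM_eq_evalP, hX₁f]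
        exact hne))
  obtain ⟨X₁', hX₁'U, hX₁'u, hX₁'J, hX₁'r, hX₁'g⟩ := dense_handles (g := m + 1) (by omega) hr
    (fun k => (X₁ k : Mat r ℂ)) (fun k => (X₁ k).isUnit) ((relM_eq_one_iff X₁).2 hX₁rel)
    (fun M hM1 hM2 => by
      refine hirr M fun w => ?_
      have h1 : ∀ k, Commute M (x (FreeGroup.of k) : Mat r ℂ) := by
        rintro (k | j)
        · rw [← hX₁.1]; exact hM1 k
        · have h2 := hM2 j
          rw [← hX₁c, gC_def, map_mul, map_mul, map_inv, gD, gE, FreeGroup.lift_apply_of,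
            FreeGroup.lift_apply_of, Units.val_mul, Units.val_mul, Matrix.coe_units_inv]
          exact h2
      have h3 : (⊤ : Subgroup (FU (m + 1) n)) ≤
          (Subgroup.comap x ({
            carrier := {y : (Mat r ℂ)ˣ | Commute M (y : Mat r ℂ)}
            mul_mem' := fun {a b} ha hb => by
              simpa using Commute.mul_right (show Commute M (a : Mat r ℂ) from ha)
                (show Commute M (b : Mat r ℂ) from hb)
            one_mem' := by simp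
            inv_mem' := fun {a} ha => by
              exact Commute.units_inv_right (show Commute M (a : Mat r ℂ) from ha) } :
              Subgroup (Mat r ℂ)ˣ)) := by
        rw [← FreeGroup.closure_range_of, Subgroup.closure_le]
        rintro _ ⟨k, rfl⟩
        exact h1 k
      exact h3 (Subgroup.mem_top w)) _ hU₁
  -- a good point near `ρA`
  have hU₀ : {X : Gen (m + 1) n → Mat r ℂ | evalM X h ≠ 0} ∈
      nhds (fun k => (ρA (FreeGroup.of k) : Mat r ℂ)) :=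
    (evalM_continuousAt h _ (fun k => (ρA (FreeGroup.of k)).isUnit)).preimage_mem_nhds
      (isOpen_compl_singleton.mem_nhds (by
        change evalM (fun k => (ρA (FreeGroup.of k) : Mat r ℂ)) h ≠ 0
        rw [evalM_eq_evalP (fun k => ρA (FreeGroup.of k)) h]
        exact hh1))
  have hAV0 : ∀ i j, ((U⁻¹ * A * U : (Mat r ℂ)ˣ) : Mat r ℂ) i j ≠ 0 :=
    (generic_gen3 (hgenmul _ _ (inv_mem hUK) hUK)).1
  obtain ⟨X₀', hX₀'U, hX₀'u, hX₀'J, hX₀'r, hX₀'g⟩ := dense_handles (g := m + 1) (by omega) hr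
    (fun k => (ρA (FreeGroup.of k) : Mat r ℂ)) (fun k => (ρA (FreeGroup.of k)).isUnit)
    ((relM_eq_one_iff (fun k => ρA (FreeGroup.of k))).2 (by rw [lift_of]; exact hrelA))
    (fun M hM1 hM2 => by
      have hFc : ∀ w ∈ Fc (m + 1) n, Commute M (ρA w : Mat r ℂ) := by
        have h3 : Fc (m + 1) n ≤
            (Subgroup.comap ρA ({
              carrier := {y : (Mat r ℂ)ˣ | Commute M (y : Mat r ℂ)}
              mul_mem' := fun {a b} ha hb => by
                simpa using Commute.mul_right (show Commute M (a : Mat r ℂ) from ha)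
                  (show Commute M (b : Mat r ℂ) from hb)
              one_mem' := by simp
              inv_mem' := fun {a} ha => by
                exact Commute.units_inv_right (show Commute M (a : Mat r ℂ) from ha) } :
                Subgroup (Mat r ℂ)ˣ)) := by
          rw [Fc, Subgroup.closure_le]
          rintro _ (⟨k, rfl⟩ | ⟨j, rfl⟩)
          · exact hM1 k
          · have h2 := hM2 j
            change Commute M (ρA (gC j) : Mat r ℂ)
            rw [gC_def, map_mul, map_mul, map_inv, gD, gE, Units.val_mul, Units.val_mul,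
              Matrix.coe_units_inv]
            exact h2
        exact fun w hw => h3 hw
      refine scalar_of_comm hα U A hAV0 M ?_ ?_
      · rw [← hU, ← hρAF _ hw₀']
        exact hFc w₀ hw₀
      · rw [← hρAA]
        exact hM1 (Fin.last m, false)) _ hU₀
  obtain ⟨i₀⟩ : Nonempty (Fin m) := ⟨⟨0, hm⟩⟩
  have hres := partII hr hm (toP (liftU f)) h (fun j => (J j : Mat r ℂ)) (fun j => (J j).isUnit)
    (fun X hXu hXJ hXr => by
      obtain ⟨Y, hY⟩ : ∃ Y : Gen (m + 1) n → (Mat r ℂ)ˣ, X = fun k => (Y k : Mat r ℂ) := by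
        choose Y hY using hXu
        exact ⟨Y, funext fun k => (hY k).symm⟩
      subst hY
      rw [evalM_eq_evalP, evalM_eq_evalP, evalP_toP]
      exact hh2 Y (fun j => Units.ext (hXJ j)) ((relM_eq_one_iff Y).1 hXr))
    X₀' hX₀'u (fun j => by rw [hX₀'J]; exact congrArg Units.val (hρAJ j)) hX₀'r
    (fun M hM => hX₀'g i₀.castSucc M (hM i₀ false) (hM i₀ true)) hX₀'U
    X₁' hX₁'u (fun j => by rw [hX₁'J]; exact congrArg Units.val (hX₁.2.2 j)) hX₁'r
    (fun M hM => hX₁'g i₀.castSucc M (hM i₀ false) (hM i₀ true))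
  exact hX₁'U hres


/-- Irreducible representations with prescribed boundary classes are in the Zariski closure of the
semisimple integral ones (integral up to scalars). -/
theorem irreducible_case {R : Type*} [CommRing R] (φ : R →+* ℂ) (hφ : Function.Injective φ)
    (u : Rˣ) (hu : ∀ k : ℕ, 0 < k → φ (u : R) ^ k ≠ 1) (hr : 1 ≤ r) (N : ℕ) (hN : 0 < N)
    (hμ : ∀ z : ℂ, z ^ (2 * N * r) = 1 → z ∈ Set.range φ)
    (C : Fin n → (Mat r ℂ)ˣ) (hC : ∀ j, IsNilpotent ((C j : Mat r ℂ) ^ N - 1))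
    (hm : 1 ≤ m) (hmn : 2 ≤ m ∨ ∀ j, IsNilpotent ((C j : Mat r ℂ) - 1))
    (x : FU (m + 1) n →* (Mat r ℂ)ˣ) (hx : x (relatorU (m + 1) n) = 1)
    (hxC : ∀ j, IsConj (C j) (x (FreeGroup.of (Sum.inr j))))
    (hirr : ∀ M : Mat r ℂ, (∀ w, Commute M (x w : Mat r ℂ)) → ∃ c : ℂ, M = c • (1 : Mat r ℂ))
    (f : MvPolynomial (GenU (m + 1) n × Fin r × Fin r) ℂ)
    (hf : ∀ y ∈ DU (m + 1) φ C, evalG y f = 0) : evalG x f = 0 := by
  classical
  obtain ⟨J, hJ, ρ, hρ, hρB, -, i₀, α, U, hα, hU⟩ := exists_base φ hφ u hu hr N hN hμ C hC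
    (prod_det_eq_one C x hx hxC) hm hmn
  have hw₀ : gB i₀.castSucc * (gA i₀.castSucc)⁻¹ * (gB i₀.castSucc)⁻¹ ∈ Fc (m + 1) n := by
    have h1 : ∀ k, (FreeGroup.of (Sum.inl k) : FF (m + 1) n) ∈ Fc (m + 1) n := fun k =>
      Subgroup.subset_closure (Or.inl ⟨k, rfl⟩)
    exact mul_mem (mul_mem (h1 _) (inv_mem (h1 _))) (inv_mem (h1 _))
  have hw₀' : gB i₀.castSucc * (gA i₀.castSucc)⁻¹ * (gB i₀.castSucc)⁻¹ ∈ Fprime m n :=
    mul_mem (mul_mem (gB_mem _) (inv_mem (gA_mem _))) (inv_mem (gB_mem _))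
  refine irreducible_of_base φ hr hm C J hJ ρ hρ hρB _ hw₀ hw₀' U α hα.inj hU ?_ x hx hxC hirr f hf
  intro K₀ hK₀ hρw hUK
  obtain ⟨A, hA⟩ := exists_generic_over K₀ r
  refine ⟨A, hA, ?_⟩
  obtain ⟨q₀, hq₀⟩ : ∃ q₀ : Loop m n, q₀ = Sum.inr (i₀, false) := ⟨_, rfl⟩
  have hloop : loopW q₀ = (kap q₀)⁻¹ *
      (gB i₀.castSucc * (gA i₀.castSucc)⁻¹ * (gB i₀.castSucc)⁻¹) * kap q₀ := by
    rw [hq₀]; rfl
  obtain ⟨V, hV⟩ : ∃ V, V = (ρ (kap q₀))⁻¹ * U := ⟨_, rfl⟩
  have hVK : V ∈ GLK r K₀ := by rw [hV]; exact mul_mem (inv_mem (hρw _)) hUK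
  have hq₀V : (ρ (loopW q₀) : Mat r ℂ) =
      (V : Mat r ℂ) * diagonal α * ((V⁻¹ : (Mat r ℂ)ˣ) : Mat r ℂ) := by
    rw [hloop, map_mul, map_mul, Units.val_mul, Units.val_mul, hU, hV,
      _root_.mul_inv_rev, inv_inv, map_inv, Units.val_mul, Units.val_mul]
    simp only [mul_assoc]
  have hAV : Gen3 ((V⁻¹ * A * V : (Mat r ℂ)ˣ) : Mat r ℂ) :=
    generic_gen3 (generic_mul hA _ _ (inv_mem hVK).1 hVK.1 (V⁻¹).isUnit V.isUnit)
  exact fun R Q H => dual3 (fun q : Loop m n => ρ (loopW q)) R Q A q₀ V α hα hq₀V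
    hAV (fun p k h1 _ => H p k h1)

end Vale.Agent.P002R
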