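import Vale.Agent.P002R.RDefs
import Vale.Agent.P002.JordanForm

/-! TASK Q: Jordan form. -/

namespace Vale.Agent.P002R

open Matrix

variable {r : ℕ}

theorem nilpotent_eigen (C : Mat r ℂ) (N : ℕ) (hC : IsNilpotent (C ^ N - 1)) (c : ℂ)
    (hc : C.charpoly.IsRoot c) : c ^ N = 1 := by
  have h0 : (Matrix.scalar (Fin r) c - C).det = 0 := by
    rw [← Matrix.eval_charpoly]
    exact hc
  obtain ⟨v, hv0, hv⟩ := Matrix.exists_mulVec_eq_zero_iff.mpr h0
  have h1 : C *ᵥ v = c • v := by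
    rw [Matrix.sub_mulVec, sub_eq_zero] at hv
    rw [← hv]
    ext i
    simp [Matrix.mulVec_diagonal]
  have h2 : ∀ k : ℕ, (C ^ k) *ᵥ v = c ^ k • v := by
    intro k
    induction k with
    | zero => simp
    | succ k ih =>
      rw [pow_succ', ← mulVec_mulVec, ih, mulVec_smul, h1, smul_smul, pow_succ]
  have h3 : (C ^ N - 1) *ᵥ v = (c ^ N - 1) • v := by
    rw [Matrix.sub_mulVec, h2, one_mulVec, sub_smul, one_smul]
  have h4 : ∀ k : ℕ, ((C ^ N - 1) ^ k) *ᵥ v = (c ^ N - 1) ^ k • v := by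
    intro k
    induction k with
    | zero => simp
    | succ k ih =>
      rw [pow_succ', ← mulVec_mulVec, ih, mulVec_smul, h3, smul_smul, pow_succ]
  obtain ⟨k, hk⟩ := hC
  have h5 := h4 k
  rw [hk, zero_mulVec] at h5
  have h6 : (c ^ N - 1) ^ k = 0 := by
    rcases smul_eq_zero.mp h5.symm with h | h
    · exact h
    · exact absurd h hv0
  exact sub_eq_zero.mp (eq_zero_of_pow_eq_zero h6)

/-- TASK Q (file RJordan.lean) -/
theorem exists_jordan (C : Mat r ℂ) (N : ℕ) (_hN : 0 < N) (hC : IsNilpotent (C ^ N - 1)) :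
    ∃ (d : Fin r → ℂ) (ν : Matrix (Fin r) (Fin r) ℤ), (∀ i, d i ^ N = 1) ∧
      (∀ i j, ¬ i < j → ν i j = 0) ∧ ∀ c : ℂ, c ≠ 0 → ∃ P : (Mat r ℂ)ˣ,
        C = (P : Mat r ℂ) * (diagonal d + c • ν.map (Int.castRingHom ℂ)) *
          ((P⁻¹ : (Mat r ℂ)ˣ) : Mat r ℂ) := by
  obtain ⟨d, ν, _, h2, h3, h4⟩ := P002.exists_jordan C
  refine ⟨d, ν, ?_, h2, fun c hc => ?_⟩
  · intro i
    apply nilpotent_eigen C N hC
    rw [h3]
    simp only [Polynomial.IsRoot.def, Polynomial.eval_prod]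
    apply Finset.prod_eq_zero (Finset.mem_univ i)
    simp
  · obtain ⟨P, hP⟩ := h4 c hc
    exact ⟨P, hP⟩

end Vale.Agent.P002R
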