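import Vale.Agent.P002R.RDefs

/-!
# P002R TASK S: slides of the last handle
-/

namespace Vale.Agent.P002R

namespace Slides

open Matrix

variable {m n r : ℕ}

theorem relator_eq_blocks (m n : ℕ) :
    relator (m + 1) n = ((blocks m n).map bw).prod * hcomm (Fin.last m) := by
  unfold relator blocks
  rw [List.ofFn_succ', List.concat_eq_append, List.prod_append, List.map_append,
    List.prod_append, List.map_map, List.map_map, List.prod_singleton, ← mul_assoc,
    List.ofFn_eq_map, List.ofFn_eq_map]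
  rfl

theorem blocks_nodup (m n : ℕ) : (blocks m n).Nodup := by
  unfold blocks
  rw [List.nodup_append]
  refine ⟨(List.nodup_finRange n).map Sum.inl_injective,
    (List.nodup_finRange m).map Sum.inr_injective, ?_⟩
  intro a ha b hb
  rw [List.mem_map] at ha hb
  obtain ⟨i, -, rfl⟩ := ha
  obtain ⟨j, -, rfl⟩ := hb
  exact Sum.inl_ne_inr

theorem mem_blocks (b : Fin n ⊕ Fin m) : b ∈ blocks m n := by
  unfold blocks
  rw [List.mem_append, List.mem_map, List.mem_map]
  rcases b with j | i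
  · exact Or.inl ⟨j, List.mem_finRange j, rfl⟩
  · exact Or.inr ⟨i, List.mem_finRange i, rfl⟩

theorem blocks_split (b : Fin n ⊕ Fin m) : ∃ l₁ l₂ : List (Fin n ⊕ Fin m),
    blocks m n = l₁ ++ b :: l₂ ∧ b ∉ l₁ ∧ b ∉ l₂ := by
  obtain ⟨s, t, hst⟩ := List.append_of_mem (mem_blocks b)
  have hnd := blocks_nodup m n
  rw [hst, List.nodup_append] at hnd
  obtain ⟨_, h2, h3⟩ := hnd
  rw [List.nodup_cons] at h2
  exact ⟨s, t, hst, fun h => h3 b h b List.mem_cons_self rfl, h2.1⟩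

theorem aftL_append (b : Fin n ⊕ Fin m) (l₁ l₂ : List (Fin n ⊕ Fin m)) (h : b ∉ l₁) :
    aftL b (l₁ ++ b :: l₂) = (l₂.map bw).prod := by
  induction l₁ with
  | nil => simp [aftL]
  | cons a l ih =>
    rw [List.mem_cons, not_or] at h
    rw [List.cons_append, aftL, if_neg fun hh => h.1 hh.symm, ih h.2]

/-- The homomorphism `σ` fixes the generators outside the block `b` and the last handle, and
`b_m`. -/
structure Fix (b : Fin n ⊕ Fin m) (σ : FF (m + 1) n →* FF (m + 1) n) : Prop where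
  hd : ∀ j, b ≠ Sum.inl j → σ (gD j) = gD j
  he : ∀ j, σ (gE j) = gE j
  ha : ∀ i : Fin m, b ≠ Sum.inr i → σ (gA i.castSucc) = gA i.castSucc
  hb : ∀ i : Fin m, b ≠ Sum.inr i → σ (gB i.castSucc) = gB i.castSucc
  hl : σ (gB (Fin.last m)) = gB (Fin.last m)

theorem Fix.bw_eq {b : Fin n ⊕ Fin m} {σ : FF (m + 1) n →* FF (m + 1) n} (hσ : Fix b σ)
    (b' : Fin n ⊕ Fin m) (h : b ≠ b') : σ (bw b') = bw b' := by
  rcases b' with j | i
  · rw [bw, gC, map_mul, map_mul, map_inv, hσ.hd j h, hσ.he j]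
  · rw [bw, Vale.Agent.P002R.hcomm, map_mul, map_mul, map_mul, map_inv, map_inv, hσ.ha i h,
      hσ.hb i h]

theorem Fix.prod_eq {b : Fin n ⊕ Fin m} {σ : FF (m + 1) n →* FF (m + 1) n} (hσ : Fix b σ)
    (l : List (Fin n ⊕ Fin m)) (h : b ∉ l) : σ (l.map bw).prod = (l.map bw).prod := by
  induction l with
  | nil => simp
  | cons a l ih =>
    rw [List.mem_cons, not_or] at h
    rw [List.map_cons, List.prod_cons, map_mul, ih h.2, hσ.bw_eq a h.1]

theorem gC_mem (j : Fin n) : gC j ∈ Fc (m + 1) n :=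
  Subgroup.subset_closure (Or.inr ⟨j, rfl⟩)

theorem inl_mem (k : Fin (m + 1) × Bool) : FreeGroup.of (Sum.inl k) ∈ Fc (m + 1) n :=
  Subgroup.subset_closure (Or.inl ⟨k, rfl⟩)

theorem bw_mem (b : Fin n ⊕ Fin m) : bw b ∈ Fc (m + 1) n := by
  rcases b with j | i
  · exact gC_mem j
  · exact mul_mem (mul_mem (mul_mem (inl_mem _) (inl_mem _)) (inv_mem (inl_mem _)))
      (inv_mem (inl_mem _))

theorem prod_mem' (l : List (Fin n ⊕ Fin m)) : (l.map bw).prod ∈ Fc (m + 1) n := by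
  refine list_prod_mem fun w hw => ?_
  rw [List.mem_map] at hw
  obtain ⟨b, -, rfl⟩ := hw
  exact bw_mem b

/-- The part of the block of `q` before `loop0 q`. -/
def preW : Loop m n → FF (m + 1) n
  | Sum.inl _ => 1
  | Sum.inr (i, false) => gA i.castSucc
  | Sum.inr (i, true) => gA i.castSucc * gB i.castSucc * (gA i.castSucc)⁻¹

theorem bw_blk (q : Loop m n) : bw (blk q) = preW q * loop0 q := by
  rcases q with j | ⟨i, b⟩
  · rw [preW, one_mul]
    rfl
  · cases b
    · show Vale.Agent.P002R.hcomm i.castSucc = gA i.castSucc *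
        (gB i.castSucc * (gA i.castSucc)⁻¹ * (gB i.castSucc)⁻¹)
      rw [Vale.Agent.P002R.hcomm]
      group
    · show Vale.Agent.P002R.hcomm i.castSucc = gA i.castSucc * gB i.castSucc *
        (gA i.castSucc)⁻¹ * (gB i.castSucc)⁻¹
      rw [Vale.Agent.P002R.hcomm]

theorem loop0_mem (q : Loop m n) : loop0 q ∈ Fc (m + 1) n := by
  rcases q with j | ⟨i, b⟩
  · exact gC_mem j
  · cases b
    · exact mul_mem (mul_mem (inl_mem _) (inv_mem (inl_mem _))) (inv_mem (inl_mem _))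
    · exact inv_mem (inl_mem _)

/-- The conjugate of `b_m` used in the slide. -/
def Xt (q : Loop m n) : FF (m + 1) n :=
  kap q * (gA (Fin.last m) * gB (Fin.last m) * (gA (Fin.last m))⁻¹) * (kap q)⁻¹

theorem kap_mem (q : Loop m n) : kap q ∈ Fc (m + 1) n := by
  obtain ⟨l₁, l₂, h1, h2, _⟩ := blocks_split (blk q)
  rw [kap, h1, aftL_append _ _ _ h2]
  exact prod_mem' l₂

theorem Xt_mem (q : Loop m n) : Xt q ∈ Fc (m + 1) n :=
  mul_mem (mul_mem (kap_mem q) (mul_mem (mul_mem (inl_mem _) (inl_mem _)) (inv_mem (inl_mem _))))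
    (inv_mem (kap_mem q))

theorem Fix.kap_eq {q : Loop m n} {σ : FF (m + 1) n →* FF (m + 1) n} (hσ : Fix (blk q) σ) :
    σ (kap q) = kap q := by
  obtain ⟨l₁, l₂, h1, h2, h3⟩ := blocks_split (blk q)
  rw [kap, h1, aftL_append _ _ _ h2, hσ.prod_eq l₂ h3]

theorem relator_split (q : Loop m n) : ∃ w : FF (m + 1) n,
    relator (m + 1) n = w * preW q * loop0 q * Xt q * kap q * (gB (Fin.last m))⁻¹ ∧
      ∀ σ, Fix (blk q) σ → σ w = w := by
  obtain ⟨l₁, l₂, h1, h2, h3⟩ := blocks_split (blk q)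
  refine ⟨(l₁.map bw).prod, ?_, fun σ hσ => hσ.prod_eq l₁ h2⟩
  have hk : kap q = (l₂.map bw).prod := by rw [kap, h1, aftL_append _ _ _ h2]
  rw [relator_eq_blocks, h1, List.map_append, List.map_cons, List.prod_append, List.prod_cons,
    bw_blk, ← hk, Xt, Vale.Agent.P002R.hcomm]
  group

theorem slide_rel {q : Loop m n} {σ : FF (m + 1) n →* FF (m + 1) n} (hσ : Fix (blk q) σ)
    (hC : σ (gA (Fin.last m)) = (kap q)⁻¹ * loop0 q * kap q * gA (Fin.last m))
    (hq : σ (loop0 q) = loop0 q * Xt q * loop0 q * (Xt q)⁻¹ * (loop0 q)⁻¹)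
    (hp : σ (preW q) = preW q) :
    σ (Xt q) = loop0 q * Xt q * (loop0 q)⁻¹ ∧ σ (relator (m + 1) n) = relator (m + 1) n := by
  have hX : σ (Xt q) = loop0 q * Xt q * (loop0 q)⁻¹ := by
    rw [Xt]
    simp only [map_mul, map_inv, hσ.kap_eq, hC, hσ.hl]
    group
  refine ⟨hX, ?_⟩
  obtain ⟨w, hw, hw'⟩ := relator_split q
  rw [hw]
  simp only [map_mul, map_inv, hσ.kap_eq, hq, hX, hσ.hl, hp, hw' σ hσ]
  group

theorem slide_rel_inv {q : Loop m n} {τ : FF (m + 1) n →* FF (m + 1) n} (hτ : Fix (blk q) τ)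
    (hC : τ (gA (Fin.last m)) =
      (kap q)⁻¹ * (Xt q)⁻¹ * (loop0 q)⁻¹ * Xt q * kap q * gA (Fin.last m))
    (hq : τ (loop0 q) = (Xt q)⁻¹ * loop0 q * Xt q)
    (hp : τ (preW q) = preW q) :
    τ (Xt q) = (Xt q)⁻¹ * (loop0 q)⁻¹ * Xt q * loop0 q * Xt q ∧
      τ (relator (m + 1) n) = relator (m + 1) n := by
  have hX : τ (Xt q) = (Xt q)⁻¹ * (loop0 q)⁻¹ * Xt q * loop0 q * Xt q := by
    have h1 : τ (Xt q) = (Xt q)⁻¹ * (loop0 q)⁻¹ * Xt q * (kap q *
        (gA (Fin.last m) * gB (Fin.last m) * (gA (Fin.last m))⁻¹) * (kap q)⁻¹) *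
        ((Xt q)⁻¹ * loop0 q * Xt q) := by
      have h2 : τ (Xt q) = τ (kap q * (gA (Fin.last m) * gB (Fin.last m) *
        (gA (Fin.last m))⁻¹) * (kap q)⁻¹) := rfl
      rw [h2]
      simp only [map_mul, map_inv, hτ.kap_eq, hC, hτ.hl]
      group
    rw [h1]
    show (Xt q)⁻¹ * (loop0 q)⁻¹ * Xt q * Xt q * ((Xt q)⁻¹ * loop0 q * Xt q) = _
    group
  refine ⟨hX, ?_⟩
  obtain ⟨w, hw, hw'⟩ := relator_split q
  rw [hw]
  simp only [map_mul, map_inv, hτ.kap_eq, hq, hX, hτ.hl, hp, hw' τ hτ]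
  group

/-- General construction of the slide from formulas on the block. -/
theorem slide_build (q : Loop m n) (σ τ : FF (m + 1) n →* FF (m + 1) n)
    (hσ : Fix (blk q) σ) (hτ : Fix (blk q) τ)
    (σC : σ (gA (Fin.last m)) = (kap q)⁻¹ * loop0 q * kap q * gA (Fin.last m))
    (τC : τ (gA (Fin.last m)) =
      (kap q)⁻¹ * (Xt q)⁻¹ * (loop0 q)⁻¹ * Xt q * kap q * gA (Fin.last m))
    (σq : σ (loop0 q) = loop0 q * Xt q * loop0 q * (Xt q)⁻¹ * (loop0 q)⁻¹)
    (τq : τ (loop0 q) = (Xt q)⁻¹ * loop0 q * Xt q)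
    (σp : σ (preW q) = preW q) (τp : τ (preW q) = preW q)
    (σd : ∀ j, ∃ u ∈ Fc (m + 1) n, σ (gD j) = u * gD j)
    (τd : ∀ j, ∃ u ∈ Fc (m + 1) n, τ (gD j) = u * gD j)
    (σab : ∀ k, σ (FreeGroup.of (Sum.inl k)) ∈ Fc (m + 1) n)
    (τab : ∀ k, τ (FreeGroup.of (Sum.inl k)) ∈ Fc (m + 1) n)
    (hτσ : ∀ k, k ≠ Sum.inl (Fin.last m, false) → τ (σ (FreeGroup.of k)) = FreeGroup.of k)
    (hστ : ∀ k, k ≠ Sum.inl (Fin.last m, false) → σ (τ (FreeGroup.of k)) = FreeGroup.of k) :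
    ∃ e : FF (m + 1) n ≃* FF (m + 1) n, (∀ w, e w = σ w) ∧ (∀ w, e.symm w = τ w) ∧
      Adm e ∧ Adm e.symm := by
  obtain ⟨σX, σR⟩ := slide_rel hσ σC σq σp
  obtain ⟨τX, τR⟩ := slide_rel_inv hτ τC τq τp
  have h1 : τ.comp σ = MonoidHom.id _ := by
    refine FreeGroup.ext_hom _ _ fun k => ?_
    rw [MonoidHom.comp_apply, MonoidHom.id_apply]
    by_cases hk : k = Sum.inl (Fin.last m, false)
    · subst hk
      show τ (σ (gA (Fin.last m))) = gA (Fin.last m)
      rw [σC]
      simp only [map_mul, map_inv, hτ.kap_eq, τC, τq]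
      group
    · exact hτσ k hk
  have h2 : σ.comp τ = MonoidHom.id _ := by
    refine FreeGroup.ext_hom _ _ fun k => ?_
    rw [MonoidHom.comp_apply, MonoidHom.id_apply]
    by_cases hk : k = Sum.inl (Fin.last m, false)
    · subst hk
      show σ (τ (gA (Fin.last m))) = gA (Fin.last m)
      rw [τC]
      simp only [map_mul, map_inv, hσ.kap_eq, σC, σq, σX]
      group
    · exact hστ k hk
  refine ⟨MonoidHom.toMulEquiv σ τ h1 h2, fun w => rfl, fun w => rfl, ?_, ?_⟩
  · exact ⟨σR, hσ.he, σd, σab⟩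
  · exact ⟨τR, hτ.he, τd, τab⟩

section der

variable {κ : Type*} {x : FreeGroup κ →* (Mat r ℂ)ˣ} {E : FreeGroup κ → Mat r ℂ}

theorem der_one (hE : IsDer x E) : E 1 = 0 := by
  have h := hE 1 1
  rw [mul_one, map_one, Units.val_one, Matrix.mul_one, Matrix.one_mul] at h
  exact (add_eq_left.1 h.symm)

/-- Derivation of a conjugate of an element of the kernel. -/
theorem der_conj (hE : IsDer x E) (w c : FreeGroup κ) (hc : x c = 1) :
    E (w * c * w⁻¹) = (x w : Mat r ℂ) * E c * (((x w)⁻¹ : (Mat r ℂ)ˣ) : Mat r ℂ) := by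
  have h0 : E w * (((x w)⁻¹ : (Mat r ℂ)ˣ) : Mat r ℂ) + (x w : Mat r ℂ) * E w⁻¹ = 0 := by
    have h := hE w w⁻¹
    rw [mul_inv_cancel, der_one hE, map_inv] at h
    exact h.symm
  have h3 : E (w * c) = E w + (x w : Mat r ℂ) * E c := by
    rw [hE, hc, Units.val_one, Matrix.mul_one]
  rw [hE, h3, map_mul, hc, mul_one, map_inv, Matrix.add_mul]
  rw [add_right_comm, h0, zero_add]

theorem der_inv_mul (hE : IsDer x E) (c w : FreeGroup κ) (hc : x c = 1) :
    E (c⁻¹ * w) = E w - E c * (x w : Mat r ℂ) := by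
  have h1 : E (c⁻¹) = - E c := by
    have h := hE c c⁻¹
    rw [mul_inv_cancel, der_one hE, map_inv, hc, inv_one, Units.val_one, Matrix.mul_one,
      Matrix.one_mul] at h
    exact (neg_eq_of_add_eq_zero_right h.symm).symm
  rw [hE, h1, map_inv, hc, inv_one, Units.val_one, Matrix.one_mul, Matrix.neg_mul]
  abel

theorem der_mul_ker (hE : IsDer x E) (w c : FreeGroup κ) (hc : x c = 1) :
    E (w * c) = E w + (x w : Mat r ℂ) * E c := by
  rw [hE, hc, Units.val_one, Matrix.mul_one]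

end der

theorem x_Xt {G : Type*} [Group G] (x : FF (m + 1) n →* G) (hx : x (gB (Fin.last m)) = 1)
    (q : Loop m n) : x (Xt q) = 1 := by
  rw [Xt]
  simp only [map_mul, map_inv, hx]
  group

theorem E_Xt (x : FF (m + 1) n →* (Mat r ℂ)ˣ) (hx : x (gB (Fin.last m)) = 1)
    {E : FF (m + 1) n → Mat r ℂ} (hE : IsDer x E) (q : Loop m n) :
    E (Xt q) = (x (kap q) : Mat r ℂ) * ((x (gA (Fin.last m)) : Mat r ℂ) *
      E (gB (Fin.last m)) * (((x (gA (Fin.last m)))⁻¹ : (Mat r ℂ)ˣ) : Mat r ℂ)) *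
        (((x (kap q))⁻¹ : (Mat r ℂ)ˣ) : Mat r ℂ) := by
  rw [Xt, der_conj hE _ _ (by simp [hx]), der_conj hE _ _ hx]

theorem exists_hom2 {κ G : Type*} [DecidableEq κ] [Group G] (f : κ → G) (k₁ k₂ : κ)
    (h : k₂ ≠ k₁) (v₁ v₂ : G) : ∃ σ : FreeGroup κ →* G, σ (FreeGroup.of k₁) = v₁ ∧
      σ (FreeGroup.of k₂) = v₂ ∧ ∀ k, k ≠ k₁ → k ≠ k₂ → σ (FreeGroup.of k) = f k := by
  refine ⟨FreeGroup.lift fun k => if k = k₁ then v₁ else if k = k₂ then v₂ else f k,
    ?_, ?_, ?_⟩
  · rw [FreeGroup.lift_apply_of, if_pos rfl]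
  · rw [FreeGroup.lift_apply_of, if_neg h, if_pos rfl]
  · intro k h1 h2
    rw [FreeGroup.lift_apply_of, if_neg h1, if_neg h2]

theorem exists_hom3 {κ G : Type*} [DecidableEq κ] [Group G] (f : κ → G) (k₁ k₂ k₃ : κ)
    (h : k₂ ≠ k₁) (h' : k₃ ≠ k₁) (h'' : k₃ ≠ k₂) (v₁ v₂ v₃ : G) :
    ∃ σ : FreeGroup κ →* G, σ (FreeGroup.of k₁) = v₁ ∧
      σ (FreeGroup.of k₂) = v₂ ∧ σ (FreeGroup.of k₃) = v₃ ∧
        ∀ k, k ≠ k₁ → k ≠ k₂ → k ≠ k₃ → σ (FreeGroup.of k) = f k := by
  refine ⟨FreeGroup.lift fun k => if k = k₁ then v₁ else if k = k₂ then v₂ else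
    if k = k₃ then v₃ else f k, ?_, ?_, ?_, ?_⟩
  · rw [FreeGroup.lift_apply_of, if_pos rfl]
  · rw [FreeGroup.lift_apply_of, if_neg h, if_pos rfl]
  · rw [FreeGroup.lift_apply_of, if_neg h', if_neg h'', if_pos rfl]
  · intro k h1 h2 h3
    rw [FreeGroup.lift_apply_of, if_neg h1, if_neg h2, if_neg h3]

/-- The statement about the slide around the loop `q`. -/
def SlideStatement (q : Loop m n) : Prop :=
    ∃ σ : FF (m + 1) n ≃* FF (m + 1) n, Adm σ ∧ Adm σ.symm ∧
      σ (gB (Fin.last m)) = gB (Fin.last m) ∧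
      (∀ {G : Type} [Group G] (x : FF (m + 1) n →* G), x (gB (Fin.last m)) = 1 →
        x (σ (gA (Fin.last m))) = x (loopW q) * x (gA (Fin.last m)) ∧
          ∀ k, k ≠ Sum.inl (Fin.last m, false) →
            x (σ (FreeGroup.of k)) = x (FreeGroup.of k)) ∧
      (∀ (r : ℕ) (x : FF (m + 1) n →* (Mat r ℂ)ˣ), x (gB (Fin.last m)) = 1 →
        ∀ E : FF (m + 1) n → Mat r ℂ, IsDer x E → ∀ k, k ≠ Sum.inl (Fin.last m, false) →
          E (σ.symm (FreeGroup.of k)) = E (FreeGroup.of k) +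
            Lam x q ((x (gA (Fin.last m)) : Mat r ℂ) * E (gB (Fin.last m)) *
              (((x (gA (Fin.last m)))⁻¹ : (Mat r ℂ)ˣ) : Mat r ℂ)) k)

theorem slide_puncture (j : Fin n) : SlideStatement (m := m) (Sum.inl j) := by
  obtain ⟨q, hq⟩ : ∃ q : Loop m n, q = Sum.inl j := ⟨_, rfl⟩
  rw [← hq]
  have hne : (Sum.inl (Fin.last m, false) : Gen (m + 1) n) ≠ Sum.inr (j, false) := Sum.inl_ne_inr
  have hq0 : loop0 q = gC j := by rw [hq]; rfl
  have hpre : preW q = 1 := by rw [hq]; rfl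
  have hblk : blk q = Sum.inl j := by rw [hq]; rfl
  obtain ⟨σ, σd, σC, σo⟩ := exists_hom2 (FreeGroup.of : Gen (m + 1) n → FF (m + 1) n)
    (Sum.inr (j, false)) (Sum.inl (Fin.last m, false)) hne
    (gC j * Xt q * (gC j)⁻¹ * gD j) ((kap q)⁻¹ * loop0 q * kap q * gA (Fin.last m))
  obtain ⟨τ, τd, τC, τo⟩ := exists_hom2 (FreeGroup.of : Gen (m + 1) n → FF (m + 1) n)
    (Sum.inr (j, false)) (Sum.inl (Fin.last m, false)) hne
    ((Xt q)⁻¹ * gD j) ((kap q)⁻¹ * (Xt q)⁻¹ * (loop0 q)⁻¹ * Xt q * kap q * gA (Fin.last m))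
  have hfix : ∀ ρ : FF (m + 1) n →* FF (m + 1) n, (∀ k, k ≠ Sum.inr (j, false) →
      k ≠ Sum.inl (Fin.last m, false) → ρ (FreeGroup.of k) = FreeGroup.of k) →
        Fix (blk q) ρ := by
    intro ρ hρ
    rw [hblk]
    refine ⟨fun j' hj' => hρ _ ?_ Sum.inr_ne_inl, fun j' => hρ _ (by simp) Sum.inr_ne_inl,
      fun i _ => hρ _ Sum.inl_ne_inr ?_, fun i _ => hρ _ Sum.inl_ne_inr (by simp),
      hρ _ Sum.inl_ne_inr (by simp)⟩
    · intro h
      apply hj'
      simp only [Sum.inr.injEq, Prod.mk.injEq, and_true] at h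
      rw [h]
    · intro h
      simp only [Sum.inl.injEq, Prod.mk.injEq, and_true] at h
      exact (Fin.castSucc_lt_last i).ne h
  have σF := hfix σ σo
  have τF := hfix τ τo
  have σd' : σ (gD j) = gC j * Xt q * (gC j)⁻¹ * gD j := σd
  have τd' : τ (gD j) = (Xt q)⁻¹ * gD j := τd
  have σq : σ (loop0 q) = loop0 q * Xt q * loop0 q * (Xt q)⁻¹ * (loop0 q)⁻¹ := by
    rw [hq0]
    conv_lhs => rw [gC]
    simp only [map_mul, map_inv, σd', σF.he]
    have : (gC j : FF (m + 1) n) = gD j * gE j * (gD j)⁻¹ := rfl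
    rw [this]
    group
  have τq : τ (loop0 q) = (Xt q)⁻¹ * loop0 q * Xt q := by
    rw [hq0]
    conv_lhs => rw [gC]
    simp only [map_mul, map_inv, τd', τF.he]
    have : (gC j : FF (m + 1) n) = gD j * gE j * (gD j)⁻¹ := rfl
    rw [this]
    group
  have σp : σ (preW q) = preW q := by rw [hpre, map_one]
  have τp : τ (preW q) = preW q := by rw [hpre, map_one]
  have hdd : ∀ ρ : FF (m + 1) n →* FF (m + 1) n, Fix (blk q) ρ → ∀ u ∈ Fc (m + 1) n,
      ρ (gD j) = u * gD j → ∀ j', ∃ u ∈ Fc (m + 1) n, ρ (gD j') = u * gD j' := by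
    intro ρ hρ u hu h j'
    by_cases hj : j' = j
    · subst hj
      exact ⟨u, hu, h⟩
    · refine ⟨1, one_mem _, ?_⟩
      rw [one_mul]
      refine hρ.hd j' ?_
      rw [hblk]
      intro h1
      exact hj (Sum.inl_injective h1).symm
  have hab : ∀ ρ : FF (m + 1) n →* FF (m + 1) n, (∀ k, k ≠ Sum.inr (j, false) →
      k ≠ Sum.inl (Fin.last m, false) → ρ (FreeGroup.of k) = FreeGroup.of k) →
      ρ (gA (Fin.last m)) ∈ Fc (m + 1) n →
        ∀ k, ρ (FreeGroup.of (Sum.inl k)) ∈ Fc (m + 1) n := by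
    intro ρ hρ h k
    by_cases hk : k = (Fin.last m, false)
    · subst hk
      exact h
    · rw [hρ _ Sum.inl_ne_inr fun h1 => hk (Sum.inl_injective h1)]
      exact inl_mem k
  have hCm : gA (Fin.last m) ∈ Fc (m + 1) n := inl_mem _
  obtain ⟨e, he, he', hA, hA'⟩ := slide_build q σ τ σF τF σC τC σq τq σp τp
    (hdd σ σF _ (mul_mem (mul_mem (gC_mem j) (Xt_mem q)) (inv_mem (gC_mem j))) σd')
    (hdd τ τF _ (inv_mem (Xt_mem q)) τd')
    (hab σ σo (by
      rw [show σ (gA (Fin.last m)) = _ from σC]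
      exact mul_mem (mul_mem (mul_mem (inv_mem (kap_mem q)) (loop0_mem q)) (kap_mem q)) hCm))
    (hab τ τo (by
      rw [show τ (gA (Fin.last m)) = _ from τC]
      exact mul_mem (mul_mem (mul_mem (mul_mem (mul_mem (inv_mem (kap_mem q))
        (inv_mem (Xt_mem q))) (inv_mem (loop0_mem q))) (Xt_mem q)) (kap_mem q)) hCm))
    (by
      intro k hk
      by_cases hk1 : k = Sum.inr (j, false)
      · subst hk1
        rw [σd]
        have hX := (slide_rel_inv τF τC τq τp).1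
        have hg : τ (gC j) = (Xt q)⁻¹ * gC j * Xt q := by rw [← hq0]; exact τq
        simp only [map_mul, map_inv, hX, hg, τd', hq0]
        show _ = gD j
        group
      · rw [σo k hk1 hk, τo k hk1 hk])
    (by
      intro k hk
      by_cases hk1 : k = Sum.inr (j, false)
      · subst hk1
        rw [τd]
        have hX := (slide_rel σF σC σq σp).1
        simp only [map_mul, map_inv, hX, σd', hq0]
        show _ = gD j
        group
      · rw [τo k hk1 hk, σo k hk1 hk])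
  refine ⟨e, hA, hA', ?_, ?_, ?_⟩
  · rw [he]; exact σF.hl
  · intro G _ x hx
    constructor
    · rw [he, show σ (gA (Fin.last m)) = _ from σC, loopW]
      simp only [map_mul]
    · intro k hk
      rw [he]
      by_cases hk1 : k = Sum.inr (j, false)
      · subst hk1
        rw [σd]
        simp only [map_mul, map_inv, x_Xt x hx]
        show _ = x (gD j)
        group
      · rw [σo k hk1 hk]
  · intro r x hx E hE k hk
    rw [he', hq]
    by_cases hk1 : k = Sum.inr (j, false)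
    · subst hk1
      rw [τd, der_inv_mul hE _ _ (x_Xt x hx q), E_Xt x hx hE]
      simp only [Lam, if_true]
      rw [sub_eq_add_neg, hq]
      rfl
    · rw [τo k hk1 hk]
      simp only [Lam, if_neg hk1, add_zero]

/-- For slides around loops of the handle `i`. -/
theorem fix_handle (i : Fin m) (ρ : FF (m + 1) n →* FF (m + 1) n)
    (hρ : ∀ k : Gen (m + 1) n, k ≠ Sum.inl (i.castSucc, false) → k ≠ Sum.inl (i.castSucc, true) →
      k ≠ Sum.inl (Fin.last m, false) → ρ (FreeGroup.of k) = FreeGroup.of k) :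
    Fix (Sum.inr i) ρ := by
  have hlt : ∀ i : Fin m, i.castSucc ≠ Fin.last m := fun i => (Fin.castSucc_lt_last i).ne
  refine ⟨fun j' _ => hρ _ Sum.inr_ne_inl Sum.inr_ne_inl Sum.inr_ne_inl,
    fun j' => hρ _ Sum.inr_ne_inl Sum.inr_ne_inl Sum.inr_ne_inl,
    fun i' hi => hρ _ ?_ (by simp) ?_, fun i' hi => hρ _ (by simp) ?_ (by simp),
    hρ _ (by simp) ?_ (by simp)⟩
  · intro h
    simp only [Sum.inl.injEq, Prod.mk.injEq, and_true] at h
    exact hi (congrArg Sum.inr (Fin.castSucc_injective m h).symm)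
  · intro h
    simp only [Sum.inl.injEq, Prod.mk.injEq, and_true] at h
    exact hlt i' h
  · intro h
    simp only [Sum.inl.injEq, Prod.mk.injEq, and_true] at h
    exact hi (congrArg Sum.inr (Fin.castSucc_injective m h).symm)
  · intro h
    simp only [Sum.inl.injEq, Prod.mk.injEq, and_true] at h
    exact hlt i h.symm

theorem ab_handle (i : Fin m) (ρ : FF (m + 1) n →* FF (m + 1) n)
    (hρ : ∀ k : Gen (m + 1) n, k ≠ Sum.inl (i.castSucc, false) → k ≠ Sum.inl (i.castSucc, true) →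
      k ≠ Sum.inl (Fin.last m, false) → ρ (FreeGroup.of k) = FreeGroup.of k)
    (ha : ρ (gA i.castSucc) ∈ Fc (m + 1) n) (hb : ρ (gB i.castSucc) ∈ Fc (m + 1) n)
    (hC : ρ (gA (Fin.last m)) ∈ Fc (m + 1) n) (k : Fin (m + 1) × Bool) :
    ρ (FreeGroup.of (Sum.inl k)) ∈ Fc (m + 1) n := by
  by_cases h1 : k = (i.castSucc, false)
  · subst h1
    exact ha
  · by_cases h2 : k = (i.castSucc, true)
    · subst h2
      exact hb
    · by_cases h3 : k = (Fin.last m, false)
      · subst h3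
        exact hC
      · rw [hρ _ (fun h => h1 (Sum.inl_injective h)) (fun h => h2 (Sum.inl_injective h))
          fun h => h3 (Sum.inl_injective h)]
        exact inl_mem k

theorem d_handle (i : Fin m) (ρ : FF (m + 1) n →* FF (m + 1) n)
    (hρ : ∀ k : Gen (m + 1) n, k ≠ Sum.inl (i.castSucc, false) → k ≠ Sum.inl (i.castSucc, true) →
      k ≠ Sum.inl (Fin.last m, false) → ρ (FreeGroup.of k) = FreeGroup.of k) (j : Fin n) :
    ∃ u ∈ Fc (m + 1) n, ρ (gD j) = u * gD j := by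
  refine ⟨1, one_mem _, ?_⟩
  rw [one_mul]
  exact hρ _ Sum.inr_ne_inl Sum.inr_ne_inl Sum.inr_ne_inl

theorem slide_handle₁ (i : Fin m) : SlideStatement (n := n) (Sum.inr (i, false)) := by
  obtain ⟨q, hq⟩ : ∃ q : Loop m n, q = Sum.inr (i, false) := ⟨_, rfl⟩
  rw [← hq]
  have hne : (Sum.inl (Fin.last m, false) : Gen (m + 1) n) ≠ Sum.inl (i.castSucc, true) := by
    simp
  obtain ⟨a, ha⟩ : ∃ a : FF (m + 1) n, a = gA i.castSucc := ⟨_, rfl⟩
  obtain ⟨b, hb⟩ : ∃ b : FF (m + 1) n, b = gB i.castSucc := ⟨_, rfl⟩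
  have hq0 : loop0 q = b * a⁻¹ * b⁻¹ := by rw [hq, ha, hb]; rfl
  have hpre : preW q = a := by rw [hq, ha]; rfl
  have hblk : blk q = Sum.inr i := by rw [hq]; rfl
  obtain ⟨σ, σb, σC, σo⟩ := exists_hom2 (FreeGroup.of : Gen (m + 1) n → FF (m + 1) n)
    (Sum.inl (i.castSucc, true)) (Sum.inl (Fin.last m, false)) hne
    (loop0 q * Xt q * b * a) ((kap q)⁻¹ * loop0 q * kap q * gA (Fin.last m))
  obtain ⟨τ, τb, τC, τo⟩ := exists_hom2 (FreeGroup.of : Gen (m + 1) n → FF (m + 1) n)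
    (Sum.inl (i.castSucc, true)) (Sum.inl (Fin.last m, false)) hne
    ((Xt q)⁻¹ * b) ((kap q)⁻¹ * (Xt q)⁻¹ * (loop0 q)⁻¹ * Xt q * kap q * gA (Fin.last m))
  have σF : Fix (blk q) σ := by
    rw [hblk]; exact fix_handle i σ fun k _ h2 h3 => σo k h2 h3
  have τF : Fix (blk q) τ := by
    rw [hblk]; exact fix_handle i τ fun k _ h2 h3 => τo k h2 h3
  have hane : (Sum.inl (i.castSucc, false) : Gen (m + 1) n) ≠ Sum.inl (Fin.last m, false) := by
    intro h
    simp only [Sum.inl.injEq, Prod.mk.injEq, and_true] at h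
    exact (Fin.castSucc_lt_last i).ne h
  have σa : σ a = a := by rw [ha]; exact σo _ (by simp) hane
  have τa : τ a = a := by rw [ha]; exact τo _ (by simp) hane
  have σb' : σ b = loop0 q * Xt q * b * a := by conv_lhs => rw [hb]; exact σb
  have τb' : τ b = (Xt q)⁻¹ * b := by conv_lhs => rw [hb]; exact τb
  have σq : σ (loop0 q) = loop0 q * Xt q * loop0 q * (Xt q)⁻¹ * (loop0 q)⁻¹ := by
    have h1 : σ (loop0 q) = σ (b * a⁻¹ * b⁻¹) := by rw [hq0]
    rw [h1]
    simp only [map_mul, map_inv, σa, σb']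
    rw [hq0]
    group
  have τq : τ (loop0 q) = (Xt q)⁻¹ * loop0 q * Xt q := by
    have h1 : τ (loop0 q) = τ (b * a⁻¹ * b⁻¹) := by rw [hq0]
    rw [h1]
    simp only [map_mul, map_inv, τa, τb']
    rw [hq0]
    group
  have σp : σ (preW q) = preW q := by rw [hpre, σa]
  have τp : τ (preW q) = preW q := by rw [hpre, τa]
  have hCm : gA (Fin.last m) ∈ Fc (m + 1) n := inl_mem _
  have ham : a ∈ Fc (m + 1) n := by rw [ha]; exact inl_mem _
  have hbm : b ∈ Fc (m + 1) n := by rw [hb]; exact inl_mem _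
  obtain ⟨e, he, he', hA, hA'⟩ := slide_build q σ τ σF τF σC τC σq τq σp τp
    (d_handle i σ fun k _ h2 h3 => σo k h2 h3)
    (d_handle i τ fun k _ h2 h3 => τo k h2 h3)
    (ab_handle i σ (fun k _ h2 h3 => σo k h2 h3) (by rw [← ha, σa]; exact ham)
      (by
        rw [← hb, σb']
        exact mul_mem (mul_mem (mul_mem (loop0_mem q) (Xt_mem q)) hbm) ham)
      (by
        rw [show σ (gA (Fin.last m)) = _ from σC]
        exact mul_mem (mul_mem (mul_mem (inv_mem (kap_mem q)) (loop0_mem q)) (kap_mem q)) hCm))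
    (ab_handle i τ (fun k _ h2 h3 => τo k h2 h3) (by rw [← ha, τa]; exact ham)
      (by
        rw [← hb, τb']
        exact mul_mem (inv_mem (Xt_mem q)) hbm)
      (by
        rw [show τ (gA (Fin.last m)) = _ from τC]
        exact mul_mem (mul_mem (mul_mem (mul_mem (mul_mem (inv_mem (kap_mem q))
          (inv_mem (Xt_mem q))) (inv_mem (loop0_mem q))) (Xt_mem q)) (kap_mem q)) hCm))
    (by
      intro k hk
      by_cases hk1 : k = Sum.inl (i.castSucc, true)
      · subst hk1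
        rw [σb]
        have hX := (slide_rel_inv τF τC τq τp).1
        simp only [map_mul, hX, τq, τb', τa]
        have h2 : (FreeGroup.of (Sum.inl (i.castSucc, true)) : FF (m + 1) n) = b := by
          rw [hb]; rfl
        rw [h2, hq0]
        group
      · rw [σo k hk1 hk, τo k hk1 hk])
    (by
      intro k hk
      by_cases hk1 : k = Sum.inl (i.castSucc, true)
      · subst hk1
        rw [τb]
        have hX := (slide_rel σF σC σq σp).1
        simp only [map_mul, map_inv, hX, σb']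
        have h2 : (FreeGroup.of (Sum.inl (i.castSucc, true)) : FF (m + 1) n) = b := by
          rw [hb]; rfl
        rw [h2, hq0]
        group
      · rw [τo k hk1 hk, σo k hk1 hk])
  refine ⟨e, hA, hA', ?_, ?_, ?_⟩
  · rw [he]; exact σF.hl
  · intro G _ x hx
    constructor
    · rw [he, show σ (gA (Fin.last m)) = _ from σC, loopW]
      simp only [map_mul]
    · intro k hk
      rw [he]
      by_cases hk1 : k = Sum.inl (i.castSucc, true)
      · subst hk1
        rw [σb, hq0]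
        simp only [map_mul, map_inv, x_Xt x hx]
        have h2 : (FreeGroup.of (Sum.inl (i.castSucc, true)) : FF (m + 1) n) = b := by
          rw [hb]; rfl
        rw [h2]
        group
      · rw [σo k hk1 hk]
  · intro r x hx E hE k hk
    rw [he', hq]
    by_cases hk1 : k = Sum.inl (i.castSucc, true)
    · subst hk1
      rw [τb, der_inv_mul hE _ _ (x_Xt x hx q), E_Xt x hx hE]
      simp only [Lam, if_true]
      rw [sub_eq_add_neg, hq, hb]
      rfl
    · rw [τo k hk1 hk]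
      simp only [Lam, if_neg hk1, add_zero]

theorem slide_handle₂ (i : Fin m) : SlideStatement (n := n) (Sum.inr (i, true)) := by
  obtain ⟨q, hq⟩ : ∃ q : Loop m n, q = Sum.inr (i, true) := ⟨_, rfl⟩
  rw [← hq]
  have hne : (Sum.inl (Fin.last m, false) : Gen (m + 1) n) ≠ Sum.inl (i.castSucc, true) := by
    simp
  have hne' : (Sum.inl (Fin.last m, false) : Gen (m + 1) n) ≠ Sum.inl (i.castSucc, false) := by
    intro h
    simp only [Sum.inl.injEq, Prod.mk.injEq, and_true] at h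
    exact (Fin.castSucc_lt_last i).ne h.symm
  have hne'' : (Sum.inl (i.castSucc, true) : Gen (m + 1) n) ≠ Sum.inl (i.castSucc, false) := by
    simp
  obtain ⟨a, ha⟩ : ∃ a : FF (m + 1) n, a = gA i.castSucc := ⟨_, rfl⟩
  obtain ⟨b, hb⟩ : ∃ b : FF (m + 1) n, b = gB i.castSucc := ⟨_, rfl⟩
  have hq0 : loop0 q = b⁻¹ := by rw [hq, hb]; rfl
  have hpre : preW q = a * b * a⁻¹ := by rw [hq, ha, hb]; rfl
  have hblk : blk q = Sum.inr i := by rw [hq]; rfl
  obtain ⟨σ, σa, σb, σC, σo⟩ := exists_hom3 (FreeGroup.of : Gen (m + 1) n → FF (m + 1) n)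
    (Sum.inl (i.castSucc, false)) (Sum.inl (i.castSucc, true)) (Sum.inl (Fin.last m, false))
    hne'' hne' hne
    (a * b⁻¹ * (b⁻¹ * Xt q)⁻¹) ((b⁻¹ * Xt q) * b * (b⁻¹ * Xt q)⁻¹)
    ((kap q)⁻¹ * loop0 q * kap q * gA (Fin.last m))
  obtain ⟨τ, τa, τb, τC, τo⟩ := exists_hom3 (FreeGroup.of : Gen (m + 1) n → FF (m + 1) n)
    (Sum.inl (i.castSucc, false)) (Sum.inl (i.castSucc, true)) (Sum.inl (Fin.last m, false))
    hne'' hne' hne
    (a * Xt q) ((Xt q)⁻¹ * (b * Xt q))
    ((kap q)⁻¹ * (Xt q)⁻¹ * (loop0 q)⁻¹ * Xt q * kap q * gA (Fin.last m))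
  have σF : Fix (blk q) σ := by
    rw [hblk]; exact fix_handle i σ σo
  have τF : Fix (blk q) τ := by
    rw [hblk]; exact fix_handle i τ τo
  have σa' : σ a = a * b⁻¹ * (b⁻¹ * Xt q)⁻¹ := by conv_lhs => rw [ha]; exact σa
  have τa' : τ a = a * Xt q := by conv_lhs => rw [ha]; exact τa
  have σb' : σ b = (b⁻¹ * Xt q) * b * (b⁻¹ * Xt q)⁻¹ := by conv_lhs => rw [hb]; exact σb
  have τb' : τ b = (Xt q)⁻¹ * (b * Xt q) := by conv_lhs => rw [hb]; exact τb
  have σq : σ (loop0 q) = loop0 q * Xt q * loop0 q * (Xt q)⁻¹ * (loop0 q)⁻¹ := by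
    have h1 : σ (loop0 q) = σ (b⁻¹) := by rw [hq0]
    rw [h1]
    simp only [map_inv, σb']
    rw [hq0]
    group
  have τq : τ (loop0 q) = (Xt q)⁻¹ * loop0 q * Xt q := by
    have h1 : τ (loop0 q) = τ (b⁻¹) := by rw [hq0]
    rw [h1]
    simp only [map_inv, τb']
    rw [hq0]
    group
  have σp : σ (preW q) = preW q := by
    rw [hpre]
    simp only [map_mul, map_inv, σa', σb']
    group
  have τp : τ (preW q) = preW q := by
    rw [hpre]
    simp only [map_mul, map_inv, τa', τb']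
    group
  have hCm : gA (Fin.last m) ∈ Fc (m + 1) n := inl_mem _
  have ham : a ∈ Fc (m + 1) n := by rw [ha]; exact inl_mem _
  have hbm : b ∈ Fc (m + 1) n := by rw [hb]; exact inl_mem _
  have hum : b⁻¹ * Xt q ∈ Fc (m + 1) n := mul_mem (inv_mem hbm) (Xt_mem q)
  have hga : (FreeGroup.of (Sum.inl (i.castSucc, false)) : FF (m + 1) n) = a := by
    rw [ha]; rfl
  have hgb : (FreeGroup.of (Sum.inl (i.castSucc, true)) : FF (m + 1) n) = b := by
    rw [hb]; rfl
  obtain ⟨e, he, he', hA, hA'⟩ := slide_build q σ τ σF τF σC τC σq τq σp τp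
    (d_handle i σ σo) (d_handle i τ τo)
    (ab_handle i σ σo
      (by
        rw [← ha, σa']
        exact mul_mem (mul_mem ham (inv_mem hbm)) (inv_mem hum))
      (by
        rw [← hb, σb']
        exact mul_mem (mul_mem hum hbm) (inv_mem hum))
      (by
        rw [show σ (gA (Fin.last m)) = _ from σC]
        exact mul_mem (mul_mem (mul_mem (inv_mem (kap_mem q)) (loop0_mem q)) (kap_mem q)) hCm))
    (ab_handle i τ τo
      (by
        rw [← ha, τa']
        exact mul_mem ham (Xt_mem q))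
      (by
        rw [← hb, τb']
        exact mul_mem (inv_mem (Xt_mem q)) (mul_mem hbm (Xt_mem q)))
      (by
        rw [show τ (gA (Fin.last m)) = _ from τC]
        exact mul_mem (mul_mem (mul_mem (mul_mem (mul_mem (inv_mem (kap_mem q))
          (inv_mem (Xt_mem q))) (inv_mem (loop0_mem q))) (Xt_mem q)) (kap_mem q)) hCm))
    (by
      intro k hk
      have hX := (slide_rel_inv τF τC τq τp).1
      rw [hq0] at hX
      by_cases hk0 : k = Sum.inl (i.castSucc, false)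
      · subst hk0
        rw [σa]
        simp only [map_mul, map_inv, hX, τb', τa', hga]
        group
      · by_cases hk1 : k = Sum.inl (i.castSucc, true)
        · subst hk1
          rw [σb]
          simp only [map_mul, map_inv, hX, τb', hgb]
          group
        · rw [σo k hk0 hk1 hk, τo k hk0 hk1 hk])
    (by
      intro k hk
      have hX := (slide_rel σF σC σq σp).1
      rw [hq0] at hX
      by_cases hk0 : k = Sum.inl (i.castSucc, false)
      · subst hk0
        rw [τa]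
        simp only [map_mul, hX, σa', hga]
        group
      · by_cases hk1 : k = Sum.inl (i.castSucc, true)
        · subst hk1
          rw [τb]
          simp only [map_mul, map_inv, hX, σb', hgb]
          group
        · rw [τo k hk0 hk1 hk, σo k hk0 hk1 hk])
  refine ⟨e, hA, hA', ?_, ?_, ?_⟩
  · rw [he]; exact σF.hl
  · intro G _ x hx
    constructor
    · rw [he, show σ (gA (Fin.last m)) = _ from σC, loopW]
      simp only [map_mul]
    · intro k hk
      rw [he]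
      by_cases hk0 : k = Sum.inl (i.castSucc, false)
      · subst hk0
        rw [σa]
        simp only [map_mul, map_inv, x_Xt x hx, hga]
        group
      · by_cases hk1 : k = Sum.inl (i.castSucc, true)
        · subst hk1
          rw [σb]
          simp only [map_mul, map_inv, x_Xt x hx, hgb]
          group
        · rw [σo k hk0 hk1 hk]
  · intro r x hx E hE k hk
    rw [he', hq]
    by_cases hk0 : k = Sum.inl (i.castSucc, false)
    · subst hk0
      rw [τa, der_mul_ker hE _ _ (x_Xt x hx q), E_Xt x hx hE]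
      simp only [Lam, if_true]
      rw [hq, ha]
      rfl
    · by_cases hk1 : k = Sum.inl (i.castSucc, true)
      · subst hk1
        rw [τb, der_inv_mul hE _ _ (x_Xt x hx q), der_mul_ker hE _ _ (x_Xt x hx q), E_Xt x hx hE]
        have hxb : x (b * Xt q) = x b := by rw [map_mul, x_Xt x hx, mul_one]
        rw [hxb]
        simp only [Lam, if_true, if_neg hk0]
        rw [hq, hb, add_sub_assoc]
        rfl
      · rw [τo k hk0 hk1 hk]
        simp only [Lam, if_neg hk0, if_neg hk1, add_zero]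

end Slides

variable {m n : ℕ}

open Slides in
/-- TASK S -/
theorem exists_slide (q : Loop m n) :
    ∃ σ : FF (m + 1) n ≃* FF (m + 1) n, Adm σ ∧ Adm σ.symm ∧
      σ (gB (Fin.last m)) = gB (Fin.last m) ∧
      (∀ {G : Type} [Group G] (x : FF (m + 1) n →* G), x (gB (Fin.last m)) = 1 →
        x (σ (gA (Fin.last m))) = x (loopW q) * x (gA (Fin.last m)) ∧
          ∀ k, k ≠ Sum.inl (Fin.last m, false) →
            x (σ (FreeGroup.of k)) = x (FreeGroup.of k)) ∧
      (∀ (r : ℕ) (x : FF (m + 1) n →* (Mat r ℂ)ˣ), x (gB (Fin.last m)) = 1 →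
        ∀ E : FF (m + 1) n → Mat r ℂ, IsDer x E → ∀ k, k ≠ Sum.inl (Fin.last m, false) →
          E (σ.symm (FreeGroup.of k)) = E (FreeGroup.of k) +
            Lam x q ((x (gA (Fin.last m)) : Mat r ℂ) * E (gB (Fin.last m)) *
              (((x (gA (Fin.last m)))⁻¹ : (Mat r ℂ)ˣ) : Mat r ℂ)) k) := by
  rcases q with j | ⟨i, b⟩
  · exact slide_puncture j
  · cases b
    · exact slide_handle₁ i
    · exact slide_handle₂ i

end Vale.Agent.P002R
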