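import Vale.Agent.P002R.RComp
import Vale.Agent.P002R.RFlow
import Vale.Agent.P002R.RSlides
import Vale.Agent.P002R.RBlockA
import Vale.Agent.P002R.RIdent
import Vale.Agent.P002.AlgIndep

/-!
# The local theorem
-/

namespace Vale.Agent.P002R

open Matrix

variable {g m n r : ℕ}

/-- Derivations with prescribed values on the generators. -/
theorem exists_der {κ : Type*} (x : FreeGroup κ →* (Mat r ℂ)ˣ) (u : κ → Mat r ℂ) :
    ∃ E : FreeGroup κ → Mat r ℂ, IsDer x E ∧ ∀ k, E (FreeGroup.of k) = u k := by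
  have hY : ∀ k, ∃ y : (Mat r (PowerSeries ℂ))ˣ, (y : Mat r (PowerSeries ℂ)) =
      lin1 (x (FreeGroup.of k) : Mat r ℂ) (u k) := by
    intro k
    have : IsUnit (lin1 (x (FreeGroup.of k) : Mat r ℂ) (u k)) := by
      apply isUnit_of_const
      rw [lin1_const]
      exact (x (FreeGroup.of k)).isUnit
    exact this
  choose Y hY using hY
  have h0 : rep0 (FreeGroup.lift Y) = x := by
    apply FreeGroup.ext_hom
    intro k
    ext1
    rw [rep0, baseChange_apply, FreeGroup.lift_apply_of, hY, lin1_const]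
  refine ⟨der1 (FreeGroup.lift Y), ?_, fun k => ?_⟩
  · rw [← h0]; exact isDer_der1 _
  · rw [der1, FreeGroup.lift_apply_of, hY, lin1_one]

theorem IsDer.sub {κ : Type*} {x : FreeGroup κ →* (Mat r ℂ)ˣ} {E E' : FreeGroup κ → Mat r ℂ}
    (hE : IsDer x E) (hE' : IsDer x E') : IsDer x (fun w => E w - E' w) := by
  intro w w'
  simp only [hE w w', hE' w w', Matrix.sub_mul, Matrix.mul_sub]
  abel

/-! ### The functional -/

theorem Lam_add (x : FF (m + 1) n →* (Mat r ℂ)ˣ) (q : Loop m n) (ε ε' : Mat r ℂ)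
    (k : Gen (m + 1) n) : Lam x q (ε + ε') k = Lam x q ε k + Lam x q ε' k := by
  rcases q with j | ⟨i, b⟩
  · simp only [Lam]
    split_ifs
    · noncomm_ring
    · simp
  · cases b
    · simp only [Lam]
      split_ifs
      · noncomm_ring
      · simp
    · simp only [Lam]
      split_ifs
      · noncomm_ring
      · noncomm_ring
      · simp

theorem Lam_smul (x : FF (m + 1) n →* (Mat r ℂ)ˣ) (q : Loop m n) (c : ℂ) (ε : Mat r ℂ)
    (k : Gen (m + 1) n) : Lam x q (c • ε) k = c • Lam x q ε k := by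
  rcases q with j | ⟨i, b⟩
  · simp only [Lam]
    split_ifs
    · simp
    · simp
  · cases b
    · simp only [Lam]
      split_ifs
      · simp
      · simp
    · simp only [Lam]
      split_ifs
      · simp
      · simp [smul_sub]
      · simp

theorem exists_trace_repr (ψ : Mat r ℂ →ₗ[ℂ] ℂ) : ∃ R : Mat r ℂ, ∀ ε, ψ ε = trace (R * ε) := by
  refine ⟨Matrix.of fun i j => ψ (Matrix.single j i 1), fun ε => ?_⟩
  conv_lhs => rw [Matrix.matrix_eq_sum_single ε]
  simp only [map_sum, Matrix.trace, Matrix.diag_apply, Matrix.mul_apply, Matrix.of_apply]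
  rw [Finset.sum_comm]
  refine Finset.sum_congr rfl fun i _ => Finset.sum_congr rfl fun j _ => ?_
  have : Matrix.single j i (ε j i) = (ε j i) • Matrix.single j i (1 : ℂ) := by
    rw [Matrix.smul_single, smul_eq_mul, mul_one]
  rw [this, map_smul, smul_eq_mul, mul_comm]

theorem sum_Del (x : FF (m + 1) n →* (Mat r ℂ)ˣ) (s : Gen (m + 1) n → Mat r ℂ)
    (R : Loop m n → Mat r ℂ)
    (hR : ∀ q ε, ∑ k, trace (s k * Lam x q ε k) = trace (R q * ε)) (Z : Mat r ℂ)
    (p : List (Loop m n)) :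
    ∑ k, trace (s k * Del x Z k p) =
      trace ((((x (wordL p * gA (Fin.last m)))⁻¹ : (Mat r ℂ)ˣ) : Mat r ℂ) *
        theta (fun q => x (loopW q)) R p * (x (wordL p * gA (Fin.last m)) : Mat r ℂ) * Z) := by
  induction p with
  | nil => simp [Del, theta]
  | cons q p ih =>
    simp only [Del, Matrix.mul_add, Matrix.trace_add, Finset.sum_add_distrib, hR, ih, theta]
    have e1 : x (wordL (q :: p) * gA (Fin.last m)) =
        x (loopW q) * x (wordL p * gA (Fin.last m)) := by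
      rw [wordL, mul_assoc, map_mul]
    obtain ⟨Y, hY⟩ : ∃ Y, Y = x (wordL p * gA (Fin.last m)) := ⟨_, rfl⟩
    obtain ⟨P, hP⟩ : ∃ P, P = x (loopW q) := ⟨_, rfl⟩
    rw [e1, ← hY, ← hP]
    have e2 : (((P * Y)⁻¹ : (Mat r ℂ)ˣ) : Mat r ℂ) = ((Y⁻¹ : (Mat r ℂ)ˣ) : Mat r ℂ) *
        ((P⁻¹ : (Mat r ℂ)ˣ) : Mat r ℂ) := by
      rw [_root_.mul_inv_rev, Units.val_mul]
    have e3 : ((P⁻¹ : (Mat r ℂ)ˣ) : Mat r ℂ) * (P : Mat r ℂ) = 1 := by
      rw [← Units.val_mul, inv_mul_cancel, Units.val_one]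
    rw [e2, Units.val_mul]
    have e4 : trace (R q * ((P : Mat r ℂ) * (Y : Mat r ℂ) * Z *
        (((Y⁻¹ : (Mat r ℂ)ˣ) : Mat r ℂ) * ((P⁻¹ : (Mat r ℂ)ˣ) : Mat r ℂ)))) =
        trace (((Y⁻¹ : (Mat r ℂ)ˣ) : Mat r ℂ) * ((P⁻¹ : (Mat r ℂ)ˣ) : Mat r ℂ) * R q *
          ((P : Mat r ℂ) * (Y : Mat r ℂ)) * Z) := by
      rw [← Matrix.mul_assoc, Matrix.trace_mul_comm]
      simp only [Matrix.mul_assoc]
    rw [e4, ← Matrix.trace_add]
    congr 1
    have e5 : ((Y⁻¹ : (Mat r ℂ)ˣ) : Mat r ℂ) * ((P⁻¹ : (Mat r ℂ)ˣ) : Mat r ℂ) *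
        ((P : Mat r ℂ) * theta (fun q => x (loopW q)) R p * ((P⁻¹ : (Mat r ℂ)ˣ) : Mat r ℂ)) *
          ((P : Mat r ℂ) * (Y : Mat r ℂ)) =
        ((Y⁻¹ : (Mat r ℂ)ˣ) : Mat r ℂ) * theta (fun q => x (loopW q)) R p * (Y : Mat r ℂ) := by
      calc _ = ((Y⁻¹ : (Mat r ℂ)ˣ) : Mat r ℂ) * ((((P⁻¹ : (Mat r ℂ)ˣ) : Mat r ℂ) *
          (P : Mat r ℂ)) * theta (fun q => x (loopW q)) R p *
            ((((P⁻¹ : (Mat r ℂ)ˣ) : Mat r ℂ) * (P : Mat r ℂ)) * (Y : Mat r ℂ))) := by
            simp only [Matrix.mul_assoc]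
        _ = _ := by rw [e3, Matrix.one_mul, Matrix.one_mul, Matrix.mul_assoc]
    rw [Matrix.add_mul, Matrix.add_mul, e5]

/-! ### Realized tangent vectors -/

/-- The tangent vectors which are 1-jets of formal arcs in the closure of `D`. -/
def RealSet {κ : Type*} (D : Set (FreeGroup κ →* (Mat r ℂ)ˣ)) (ρ : FreeGroup κ →* (Mat r ℂ)ˣ) :
    Set (κ → Mat r ℂ) :=
  {u | ∃ x : FreeGroup κ →* (Mat r (PowerSeries ℂ))ˣ, InZ D x ∧ rep0 x = ρ ∧
    ∀ k, der1 x (FreeGroup.of k) = u k}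

theorem isUnit_one_add (T : Mat r (PowerSeries ℂ)) (τ : ℂ) :
    IsUnit (1 + (PowerSeries.X * PowerSeries.C (R := ℂ) τ) • T) := by
  apply isUnit_of_const
  have : (1 + (PowerSeries.X * PowerSeries.C (R := ℂ) τ) • T).map
      PowerSeries.constantCoeff = 1 := by
    ext i j
    by_cases h : i = j
    · subst h; simp
    · simp [Matrix.one_apply_ne h]
  rw [this]
  exact isUnit_one

theorem jet_one_add (T : Mat r (PowerSeries ℂ)) (τ : ℂ) :
    (1 + (PowerSeries.X * PowerSeries.C (R := ℂ) τ) • T).map (PowerSeries.coeff 1) =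
      τ • T.map PowerSeries.constantCoeff := by
  ext i j
  by_cases h : i = j
  · subst h
    simp [mul_assoc, PowerSeries.coeff_one]
  · simp [Matrix.one_apply_ne h, mul_assoc]

theorem jet0_one_add (T : Mat r (PowerSeries ℂ)) (τ : ℂ) :
    (1 + (PowerSeries.X * PowerSeries.C (R := ℂ) τ) • T).map
      PowerSeries.constantCoeff = 1 := by
  ext i j
  by_cases h : i = j
  · subst h; simp
  · simp [Matrix.one_apply_ne h]

/-- One step: adding a flow. -/
theorem realSet_flow {κ : Type*} [DecidableEq κ] (D : Set (FreeGroup κ →* (Mat r ℂ)ˣ))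
    (ρ : FreeGroup κ →* (Mat r ℂ)ˣ) (kA kB : κ)
    (hDt : ∀ y ∈ D, ∀ n : ℤ, y.comp (twist kB kA n) ∈ D) (σ : FreeGroup κ ≃* FreeGroup κ)
    (hD1 : ∀ y ∈ D, y.comp σ.toMonoidHom ∈ D) (hD2 : ∀ y ∈ D, y.comp σ.symm.toMonoidHom ∈ D)
    (hgen : AlgebraicIndependent ℤ fun p : Fin r × Fin r =>
      (ρ (σ (FreeGroup.of kA)) : Mat r ℂ) p.1 p.2) (e : ℕ)
    (Δ : FreeGroup κ → Mat r ℂ) (hΔ : IsDer (ρ.comp σ.toMonoidHom) Δ)
    (hΔk : ∀ k, Δ (FreeGroup.of k) = if k = kB then (ρ (σ (FreeGroup.of kB)) : Mat r ℂ) *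
      (ρ (σ (FreeGroup.of kA)) : Mat r ℂ) ^ e else 0)
    (u : κ → Mat r ℂ) (hu : u ∈ RealSet D ρ) (τ : ℂ) :
    (fun k => u k + τ • Δ (σ.symm (FreeGroup.of k))) ∈ RealSet D ρ := by
  obtain ⟨x, hx1, hx2, hx3⟩ := hu
  obtain ⟨y, hy⟩ : ∃ y, y = x.comp σ.toMonoidHom := ⟨_, rfl⟩
  have hy1 : InZ D y := by rw [hy]; exact hx1.comp' _ hD1
  have hy0 : rep0 y = ρ.comp σ.toMonoidHom := by rw [hy, ← hx2]; rfl
  obtain ⟨T, hT⟩ : ∃ T : Mat r (PowerSeries ℂ), T = (y (FreeGroup.of kA) : Mat r (PowerSeries ℂ)) :=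
    ⟨_, rfl⟩
  have hT0 : T.map PowerSeries.constantCoeff = (ρ (σ (FreeGroup.of kA)) : Mat r ℂ) := by
    have := congrArg (fun z : FreeGroup κ →* (Mat r ℂ)ˣ => (z (FreeGroup.of kA) : Mat r ℂ)) hy0
    rw [hT]
    exact this
  have hTalg := P002.generic_lift (PowerSeries.constantCoeff (R := ℂ)) T
    (by rw [hT0]; exact hgen)
  obtain ⟨z, hz⟩ := isUnit_one_add (T ^ e) τ
  have hzadj : (z : Mat r (PowerSeries ℂ)) ∈ Algebra.adjoin (PowerSeries ℂ) {T} := by
    rw [hz]
    refine Subalgebra.add_mem _ (Subalgebra.one_mem _) (Subalgebra.smul_mem _ ?_ _)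
    exact Subalgebra.pow_mem _ (Algebra.subset_adjoin (Set.mem_singleton _)) e
  have hflow : InZ D (flow y kB z) := by
    apply InZ.flow hDt hy1 (l := kA)
    · rw [← hT]; exact hTalg
    · rw [← hT]; exact hzadj
  have hz0 : (z : Mat r (PowerSeries ℂ)).map PowerSeries.constantCoeff = 1 := by
    rw [hz, jet0_one_add]
  have hz1 : (z : Mat r (PowerSeries ℂ)).map (PowerSeries.coeff 1) =
      τ • (ρ (σ (FreeGroup.of kA)) : Mat r ℂ) ^ e := by
    rw [hz, jet_one_add]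
    congr 1
    have : (T ^ e).map PowerSeries.constantCoeff = (T.map PowerSeries.constantCoeff) ^ e :=
      map_pow (RingHom.mapMatrix (PowerSeries.constantCoeff (R := ℂ))) T e
    rw [this, hT0]
  have hf0 : rep0 (flow y kB z) = ρ.comp σ.toMonoidHom := by
    rw [← hy0]
    apply FreeGroup.ext_hom
    intro k
    ext1
    rw [rep0, baseChange_apply, rep0, baseChange_apply, flow_of]
    split_ifs with h
    · rw [Units.val_mul, Matrix.map_mul, hz0, Matrix.mul_one, h]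
    · rfl
  have hder : der1 (flow y kB z) = fun w => der1 y w + τ • Δ w := by
    have h1 : IsDer (ρ.comp σ.toMonoidHom) (der1 (flow y kB z)) := by
      rw [← hf0]; exact isDer_der1 _
    have h2 : IsDer (ρ.comp σ.toMonoidHom) (der1 y) := by rw [← hy0]; exact isDer_der1 _
    refine IsDer.ext h1 (h2.add (hΔ.smul τ)) fun k => ?_
    rw [hΔk]
    rw [der1, flow_of]
    split_ifs with h
    · rw [Units.val_mul, map_coeff_one_mul, hz0, hz1, Matrix.mul_one, h]
      have h3 : (y (FreeGroup.of kB) : Mat r (PowerSeries ℂ)).map PowerSeries.constantCoeff =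
          (ρ (σ (FreeGroup.of kB)) : Mat r ℂ) := by
        have := congrArg (fun z : FreeGroup κ →* (Mat r ℂ)ˣ => (z (FreeGroup.of kB) : Mat r ℂ)) hy0
        exact this
      rw [h3, Matrix.mul_smul]
      rfl
    · rw [smul_zero, add_zero]
      rfl
  refine ⟨(flow y kB z).comp σ.symm.toMonoidHom, hflow.comp' _ hD2, ?_, fun k => ?_⟩
  · have h1 : rep0 ((flow y kB z).comp σ.symm.toMonoidHom) =
        (rep0 (flow y kB z)).comp σ.symm.toMonoidHom := rfl
    rw [h1, hf0]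
    ext1 k
    change ρ (σ (σ.symm (FreeGroup.of k))) = ρ (FreeGroup.of k)
    rw [MulEquiv.apply_symm_apply]
  · change der1 (flow y kB z) (σ.symm (FreeGroup.of k)) =
      u k + τ • Δ (σ.symm (FreeGroup.of k))
    rw [hder, ← hx3 k]
    have h2 : der1 y (σ.symm (FreeGroup.of k)) = der1 x (FreeGroup.of k) := by
      rw [hy]
      change der1 x (σ (σ.symm (FreeGroup.of k))) = _
      rw [MulEquiv.apply_symm_apply]
    simp only [h2]

/-- Start arcs: moving the value at the generator `kA`. -/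
theorem realSet_start {κ : Type*} [DecidableEq κ] (D : Set (FreeGroup κ →* (Mat r ℂ)ˣ))
    (ρ : FreeGroup κ →* (Mat r ℂ)ˣ) (kA : κ)
    (hbase : ∀ z : (Mat r (PowerSeries ℂ))ˣ,
      InZ D (flow (baseChange (algebraMap ℂ (PowerSeries ℂ)) ρ) kA z)) (α : Mat r ℂ) :
    (fun k => if k = kA then α else 0) ∈ RealSet D ρ := by
  obtain ⟨Y, hY⟩ : ∃ y : (Mat r (PowerSeries ℂ))ˣ, (y : Mat r (PowerSeries ℂ)) =
      lin1 (ρ (FreeGroup.of kA) : Mat r ℂ) α := by
    have : IsUnit (lin1 (ρ (FreeGroup.of kA) : Mat r ℂ) α) := by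
      apply isUnit_of_const
      rw [lin1_const]
      exact (ρ (FreeGroup.of kA)).isUnit
    exact this
  obtain ⟨x, hx⟩ : ∃ x, x = baseChange (algebraMap ℂ (PowerSeries ℂ)) ρ := ⟨_, rfl⟩
  have hxk : ∀ k, (flow x kA ((x (FreeGroup.of kA))⁻¹ * Y)) (FreeGroup.of k) =
      if k = kA then Y else x (FreeGroup.of k) := by
    intro k
    rw [flow_of]
    split_ifs
    · rw [mul_inv_cancel_left]
    · rfl
  refine ⟨flow x kA ((x (FreeGroup.of kA))⁻¹ * Y), ?_, ?_, ?_⟩
  · rw [hx]; exact hbase _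
  · apply FreeGroup.ext_hom
    intro k
    ext1
    rw [rep0, baseChange_apply, hxk]
    split_ifs with h
    · rw [hY, lin1_const, h]
    · rw [hx, baseChange_apply]
      ext i j
      simp
  · intro k
    change _ = if k = kA then α else 0
    rw [der1, hxk]
    by_cases h : k = kA
    · rw [if_pos h, if_pos h, hY, lin1_one]
    · rw [if_neg h, if_neg h, hx, baseChange_apply]
      ext i j
      rw [Matrix.map_apply, Matrix.map_apply, ← PowerSeries.C_eq_algebraMap, PowerSeries.coeff_C]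
      simp

/-! ### The Dehn twist along the last handle is admissible -/

theorem twist_relator (z : ℤ) :
    twist (Sum.inl (Fin.last m, true)) (Sum.inl (Fin.last m, false)) z (relator (m + 1) n) =
      relator (m + 1) n := by
  have hd : ∀ j : Fin n, twist (Sum.inl (Fin.last m, true)) (Sum.inl (Fin.last m, false)) z
      (gC j : FF (m + 1) n) = gC j := by
    intro j
    simp [gC, gD, gE, twist_of]
  have hh : ∀ i : Fin (m + 1), twist (Sum.inl (Fin.last m, true))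
      (Sum.inl (Fin.last m, false)) z (hcomm i : FF (m + 1) n) = hcomm i := by
    intro i
    by_cases hi : i = Fin.last m
    · subst hi
      simp only [hcomm, gA, gB, map_mul, map_inv, twist_of, if_true]
      simp only [Sum.inl.injEq, Prod.mk.injEq, true_and, Bool.false_eq_true, if_false]
      group
    · simp [hcomm, gA, gB, twist_of, hi]
  unfold relator
  have e1 : (⇑(twist (Sum.inl (Fin.last m, true)) (Sum.inl (Fin.last m, false)) z) ∘
      fun j : Fin n => (gC j : FF (m + 1) n)) = fun j => gC j := funext hd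
  have e2 : (⇑(twist (Sum.inl (Fin.last m, true)) (Sum.inl (Fin.last m, false)) z) ∘
      fun i : Fin (m + 1) => (hcomm i : FF (m + 1) n)) = fun i => hcomm i := funext hh
  rw [map_mul, map_list_prod, map_list_prod, List.map_ofFn, List.map_ofFn, e1, e2]

theorem dehn_adm (h : (Sum.inl (Fin.last m, true) : Gen (m + 1) n) ≠
    Sum.inl (Fin.last m, false)) (z : ℤ) : Adm (dehn h z) where
  rel := twist_relator z
  he j := by
    change twist (Sum.inl (Fin.last m, true)) (Sum.inl (Fin.last m, false)) z (gE j) = gE j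
    simp [gE, twist_of]
  hd j := by
    refine ⟨1, one_mem _, ?_⟩
    change twist (Sum.inl (Fin.last m, true)) (Sum.inl (Fin.last m, false)) z (gD j) = _
    simp [gD, twist_of]
  hab k := by
    change twist (Sum.inl (Fin.last m, true)) (Sum.inl (Fin.last m, false)) z
      (FreeGroup.of (Sum.inl k)) ∈ Fc (m + 1) n
    rw [twist_of]
    have hmem : ∀ k' : Fin (m + 1) × Bool, (FreeGroup.of (Sum.inl k') : FF (m + 1) n) ∈
        Fc (m + 1) n := fun k' => Subgroup.subset_closure (Or.inl ⟨k', rfl⟩)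
    split_ifs
    · exact mul_mem (hmem _) (Subgroup.zpow_mem _ (hmem _) z)
    · exact hmem _

theorem dehn_symm_adm (h : (Sum.inl (Fin.last m, true) : Gen (m + 1) n) ≠
    Sum.inl (Fin.last m, false)) (z : ℤ) : Adm (dehn h z).symm := by
  have h1 : (dehn h z).symm = dehn h (-z) := by
    ext w
    change twist _ _ (-z) w = twist _ _ (-z) w
    rfl
  rw [h1]
  exact dehn_adm h (-z)

/-- LOCAL THEOREM: all tangent vectors at the base point are realized. -/
theorem all_realized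
    (D : Set (FF (m + 1) n →* (Mat r ℂ)ˣ))
    (hadm : ∀ τ : FF (m + 1) n ≃* FF (m + 1) n, Adm τ → Adm τ.symm →
      ∀ y ∈ D, y.comp τ.toMonoidHom ∈ D)
    (ρ : FF (m + 1) n →* (Mat r ℂ)ˣ) (hρB : ρ (gB (Fin.last m)) = 1)
    (hρrel : ρ (relator (m + 1) n) = 1)
    (hbase : ∀ z : (Mat r (PowerSeries ℂ))ˣ,
      InZ D (flow (baseChange (algebraMap ℂ (PowerSeries ℂ)) ρ) (Sum.inl (Fin.last m, false)) z))
    (hgen : ∀ p : List (Loop m n), AlgebraicIndependent ℤ fun q : Fin r × Fin r =>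
      (ρ (wordL p * gA (Fin.last m)) : Mat r ℂ) q.1 q.2)
    (hdual : DualProp (fun q : Loop m n => ρ (loopW q)) (ρ (gA (Fin.last m))))
    (E : FF (m + 1) n → Mat r ℂ) (hE : IsDer ρ E) (hEe : ∀ j, E (gE j) = 0)
    (hErel : E (relator (m + 1) n) = 0) :
    (fun k => E (FreeGroup.of k)) ∈ RealSet D ρ := by
  classical
  -- slides
  have hsl : ∀ q : Loop m n, ∃ σ : FF (m + 1) n ≃* FF (m + 1) n, IsSlide q σ :=
    fun q => exists_slide q
  choose σ hσ using hsl
  obtain ⟨kA, hkA⟩ : ∃ kA : Gen (m + 1) n, kA = Sum.inl (Fin.last m, false) := ⟨_, rfl⟩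
  obtain ⟨kB, hkB⟩ : ∃ kB : Gen (m + 1) n, kB = Sum.inl (Fin.last m, true) := ⟨_, rfl⟩
  have hAB : kB ≠ kA := by rw [hkA, hkB]; simp
  have hgA : (gA (Fin.last m) : FF (m + 1) n) = FreeGroup.of kA := by rw [hkA]; rfl
  have hgB : (gB (Fin.last m) : FF (m + 1) n) = FreeGroup.of kB := by rw [hkB]; rfl
  have hDt : ∀ y ∈ D, ∀ z : ℤ, y.comp (twist kB kA z) ∈ D := by
    intro y hy z
    subst hkA hkB
    exact hadm (dehn hAB z) (dehn_adm hAB z) (dehn_symm_adm hAB z) y hy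
  -- the vectors
  have hv : ∀ (p : List (Loop m n)) (e : ℕ), ∃ Δ : FF (m + 1) n → Mat r ℂ,
      IsDer (ρ.comp (slp σ p).toMonoidHom) Δ ∧ ∀ k, Δ (FreeGroup.of k) =
        if k = kB then (ρ (wordL p * gA (Fin.last m)) : Mat r ℂ) ^ e else 0 :=
    fun p e => exists_der _ _
  choose Δ hΔ hΔk using hv
  let v : List (Loop m n) × ℕ → Gen (m + 1) n → Mat r ℂ :=
    fun c k => Δ c.1 c.2 ((slp σ c.1).symm (FreeGroup.of k))
  have hslA : ∀ p, ρ (slp σ p (FreeGroup.of kA)) = ρ (wordL p * gA (Fin.last m)) := by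
    intro p
    rw [← hgA, slp_gA hσ ρ hρB p, map_mul]
  have hslB : ∀ p, ρ (slp σ p (FreeGroup.of kB)) = 1 := by
    intro p
    rw [← hgB, slp_gB hσ, hρB]
  -- adding the vectors `v`
  have hstep : ∀ w ∈ Submodule.span ℂ (Set.range v), ∀ u ∈ RealSet D ρ, ∀ τ : ℂ,
      u + τ • w ∈ RealSet D ρ := by
    intro w hw
    induction hw using Submodule.span_induction with
    | mem w hw =>
      obtain ⟨⟨p, e⟩, rfl⟩ := hw
      intro u hu τ
      refine realSet_flow D ρ kA kB hDt (slp σ p) (hadm _ (slp_adm hσ p) (slp_symm_adm hσ p))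
        (hadm _ (slp_symm_adm hσ p) (slp_adm hσ p)) ?_ e (Δ p e) (hΔ p e) ?_ u hu τ
      · simp only [hslA]; exact hgen p
      · intro k
        rw [hΔk, hslA, hslB, Units.val_one, Matrix.one_mul]
    | zero => intro u hu τ; simpa using hu
    | add a b _ _ ha hb =>
      intro u hu τ
      rw [smul_add, ← add_assoc]
      exact hb _ (ha u hu τ) τ
    | smul c a _ ha =>
      intro u hu τ
      rw [smul_smul]
      exact ha u hu (τ * c)
  have hstart := realSet_start D ρ kA (by rw [hkA]; exact hbase)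
  obtain ⟨u, hu⟩ : ∃ u : Gen (m + 1) n → Mat r ℂ, u = fun k => E (FreeGroup.of k) := ⟨_, rfl⟩
  -- the space of realized vectors
  let N₁ : Submodule ℂ (Gen (m + 1) n → Mat r ℂ) :=
    LinearMap.range (LinearMap.single ℂ (fun _ : Gen (m + 1) n => Mat r ℂ) kA)
  let N : Submodule ℂ (Gen (m + 1) n → Mat r ℂ) := N₁ ⊔ Submodule.span ℂ (Set.range v)
  have hmem : u ∈ N := by
    by_contra hcon
    obtain ⟨φ, hφu, hφN⟩ := Submodule.exists_dual_map_eq_bot_of_notMem hcon inferInstance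
    have hφ0 : ∀ w ∈ N, φ w = 0 := by
      intro w hw
      have : φ w ∈ N.map φ := Submodule.mem_map_of_mem hw
      rw [hφN] at this
      simpa using this
    -- representation of the functional
    have hs : ∀ k, ∃ s : Mat r ℂ, ∀ ε, (φ ∘ₗ
        (LinearMap.single ℂ (fun _ : Gen (m + 1) n => Mat r ℂ) k)) ε = trace (s * ε) :=
      fun k => exists_trace_repr _
    choose s hs using hs
    have hφs : ∀ w : Gen (m + 1) n → Mat r ℂ, φ w = ∑ k, trace (s k * w k) := by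
      intro w
      have h1 : w = ∑ k, LinearMap.single ℂ (fun _ : Gen (m + 1) n => Mat r ℂ) k (w k) := by
        simp only [LinearMap.coe_single]
        rw [Finset.univ_sum_single]
      conv_lhs => rw [h1]
      rw [map_sum]
      exact Finset.sum_congr rfl fun k _ => by rw [← hs k (w k)]; rfl
    have hsA : s kA = 0 := by
      have h1 : ∀ ε : Mat r ℂ, trace (s kA * ε) = 0 := by
        intro ε
        rw [← hs kA ε]
        exact hφ0 _ (Submodule.mem_sup_left ⟨ε, rfl⟩)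
      ext i j
      have h2 := h1 (Matrix.single j i 1)
      rw [Matrix.trace_mul_single] at h2
      simpa using h2
    -- the matrices R
    have hR : ∀ q : Loop m n, ∃ R : Mat r ℂ, ∀ ε, ∑ k, trace (s k * Lam ρ q ε k) =
        trace (R * ε) := by
      intro q
      obtain ⟨R, hR⟩ := exists_trace_repr
        ({ toFun := fun ε => ∑ k, trace (s k * Lam ρ q ε k)
           map_add' := fun ε ε' => by
            simp only [Lam_add, Matrix.mul_add, Matrix.trace_add, Finset.sum_add_distrib]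
           map_smul' := fun c ε => by
            simp only [Lam_smul, Matrix.mul_smul, Matrix.trace_smul, RingHom.id_apply,
              Finset.smul_sum] } : Mat r ℂ →ₗ[ℂ] ℂ)
      exact ⟨R, hR⟩
    choose R hR using hR
    have hH : ∀ p : List (Loop m n), ∀ e : ℕ, 1 ≤ e →
        trace ((s kB + theta (fun q => ρ (loopW q)) R p) *
          ((wP (fun q => ρ (loopW q)) p * ρ (gA (Fin.last m)) : (Mat r ℂ)ˣ) : Mat r ℂ) ^ e)
            = 0 := by
      intro p e _
      have h1 : φ (v (p, e)) = 0 :=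
        hφ0 _ (Submodule.mem_sup_right (Submodule.subset_span ⟨(p, e), rfl⟩))
      obtain ⟨T, hT⟩ : ∃ T, T = ρ (wordL p * gA (Fin.last m)) := ⟨_, rfl⟩
      have h2 : ∀ k, trace (s k * v (p, e) k) =
          (if k = kB then trace (s kB * (T : Mat r ℂ) ^ e) else 0) +
            trace (s k * Del ρ ((T : Mat r ℂ) ^ e) k p) := by
        intro k
        by_cases hk : k = kA
        · rw [hk, hsA, Matrix.zero_mul, Matrix.zero_mul, Matrix.trace_zero, if_neg hAB.symm,
            zero_add]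
        · have h3 := der_slp hσ ρ hρB p (Δ p e) (hΔ p e) k (by rw [← hkA]; exact hk)
          have h4 : Δ p e (gB (Fin.last m)) = (T : Mat r ℂ) ^ e := by
            rw [hgB, hΔk, if_pos rfl, hT]
          change trace (s k * Δ p e ((slp σ p).symm (FreeGroup.of k))) = _
          rw [h3, h4, Matrix.mul_add, Matrix.trace_add, hΔk]
          by_cases hkB' : k = kB
          · rw [if_pos hkB', if_pos hkB', hkB', hT]
          · rw [if_neg hkB', if_neg hkB', Matrix.mul_zero, Matrix.trace_zero]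
      rw [hφs] at h1
      simp only [h2, Finset.sum_add_distrib, Finset.sum_ite_eq', Finset.mem_univ, if_true] at h1
      rw [sum_Del ρ s R hR, ← hT] at h1
      rw [wP_wordL, ← map_mul, ← hT, Matrix.add_mul, Matrix.trace_add, ← h1]
      have h5 : (T : Mat r ℂ) * (T : Mat r ℂ) ^ e * ((T⁻¹ : (Mat r ℂ)ˣ) : Mat r ℂ) =
          (T : Mat r ℂ) ^ e := by
        rw [← pow_succ', pow_succ, Matrix.mul_assoc, ← Units.val_mul, mul_inv_cancel,
          Units.val_one, Matrix.mul_one]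
      have h6 : trace (((T⁻¹ : (Mat r ℂ)ˣ) : Mat r ℂ) * theta (fun q => ρ (loopW q)) R p *
          (T : Mat r ℂ) * (T : Mat r ℂ) ^ e) =
            trace (theta (fun q => ρ (loopW q)) R p * (T : Mat r ℂ) ^ e) := by
        rw [Matrix.mul_assoc, Matrix.mul_assoc, Matrix.trace_mul_comm, Matrix.mul_assoc, h5]
      rw [h6]
    obtain ⟨η, hη1, hη2⟩ := hdual R (s kB) hH
    have hid := identify ρ hρrel hρB s η (by rw [← hkA]; exact hsA)
      (by rw [← hkB]; exact hη2) (fun q ε => by rw [hR, hη1]) E hE hEe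
    apply hφu
    rw [hφs, hu]
    simp only
    rw [hid, hErel, Matrix.mul_zero, Matrix.trace_zero]
  obtain ⟨w₁, ⟨α', rfl⟩, w₂, hw₂, hw⟩ := Submodule.mem_sup.1 hmem
  rw [← hu, ← hw]
  have h1 : (LinearMap.single ℂ (fun _ : Gen (m + 1) n => Mat r ℂ) kA) α' ∈ RealSet D ρ := by
    have h2 := hstart α'
    have h3 : (fun k => if k = kA then α' else 0) =
        (LinearMap.single ℂ (fun _ : Gen (m + 1) n => Mat r ℂ) kA) α' := by
      funext k
      rw [LinearMap.coe_single]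
      by_cases hk : k = kA
      · subst hk; simp
      · simp [hk]
    rwa [h3] at h2
  have h4 := hstep w₂ hw₂ _ h1 1
  rwa [one_smul] at h4

/-- LOCAL THEOREM, with the dual property as a hypothesis. -/
theorem local_theorem_dual
    (D : Set (FF (m + 1) n →* (Mat r ℂ)ˣ)) (J : Fin n → (Mat r ℂ)ˣ)
    (hrel : ∀ y ∈ D, y (relator (m + 1) n) = 1) (hJ : ∀ y ∈ D, ∀ j, y (gE j) = J j)
    (hadm : ∀ τ : FF (m + 1) n ≃* FF (m + 1) n, Adm τ → Adm τ.symm →
      ∀ y ∈ D, y.comp τ.toMonoidHom ∈ D)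
    (ρ : FF (m + 1) n →* (Mat r ℂ)ˣ) (hρB : ρ (gB (Fin.last m)) = 1)
    (hρrel : ρ (relator (m + 1) n) = 1) (hρJ : ∀ j, ρ (gE j) = J j)
    (hbase : ∀ z : (Mat r (PowerSeries ℂ))ˣ,
      InZ D (flow (baseChange (algebraMap ℂ (PowerSeries ℂ)) ρ) (Sum.inl (Fin.last m, false)) z))
    (hgen : ∀ p : List (Loop m n), AlgebraicIndependent ℤ fun q : Fin r × Fin r =>
      (ρ (wordL p * gA (Fin.last m)) : Mat r ℂ) q.1 q.2)
    (hdual : DualProp (fun q : Loop m n => ρ (loopW q)) (ρ (gA (Fin.last m))))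
    (f : MvPolynomial (FF (m + 1) n × Fin r × Fin r) ℂ) (hf : ∀ y ∈ D, evalW y f = 0) :
    ∃ h : MvPolynomial (Gen (m + 1) n × Bool × Fin r × Fin r) ℂ,
      evalP (fun k => ρ (FreeGroup.of k)) h ≠ 0 ∧
      ∀ X : Gen (m + 1) n → (Mat r ℂ)ˣ, (∀ j, X (Sum.inr (j, true)) = J j) →
        FreeGroup.lift X (relator (m + 1) n) = 1 →
        evalP X h * evalW (FreeGroup.lift X) f = 0 := by
  let W : Option (Fin n) → FF (m + 1) n := fun o => o.elim (relator (m + 1) n) gE
  let M : Option (Fin n) → Mat r ℂ := fun o => o.elim 1 fun j => (J j : Mat r ℂ)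
  have hW : ∀ x : FF (m + 1) n →* (Mat r ℂ)ˣ, (∀ o, (x (W o) : Mat r ℂ) = M o) ↔
      (x (relator (m + 1) n) = 1 ∧ ∀ j, x (gE j) = J j) := by
    intro x
    constructor
    · intro h
      exact ⟨Units.ext (h none), fun j => Units.ext (h (some j))⟩
    · rintro ⟨h1, h2⟩ (_ | j)
      · change (x (relator (m + 1) n) : Mat r ℂ) = 1
        rw [h1]; rfl
      · change (x (gE j) : Mat r ℂ) = J j
        rw [h2]
  obtain ⟨h, hh1, hh2⟩ := arc_application W M D (fun y hy => (hW y).2 ⟨hrel y hy, hJ y hy⟩) ρ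
    ((hW ρ).2 ⟨hρrel, hρJ⟩) (fun E hE hEW => by
      obtain ⟨x, hx1, hx2, hx3⟩ := all_realized D hadm ρ hρB hρrel hbase hgen hdual E hE
        (fun j => hEW (some j)) (hEW none)
      exact ⟨x, hx1, hx2, hx3⟩) f hf
  refine ⟨h, hh1, fun X hX hrelX => hh2 X ((hW _).2 ⟨hrelX, fun j => ?_⟩)⟩
  rw [gE, FreeGroup.lift_apply_of, hX]

/-- LOCAL THEOREM. -/
theorem local_theorem
    (D : Set (FF (m + 1) n →* (Mat r ℂ)ˣ)) (J : Fin n → (Mat r ℂ)ˣ)
    (hrel : ∀ y ∈ D, y (relator (m + 1) n) = 1) (hJ : ∀ y ∈ D, ∀ j, y (gE j) = J j)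
    (hadm : ∀ τ : FF (m + 1) n ≃* FF (m + 1) n, Adm τ → Adm τ.symm →
      ∀ y ∈ D, y.comp τ.toMonoidHom ∈ D)
    (ρ : FF (m + 1) n →* (Mat r ℂ)ˣ) (hρB : ρ (gB (Fin.last m)) = 1)
    (hρrel : ρ (relator (m + 1) n) = 1) (hρJ : ∀ j, ρ (gE j) = J j)
    (hbase : ∀ z : (Mat r (PowerSeries ℂ))ˣ,
      InZ D (flow (baseChange (algebraMap ℂ (PowerSeries ℂ)) ρ) (Sum.inl (Fin.last m, false)) z))
    (hgen : ∀ p : List (Loop m n), AlgebraicIndependent ℤ fun q : Fin r × Fin r =>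
      (ρ (wordL p * gA (Fin.last m)) : Mat r ℂ) q.1 q.2)
    (q₀ : Loop m n) (U : (Mat r ℂ)ˣ) (α : Fin r → ℂ) (hα : Reg3 α)
    (hq₀ : (ρ (loopW q₀) : Mat r ℂ) =
      (U : Mat r ℂ) * diagonal α * ((U⁻¹ : (Mat r ℂ)ˣ) : Mat r ℂ))
    (hA : Gen3 ((U⁻¹ * ρ (gA (Fin.last m)) * U : (Mat r ℂ)ˣ) : Mat r ℂ))
    (f : MvPolynomial (FF (m + 1) n × Fin r × Fin r) ℂ) (hf : ∀ y ∈ D, evalW y f = 0) :
    ∃ h : MvPolynomial (Gen (m + 1) n × Bool × Fin r × Fin r) ℂ,
      evalP (fun k => ρ (FreeGroup.of k)) h ≠ 0 ∧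
      ∀ X : Gen (m + 1) n → (Mat r ℂ)ˣ, (∀ j, X (Sum.inr (j, true)) = J j) →
        FreeGroup.lift X (relator (m + 1) n) = 1 →
        evalP X h * evalW (FreeGroup.lift X) f = 0 :=
  local_theorem_dual D J hrel hJ hadm ρ hρB hρrel hρJ hbase hgen
    (fun R Q H => dual3 (fun q : Loop m n => ρ (loopW q)) R Q (ρ (gA (Fin.last m))) q₀ U α hα hq₀
      hA (fun p k h1 _ => H p k h1)) f hf

end Vale.Agent.P002R
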