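import Vale.Agent.P002R.RStatementP
import Vale.Agent.P002R.RFam
import Vale.Agent.P002R.RSurfE
import Vale.Agent.P002R.RUnscaleG
import Vale.Agent.P002R.RFieldE
import Vale.Agent.P002R.RBridge

/-!
# Density of integral representations without boundary conditions, for products of curves
-/

namespace Vale.Agent.P002R.Product

open Matrix NumberField

/-! ### The fundamental group of a factor -/

/-- Generators: the handles, and all boundary loops except the last one. -/
abbrev KN (g n : ℕ) := (Fin g × Bool) ⊕ Fin (n - 1)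

/-- The product of the commutators and of the boundary loops except the last one. -/
def surfW (g n : ℕ) : FreeGroup (KN g n ⊕ Empty) :=
  (List.ofFn fun l : Fin g => (FreeGroup.of (Sum.inl (Sum.inl (l, false))) *
    FreeGroup.of (Sum.inl (Sum.inl (l, true))) *
    (FreeGroup.of (Sum.inl (Sum.inl (l, false))))⁻¹ *
    (FreeGroup.of (Sum.inl (Sum.inl (l, true))))⁻¹ : FreeGroup (KN g n ⊕ Empty))).prod *
  (List.ofFn fun j : Fin (n - 1) =>
    (FreeGroup.of (Sum.inl (Sum.inr j)) : FreeGroup (KN g n ⊕ Empty))).prod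

/-- The relator, if there are no boundary loops. -/
def surfRel (g n : ℕ) : Set (FreeGroup (KN g n ⊕ Empty)) := {w | n = 0 ∧ w = surfW g n}

theorem surfRel_charOK (g n : ℕ) : CharOK (surfRel g n) := by
  rintro w ⟨rfl, rfl⟩ A _ χ -
  unfold surfW
  rw [map_mul, map_list_prod, map_list_prod, List.map_ofFn, List.map_ofFn]
  simp only [Function.comp_def, map_mul, map_inv]
  simp

theorem surfRel_irrDense (g n : ℕ) {r : ℕ} {R : Type*} [CommRing R] (φ : R →+* ℂ)
    (E : Subgroup ℂˣ) (hc : CoefOK φ E r) :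
    ∀ r' ≤ r, 0 < r' → IrrDense (surfRel g n) φ E r' := by
  intro r' hr' hr'0
  rcases Nat.eq_zero_or_pos n with rfl | hn
  · have hE : IsEmpty (Fin (0 - 1)) := Fin.isEmpty
    refine IrrDense.congr (Equiv.sumEmpty (Fin g × Bool) (Fin (0 - 1))).symm
      (Equiv.equivOfIsEmpty (Fin 0) Empty) _ _ ?_
      (surface_irrDense (g := g) (n := 0) φ E hc (Or.inr rfl) r' hr' hr'0)
    intro y
    have h1 : renE (Equiv.sumEmpty (Fin g × Bool) (Fin (0 - 1))).symm.symm
        (Equiv.equivOfIsEmpty (Fin 0) Empty).symm (surfW g 0) = relatorU g 0 := by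
      unfold surfW relatorU
      rw [map_mul, map_list_prod, map_list_prod, List.map_ofFn, List.map_ofFn]
      simp only [Function.comp_def, map_mul, map_inv, renE_inl]
      simp
    constructor
    · rintro hy w ⟨-, rfl⟩
      rw [h1]
      exact hy _ rfl
    · rintro hy w hw
      rw [Set.mem_singleton_iff.1 hw, ← h1]
      exact hy _ ⟨rfl, rfl⟩
  · refine IrrDense.congr (Fintype.equivFin (KN g n)).symm (Equiv.refl Empty) _ _ ?_
      (free_irrDense (N := Fintype.card (KN g n)) φ E r' hr'0)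
    intro y
    constructor
    · rintro - w ⟨h0, -⟩
      omega
    · rintro - w hw
      exact absurd hw (Set.notMem_empty w)

/-! ### The fundamental group of the product -/

variable {k r : ℕ} {g n : Fin k → ℕ}

/-- The generators of the product. -/
abbrev KP (g n : Fin k → ℕ) := (Σ i, KN (g i) (n i)) ⊕ (Σ _ : Fin k, Empty)

/-- The relators of the product. -/
def relP (g n : Fin k → ℕ) : Set (FreeGroup (KP g n)) := famRel fun i => surfRel (g i) (n i)

/-- Inclusion of a factor. -/
def incP (g n : Fin k → ℕ) (i : Fin k) : FreeGroup (KN (g i) (n i) ⊕ Empty) →*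
    FreeGroup (KP g n) :=
  FreeGroup.map (incS (κ := fun i => KN (g i) (n i)) (ι := fun _ => Empty) i)

/-- The word of a generator. -/
def wordG : Gens g n → FreeGroup (KP g n)
  | Sum.inl ⟨i, p⟩ => incP g n i (FreeGroup.of (Sum.inl (Sum.inl p)))
  | Sum.inr ⟨i, j⟩ => if h : j.1 < n i - 1 then
      incP g n i (FreeGroup.of (Sum.inl (Sum.inr ⟨j, h⟩))) else (incP g n i (surfW (g i) (n i)))⁻¹

/-- Tuples in a group which satisfy the relations. -/
def IsRepG {H : Type*} [Group H] (X : Gens g n → H) : Prop :=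
  (∀ i, (List.ofFn fun l : Fin (g i) => X (Sum.inl ⟨i, l, false⟩) * X (Sum.inl ⟨i, l, true⟩) *
    (X (Sum.inl ⟨i, l, false⟩))⁻¹ * (X (Sum.inl ⟨i, l, true⟩))⁻¹).prod *
      (List.ofFn fun j : Fin (n i) => X (Sum.inr ⟨i, j⟩)).prod = 1) ∧
  ∀ p q : Gens g n, factor p ≠ factor q → X p * X q = X q * X p

theorem wordG_mem (p : Gens g n) : ∃ w, wordG p = incP g n (factor p) w := by
  rcases p with ⟨i, p⟩ | ⟨i, j⟩
  · exact ⟨_, rfl⟩
  · simp only [wordG]
    split_ifs with h
    · exact ⟨_, rfl⟩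
    · exact ⟨(surfW (g i) (n i))⁻¹, (map_inv (incP g n i) _).symm⟩

/-- Different factors commute. -/
theorem commute_of_hom {H : Type*} [Group H] (x : FreeGroup (KP g n) →* H)
    (hx : ∀ w ∈ relP g n, x w = 1) {i j : Fin k} (hij : i ≠ j)
    (w : FreeGroup (KN (g i) (n i) ⊕ Empty)) (w' : FreeGroup (KN (g j) (n j) ⊕ Empty)) :
    Commute (x (incP g n i w)) (x (incP g n j w')) := by
  have h0 : ∀ p q, Commute (x (incP g n i (FreeGroup.of p))) (x (incP g n j (FreeGroup.of q))) := by
    intro p q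
    have := hx _ (Or.inr ⟨i, j, p, q, hij, rfl⟩)
    rw [map_mul, map_mul, map_mul, map_inv, map_inv, mul_inv_eq_one, mul_inv_eq_iff_eq_mul] at this
    exact this
  have step : ∀ {K : Type} (z : FreeGroup K →* H) (y : H), (∀ p, Commute y (z (FreeGroup.of p))) →
      ∀ w, Commute y (z w) := by
    intro K z y hy w
    have : (⊤ : Subgroup (FreeGroup K)) ≤ (Subgroup.centralizer {y}).comap z := by
      rw [← FreeGroup.closure_range_of, Subgroup.closure_le]
      rintro _ ⟨p, rfl⟩
      rw [SetLike.mem_coe, Subgroup.mem_comap, Subgroup.mem_centralizer_singleton_iff]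
      exact (hy p).symm
    have h := this (Subgroup.mem_top w)
    rw [Subgroup.mem_comap, Subgroup.mem_centralizer_singleton_iff] at h
    exact h.symm
  have h1 : ∀ q, Commute (x (incP g n i w)) (x (incP g n j (FreeGroup.of q))) := fun q =>
    (step (x.comp (incP g n i)) _ (fun p => (h0 p q).symm) w).symm
  exact step (x.comp (incP g n j)) _ h1 w'

theorem rel_of_hom {H : Type*} [Group H] (x : FreeGroup (KP g n) →* H)
    (hx : ∀ w ∈ relP g n, x w = 1) : IsRepG (fun p : Gens g n => x (wordG p)) := by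
  constructor
  · intro i
    have hW : x (incP g n i (surfW (g i) (n i))) =
        (List.ofFn fun l : Fin (g i) => x (wordG (Sum.inl ⟨i, l, false⟩ : Gens g n)) *
          x (wordG (Sum.inl ⟨i, l, true⟩ : Gens g n)) *
          (x (wordG (Sum.inl ⟨i, l, false⟩ : Gens g n)))⁻¹ *
          (x (wordG (Sum.inl ⟨i, l, true⟩ : Gens g n)))⁻¹).prod *
        (List.ofFn fun j : Fin (n i - 1) =>
          x (wordG (Sum.inr ⟨i, ⟨j, by omega⟩⟩ : Gens g n))).prod := by
      unfold surfW
      rw [map_mul, map_mul, map_list_prod, map_list_prod, map_list_prod, map_list_prod,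
        List.map_ofFn, List.map_ofFn, List.map_ofFn, List.map_ofFn]
      congr 1
      · congr 2
        funext l
        simp only [Function.comp, map_mul, map_inv]
        rfl
      · congr 2
        funext j
        simp only [Function.comp, wordG]
        rw [dif_pos j.isLt]
    rcases Nat.eq_zero_or_pos (n i) with h0 | h0
    · have h1 : x (incP g n i (surfW (g i) (n i))) = 1 :=
        hx _ (Or.inl ⟨i, _, ⟨h0, rfl⟩, rfl⟩)
      rw [hW] at h1
      have e1 : (List.ofFn fun j : Fin (n i - 1) =>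
          x (wordG (Sum.inr ⟨i, ⟨j, by omega⟩⟩ : Gens g n))) = [] :=
        List.eq_nil_of_length_eq_zero (by rw [List.length_ofFn]; omega)
      have e2 : (List.ofFn fun j : Fin (n i) =>
          x (wordG (Sum.inr ⟨i, j⟩ : Gens g n))) = [] :=
        List.eq_nil_of_length_eq_zero (by rw [List.length_ofFn]; omega)
      rw [e1] at h1
      rw [e2]
      exact h1
    · have h2 : (List.ofFn fun j : Fin (n i) => x (wordG (Sum.inr ⟨i, j⟩ : Gens g n))) =
          (List.ofFn fun j : Fin (n i - 1) =>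
            x (wordG (Sum.inr ⟨i, ⟨j, by omega⟩⟩ : Gens g n))) ++
          [(x (incP g n i (surfW (g i) (n i))))⁻¹] := by
        have h3 := List.ofFn_congr (show n i = n i - 1 + 1 by omega)
          (fun j : Fin (n i) => x (wordG (Sum.inr ⟨i, j⟩ : Gens g n)))
        rw [h3, List.ofFn_succ', List.concat_eq_append]
        congr 2
        rw [← map_inv]
        congr 1
        simp only [wordG]
        rw [dif_neg]
        simp
      rw [h2, List.prod_append, ← mul_assoc, List.prod_singleton, ← hW, mul_inv_cancel]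
  · intro p q hpq
    obtain ⟨w, hw⟩ := wordG_mem p
    obtain ⟨w', hw'⟩ := wordG_mem q
    simp only
    rw [hw, hw']
    exact commute_of_hom x hx hpq w w'

/-- Values at the generators. -/
def liftFun {H : Type*} (X : Gens g n → H) : KP g n → H
  | Sum.inl ⟨i, Sum.inl p⟩ => X (Sum.inl ⟨i, p⟩)
  | Sum.inl ⟨i, Sum.inr j⟩ => X (Sum.inr ⟨i, ⟨j, by omega⟩⟩)
  | Sum.inr ⟨_, e⟩ => e.elim

theorem hom_of_rel {H : Type*} [Group H] (X : Gens g n → H) (hX : IsRepG X) :
    ∃ x : FreeGroup (KP g n) →* H, (∀ w ∈ relP g n, x w = 1) ∧ ∀ p, x (wordG p) = X p := by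
  obtain ⟨x, hxa, hxb⟩ : ∃ x : FreeGroup (KP g n) →* H,
      (∀ i p, x (incP g n i (FreeGroup.of (Sum.inl (Sum.inl p)))) = X (Sum.inl ⟨i, p⟩)) ∧
      ∀ i (j : Fin (n i - 1)), x (incP g n i (FreeGroup.of (Sum.inl (Sum.inr j)))) =
        X (Sum.inr ⟨i, ⟨j, by omega⟩⟩) := by
    refine ⟨FreeGroup.lift (liftFun X), fun i p => ?_, fun i j => ?_⟩
    · rw [incP, FreeGroup.map.of, FreeGroup.lift_apply_of]; rfl
    · rw [incP, FreeGroup.map.of, FreeGroup.lift_apply_of]; rfl
  have hW : ∀ i, x (incP g n i (surfW (g i) (n i))) =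
      (List.ofFn fun l : Fin (g i) => X (Sum.inl ⟨i, l, false⟩) * X (Sum.inl ⟨i, l, true⟩) *
        (X (Sum.inl ⟨i, l, false⟩))⁻¹ * (X (Sum.inl ⟨i, l, true⟩))⁻¹).prod *
      (List.ofFn fun j : Fin (n i - 1) => X (Sum.inr ⟨i, ⟨j, by omega⟩⟩)).prod := by
    intro i
    unfold surfW
    rw [map_mul, map_mul, map_list_prod, map_list_prod, map_list_prod, map_list_prod,
      List.map_ofFn, List.map_ofFn, List.map_ofFn, List.map_ofFn]
    simp only [Function.comp_def, map_mul, map_inv, hxa, hxb]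
  have hword : ∀ p, x (wordG p) = X p := by
    rintro (⟨i, p⟩ | ⟨i, j⟩)
    · exact hxa i p
    · simp only [wordG]
      split_ifs with h
      · exact hxb i _
      · have h1 := hX.1 i
        have h0 : 0 < n i := by have := j.isLt; omega
        have h2 : (List.ofFn fun j : Fin (n i) => X (Sum.inr ⟨i, j⟩)) =
            (List.ofFn fun j : Fin (n i - 1) => X (Sum.inr ⟨i, ⟨j, by omega⟩⟩)) ++
            [X (Sum.inr ⟨i, j⟩)] := by
          have h3 := List.ofFn_congr (show n i = n i - 1 + 1 by omega)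
            (fun j : Fin (n i) => X (Sum.inr ⟨i, j⟩))
          rw [h3, List.ofFn_succ', List.concat_eq_append]
          congr 2
          have h4 : Fin.cast (show n i - 1 + 1 = n i by omega) (Fin.last (n i - 1)) = j := by
            apply Fin.ext
            have := j.isLt
            simp
            omega
          exact congrArg (fun j => X (Sum.inr ⟨i, j⟩)) h4
        rw [h2, List.prod_append, ← mul_assoc, List.prod_singleton, ← hW] at h1
        rw [map_inv]
        exact inv_eq_of_mul_eq_one_right h1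
  refine ⟨x, ?_, hword⟩
  rintro w (⟨i, v, ⟨h0, rfl⟩, rfl⟩ | ⟨i, j, p, q, hij, rfl⟩)
  · change x (incP g n i (surfW (g i) (n i))) = 1
    rw [hW]
    have h1 := hX.1 i
    have e1 : (List.ofFn fun j : Fin (n i - 1) =>
        X (Sum.inr ⟨i, ⟨j, by omega⟩⟩)) = [] :=
      List.eq_nil_of_length_eq_zero (by rw [List.length_ofFn]; omega)
    have e2 : (List.ofFn fun j : Fin (n i) => X (Sum.inr ⟨i, j⟩)) = [] :=
      List.eq_nil_of_length_eq_zero (by rw [List.length_ofFn]; omega)
    rw [e2] at h1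
    rw [e1]
    exact h1
  · have hgen : ∀ (i : Fin k) (p : KN (g i) (n i) ⊕ Empty), ∃ s : Gens g n, factor s = i ∧
        x (FreeGroup.of (incS (κ := fun i => KN (g i) (n i)) (ι := fun _ => Empty) i p)) = X s := by
      rintro i ((p | j) | e)
      · exact ⟨Sum.inl ⟨i, p⟩, rfl, by rw [← hxa]; rfl⟩
      · exact ⟨Sum.inr ⟨i, ⟨j, by omega⟩⟩, rfl, by rw [← hxb]; rfl⟩
      · exact e.elim
    obtain ⟨s, hs, hs'⟩ := hgen i p
    obtain ⟨t, ht, ht'⟩ := hgen j q
    rw [map_mul, map_mul, map_mul, map_inv, map_inv, mul_inv_eq_one, mul_inv_eq_iff_eq_mul,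
      hs', ht']
    exact hX.2 s t (by rw [hs, ht]; exact hij)

/-! ### Polynomials in the entries of words -/

/-- The entries of a word in matrices of determinant one are polynomials in the entries of the
generators. -/
theorem exists_word_matrix {K : Type} (r : ℕ) (w : FreeGroup K) :
    ∃ M : Matrix (Fin r) (Fin r) (MvPolynomial (K × Fin r × Fin r) ℂ),
      ∀ x : FreeGroup K →* SpecialLinearGroup (Fin r) ℂ,
        M.map (MvPolynomial.aeval (R := ℂ) fun p => (x (FreeGroup.of p.1)).1 p.2.1 p.2.2) =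
          (x w).1 := by
  obtain ⟨S, hS⟩ : ∃ S : Subgroup (FreeGroup K), ∀ w, w ∈ S ↔
      ∃ M : Matrix (Fin r) (Fin r) (MvPolynomial (K × Fin r × Fin r) ℂ),
        ∀ x : FreeGroup K →* SpecialLinearGroup (Fin r) ℂ,
          M.map (MvPolynomial.aeval (R := ℂ) fun p => (x (FreeGroup.of p.1)).1 p.2.1 p.2.2) =
            (x w).1 := by
    refine ⟨{
      carrier := {w | ∃ M : Matrix (Fin r) (Fin r) (MvPolynomial (K × Fin r × Fin r) ℂ),
        ∀ x : FreeGroup K →* SpecialLinearGroup (Fin r) ℂ,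
          M.map (MvPolynomial.aeval (R := ℂ) fun p => (x (FreeGroup.of p.1)).1 p.2.1 p.2.2) =
            (x w).1}
      mul_mem' := ?_
      one_mem' := ?_
      inv_mem' := ?_ }, fun w => Iff.rfl⟩
    · rintro a b ⟨M, hM⟩ ⟨N, hN⟩
      refine ⟨M * N, fun x => ?_⟩
      have h1 := RingHom.map_mul (RingHom.mapMatrix (m := Fin r)
        (MvPolynomial.aeval (R := ℂ) fun p : K × Fin r × Fin r =>
          (x (FreeGroup.of p.1)).1 p.2.1 p.2.2).toRingHom) M N
      have h2 : (x (a * b)).1 = (x a).1 * (x b).1 := by rw [map_mul]; rfl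
      rw [h2, ← hM x, ← hN x]
      exact h1
    · refine ⟨1, fun x => ?_⟩
      rw [Matrix.map_one _ (map_zero _) (map_one _), map_one]
      rfl
    · rintro a ⟨M, hM⟩
      refine ⟨M.adjugate, fun x => ?_⟩
      have h1 := RingHom.map_adjugate (MvPolynomial.aeval (R := ℂ)
        fun p : K × Fin r × Fin r => (x (FreeGroup.of p.1)).1 p.2.1 p.2.2).toRingHom M
      have h2 : (x a⁻¹).1 = (x a).1.adjugate := by
        rw [map_inv]
        exact Matrix.SpecialLinearGroup.coe_inv _
      rw [h2, ← hM x]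
      exact h1
  have h : (⊤ : Subgroup (FreeGroup K)) ≤ S := by
    rw [← FreeGroup.closure_range_of, Subgroup.closure_le]
    rintro _ ⟨p, rfl⟩
    rw [SetLike.mem_coe, hS]
    refine ⟨Matrix.of fun i j => MvPolynomial.X (p, i, j), fun x => ?_⟩
    ext i j
    simp
  exact (hS w).1 (h (Subgroup.mem_top w))

/-- Pull back of a function to the tuples of generators. -/
theorem exists_pullback (F : MvPolynomial (Gens g n × Fin r × Fin r) ℂ) :
    ∃ f : MvPolynomial (KP g n × Fin r × Fin r) ℂ,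
      ∀ x : FreeGroup (KP g n) →* SpecialLinearGroup (Fin r) ℂ,
        evalG (SpecialLinearGroup.toGL.comp x) f = value F fun p => x (wordG p) := by
  choose M hM using fun p : Gens g n => exists_word_matrix r (wordG p)
  refine ⟨MvPolynomial.aeval (fun p => M p.1 p.2.1 p.2.2) F, fun x => ?_⟩
  have h : (evalG (SpecialLinearGroup.toGL.comp x)).comp
      (MvPolynomial.aeval (R := ℂ) (fun p : Gens g n × Fin r × Fin r => M p.1 p.2.1 p.2.2)) =
      MvPolynomial.aeval (fun p : Gens g n × Fin r × Fin r => (x (wordG p.1)).1 p.2.1 p.2.2) := by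
    apply MvPolynomial.algHom_ext
    intro p
    rw [AlgHom.comp_apply, MvPolynomial.aeval_X, MvPolynomial.aeval_X, ← hM p.1 x]
    rfl
  exact DFunLike.congr_fun h F

/-! ### Invariant subspaces -/

theorem stable_iff_hom (x : FreeGroup (KP g n) →* SpecialLinearGroup (Fin r) ℂ)
    (hgen : ∀ p, ∃ q : Gens g n, x (FreeGroup.of p) = x (wordG q))
    (W : Submodule ℂ (Fin r → ℂ)) :
    (∀ w, ∀ v ∈ W, ((SpecialLinearGroup.toGL.comp x) w : Mat r ℂ) *ᵥ v ∈ W) ↔
      IsInvSubspace (fun p : Gens g n => x (wordG p)) W := by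
  constructor
  · intro h p
    exact h (wordG p)
  · intro h w
    obtain ⟨H, hH⟩ : ∃ H : Subgroup (Mat r ℂ)ˣ, ∀ M, M ∈ H ↔
        ∀ v ∈ W, (M : Mat r ℂ) *ᵥ v ∈ W :=
      ⟨{ carrier := {M | ∀ v ∈ W, (M : Mat r ℂ) *ᵥ v ∈ W}
         mul_mem' := fun {a b} ha hb v hv => by
          rw [Units.val_mul, ← Matrix.mulVec_mulVec]
          exact ha _ (hb _ hv)
         one_mem' := fun v hv => by
          rw [Units.val_one, Matrix.one_mulVec]
          exact hv
         inv_mem' := fun {a} ha => Statement.inv_stable a W ha }, fun M => Iff.rfl⟩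
    have h1 : (⊤ : Subgroup (FreeGroup (KP g n))) ≤ H.comap (SpecialLinearGroup.toGL.comp x) := by
      rw [← FreeGroup.closure_range_of, Subgroup.closure_le]
      rintro _ ⟨p, rfl⟩
      rw [SetLike.mem_coe, Subgroup.mem_comap, hH]
      obtain ⟨q, hq⟩ := hgen p
      intro v hv
      have := h q v hv
      simp only at this
      rw [← hq] at this
      exact this
    exact (hH _).1 (h1 (Subgroup.mem_top w))

theorem of_eq_word (p : KP g n) : ∃ q : Gens g n, FreeGroup.of p = wordG q := by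
  rcases p with ⟨i, p | j⟩ | ⟨i, e⟩
  · refine ⟨Sum.inl ⟨i, p⟩, ?_⟩
    rw [wordG, incP, FreeGroup.map.of]
    rfl
  · refine ⟨Sum.inr ⟨i, ⟨j, by omega⟩⟩, ?_⟩
    rw [wordG, dif_pos j.isLt, incP, FreeGroup.map.of]
    rfl
  · exact e.elim

theorem SS_iff_hom (x : FreeGroup (KP g n) →* SpecialLinearGroup (Fin r) ℂ) :
    SS (SpecialLinearGroup.toGL.comp x) ↔ ∀ W : Submodule ℂ (Fin r → ℂ),
      IsInvSubspace (fun p : Gens g n => x (wordG p)) W → ∃ W' : Submodule ℂ (Fin r → ℂ),
        IsInvSubspace (fun p : Gens g n => x (wordG p)) W' ∧ IsCompl W W' := by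
  have h := stable_iff_hom x fun p => (of_eq_word p).imp fun q hq => by rw [hq]
  unfold SS
  simp only [h]

/-- **Density of the integral representations, for a product of curves and without boundary
conditions.** -/
theorem none_density_prod (g n : Fin k → ℕ) (r : ℕ) :
    ∃ L : IntermediateField ℚ ℂ, FiniteDimensional ℚ L ∧
      IsZariskiDenseRep {X ∈ YNone g n r | IsIntegralRep L X} (YNone g n r) := by
  obtain ⟨L, hL, hc⟩ := exists_field_E ∅ Set.finite_empty (fun z hz => absurd hz (by simp)) r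
  refine ⟨L, hL, fun X hX => hX.1, fun F hF X hX => ?_⟩
  rcases Nat.eq_zero_or_pos r with hr | hr
  · subst hr
    exact hF X ⟨hX, fun p i => i.elim0⟩
  obtain ⟨φ, hφ⟩ : ∃ φ, φ = phiO (algebraMap L ℂ) := ⟨_, rfl⟩
  rw [← hφ] at hc
  obtain ⟨ζ, hζ⟩ := hc.root r hr le_rfl
    (Units.mk0 (Complex.exp (2 * Real.pi * Complex.I / r)) (Complex.exp_ne_zero _)) (by
      have h1 : (Units.mk0 (Complex.exp (2 * Real.pi * Complex.I / r)) (Complex.exp_ne_zero _)) ^ r
          = 1 := by
        apply Units.ext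
        rw [Units.val_pow_eq_pow_val, Units.val_mk0,
          (Complex.isPrimitiveRoot_exp r hr.ne').pow_eq_one, Units.val_one]
      rw [h1]
      exact one_mem _)
  rw [Units.val_mk0] at hζ
  have hζp : IsPrimitiveRoot (φ ζ) r := by
    rw [hζ]
    exact Complex.isPrimitiveRoot_exp r hr.ne'
  obtain ⟨x, hx1, hx2⟩ := hom_of_rel X hX.1
  have hX' : (fun p : Gens g n => x (wordG p)) = X := funext hx2
  obtain ⟨f, hf⟩ := exists_pullback F
  have hchar : CharOK (relP g n) := famRel_charOK _ fun i => surfRel_charOK _ _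
  have hirr : ∀ r' ≤ r, 0 < r' → IrrDense (relP g n) φ _ r' :=
    fam_irrDense φ _ r k _ _ _ fun i => surfRel_irrDense (g i) (n i) φ _ hc
  have hemp : IsEmpty (Σ _ : Fin k, Empty) := ⟨fun s => s.2.elim⟩
  obtain ⟨C, hC⟩ : ∃ C : (Σ _ : Fin k, Empty) → (Mat r ℂ)ˣ, C = fun _ => 1 := ⟨_, rfl⟩
  have hxY : SpecialLinearGroup.toGL.comp x ∈ YG (relP g n) C := by
    refine ⟨fun w hw => ?_, fun j => isEmptyElim j, ?_⟩
    · rw [MonoidHom.comp_apply, hx1 w hw, map_one]
    · rw [SS_iff_hom, hX']
      exact hX.2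
  rw [← hX', ← hf x]
  refine unscaleG φ hc.inj ζ (hc.inj ?_) hζp hr (relP g n) hchar C (fun j => isEmptyElim j) f ?_
    (SpecialLinearGroup.toGL.comp x) (fun w => (x w).2) (fun f' hf' => partIVG φ _ hc (relP g n)
      hchar hirr C (fun j => isEmptyElim j) _ hxY f' hf')
  · rw [map_pow, map_one]
    exact hζp.pow_eq_one
  · intro y hy _ hyS
    obtain ⟨z, hz⟩ : ∃ z : FreeGroup (KP g n) →* SpecialLinearGroup (Fin r) ℂ,
        z = (SpecialLinearGroup.map φ).comp y := ⟨_, rfl⟩
    have h1 : (slU φ).comp y = SpecialLinearGroup.toGL.comp z := by rw [hz]; rfl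
    rw [h1, hf z]
    rw [h1, SS_iff_hom] at hyS
    refine hF _ ⟨⟨rel_of_hom z fun w hw => ?_, hyS⟩, fun p i j => ?_⟩
    · rw [hz, MonoidHom.comp_apply, hy w hw, map_one]
    · refine ⟨(y (wordG p)).1 i j, ?_⟩
      rw [hz, hφ]
      rfl

end Vale.Agent.P002R.Product
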