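import Vale.Agent.P002R.RStatement

/-!
# Statement of the density theorem without boundary conditions: definition
-/

namespace Vale.Agent.P002R.Statement

open Matrix

/-- The points of `M_r(X)(ℂ)`, represented by the semisimple representations (no boundary
conditions). -/
def YNone (g n r : ℕ) : Set (Gens g n → SpecialLinearGroup (Fin r) ℂ) :=
  {X | IsRep X ∧ ∀ W, IsInvSubspace X W → ∃ W', IsInvSubspace X W' ∧ IsCompl W W'}

end Vale.Agent.P002R.Statement
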