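import Vale.Agent.P002R.RDefs
import Vale.Agent.P002.GoodDense

namespace Vale.Agent.P002R

open Matrix

variable {m n r : ℕ}

/-- The relation with explicit inverses. -/
def relR {g : ℕ} {R : Type*} [CommRing R] (X Y : Gen g n → Mat r R) : Mat r R :=
  (List.ofFn fun j : Fin n =>
    X (Sum.inr (j, false)) * X (Sum.inr (j, true)) * Y (Sum.inr (j, false))).prod *
  (List.ofFn fun i : Fin g =>
    X (Sum.inl (i, false)) * X (Sum.inl (i, true)) * Y (Sum.inl (i, false)) *
      Y (Sum.inl (i, true))).prod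

theorem relM_eq_relR {g : ℕ} (X : Gen g n → Mat r ℂ) : relM X = relR X (fun k => (X k)⁻¹) := rfl

/-- The part of the relation before the last handle. -/
def relW {R : Type*} [CommRing R] (X Y : Gen (m + 1) n → Mat r R) : Mat r R :=
  (List.ofFn fun j : Fin n =>
    X (Sum.inr (j, false)) * X (Sum.inr (j, true)) * Y (Sum.inr (j, false))).prod *
  (List.ofFn fun i : Fin m =>
    X (Sum.inl (i.castSucc, false)) * X (Sum.inl (i.castSucc, true)) *
      Y (Sum.inl (i.castSucc, false)) * Y (Sum.inl (i.castSucc, true))).prod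

theorem relR_eq {R : Type*} [CommRing R] (X Y : Gen (m + 1) n → Mat r R) :
    relR X Y = relW X Y * (X (Sum.inl (Fin.last m, false)) * X (Sum.inl (Fin.last m, true)) *
      Y (Sum.inl (Fin.last m, false)) * Y (Sum.inl (Fin.last m, true))) := by
  unfold relR relW
  rw [List.ofFn_succ', List.prod_concat, ← mul_assoc]

theorem relR_map {g : ℕ} {R S : Type*} [CommRing R] [CommRing S] (φ : R →+* S)
    (X Y : Gen g n → Mat r R) :
    (relR X Y).map φ = relR (fun k => (X k).map φ) (fun k => (Y k).map φ) := by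
  unfold relR
  have h1 : ∀ M : Mat r R, M.map φ = (RingHom.mapMatrix φ) M := fun M => rfl
  rw [h1, map_mul, map_list_prod, map_list_prod, List.map_ofFn, List.map_ofFn]
  congr 1
  · congr 1
    congr 1
    funext i
    simp only [Function.comp, map_mul, RingHom.mapMatrix_apply]
  · congr 1
    congr 1
    funext i
    simp only [Function.comp, map_mul, RingHom.mapMatrix_apply]

theorem relW_map {R S : Type*} [CommRing R] [CommRing S] (φ : R →+* S)
    (X Y : Gen (m + 1) n → Mat r R) :
    (relW X Y).map φ = relW (fun k => (X k).map φ) (fun k => (Y k).map φ) := by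
  unfold relW
  have h1 : ∀ M : Mat r R, M.map φ = (RingHom.mapMatrix φ) M := fun M => rfl
  rw [h1, map_mul, map_list_prod, map_list_prod, List.map_ofFn, List.map_ofFn]
  congr 1
  · congr 1
    congr 1
    funext i
    simp only [Function.comp, map_mul, RingHom.mapMatrix_apply]
  · congr 1
    congr 1
    funext i
    simp only [Function.comp, map_mul, RingHom.mapMatrix_apply]

theorem relW_congr {R : Type*} [CommRing R] (X Y X' Y' : Gen (m + 1) n → Mat r R)
    (h : ∀ k, k ≠ Sum.inl (Fin.last m, false) → k ≠ Sum.inl (Fin.last m, true) →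
      X k = X' k ∧ Y k = Y' k) : relW X Y = relW X' Y' := by
  unfold relW
  congr 1
  · congr 1
    congr 1
    funext j
    rw [(h (Sum.inr (j, false)) (by simp) (by simp)).1, (h (Sum.inr (j, true)) (by simp) (by simp)).1,
      (h (Sum.inr (j, false)) (by simp) (by simp)).2]
  · congr 1
    congr 1
    funext i
    have hi : i.castSucc ≠ Fin.last m := (Fin.castSucc_lt_last i).ne
    have h1 : ∀ b, (Sum.inl (i.castSucc, b) : Gen (m + 1) n) ≠ Sum.inl (Fin.last m, false) ∧
        (Sum.inl (i.castSucc, b) : Gen (m + 1) n) ≠ Sum.inl (Fin.last m, true) := by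
      intro b
      constructor
      · intro he
        simp only [Sum.inl.injEq, Prod.mk.injEq] at he
        exact hi he.1
      · intro he
        simp only [Sum.inl.injEq, Prod.mk.injEq] at he
        exact hi he.1
    rw [(h _ (h1 false).1 (h1 false).2).1, (h _ (h1 true).1 (h1 true).2).1,
      (h _ (h1 false).1 (h1 false).2).2, (h _ (h1 true).1 (h1 true).2).2]

theorem relW_det {R : Type*} [CommRing R] (X Y : Gen (m + 1) n → Mat r R)
    (h : ∀ k, X k * Y k = 1) :
    det (relW X Y) = ∏ j : Fin n, det (X (Sum.inr (j, true))) := by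
  have hl : ∀ (N : ℕ) (F : Fin N → Mat r R), det (List.ofFn F).prod = ∏ i, det (F i) := by
    intro N F
    rw [← Matrix.coe_detMonoidHom, map_list_prod, List.map_ofFn, List.prod_ofFn]
    rfl
  have h2 : ∀ k, det (X k) * det (Y k) = 1 := fun k => by rw [← det_mul, h, det_one]
  unfold relW
  rw [det_mul, hl, hl]
  have e2 : ∏ i : Fin m, det (X (Sum.inl (i.castSucc, false)) * X (Sum.inl (i.castSucc, true)) *
      Y (Sum.inl (i.castSucc, false)) * Y (Sum.inl (i.castSucc, true))) = 1 := by
    apply Finset.prod_eq_one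
    intro i _
    rw [det_mul, det_mul, det_mul]
    calc _ = (det (X (Sum.inl (i.castSucc, false))) * det (Y (Sum.inl (i.castSucc, false)))) *
          (det (X (Sum.inl (i.castSucc, true))) * det (Y (Sum.inl (i.castSucc, true)))) := by ring
      _ = 1 := by rw [h2, h2, one_mul]
  rw [e2, mul_one]
  apply Finset.prod_congr rfl
  intro j _
  rw [det_mul, det_mul]
  calc _ = det (X (Sum.inr (j, true))) *
        (det (X (Sum.inr (j, false))) * det (Y (Sum.inr (j, false)))) := by ring
    _ = det (X (Sum.inr (j, true))) := by rw [h2, mul_one]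

/-- Evaluation at a tuple with explicit inverses. -/
noncomputable def evalR {κ : Type*} {T : Type*} [CommRing T] [Algebra ℂ T] (X Y : κ → Mat r T) :
    MvPolynomial (κ × Bool × Fin r × Fin r) ℂ →ₐ[ℂ] T :=
  MvPolynomial.aeval fun p => if p.2.1 then Y p.1 p.2.2.1 p.2.2.2
    else X p.1 p.2.2.1 p.2.2.2

theorem evalM_eq_evalR {κ : Type*} (X : κ → Mat r ℂ) : evalM X = evalR X (fun k => (X k)⁻¹) := rfl

theorem evalR_map {κ : Type*} {T : Type*} [CommRing T] [Algebra ℂ T] (φ : T →+* ℂ)
    (hφ : ∀ c : ℂ, φ (algebraMap ℂ T c) = c) (X Y : κ → Mat r T)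
    (F : MvPolynomial (κ × Bool × Fin r × Fin r) ℂ) :
    φ (evalR X Y F) = evalR (fun k => (X k).map φ) (fun k => (Y k).map φ) F := by
  let φ' : T →ₐ[ℂ] ℂ := { φ with commutes' := hφ }
  have h : (φ'.comp (evalR X Y)) = evalR (fun k => (X k).map φ) (fun k => (Y k).map φ) := by
    apply MvPolynomial.algHom_ext
    intro p
    simp only [evalR, φ', AlgHom.comp_apply, MvPolynomial.aeval_X, AlgHom.coe_mk]
    split_ifs
    · rfl
    · rfl
  exact DFunLike.congr_fun h F

/-- A polynomial identity on the complex points of the framed representation variety holds on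
points in every domain. -/
theorem rtransfer {g : ℕ} {T : Type*} [CommRing T] [IsDomain T] [Algebra ℂ T]
    (J : Fin n → Mat r ℂ)
    (F : MvPolynomial (Gen g n × Bool × Fin r × Fin r) ℂ)
    (hF : ∀ X : Gen g n → Mat r ℂ, (∀ k, IsUnit (X k)) →
      (∀ j, X (Sum.inr (j, true)) = J j) → relM X = 1 → evalM X F = 0)
    (X Y : Gen g n → Mat r T) (hXY : ∀ k, X k * Y k = 1)
    (hJ : ∀ j, X (Sum.inr (j, true)) = (J j).map (algebraMap ℂ T)) (hrel : relR X Y = 1) :
    evalR X Y F = 0 := by
  classical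
  let σ := Gen g n × Bool × Fin r × Fin r
  let ψ : MvPolynomial σ ℂ →ₐ[ℂ] T := evalR X Y
  let P : Ideal (MvPolynomial σ ℂ) := RingHom.ker ψ
  have hP : P.IsPrime := RingHom.ker_isPrime _
  change F ∈ P
  rw [← MvPolynomial.IsPrime.vanishingIdeal_zeroLocus (K := ℂ) P,
    MvPolynomial.mem_vanishingIdeal_iff]
  intro x hx
  rw [MvPolynomial.mem_zeroLocus_iff] at hx
  let 𝒳 : Gen g n → Mat r (MvPolynomial σ ℂ) := fun k => Matrix.of fun i j =>
    MvPolynomial.X (k, false, i, j)
  let 𝒴 : Gen g n → Mat r (MvPolynomial σ ℂ) := fun k => Matrix.of fun i j =>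
    MvPolynomial.X (k, true, i, j)
  have h𝒳 : ∀ k, (𝒳 k).map ψ = X k := by
    intro k; ext i j
    change ψ (MvPolynomial.X (k, false, i, j)) = _
    simp [ψ, evalR]
  have h𝒴 : ∀ k, (𝒴 k).map ψ = Y k := by
    intro k; ext i j
    change ψ (MvPolynomial.X (k, true, i, j)) = _
    simp [ψ, evalR]
  let ev : MvPolynomial σ ℂ →ₐ[ℂ] ℂ := MvPolynomial.aeval x
  let A : Gen g n → Mat r ℂ := fun k => (𝒳 k).map ev
  let B : Gen g n → Mat r ℂ := fun k => (𝒴 k).map ev
  have hmem : ∀ M N : Mat r (MvPolynomial σ ℂ), M.map ψ = N.map ψ → M.map ev = N.map ev := by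
    intro M N h
    ext i j
    have h1 : M i j - N i j ∈ P := by
      change ψ (M i j - N i j) = 0
      have := congrFun (congrFun h i) j
      simp only [Matrix.map_apply] at this
      rw [map_sub, this, sub_self]
    have h2 := hx _ h1
    simp only [Matrix.map_apply]
    have h3 : ev (M i j - N i j) = 0 := h2
    rw [map_sub, sub_eq_zero] at h3
    exact h3
  have hmul : ∀ k, A k * B k = 1 := by
    intro k
    have h1 := hmem (𝒳 k * 𝒴 k) 1 (by
      have e1 := Matrix.map_mul (L := 𝒳 k) (M := 𝒴 k) (f := ψ.toRingHom)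
      have e2 : (𝒳 k * 𝒴 k).map ψ = (𝒳 k).map ψ * (𝒴 k).map ψ := e1
      rw [e2, h𝒳, h𝒴, hXY, Matrix.map_one _ (map_zero ψ) (map_one ψ)])
    have e1 := Matrix.map_mul (L := 𝒳 k) (M := 𝒴 k) (f := ev.toRingHom)
    have e2 : (𝒳 k * 𝒴 k).map ev = (𝒳 k).map ev * (𝒴 k).map ev := e1
    rw [e2, Matrix.map_one _ (map_zero ev) (map_one ev)] at h1
    exact h1
  have hrelA : relR A B = 1 := by
    have h1 := hmem (relR 𝒳 𝒴) 1 (by
      have e1 := relR_map ψ.toRingHom 𝒳 𝒴
      have e2 : (relR 𝒳 𝒴).map ψ = relR (fun k => (𝒳 k).map ψ) (fun k => (𝒴 k).map ψ) := e1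
      rw [e2, Matrix.map_one _ (map_zero ψ) (map_one ψ)]
      simp only [h𝒳, h𝒴]
      exact hrel)
    have e1 := relR_map ev.toRingHom 𝒳 𝒴
    have e2 : (relR 𝒳 𝒴).map ev = relR (fun k => (𝒳 k).map ev) (fun k => (𝒴 k).map ev) := e1
    rw [e2, Matrix.map_one _ (map_zero ev) (map_one ev)] at h1
    exact h1
  have hJA : ∀ j, A (Sum.inr (j, true)) = J j := by
    intro j
    have h1 := hmem (𝒳 (Sum.inr (j, true))) ((J j).map (algebraMap ℂ (MvPolynomial σ ℂ))) (by
      rw [h𝒳, hJ]
      ext a b
      simp)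
    change (𝒳 (Sum.inr (j, true))).map ev = J j
    rw [h1]
    ext a b
    simp
  have hB : ∀ k, B k = (A k)⁻¹ := fun k => (Matrix.inv_eq_right_inv (hmul k)).symm
  have hBf : B = fun k => (A k)⁻¹ := funext hB
  have hrelT : relM A = 1 := by
    rw [relM_eq_relR, ← hBf]
    exact hrelA
  have hunit : ∀ k, IsUnit (A k) := fun k =>
    (Matrix.isUnit_iff_isUnit_det _).2 (Matrix.isUnit_det_of_right_inverse (hmul k))
  have h0 := hF A hunit hJA hrelT
  have h1 : MvPolynomial.aeval x F = evalM A F := by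
    rw [evalM_eq_evalR, ← hBf]
    have : (MvPolynomial.aeval x : MvPolynomial σ ℂ →ₐ[ℂ] ℂ) = evalR A B := by
      apply MvPolynomial.algHom_ext
      rintro ⟨k, b, i, j⟩
      cases b
      · simp only [evalR, MvPolynomial.aeval_X]
        change x (k, false, i, j) = ev (MvPolynomial.X (k, false, i, j))
        simp [ev]
      · simp only [evalR, MvPolynomial.aeval_X]
        change x (k, true, i, j) = ev (MvPolynomial.X (k, true, i, j))
        simp [ev]
    rw [this]
  rw [h1]
  exact h0

end Vale.Agent.P002R
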