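import Vale.Agent.P002R.YCond
import Vale.Agent.P002R.ZPerm

/-!
# Irreducible representations of a punctured sphere: the number of pseudo-reflections
-/

namespace Vale.Agent.P002R

open Matrix

theorem RO.conj {r : ℕ} {X Y : (Mat r ℂ)ˣ} (h : IsConj X Y) (hX : RO r (X : Mat r ℂ)) :
    RO r (Y : Mat r ℂ) := by
  obtain ⟨U, rfl⟩ := isConj_iff.mp h
  refine hX.of_surj (Matrix.mulVecLin (U : Mat r ℂ)) ?_ fun x => ?_
  · intro y
    refine ⟨((U⁻¹ : (Mat r ℂ)ˣ) : Mat r ℂ) *ᵥ y, ?_⟩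
    rw [Matrix.mulVecLin_apply, mulVec_mulVec, Units.mul_inv, one_mulVec]
  · rw [Matrix.mulVecLin_apply, Matrix.mulVecLin_apply, Units.val_mul, Units.val_mul,
      mulVec_mulVec, mulVec_mulVec, Matrix.mul_assoc, Units.inv_mul, Matrix.mul_one]

theorem conj_scalar' {r : ℕ} {X Y : (Mat r ℂ)ˣ} (h : IsConj X Y) {c : ℂ}
    (hX : (X : Mat r ℂ) = c • (1 : Mat r ℂ)) : (Y : Mat r ℂ) = c • (1 : Mat r ℂ) := by
  obtain ⟨U, rfl⟩ := isConj_iff.mp h
  rw [Units.val_mul, Units.val_mul, hX, Matrix.mul_smul, Matrix.smul_mul, Matrix.mul_one,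
    Units.mul_inv]

/-- If all classes but one are scalar plus rank one, then at least `r` of them are not scalar. -/
theorem exists_refl_set {n r : ℕ} (hr : 2 ≤ r) (C : Fin n → (Mat r ℂ)ˣ) (j₀ : Fin n)
    (hRO : ∀ j, j ≠ j₀ → RO r (C j : Mat r ℂ)) (x : FU 0 n →* (Mat r ℂ)ˣ)
    (hx1 : x (relatorU 0 n) = 1)
    (hx2 : ∀ j, IsConj (C j) (x (FreeGroup.of (Sum.inr j))))
    (hadj : Algebra.adjoin ℂ (Set.range fun w => (x w : Mat r ℂ)) = ⊤) :
    ∃ S : Finset (Fin n), r ≤ S.card ∧ j₀ ∉ S ∧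
      ∀ j ∈ S, RO r (C j : Mat r ℂ) ∧ ∀ c : ℂ, (C j : Mat r ℂ) ≠ c • (1 : Mat r ℂ) := by
  classical
  obtain ⟨S, hS⟩ : ∃ S : Finset (Fin n), ∀ j, j ∈ S ↔ j ≠ j₀ ∧
      ∀ c : ℂ, (C j : Mat r ℂ) ≠ c • (1 : Mat r ℂ) :=
    ⟨Finset.univ.filter fun j => j ≠ j₀ ∧ ∀ c : ℂ, (C j : Mat r ℂ) ≠ c • (1 : Mat r ℂ),
      fun j => by rw [Finset.mem_filter]; simp⟩
  refine ⟨S, ?_, fun h => ((hS j₀).1 h).1 rfl, fun j hj => ⟨hRO j ((hS j).1 hj).1, ((hS j).1 hj).2⟩⟩
  by_contra hlt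
  push Not at hlt
  have h1 : ∀ j : S, ∃ z : ℂ, ((x (FreeGroup.of (Sum.inr (j : Fin n))) : Mat r ℂ) -
      z • (1 : Mat r ℂ)).rank ≤ 1 := fun j => (hRO j ((hS j).1 j.2).1).conj (hx2 j)
  choose z hz using h1
  obtain ⟨A, hA⟩ : ∃ A : S → Mat r ℂ, ∀ j, A j = (x (FreeGroup.of (Sum.inr (j : Fin n))) : Mat r ℂ) -
      z j • (1 : Mat r ℂ) := ⟨_, fun _ => rfl⟩
  obtain ⟨w₀, hw₀, hw₁⟩ : ∃ w₀ : Fin r → ℂ, w₀ ≠ 0 ∧ ∀ j, A j *ᵥ w₀ = 0 := by
    have h2 : Module.finrank ℂ ((j : S) → LinearMap.range (A j).mulVecLin) <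
        Module.finrank ℂ (Fin r → ℂ) := by
      rw [Module.finrank_pi_fintype, Module.finrank_fin_fun]
      refine lt_of_le_of_lt (Finset.sum_le_card_nsmul _ _ 1 fun j _ => ?_) ?_
      · rw [hA]
        exact hz j
      · rw [Finset.card_univ, Fintype.card_coe, smul_eq_mul, mul_one]
        exact hlt
    have h3 := LinearMap.ker_ne_bot_of_finrank_lt
      (f := LinearMap.pi fun j : S => (A j).mulVecLin.rangeRestrict) h2
    obtain ⟨w₀, hw, hw0⟩ := (Submodule.ne_bot_iff _).1 h3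
    refine ⟨w₀, hw0, fun j => ?_⟩
    have h4 := congrFun (LinearMap.mem_ker.1 hw) j
    exact congrArg Subtype.val h4
  obtain ⟨H, hH⟩ : ∃ H : Subgroup (FU 0 n), ∀ w, w ∈ H ↔
      ∃ c : ℂ, ((x w : (Mat r ℂ)ˣ) : Mat r ℂ) *ᵥ w₀ = c • w₀ := by
    refine ⟨{ carrier := {w | ∃ c : ℂ, ((x w : (Mat r ℂ)ˣ) : Mat r ℂ) *ᵥ w₀ = c • w₀},
              mul_mem' := ?_, one_mem' := ?_, inv_mem' := ?_ }, fun _ => Iff.rfl⟩
    · rintro a b ⟨c, hc⟩ ⟨d, hd⟩
      refine ⟨d * c, ?_⟩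
      rw [map_mul, Units.val_mul, ← Matrix.mulVec_mulVec, hd, Matrix.mulVec_smul, hc, smul_smul]
    · exact ⟨1, by rw [map_one, Units.val_one, Matrix.one_mulVec, one_smul]⟩
    · rintro a ⟨c, hc⟩
      have h5 : w₀ = c • (((x a)⁻¹ : (Mat r ℂ)ˣ) : Mat r ℂ) *ᵥ w₀ := by
        rw [← Matrix.mulVec_smul, ← hc, Matrix.mulVec_mulVec, Units.inv_mul, Matrix.one_mulVec]
      have hc0 : c ≠ 0 := by
        rintro rfl
        rw [zero_smul] at h5
        exact hw₀ h5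
      refine ⟨c⁻¹, ?_⟩
      rw [map_inv]
      conv_rhs => rw [h5]
      rw [smul_smul, inv_mul_cancel₀ hc0, one_smul]
  have hgen : ∀ j, j ≠ j₀ → (FreeGroup.of (Sum.inr j) : FU 0 n) ∈ H := by
    intro j hj
    rw [hH]
    by_cases hjS : j ∈ S
    · refine ⟨z ⟨j, hjS⟩, ?_⟩
      have h6 := hw₁ ⟨j, hjS⟩
      rw [hA, Matrix.sub_mulVec, Matrix.smul_mulVec, Matrix.one_mulVec, sub_eq_zero] at h6
      exact h6
    · rw [hS] at hjS
      push Not at hjS
      obtain ⟨c, hc⟩ := hjS hj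
      refine ⟨c, ?_⟩
      rw [conj_scalar' (hx2 j) hc, Matrix.smul_mulVec, Matrix.one_mulVec]
  have hgen₀ : (FreeGroup.of (Sum.inr j₀) : FU 0 n) ∈ H := by
    obtain ⟨s, t, hst⟩ := List.append_of_mem (List.mem_finRange j₀)
    have hnd := List.nodup_finRange n
    rw [hst, List.nodup_middle, List.nodup_cons] at hnd
    have h7 : x ((s.map fun j => (FreeGroup.of (Sum.inr j) : FU 0 n)).prod *
        (FreeGroup.of (Sum.inr j₀) * (t.map fun j => (FreeGroup.of (Sum.inr j) : FU 0 n)).prod)) =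
        1 := by
      rw [← hx1, relatorU_relL, relL, hst, List.map_append, List.prod_append, List.map_cons,
        List.prod_cons, comW]
      simp
    have hs : (s.map fun j => (FreeGroup.of (Sum.inr j) : FU 0 n)).prod ∈ H := by
      refine Subgroup.list_prod_mem _ fun w hw => ?_
      obtain ⟨j, hj, rfl⟩ := List.mem_map.1 hw
      refine hgen j ?_
      rintro rfl
      exact hnd.1 (List.mem_append_left _ hj)
    have ht : (t.map fun j => (FreeGroup.of (Sum.inr j) : FU 0 n)).prod ∈ H := by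
      refine Subgroup.list_prod_mem _ fun w hw => ?_
      obtain ⟨j, hj, rfl⟩ := List.mem_map.1 hw
      refine hgen j ?_
      rintro rfl
      exact hnd.1 (List.mem_append_right _ hj)
    obtain ⟨c, hc⟩ := (hH _).1 (H.mul_mem (H.inv_mem hs) (H.inv_mem ht))
    refine (hH _).2 ⟨c, ?_⟩
    have h8 : x (FreeGroup.of (Sum.inr j₀)) = x
        ((s.map fun j => (FreeGroup.of (Sum.inr j) : FU 0 n)).prod⁻¹ *
          (t.map fun j => (FreeGroup.of (Sum.inr j) : FU 0 n)).prod⁻¹) := by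
      rw [map_mul, map_mul] at h7
      rw [map_mul, map_inv, map_inv]
      exact eq_mul_inv_of_mul_eq (eq_inv_of_mul_eq_one_right h7)
    rw [h8]
    exact hc
  have hall : ∀ w : FU 0 n, w ∈ H := by
    intro w
    induction w using FreeGroup.induction_on with
    | C1 => exact H.one_mem
    | of k =>
      rcases k with k | j
      · exact k.1.elim0
      · by_cases hj : j = j₀
        · rw [hj]; exact hgen₀
        · exact hgen j hj
    | inv_of k ih => exact H.inv_mem ih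
    | mul a b ha hb => exact H.mul_mem ha hb
  rcases eq_bot_or_top_of_adjoin (fun w => (x w : Mat r ℂ)) hadj (Submodule.span ℂ {w₀})
    (fun w v hv => by
      obtain ⟨c, rfl⟩ := Submodule.mem_span_singleton.1 hv
      obtain ⟨d, hd⟩ := (hH w).1 (hall w)
      rw [Matrix.mulVec_smul, hd]
      exact Submodule.smul_mem _ _ (Submodule.smul_mem _ _ (Submodule.mem_span_singleton_self _)))
    with h | h
  · exact hw₀ (Submodule.span_singleton_eq_bot.1 h)
  · have h9 := finrank_span_singleton (K := ℂ) hw₀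
    rw [h, finrank_top, Module.finrank_fin_fun] at h9
    omega

end Vale.Agent.P002R
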