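import Vale.Agent.P002R.YIrr

/-!
# Two regular classes in genus zero, all classes in genus one: definitions
-/

namespace Vale.Agent.P002R

open Matrix

/-- The main theorem in genus zero: irreducible representations of a sphere with `m + 3`
punctures, the classes of the first and of the last puncture have cyclic vectors. -/
def G02Irr : Prop :=
  ∀ {m r : ℕ}, 0 < r → ∀ {R : Type} [CommRing R] (φ : R →+* ℂ) (E : Subgroup ℂˣ),
    CoefOK φ E r → (∀ (u : Rˣ) (D : R), D ≠ 0 → ∃ M : ℕ, 0 < M ∧ D ∣ (u : R) ^ M - 1) →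
    ∀ C : Fin (m + 3) → (Mat r ℂ)ˣ, (∀ j, EigIn E (C j : Mat r ℂ)) →
    HasCyc r (C 0 : Mat r ℂ) → HasCyc r (C (Fin.last (m + 2)) : Mat r ℂ) →
    ∀ x ∈ YG ({relatorU 0 (m + 3)} : Set (FreeGroup ((Fin 0 × Bool) ⊕ Fin (m + 3)))) C,
    (∀ M : Mat r ℂ, (∀ w, Commute M (x w : Mat r ℂ)) → ∃ c : ℂ, M = c • (1 : Mat r ℂ)) →
    ∀ f : MvPolynomial (((Fin 0 × Bool) ⊕ Fin (m + 3)) × Fin r × Fin r) ℂ,
    (∀ y ∈ DGT ({relatorU 0 (m + 3)} : Set (FreeGroup ((Fin 0 × Bool) ⊕ Fin (m + 3)))) φ C,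
      evalG y f = 0) → evalG x f = 0

/-- Representations of a torus with `n` punctures in prescribed classes which are integral up to
scalars. -/
def DTor {n r : ℕ} {R : Type} [CommRing R] (φ : R →+* ℂ) (C : Fin n → (Mat r ℂ)ˣ) :
    Set (FU 1 n →* (Mat r ℂ)ˣ) :=
  {y | y (relatorU 1 n) = 1 ∧ (∀ j, IsConj (C j) (y (FreeGroup.of (Sum.inr j)))) ∧
    ∀ k, y (FreeGroup.of k) ∈ GR r φ}

end Vale.Agent.P002R
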