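import Vale.Agent.P002L.G01Def
import Vale.Agent.P002R.YCount
import Vale.Agent.P002R.YDefs

/-!
# Irreducible representations of punctured spheres: the cases
-/

namespace Vale.Agent.P002R

open Matrix Vale.Agent.P002L

theorem CoefOK.le_mono {R : Type*} [CommRing R] {φ : R →+* ℂ} {E : Subgroup ℂˣ} {r r' : ℕ}
    (hc : CoefOK φ E r) (h : r' ≤ r) : CoefOK φ E r' :=
  ⟨hc.inj, hc.neg, fun k hk hk' => hc.root k hk (hk'.trans h), hc.unit⟩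

theorem g02_of_g01 (h : G01Irr) : G02Irr := by
  intro m r hr R _ φ E hc _ C hE h0 _ x hx hirr f hf
  exact h (m := m + 2) hr φ E hc C hE h0 x hx hirr f hf

/-- One regular class, at an arbitrary place. -/
theorem g01_any (h : G01Irr) {n r : ℕ} (hr : 0 < r) {R : Type} [CommRing R] (φ : R →+* ℂ)
    (E : Subgroup ℂˣ) (hc : CoefOK φ E r) (C : Fin n → (Mat r ℂ)ˣ)
    (hE : ∀ j, EigIn E (C j : Mat r ℂ)) (j₀ : Fin n) (hj₀ : HasCyc r (C j₀ : Mat r ℂ))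
    (x : FreeGroup ((Fin 0 × Bool) ⊕ Fin n) →* (Mat r ℂ)ˣ)
    (hx : x ∈ YG ({relatorU 0 n} : Set (FreeGroup ((Fin 0 × Bool) ⊕ Fin n))) C)
    (hirr : ∀ M : Mat r ℂ, (∀ w, Commute M (x w : Mat r ℂ)) → ∃ c : ℂ, M = c • (1 : Mat r ℂ))
    (f : MvPolynomial (((Fin 0 × Bool) ⊕ Fin n) × Fin r × Fin r) ℂ)
    (hf : ∀ y ∈ DGT ({relatorU 0 n} : Set (FreeGroup ((Fin 0 × Bool) ⊕ Fin n))) φ C,
      evalG y f = 0) : evalG x f = 0 := by
  obtain ⟨m, rfl⟩ : ∃ m, n = m + 1 := ⟨n - 1, by have := j₀.2; omega⟩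
  have key : IrrDenseQ (fun j r' M => EigIn E M ∧ (j = j₀ → HasCyc r' M))
      ({relatorU 0 (m + 1)} : Set (FreeGroup ((Fin 0 × Bool) ⊕ Fin (m + 1)))) φ r := by
    refine irrDenseQ_reorder (Equiv.swap 0 j₀) fun C hC x hx hirr f hf => ?_
    exact h hr φ E hc C (fun j => (hC j).1) ((hC 0).2 (Equiv.swap_apply_left _ _)) x hx hirr f hf
  exact key C (fun j => ⟨hE j, fun hj => by rw [hj]; exact hj₀⟩) x hx hirr f hf

/-- A permutation which moves the last places into a given set. -/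
theorem exists_perm_last {m r : ℕ} (S : Finset (Fin (m + r))) (hS : S.card = r) :
    ∃ e : Equiv.Perm (Fin (m + r)), ∀ j : Fin r, e (Fin.natAdd m j) ∈ S := by
  classical
  have h1 : Fintype.card {i : Fin (m + r) // m ≤ (i : ℕ)} = r := by
    have h2 : Fintype.card {i : Fin (m + r) // m ≤ (i : ℕ)} = Fintype.card (Fin r) := by
      refine Fintype.card_congr ⟨fun i => ⟨i.1 - m, by have := i.1.2; have := i.2; omega⟩,
        fun j => ⟨Fin.natAdd m j, by simp⟩, fun i => ?_, fun j => ?_⟩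
      · have := i.2
        ext
        simp only [Fin.natAdd_mk]
        omega
      · ext
        simp
    rw [h2, Fintype.card_fin]
  have h3 : Fintype.card {i : Fin (m + r) // m ≤ (i : ℕ)} = Fintype.card {i // i ∈ S} := by
    rw [h1, Fintype.card_coe, hS]
  refine ⟨(Fintype.equivOfCardEq h3).extendSubtype, fun j => ?_⟩
  exact (Fintype.equivOfCardEq h3).extendSubtype_mem _ (by simp)

/-- Enough classes of the form scalar plus rank one. -/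
theorem g0R_any (h : G0R) {n r : ℕ} (hr : 0 < r) {R : Type} [CommRing R] (φ : R →+* ℂ)
    (E : Subgroup ℂˣ) (hc : CoefOK φ E r)
    (hUP : ∀ (u : Rˣ) (D : R), D ≠ 0 → ∃ M : ℕ, 0 < M ∧ D ∣ (u : R) ^ M - 1)
    (C : Fin n → (Mat r ℂ)ˣ)
    (hE : ∀ j, EigIn E (C j : Mat r ℂ)) (j₀ : Fin n) (S : Finset (Fin n)) (hS : r ≤ S.card)
    (hj₀ : j₀ ∉ S) (hRO : ∀ j ∈ S, RO r (C j : Mat r ℂ) ∧ ∀ c : ℂ, (C j : Mat r ℂ) ≠ c • (1 : Mat r ℂ))
    (x : FreeGroup ((Fin 0 × Bool) ⊕ Fin n) →* (Mat r ℂ)ˣ)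
    (hx : x ∈ YG ({relatorU 0 n} : Set (FreeGroup ((Fin 0 × Bool) ⊕ Fin n))) C)
    (hirr : ∀ M : Mat r ℂ, (∀ w, Commute M (x w : Mat r ℂ)) → ∃ c : ℂ, M = c • (1 : Mat r ℂ))
    (f : MvPolynomial (((Fin 0 × Bool) ⊕ Fin n) × Fin r × Fin r) ℂ)
    (hf : ∀ y ∈ DGT ({relatorU 0 n} : Set (FreeGroup ((Fin 0 × Bool) ⊕ Fin n))) φ C,
      evalG y f = 0) : evalG x f = 0 := by
  obtain ⟨S', hS', hcard⟩ := Finset.exists_subset_card_eq hS
  have hn : r + 1 ≤ n := by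
    have h1 : (insert j₀ S').card ≤ n := by
      have := Finset.card_le_univ (insert j₀ S')
      rwa [Fintype.card_fin] at this
    rw [Finset.card_insert_of_notMem fun h => hj₀ (hS' h), hcard] at h1
    exact h1
  obtain ⟨m, rfl⟩ : ∃ m, n = m + 1 + r := ⟨n - 1 - r, by omega⟩
  obtain ⟨e, he⟩ := exists_perm_last S' hcard
  have key : IrrDenseQ (fun j r' M => EigIn E M ∧
      (j ∈ S' → RO r' M ∧ ∀ c : ℂ, M ≠ c • (1 : Mat r' ℂ)))
      ({relatorU 0 (m + 1 + r)} : Set (FreeGroup ((Fin 0 × Bool) ⊕ Fin (m + 1 + r)))) φ r := by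
    refine irrDenseQ_reorder e fun C hC x hx hirr f hf => ?_
    exact h hr φ E hc hUP C (fun j => (hC j).1) (fun j => (hC _).2 (he j)) x hx hirr f hf
  exact key C (fun j => ⟨hE j, fun hj => hRO j (hS' hj)⟩) x hx hirr f hf

/-- Punctured spheres: all cases. -/
theorem g0_cases (h01 : G01Irr) (hR : G0R) {n r : ℕ} (hn : 0 < n) (hr : 0 < r) {R : Type}
    [CommRing R] (φ : R →+* ℂ) (E : Subgroup ℂˣ) (hc : CoefOK φ E r)
    (hUP : ∀ (u : Rˣ) (D : R), D ≠ 0 → ∃ M : ℕ, 0 < M ∧ D ∣ (u : R) ^ M - 1)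
    (C : Fin n → (Mat r ℂ)ˣ) (hE : ∀ j, EigIn E (C j : Mat r ℂ))
    (hcond : r ≤ 3 ∨ (∃ j, HasCyc r (C j : Mat r ℂ)) ∨ ∃ j₀, ∀ j, j ≠ j₀ → RO r (C j : Mat r ℂ))
    (x : FreeGroup ((Fin 0 × Bool) ⊕ Fin n) →* (Mat r ℂ)ˣ)
    (hx : x ∈ YG ({relatorU 0 n} : Set (FreeGroup ((Fin 0 × Bool) ⊕ Fin n))) C)
    (hirr : ∀ M : Mat r ℂ, (∀ w, Commute M (x w : Mat r ℂ)) → ∃ c : ℂ, M = c • (1 : Mat r ℂ))
    (f : MvPolynomial (((Fin 0 × Bool) ⊕ Fin n) × Fin r × Fin r) ℂ)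
    (hf : ∀ y ∈ DGT ({relatorU 0 n} : Set (FreeGroup ((Fin 0 × Bool) ⊕ Fin n))) φ C,
      evalG y f = 0) : evalG x f = 0 := by
  by_cases hcyc : ∃ j, HasCyc r (C j : Mat r ℂ)
  · obtain ⟨j, hj⟩ := hcyc
    exact g01_any h01 hr φ E hc C hE j hj x hx hirr f hf
  have hcond' : ∃ j₀, ∀ j, j ≠ j₀ → RO r (C j : Mat r ℂ) := by
    rcases hcond with h | h | h
    · exact ⟨⟨0, hn⟩, fun j _ => ro_of_not_hasCyc h fun h' => hcyc ⟨j, h'⟩⟩
    · exact absurd h hcyc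
    · exact h
  obtain ⟨j₀, hj₀⟩ := hcond'
  have hr2 : 2 ≤ r := by
    by_contra hlt
    have hr1 : r = 1 := by omega
    subst hr1
    refine hcyc ⟨⟨0, hn⟩, fun _ => 1, fun W hW _ => ?_⟩
    rw [Submodule.eq_top_iff']
    intro y
    have h1 : y = y 0 • (fun _ => 1 : Fin 1 → ℂ) := by
      ext i
      rw [Subsingleton.elim i 0]
      simp
    rw [h1]
    exact W.smul_mem _ hW
  obtain ⟨hx1, hx2, hx3⟩ := id hx
  have hadj := adjoin_top_of_irr x hx3 hirr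
  obtain ⟨S, hS, hjS, hSR⟩ := exists_refl_set hr2 C j₀ hj₀ x (hx1 _ rfl) hx2 hadj
  exact g0R_any hR hr φ E hc hUP C hE j₀ S hS hjS hSR x hx hirr f hf

end Vale.Agent.P002R
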