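import Vale.Agent.P002R.ZIrrQ

/-!
# Classes of the form scalar plus rank at most one
-/

namespace Vale.Agent.P002R

open Matrix

/-- `M` is a scalar matrix plus a matrix of rank at most one. -/
def RO (r : ℕ) (M : Mat r ℂ) : Prop := ∃ z : ℂ, (M - z • (1 : Mat r ℂ)).rank ≤ 1

theorem RO.of_surj {r s : ℕ} {M : Mat r ℂ} {N : Mat s ℂ} (hM : RO r M)
    (π : (Fin r → ℂ) →ₗ[ℂ] (Fin s → ℂ)) (hπ : Function.Surjective π)
    (h : ∀ x, π (M *ᵥ x) = N *ᵥ π x) : RO s N := by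
  obtain ⟨z, hz⟩ := hM
  refine ⟨z, le_trans ?_ hz⟩
  rw [Matrix.rank, Matrix.rank]
  have h1 : LinearMap.range (N - z • (1 : Mat s ℂ)).mulVecLin ≤
      (LinearMap.range (M - z • (1 : Mat r ℂ)).mulVecLin).map π := by
    rintro _ ⟨y, rfl⟩
    obtain ⟨x, rfl⟩ := hπ y
    refine ⟨(M - z • (1 : Mat r ℂ)) *ᵥ x, ⟨x, rfl⟩, ?_⟩
    rw [Matrix.mulVecLin_apply, Matrix.sub_mulVec, Matrix.sub_mulVec, map_sub, h,
      Matrix.smul_mulVec, Matrix.smul_mulVec, Matrix.one_mulVec, Matrix.one_mulVec, map_smul]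
  exact (Submodule.finrank_mono h1).trans (Submodule.finrank_map_le _ _)

/-- Conditions which are inherited by quotients. -/
theorem classOK_of_surj (E : Subgroup ℂˣ) (H : ∀ r : ℕ, Mat r ℂ → Prop)
    (hH : ∀ {r s : ℕ} {M : Mat r ℂ} {N : Mat s ℂ}, H r M →
      ∀ π : (Fin r → ℂ) →ₗ[ℂ] (Fin s → ℂ), Function.Surjective π →
      (∀ x, π (M *ᵥ x) = N *ᵥ π x) → H s N) :
    ClassOK E fun r M => EigIn E M ∧ H r M where
  eig := fun h => h.1
  conj := fun {r X Y} h hX => by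
    refine ⟨hX.1.conj h, ?_⟩
    obtain ⟨U, rfl⟩ := isConj_iff.mp h
    refine hH hX.2 (Matrix.mulVecLin (U : Mat r ℂ)) ?_ fun x => ?_
    · intro y
      refine ⟨((U⁻¹ : (Mat r ℂ)ˣ) : Mat r ℂ) *ᵥ y, ?_⟩
      rw [Matrix.mulVecLin_apply, mulVec_mulVec, Units.mul_inv, one_mulVec]
    · rw [Matrix.mulVecLin_apply, Matrix.mulVecLin_apply, Units.val_mul, Units.val_mul,
        mulVec_mulVec, mulVec_mulVec, Matrix.mul_assoc, Units.inv_mul, Matrix.mul_one]
  blk := fun {r r₁ r₂ D A B} h => by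
    rw [blkU_coe] at h
    refine ⟨⟨(EigIn.blk (by rw [blkU_coe]; exact h.1)).1, ?_⟩,
      ⟨(EigIn.blk (by rw [blkU_coe]; exact h.1)).2, ?_⟩⟩
    · refine hH h.2 (Matrix.mulVecLin D.Q₁) (fun y => ⟨D.P₁ *ᵥ y, ?_⟩) fun x => ?_
      · rw [Matrix.mulVecLin_apply, mulVec_mulVec, D.h11, one_mulVec]
      · rw [Matrix.mulVecLin_apply, Matrix.mulVecLin_apply, mulVec_mulVec, mulVec_mulVec,
          P002.Dec.blk_complex, Matrix.mul_add, ← Matrix.mul_assoc, ← Matrix.mul_assoc,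
          ← Matrix.mul_assoc, ← Matrix.mul_assoc, D.h11, D.h12, Matrix.one_mul, Matrix.zero_mul,
          Matrix.zero_mul, add_zero]
    · refine hH h.2 (Matrix.mulVecLin D.Q₂) (fun y => ⟨D.P₂ *ᵥ y, ?_⟩) fun x => ?_
      · rw [Matrix.mulVecLin_apply, mulVec_mulVec, D.h22, one_mulVec]
      · rw [Matrix.mulVecLin_apply, Matrix.mulVecLin_apply, mulVec_mulVec, mulVec_mulVec,
          P002.Dec.blk_complex, Matrix.mul_add, ← Matrix.mul_assoc, ← Matrix.mul_assoc,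
          ← Matrix.mul_assoc, ← Matrix.mul_assoc, D.h22, D.h21, Matrix.one_mul, Matrix.zero_mul,
          Matrix.zero_mul, zero_add]
  kr₁ := fun {r r₁ r₂ e A} h hA => by
    refine ⟨hA.1.kr₁ h, ?_⟩
    refine hH hA.2 (LinearMap.funLeft ℂ ℂ fun i => e (i, ⟨0, h⟩))
      (LinearMap.funLeft_surjective_of_injective ℂ ℂ _ fun i j hij => by simpa using hij)
      fun x => ?_
    ext i
    simp only [LinearMap.funLeft_apply, mulVec, dotProduct]
    rw [← e.sum_comp, Fintype.sum_prod_type]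
    refine Finset.sum_congr rfl fun k _ => ?_
    simp only [kr_apply, Matrix.one_apply]
    simp
  kr₂ := fun {r r₁ r₂ e B} h hB => by
    refine ⟨hB.1.kr₂ h, ?_⟩
    refine hH hB.2 (LinearMap.funLeft ℂ ℂ fun i => e (⟨0, h⟩, i))
      (LinearMap.funLeft_surjective_of_injective ℂ ℂ _ fun i j hij => by simpa using hij)
      fun x => ?_
    ext i
    simp only [LinearMap.funLeft_apply, mulVec, dotProduct]
    rw [← e.sum_comp, Fintype.sum_prod_type_right]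
    refine Finset.sum_congr rfl fun k _ => ?_
    simp only [kr_apply, Matrix.one_apply]
    simp

/-- The condition on the classes. -/
def QD (E : Subgroup ℂˣ) (P₁ P₂ : Prop) (r : ℕ) (M : Mat r ℂ) : Prop :=
  EigIn E M ∧ (P₁ → HasCyc r M) ∧ (P₂ → RO r M)

theorem classOK_QD (E : Subgroup ℂˣ) (P₁ P₂ : Prop) : ClassOK E (QD E P₁ P₂) :=
  classOK_of_surj E (fun r M => (P₁ → HasCyc r M) ∧ (P₂ → RO r M)) fun h π hπ hM =>
    ⟨fun h1 => (h.1 h1).of_surj π hπ hM, fun h2 => (h.2 h2).of_surj π hπ hM⟩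

/-- A matrix without a cyclic vector has an eigenspace of dimension at least two. -/
theorem exists_eigenspace {r : ℕ} {M : Mat r ℂ} (h : ¬ HasCyc r M) :
    ∃ z : ℂ, (M - z • (1 : Mat r ℂ)).rank + 2 ≤ r := by
  by_contra hcon
  push Not at hcon
  apply h
  -- left eigenvectors
  have hdim : ∀ z : ℂ, Module.finrank ℂ (LinearMap.ker (Mᵀ - z • (1 : Mat r ℂ)).mulVecLin) ≤ 1 := by
    intro z
    have h1 := (Mᵀ - z • (1 : Mat r ℂ)).mulVecLin.finrank_range_add_finrank_ker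
    have h2 : Module.finrank ℂ (LinearMap.range (Mᵀ - z • (1 : Mat r ℂ)).mulVecLin) =
        (M - z • (1 : Mat r ℂ)).rank := by
      rw [← Matrix.rank_transpose (M - z • (1 : Mat r ℂ)), Matrix.transpose_sub,
        Matrix.transpose_smul, Matrix.transpose_one]
      rfl
    rw [h2, Module.finrank_fin_fun] at h1
    have := hcon z
    omega
  -- a vector outside of finitely many hyperplanes
  obtain ⟨ι, hι⟩ : ∃ ι : Set ℂ, ∀ z, z ∈ ι ↔ ∃ l : Fin r → ℂ, l ≠ 0 ∧ Mᵀ *ᵥ l = z • l :=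
    ⟨{z | ∃ l : Fin r → ℂ, l ≠ 0 ∧ Mᵀ *ᵥ l = z • l}, fun _ => Iff.rfl⟩
  have hfin : Finite ι := by
    refine Set.Finite.subset (Polynomial.finite_setOfPred_isRoot
      (Matrix.charpoly_monic Mᵀ).ne_zero) fun z hz => ?_
    obtain ⟨l, hl, hz⟩ := (hι z).1 hz
    rw [Set.mem_ofPred_eq, Polynomial.IsRoot.def, Matrix.eval_charpoly]
    refine (Matrix.exists_mulVec_eq_zero_iff.1 ⟨l, hl, ?_⟩)
    rw [Matrix.sub_mulVec, hz, Matrix.scalar_apply, ← Matrix.smul_one_eq_diagonal,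
      Matrix.smul_mulVec, Matrix.one_mulVec, sub_self]
  have hex : ∃ v : Fin r → ℂ, ∀ z : ℂ, ∀ l : Fin r → ℂ, l ≠ 0 → Mᵀ *ᵥ l = z • l → l ⬝ᵥ v ≠ 0 := by
    have h3 : ∀ z : ι, ∃ l : Fin r → ℂ, l ≠ 0 ∧ Mᵀ *ᵥ l = (z : ℂ) • l := fun z => (hι z).1 z.2
    choose l hl0 hl using h3
    have h4 : ∀ z : ι, ∃ p : Submodule ℂ (Fin r → ℂ), ∀ v, v ∈ p ↔ l z ⬝ᵥ v = 0 := by
      intro z
      refine ⟨{ carrier := {v | l z ⬝ᵥ v = 0}, add_mem' := ?_, zero_mem' := ?_, smul_mem' := ?_ },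
        fun _ => Iff.rfl⟩
      · intro a b ha hb
        rw [Set.mem_ofPred_eq] at ha hb ⊢
        rw [dotProduct_add, ha, hb, add_zero]
      · exact dotProduct_zero _
      · intro c a ha
        rw [Set.mem_ofPred_eq] at ha ⊢
        rw [dotProduct_smul, ha, smul_zero]
    choose p hp using h4
    have h5 : (⋃ z, (p z : Set (Fin r → ℂ))) ≠ Set.univ := by
      intro h6
      obtain ⟨z, hz⟩ := Subspace.exists_eq_top_of_iUnion_eq_univ h6
      apply hl0 z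
      ext i
      have h7 : (Pi.single i 1 : Fin r → ℂ) ∈ p z := hz ▸ Submodule.mem_top
      rw [hp, dotProduct_single, mul_one] at h7
      exact h7
    obtain ⟨v, hv⟩ := (Set.ne_univ_iff_exists_notMem _).1 h5
    refine ⟨v, fun z m hm0 hm hmv => hv ?_⟩
    have hz : z ∈ ι := (hι z).2 ⟨m, hm0, hm⟩
    refine Set.mem_iUnion.2 ⟨⟨z, hz⟩, ?_⟩
    rw [SetLike.mem_coe, hp]
    obtain ⟨w, hw⟩ := finrank_le_one_iff.1 (hdim z)
    have hk : ∀ m : Fin r → ℂ, Mᵀ *ᵥ m = z • m →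
        m ∈ LinearMap.ker (Mᵀ - z • (1 : Mat r ℂ)).mulVecLin := by
      intro m hm
      rw [LinearMap.mem_ker, Matrix.mulVecLin_apply, Matrix.sub_mulVec, hm, Matrix.smul_mulVec,
        Matrix.one_mulVec, sub_self]
    obtain ⟨a, ha⟩ := hw ⟨m, hk m hm⟩
    obtain ⟨b, hb⟩ := hw ⟨l ⟨z, hz⟩, hk _ (hl ⟨z, hz⟩)⟩
    have ha' : a • (w : Fin r → ℂ) = m := congrArg Subtype.val ha
    have hb' : b • (w : Fin r → ℂ) = l ⟨z, hz⟩ := congrArg Subtype.val hb
    have ha0 : a ≠ 0 := by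
      rintro rfl
      exact hm0 (by rw [← ha', zero_smul])
    rw [← ha', smul_dotProduct, smul_eq_mul, mul_eq_zero, or_iff_right ha0] at hmv
    rw [← hb', smul_dotProduct, hmv, smul_zero]
  obtain ⟨v, hv⟩ := hex
  refine ⟨v, fun W hW hWM => ?_⟩
  by_contra hWtop
  obtain ⟨f, hf0, hfW⟩ := Submodule.exists_le_ker_of_lt_top W (lt_top_iff_ne_top.2 hWtop)
  obtain ⟨U, hU⟩ : ∃ U : Submodule ℂ (Fin r → ℂ), ∀ l, l ∈ U ↔ ∀ w ∈ W, l ⬝ᵥ w = 0 := by
    refine ⟨{ carrier := {l | ∀ w ∈ W, l ⬝ᵥ w = 0}, add_mem' := ?_, zero_mem' := ?_,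
              smul_mem' := ?_ }, fun _ => Iff.rfl⟩
    · intro a b ha hb w hw
      rw [add_dotProduct, ha w hw, hb w hw, add_zero]
    · intro w _
      exact zero_dotProduct _
    · intro c a ha w hw
      rw [smul_dotProduct, ha w hw, smul_zero]
  have hfl : ∀ w, (fun i => f (Pi.single i 1)) ⬝ᵥ w = f w := by
    intro w
    conv_rhs => rw [← Finset.univ_sum_single w, map_sum]
    refine Finset.sum_congr rfl fun i _ => ?_
    have h8 : (Pi.single i (w i) : Fin r → ℂ) = w i • (Pi.single i 1 : Fin r → ℂ) := by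
      rw [← Pi.single_smul, smul_eq_mul, mul_one]
    rw [h8, map_smul, smul_eq_mul, mul_comm]
  have hne : (fun i => f (Pi.single i 1)) ∈ U := by
    rw [hU]
    intro w hw
    rw [hfl]
    exact LinearMap.mem_ker.1 (hfW hw)
  have hne0 : (fun i => f (Pi.single i 1)) ≠ 0 := by
    intro h0
    apply hf0
    ext i
    exact congrFun h0 i
  have hinv : ∀ l ∈ U, Mᵀ.mulVecLin l ∈ U := by
    intro l hl
    rw [hU] at hl ⊢
    intro w hw
    rw [Matrix.mulVecLin_apply, Matrix.mulVec_transpose, ← Matrix.dotProduct_mulVec]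
    exact hl _ (hWM w hw)
  have hnt : Nontrivial U := ⟨⟨_, hne⟩, 0, fun h => hne0 (congrArg Subtype.val h)⟩
  obtain ⟨z, hz⟩ := Module.End.exists_eigenvalue ((Mᵀ.mulVecLin).restrict hinv)
  obtain ⟨l, hl⟩ := hz.exists_hasEigenvector
  refine hv z (l : Fin r → ℂ) (fun h => hl.2 (Subtype.ext h)) ?_ ((hU _).1 l.2 v hW)
  exact congrArg Subtype.val hl.apply_eq_smul

/-- In rank at most three every class without a cyclic vector is scalar plus rank one. -/
theorem ro_of_not_hasCyc {r : ℕ} (hr : r ≤ 3) {M : Mat r ℂ} (h : ¬ HasCyc r M) : RO r M := by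
  obtain ⟨z, hz⟩ := exists_eigenspace h
  exact ⟨z, by omega⟩

end Vale.Agent.P002R
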