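import Vale.Agent.P002R.YPrin

/-!
# Diagonalization over a ring in which ideals become principal; spectral projectors
-/

namespace Vale.Agent.P002R

open Matrix Polynomial

/-- A matrix of unimodular eigenvectors is invertible if the eigenvalues have unit differences. -/
theorem isUnit_det_of_eigen {R : Type} [CommRing R] {r : ℕ} (A P : Mat r R) (ω : Fin r → R)
    (hω : ∀ i j, i ≠ j → IsUnit (ω i - ω j)) (hP : ∀ j, A *ᵥ P.col j = ω j • P.col j)
    (hu : ∀ j, ∃ y : Fin r → R, ∑ i, y i * P i j = 1) : IsUnit P.det := by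
  by_contra hcon
  obtain ⟨m, hm, hmem⟩ := exists_max_ideal_of_mem_nonunits hcon
  let : Field (R ⧸ m) := Ideal.Quotient.field m
  obtain ⟨q, hq⟩ : ∃ q : R →+* R ⧸ m, q = Ideal.Quotient.mk m := ⟨_, rfl⟩
  have hq0 : q P.det = 0 := by rw [hq]; exact Ideal.Quotient.eq_zero_iff_mem.2 hmem
  have hli : LinearIndependent (R ⧸ m) (P.map q).col := by
    refine Module.End.eigenvectors_linearIndependent' (Matrix.mulVecLin (A.map q))
      (fun j => q (ω j)) ?_ _ fun j => ⟨?_, ?_⟩
    · intro i j hij
      by_contra hne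
      have h1 := (hω i j hne).map q
      rw [map_sub, sub_eq_zero.2 hij] at h1
      exact not_isUnit_zero h1
    · rw [Module.End.mem_eigenspace_iff]
      have h1 := congrArg (fun v => q ∘ v) (hP j)
      ext i
      have h2 := congrFun h1 i
      simp only [Function.comp_apply, Matrix.mulVec, dotProduct, Pi.smul_apply, smul_eq_mul,
        map_sum, map_mul, Matrix.col_apply] at h2
      simp only [Matrix.mulVecLin_apply, Matrix.mulVec, dotProduct, Matrix.map_apply,
        Matrix.col_apply, Pi.smul_apply, smul_eq_mul]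
      exact h2
    · intro h0
      obtain ⟨y, hy⟩ := hu j
      have h1 := congrArg q hy
      rw [map_sum, map_one] at h1
      have h2 : ∀ i, q (y i * P i j) = 0 := by
        intro i
        rw [map_mul]
        have h3 := congrFun h0 i
        rw [Matrix.col_apply, Matrix.map_apply, Pi.zero_apply] at h3
        rw [h3, mul_zero]
      rw [Finset.sum_eq_zero fun i _ => h2 i] at h1
      exact zero_ne_one h1
  have h1 : IsUnit (P.map q) := Matrix.linearIndependent_cols_iff_isUnit.1 hli
  rw [Matrix.isUnit_iff_isUnit_det] at h1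
  have h2 : (P.map q).det = q P.det := (RingHom.map_det q P).symm
  rw [h2, hq0] at h1
  exact not_isUnit_zero h1

/-- Diagonalization of integral matrices. -/
theorem exists_diag {R₁ R₂ : Type} [CommRing R₁] [CommRing R₂] [IsDomain R₁] [IsDomain R₂]
    (ι : R₁ →+* R₂) (hι : Function.Injective ι) (hprin : Prin ι) {r : ℕ} (A : Mat r R₁)
    (ω : Fin r → R₁) (hω : ∀ i j, i ≠ j → IsUnit (ω i - ω j))
    (hA : ∀ i, (A - Matrix.scalar (Fin r) (ω i)).det = 0) :
    ∃ P : Mat r R₂, IsUnit P.det ∧ A.map ι * P = P * diagonal fun i => ι (ω i) := by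
  have h1 : ∀ j, ∃ v : Fin r → R₁, v ≠ 0 ∧ (A - Matrix.scalar (Fin r) (ω j)) *ᵥ v = 0 := fun j =>
    Matrix.exists_mulVec_eq_zero_iff.2 (hA j)
  choose v hv hv' using h1
  have h2 : ∀ j, A *ᵥ v j = ω j • v j := by
    intro j
    have h3 := hv' j
    rw [Matrix.sub_mulVec, sub_eq_zero] at h3
    rw [h3]
    ext i
    simp [Matrix.scalar_apply, Matrix.mulVec_diagonal]
  choose t w y hw hy using fun j => hprin r (v j) (hv j)
  have ht : ∀ j, t j ≠ 0 := by
    intro j h0
    apply hv j
    funext i
    apply hι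
    rw [hw, h0, zero_mul, Pi.zero_apply, map_zero]
  obtain ⟨P, hP⟩ : ∃ P : Mat r R₂, ∀ i j, P i j = w j i := ⟨Matrix.of fun i j => w j i, fun _ _ => rfl⟩
  have h3 : ∀ j, (A.map ι) *ᵥ P.col j = ι (ω j) • P.col j := by
    intro j
    ext i
    apply mul_left_cancel₀ (ht j)
    have h4 := congrArg ι (congrFun (h2 j) i)
    simp only [Matrix.mulVec, dotProduct, Pi.smul_apply, smul_eq_mul, map_sum, map_mul, hw] at h4
    simp only [Matrix.mulVec, dotProduct, Matrix.map_apply, Matrix.col_apply, Pi.smul_apply,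
      smul_eq_mul, hP, Finset.mul_sum]
    calc ∑ k, t j * (ι (A i k) * w j k) = ∑ k, ι (A i k) * (t j * w j k) :=
          Finset.sum_congr rfl fun k _ => by ring
      _ = ι (ω j) * (t j * w j i) := h4
      _ = t j * (ι (ω j) * w j i) := by ring
  refine ⟨P, isUnit_det_of_eigen (A.map ι) P (fun j => ι (ω j)) (fun i j hij => ?_) h3
    (fun j => ⟨y j, ?_⟩), ?_⟩
  · rw [← map_sub]
    exact (hω i j hij).map ι
  · simp only [hP]
    exact hy j
  · ext i j
    rw [Matrix.mul_diagonal]
    have h4 := congrFun (h3 j) i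
    rw [Matrix.mul_apply]
    simp only [Matrix.mulVec, dotProduct, Matrix.col_apply, Pi.smul_apply, smul_eq_mul] at h4
    rw [h4, mul_comm]

/-! ### spectral projectors -/

theorem aeval_mul_of_diag {r : ℕ} {M P : Mat r ℂ} {ω : Fin r → ℂ}
    (h : M * P = P * diagonal ω) (q : ℂ[X]) :
    aeval M q * P = P * diagonal fun i => q.eval (ω i) := by
  induction q using Polynomial.induction_on' with
  | add p q hp hq =>
    rw [map_add, add_mul, hp, hq, ← mul_add, Matrix.diagonal_add]
    simp only [eval_add]
  | monomial n c =>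
    have h1 : ∀ n : ℕ, M ^ n * P = P * diagonal fun i => ω i ^ n := by
      intro n
      induction n with
      | zero => simp
      | succ n ih =>
        rw [pow_succ, mul_assoc, h, ← mul_assoc, ih, mul_assoc, Matrix.diagonal_mul_diagonal]
        simp only [pow_succ]
    rw [aeval_monomial, mul_assoc, h1]
    rw [← Algebra.smul_def, ← Matrix.mul_smul, ← Matrix.diagonal_smul]
    congr 2
    funext i
    simp [eval_monomial]

/-- The spectral projectors. -/
noncomputable def proj {r : ℕ} (ω : Fin r → ℂ) (i : Fin r) (M : Mat r ℂ) : Mat r ℂ :=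
  aeval M (Lagrange.basis Finset.univ ω i)

theorem proj_mul {r : ℕ} {M P : Mat r ℂ} {ω : Fin r → ℂ} (hω : Function.Injective ω)
    (h : M * P = P * diagonal ω) (i : Fin r) :
    proj ω i M * P = P * diagonal (Pi.single i 1) := by
  rw [proj, aeval_mul_of_diag h]
  congr 2
  funext j
  by_cases hij : i = j
  · subst hij
    rw [Pi.single_eq_same]
    exact Lagrange.eval_basis_self hω.injOn (Finset.mem_univ _)
  · rw [Pi.single_eq_of_ne (Ne.symm hij)]
    exact Lagrange.eval_basis_of_ne hij (Finset.mem_univ _)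

theorem sum_proj {r : ℕ} {ω : Fin r → ℂ} (hω : Function.Injective ω) (hr : 0 < r) (M : Mat r ℂ) :
    ∑ i, proj ω i M = 1 := by
  unfold proj
  rw [← map_sum, Lagrange.sum_basis hω.injOn ⟨⟨0, hr⟩, Finset.mem_univ _⟩, map_one]

theorem proj_conj {r : ℕ} (ω : Fin r → ℂ) (i : Fin r) (M U : Mat r ℂ) (hU : IsUnit U.det) :
    proj ω i (U * M * U⁻¹) = U * proj ω i M * U⁻¹ := by
  unfold proj
  have h1 : ∀ q : ℂ[X], aeval (U * M * U⁻¹) q = U * aeval M q * U⁻¹ := by
    intro q
    have h2 : U⁻¹ * U = 1 := Matrix.nonsing_inv_mul U hU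
    have h3 : U * U⁻¹ = 1 := Matrix.mul_nonsing_inv U hU
    have h4 : ∀ n : ℕ, (U * M * U⁻¹) ^ n = U * M ^ n * U⁻¹ := by
      intro n
      induction n with
      | zero => rw [pow_zero, pow_zero, mul_one, h3]
      | succ n ih =>
        rw [pow_succ, ih, pow_succ]
        calc U * M ^ n * U⁻¹ * (U * M * U⁻¹) = U * M ^ n * (U⁻¹ * U) * M * U⁻¹ := by
              simp only [mul_assoc]
          _ = U * (M ^ n * M) * U⁻¹ := by rw [h2, mul_one]; simp only [mul_assoc]
    induction q using Polynomial.induction_on' with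
    | add p q hp hq => rw [map_add, map_add, hp, hq, mul_add, add_mul]
    | monomial n c =>
      rw [aeval_monomial, aeval_monomial, h4, ← Algebra.smul_def, ← Algebra.smul_def,
        Matrix.mul_smul, Matrix.smul_mul]
  exact h1 _

/-- The sum of the spectral components of an intertwiner. -/
theorem sum_proj_mul {r : ℕ} {ω : Fin r → ℂ} (hω : Function.Injective ω) (hr : 0 < r)
    {M P : Mat r ℂ} (hP : IsUnit P.det) (h : M * P = P * diagonal ω) (a : Mat r ℂ)
    (ha : IsUnit a.det) : ∑ i, proj ω i (a * M * a⁻¹) * a * proj ω i M = a := by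
  have h1 : ∀ i, proj ω i (a * M * a⁻¹) * a * proj ω i M = a * proj ω i M := by
    intro i
    have h2 : proj ω i M * proj ω i M = proj ω i M := by
      have h3 := proj_mul hω h i
      have h4 : proj ω i M = P * diagonal (Pi.single i 1) * P⁻¹ := by
        rw [← h3, mul_assoc, Matrix.mul_nonsing_inv P hP, mul_one]
      rw [h4]
      calc P * diagonal (Pi.single i 1) * P⁻¹ * (P * diagonal (Pi.single i 1) * P⁻¹)
          = P * diagonal (Pi.single i 1) * (P⁻¹ * P) * diagonal (Pi.single i 1) * P⁻¹ := by
            simp only [mul_assoc]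
        _ = P * (diagonal (Pi.single i 1) * diagonal (Pi.single i 1)) * P⁻¹ := by
            rw [Matrix.nonsing_inv_mul P hP, mul_one]; simp only [mul_assoc]
        _ = _ := by
            rw [Matrix.diagonal_mul_diagonal]
            congr 3
            funext j
            by_cases hij : j = i
            · subst hij; simp
            · simp [Pi.single_eq_of_ne hij]
    rw [proj_conj ω i M a ha]
    calc a * proj ω i M * a⁻¹ * a * proj ω i M = a * proj ω i M * (a⁻¹ * a) * proj ω i M := by
          simp only [mul_assoc]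
      _ = a * (proj ω i M * proj ω i M) := by
          rw [Matrix.nonsing_inv_mul a ha, mul_one]; simp only [mul_assoc]
      _ = _ := by rw [h2]
  rw [Finset.sum_congr rfl fun i _ => h1 i, ← Finset.mul_sum, sum_proj hω hr, mul_one]

end Vale.Agent.P002R
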