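import Vale.Agent.P002R.ZChart

/-!
# P002: rational charts of a conjugacy class with prescribed diagonal
-/

namespace Vale.Agent.P002R

open Matrix

section comp

variable {σ σ' : Type*} {x₀ : σ → ℂ} {y₀ : σ' → ℂ}

/-- Composition of functions which are regular at a point. -/
theorem exists_ratComp (s : σ' → ratAt x₀) (hs : ∀ i, rev x₀ x₀ (s i) = y₀ i) (g : ratAt y₀) :
    ∃ h : ratAt x₀, ∀ x, rev x₀ x h = rev y₀ (fun i => rev x₀ x (s i)) g := by
  obtain ⟨g, d, P, h1, h2⟩ := g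
  obtain ⟨D, hD⟩ : ∃ D : ratAt x₀, D = MvPolynomial.aeval s d := ⟨_, rfl⟩
  obtain ⟨Q, hQ⟩ : ∃ Q : ratAt x₀, Q = MvPolynomial.aeval s P := ⟨_, rfl⟩
  have hr : ∀ (p : MvPolynomial σ' ℂ) (x : σ → ℂ),
      rev x₀ x (MvPolynomial.aeval s p) = MvPolynomial.eval (fun i => rev x₀ x (s i)) p := by
    intro p x
    rw [← AlgHom.comp_apply, MvPolynomial.comp_aeval, ← MvPolynomial.coe_aeval_eq_eval]
    rfl
  have hDr : ∀ x, rev x₀ x D = MvPolynomial.eval (fun i => rev x₀ x (s i)) d := fun x => by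
    rw [hD, hr]
  have hQr : ∀ x, rev x₀ x Q = MvPolynomial.eval (fun i => rev x₀ x (s i)) P := fun x => by
    rw [hQ, hr]
  have hD0 : rev x₀ x₀ D ≠ 0 := by
    rw [hDr]
    have h3 : (fun i => rev x₀ x₀ (s i)) = y₀ := funext hs
    rw [h3]
    exact h1
  obtain ⟨Di, hDi⟩ := exists_rinv D hD0
  obtain ⟨dD, hdD, hdD'⟩ := ratAt_ne D hD0
  obtain ⟨h, hh⟩ : ∃ h : ratAt x₀, h = Q * Di := ⟨_, rfl⟩
  have hhr : ∀ x, MvPolynomial.eval x dD ≠ 0 →
      rev x₀ x h = g fun i => rev x₀ x (s i) := by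
    intro x hx
    have h4 := hdD' x hx
    rw [hh, map_mul, hDi, hQr]
    rw [hDr] at h4 ⊢
    rw [← h2 _ h4, mul_assoc, mul_inv_cancel₀ h4, mul_one]
  obtain ⟨h', d', P', h5, h6⟩ := h
  refine ⟨⟨fun x => g fun i => rev x₀ x (s i), d' * dD, P' * dD, ?_, fun x hx => ?_⟩, fun x => rfl⟩
  · rw [map_mul]
    exact mul_ne_zero h5 hdD
  · rw [map_mul] at hx
    have h7 := h6 x (left_ne_zero_of_mul hx)
    have h8 := hhr x (right_ne_zero_of_mul hx)
    rw [rev_apply] at h8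
    simp only at h8
    simp only [map_mul]
    rw [← h7, ← h8]
    ring

end comp

/-- Rational charts through `X₀` of the set of the elements of the cell in the conjugacy class of
`J`: a member of a rational family with prescribed diagonal (the variables in `Fin r`) and
parameters in `τ`, with a dense set of parameters for which the members with unit diagonal are
integral. -/
def DualD {r : ℕ} {R : Type*} [CommRing R] (φ : R →+* ℂ) (J X₀ : Mat r ℂ) : Prop :=
  ∃ (τ : Type) (t₀ : τ → ℂ) (A : Set (τ → ℂ)),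
    (∀ P : MvPolynomial τ ℂ, (∀ t ∈ A, MvPolynomial.eval t P = 0) → MvPolynomial.eval t₀ P = 0) ∧
    ∃ (Y : Mat r (ratAt (Sum.elim t₀ fun i : Fin r => X₀ i i)))
      (κ : ratAt (Sum.elim t₀ fun i : Fin r => X₀ i i)),
      rev _ (Sum.elim t₀ fun i : Fin r => X₀ i i) κ ≠ 0 ∧
      (∀ i j, rev _ (Sum.elim t₀ fun i : Fin r => X₀ i i) (Y i j) = X₀ i j) ∧
      ∀ t ∈ A, ∀ q : Fin r → Rˣ, ∏ i, φ (q i) = J.det →
        rev _ (Sum.elim t fun i : Fin r => φ (q i)) κ ≠ 0 →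
        ∃ X : Mat r R, (∀ i, X i i = q i) ∧ CjM J (zZ (X.map φ)) ∧
          ∀ i j, rev _ (Sum.elim t fun i : Fin r => φ (q i)) (Y i j) = φ (X i j)

end Vale.Agent.P002R
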