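import Vale.Agent.P002R.YFibre2

/-!
# Density over the fibre where the second handle matrix has prescribed eigenvalues
-/

namespace Vale.Agent.P002R

open Matrix Polynomial

variable {r : ℕ}

theorem prin_id : Prin (RingHom.id ℂ) := by
  intro r v hv
  obtain ⟨i, hi⟩ : ∃ i, v i ≠ 0 := by
    by_contra h
    push Not at h
    exact hv (funext h)
  refine ⟨1, v, Pi.single i (v i)⁻¹, fun j => by simp, ?_⟩
  rw [Finset.sum_eq_single i]
  · rw [Pi.single_eq_same, inv_mul_cancel₀ hi]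
  · intro j _ hj
    rw [Pi.single_eq_of_ne hj, zero_mul]
  · intro h
    exact absurd (Finset.mem_univ _) h

/-- Complex matrices with prescribed distinct eigenvalues are diagonalizable. -/
theorem exists_diag_complex {M : Mat r ℂ} {ω : Fin r → ℂ} (hω : Function.Injective ω)
    (h : M.charpoly = ∏ i, (X - C (ω i))) :
    ∃ P : Mat r ℂ, IsUnit P.det ∧ M * P = P * diagonal ω := by
  obtain ⟨P, hP, h1⟩ := exists_diag (RingHom.id ℂ) Function.injective_id prin_id M ω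
    (fun i j hij => isUnit_iff_ne_zero.2 (sub_ne_zero.2 fun h => hij (hω h)))
    (det_sub_of_charpoly h)
  refine ⟨P, hP, ?_⟩
  have h2 : M.map (RingHom.id ℂ) = M := by
    ext i j
    rfl
  rwa [h2] at h1

theorem hasCyc_of_diag {M P : Mat r ℂ} {ω : Fin r → ℂ} (hω : Function.Injective ω)
    (hP : IsUnit P.det) (h : M * P = P * diagonal ω) : HasCyc r M := by
  refine ⟨P *ᵥ fun _ => 1, fun W hv hW => ?_⟩
  have h1 : ∀ i, P.col i ∈ W := fun i => mem_of_coeff hω hP h hW _ hv i (by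
    rw [Matrix.mulVec_mulVec, Matrix.nonsing_inv_mul P hP, Matrix.one_mulVec]
    exact one_ne_zero)
  rw [eq_top_iff]
  intro v _
  have h2 : v = ∑ i, (P⁻¹ *ᵥ v) i • P.col i := by
    have h3 : v = P *ᵥ (P⁻¹ *ᵥ v) := by
      rw [Matrix.mulVec_mulVec, Matrix.mul_nonsing_inv P hP, Matrix.one_mulVec]
    conv_lhs => rw [h3]
    ext k
    rw [Matrix.mulVec, dotProduct, Finset.sum_apply]
    refine Finset.sum_congr rfl fun i _ => ?_
    rw [Pi.smul_apply, smul_eq_mul, Matrix.col_apply, mul_comm]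
  rw [h2]
  exact Submodule.sum_mem _ fun i _ => W.smul_mem _ (h1 i)

theorem eigIn_of_charpoly {E : Subgroup ℂˣ} {M : Mat r ℂ} {ω : Fin r → ℂ}
    (h : M.charpoly = ∏ i, (X - C (ω i))) (hω : ∀ i, ∃ e ∈ E, (e : ℂ) = ω i) : EigIn E M := by
  intro z hz
  rw [h, IsRoot.def, eval_prod, Finset.prod_eq_zero_iff] at hz
  obtain ⟨i, _, hi⟩ := hz
  rw [eval_sub, eval_X, eval_C, sub_eq_zero] at hi
  rw [hi]
  exact hω i

theorem EigIn.mono {E E' : Subgroup ℂˣ} (h : E ≤ E') {M : Mat r ℂ} (hM : EigIn E M) :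
    EigIn E' M := fun z hz => by
  obtain ⟨e, he, h1⟩ := hM z hz
  exact ⟨e, h he, h1⟩

theorem eigIn_inv {E : Subgroup ℂˣ} {M : (Mat r ℂ)ˣ} (hM : EigIn E (M : Mat r ℂ)) :
    EigIn E ((M⁻¹ : (Mat r ℂ)ˣ) : Mat r ℂ) := by
  intro z hz
  have h1 : (Matrix.scalar (Fin r) z - ((M⁻¹ : (Mat r ℂ)ˣ) : Mat r ℂ)).det = 0 := by
    rw [← Matrix.eval_charpoly]
    exact hz
  have hz0 : z ≠ 0 := by
    rintro rfl
    rw [map_zero, zero_sub, Matrix.det_neg] at h1
    have h2 : IsUnit ((M⁻¹ : (Mat r ℂ)ˣ) : Mat r ℂ).det :=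
      (Matrix.isUnit_iff_isUnit_det _).1 (M⁻¹).isUnit
    rcases mul_eq_zero.1 h1 with h3 | h3
    · exact pow_ne_zero _ (by norm_num) h3
    · exact h2.ne_zero h3
  obtain ⟨v, hv, hv'⟩ := Matrix.exists_mulVec_eq_zero_iff.2 h1
  rw [Matrix.sub_mulVec, sub_eq_zero] at hv'
  have h3 : Matrix.scalar (Fin r) z *ᵥ v = z • v := by
    ext i
    simp [Matrix.scalar_apply, Matrix.mulVec_diagonal]
  rw [h3] at hv'
  have h4 : (M : Mat r ℂ) *ᵥ v = z⁻¹ • v := by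
    have h5 := congrArg (fun w => (M : Mat r ℂ) *ᵥ w) hv'
    simp only [Matrix.mulVec_smul, Matrix.mulVec_mulVec, Units.mul_inv, Matrix.one_mulVec] at h5
    calc (M : Mat r ℂ) *ᵥ v = z⁻¹ • z • (M : Mat r ℂ) *ᵥ v := by
          rw [smul_smul, inv_mul_cancel₀ hz0, one_smul]
      _ = z⁻¹ • v := by rw [h5]
  obtain ⟨e, he, h5⟩ := hM z⁻¹ (by
    rw [IsRoot.def, Matrix.eval_charpoly, ← Matrix.exists_mulVec_eq_zero_iff]
    refine ⟨v, hv, ?_⟩
    rw [Matrix.sub_mulVec, h4, sub_eq_zero]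
    ext i
    simp [Matrix.scalar_apply, Matrix.mulVec_diagonal])
  refine ⟨e⁻¹, inv_mem he, ?_⟩
  rw [Units.val_inv_eq_inv_val, h5, inv_inv]

/-- The genus zero representation attached to a representation in the fibre is irreducible. -/
theorem adjoin_zT {n : ℕ} (hr : 0 < r) {E : Subgroup ℂˣ} {ω : Fin r → ℂ}
    (hω : Function.Injective ω)
    (hno : ∀ (I J : Finset (Fin r)), (∃ ε ∈ E, ∏ i ∈ I, ω i = (ε : ℂ) * ∏ j ∈ J, ω j) → I = J)
    (z : FU 1 (n + 1) →* (Mat r ℂ)ˣ)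
    (hz3 : Algebra.adjoin ℂ (Set.range fun w => (z w : Mat r ℂ)) = ⊤) (a b : (Mat r ℂ)ˣ)
    (c : Fin (n + 1) → (Mat r ℂ)ˣ) (ha : z (FreeGroup.of (Sum.inl (0, false))) = a)
    (hb : z (FreeGroup.of (Sum.inl (0, true))) = b)
    (hc : ∀ j, z (FreeGroup.of (Sum.inr j)) = c j)
    (hrel : (List.ofFn c).prod * (a * b * a⁻¹) = b)
    (hE : ∀ j, EigIn E (c j : Mat r ℂ)) (hch : (b : Mat r ℂ).charpoly = ∏ i, (X - C (ω i))) :
    Algebra.adjoin ℂ (Set.range fun w => (mkR (zT a b c) w : Mat r ℂ)) = ⊤ := by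
  obtain ⟨P, hP, hbP⟩ := exists_diag_complex hω hch
  refine adjoin_top_of_simple hr _ fun W hW => ?_
  have hW1 : ∀ v ∈ W, (b : Mat r ℂ) *ᵥ v ∈ W := by
    intro v hv
    have h1 := hW (FreeGroup.of (Sum.inr 0))⁻¹ v hv
    rwa [map_inv, mkR_inr, zT_zero, inv_inv] at h1
  have hW2 : ∀ j, ∀ v ∈ W, (c j : Mat r ℂ) *ᵥ v ∈ W := by
    intro j v hv
    have h1 := hW (FreeGroup.of (Sum.inr ⟨j + 1, by omega⟩)) v hv
    rwa [mkR_inr, zT_mid] at h1
  have hW3 : ∀ v ∈ W, ((a : Mat r ℂ) * (b : Mat r ℂ) * (a : Mat r ℂ)⁻¹) *ᵥ v ∈ W := by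
    intro v hv
    have h1 := hW (FreeGroup.of (Sum.inr (Fin.last (n + 2)))) v hv
    rwa [mkR_inr, zT_last, Units.val_mul, Units.val_mul, Matrix.coe_units_inv] at h1
  have ha' : IsUnit (a : Mat r ℂ).det := (Matrix.isUnit_iff_isUnit_det _).1 a.isUnit
  have hW4 : ∀ v ∈ W, (a : Mat r ℂ) *ᵥ v ∈ W := by
    refine inv_of_inv (E := E) ha' (List.ofFn fun j => (c j : Mat r ℂ)) ?_ ?_ hω hP hbP hno hW1
      ?_ hW3
    · have h1 := congrArg (fun u : (Mat r ℂ)ˣ => (u : Mat r ℂ)) hrel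
      simp only [Units.val_mul, Matrix.coe_units_inv] at h1
      refine Eq.trans ?_ h1
      congr 1
      rw [← Units.coeHom_apply, map_list_prod, List.map_ofFn]
      rfl
    · intro M hM
      obtain ⟨j, rfl⟩ := (List.mem_ofFn' _ _).1 hM
      exact hE j
    · intro M hM
      obtain ⟨j, rfl⟩ := (List.mem_ofFn' _ _).1 hM
      exact hW2 j
  have hall : ∀ M : Mat r ℂ, ∀ v ∈ W, M *ᵥ v ∈ W := by
    intro M
    have hM : M ∈ Algebra.adjoin ℂ (Set.range fun k => (z (FreeGroup.of k) : Mat r ℂ)) := by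
      rw [adjoin_gen_eq_top z hz3]
      exact Algebra.mem_top
    induction hM using Algebra.adjoin_induction with
    | mem y hy =>
      obtain ⟨k, rfl⟩ := hy
      rcases k with ⟨k, _ | _⟩ | j
      · obtain rfl : k = 0 := Subsingleton.elim _ _
        simp only [ha]
        exact hW4
      · obtain rfl : k = 0 := Subsingleton.elim _ _
        simp only [hb]
        exact hW1
      · simp only [hc]
        exact hW2 j
    | algebraMap c =>
      intro v hv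
      rw [Algebra.algebraMap_eq_smul_one, Matrix.smul_mulVec, Matrix.one_mulVec]
      exact W.smul_mem _ hv
    | add x y _ _ hx hy =>
      intro v hv
      rw [Matrix.add_mulVec]
      exact W.add_mem (hx v hv) (hy v hv)
    | mul x y _ _ hx hy =>
      intro v hv
      rw [← Matrix.mulVec_mulVec]
      exact hx _ (hy v hv)
  by_cases h0 : W = ⊥
  · exact Or.inl h0
  · right
    obtain ⟨v, hv, hv0⟩ := Submodule.exists_mem_ne_zero_of_ne_bot h0
    obtain ⟨i, hi⟩ : ∃ i, v i ≠ 0 := by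
      by_contra h
      push Not at h
      exact hv0 (funext h)
    rw [eq_top_iff]
    intro u _
    have h1 := hall (Matrix.vecMulVec u (Pi.single i (v i)⁻¹)) v hv
    have h2 : Matrix.vecMulVec u (Pi.single i (v i)⁻¹) *ᵥ v = u := by
      ext k
      rw [Matrix.mulVec, dotProduct, Finset.sum_eq_single i]
      · rw [Matrix.vecMulVec_apply, Pi.single_eq_same, mul_assoc, inv_mul_cancel₀ hi, mul_one]
      · intro j _ hj
        rw [Matrix.vecMulVec_apply, Pi.single_eq_of_ne hj, mul_zero, zero_mul]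
      · intro h
        exact absurd (Finset.mem_univ _) h
    rwa [h2] at h1

/-- Density over the fibre. -/
theorem fibre_density (hG : G02Irr) {m : ℕ} (hr : 0 < r) {R₁ R₂ R₃ : Type} [CommRing R₁]
    [CommRing R₂] [CommRing R₃] {φ₁ : R₁ →+* ℂ} {φ₂ : R₂ →+* ℂ} {φ₃ : R₃ →+* ℂ}
    (ι₁ : R₁ →+* R₂) (h₁ : ∀ a, φ₂ (ι₁ a) = φ₁ a) (ι₂ : R₂ →+* R₃) (h₂ : ∀ a, φ₃ (ι₂ a) = φ₂ a)
    (hφ₂ : Function.Injective φ₂) (hprin : Prin ι₁)
    (hroot : ∀ u : R₂ˣ, ∃ c : R₃ˣ, ι₂ (u : R₂) = (c : R₃) ^ r)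
    {E E' : Subgroup ℂˣ} (hEE : E ≤ E') (hc : CoefOK φ₁ E' r)
    (hUP : ∀ (u : R₁ˣ) (D : R₁), D ≠ 0 → ∃ M : ℕ, 0 < M ∧ D ∣ (u : R₁) ^ M - 1)
    (ω : Fin r → R₁) (hωE : ∀ i, ∃ e ∈ E', (e : ℂ) = φ₁ (ω i))
    (hωd : ∀ i j, i ≠ j → IsUnit (ω i - ω j))
    (hno : ∀ (I J : Finset (Fin r)),
      (∃ ε ∈ E, ∏ i ∈ I, φ₁ (ω i) = (ε : ℂ) * ∏ j ∈ J, φ₁ (ω j)) → I = J)
    (Cl : Fin (m + 1) → (Mat r ℂ)ˣ) (hE : ∀ j, EigIn E (Cl j : Mat r ℂ))
    (z : FU 1 (m + 1) →* (Mat r ℂ)ˣ) (hz1 : z (relatorU 1 (m + 1)) = 1)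
    (hz2 : ∀ j, IsConj (Cl j) (z (FreeGroup.of (Sum.inr j))))
    (hz3 : Algebra.adjoin ℂ (Set.range fun w => (z w : Mat r ℂ)) = ⊤)
    (hz4 : (z (FreeGroup.of (Sum.inl (0, true))) : Mat r ℂ).charpoly =
      ∏ i, (X - C (φ₁ (ω i))))
    (f : MvPolynomial (GenU 1 (m + 1) × Fin r × Fin r) ℂ) (hf : ∀ y ∈ DTor φ₃ Cl, evalG y f = 0) :
    evalG z f = 0 := by
  obtain ⟨ω', hω'⟩ : ∃ ω' : Fin r → ℂ, ω' = fun i => φ₁ (ω i) := ⟨_, rfl⟩
  have hωi : ∀ i, φ₁ (ω i) = ω' i := fun i => by rw [hω']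
  have hinj : Function.Injective ω' := by
    intro i j hij
    by_contra hne
    rw [hω'] at hij
    have : Nontrivial R₁ := ⟨1, 0, fun h => by
      have h3 := congrArg φ₁ h
      rw [map_one, map_zero] at h3
      exact one_ne_zero h3⟩
    have h3 := hωd i j hne
    rw [sub_eq_zero.2 (hc.inj hij)] at h3
    exact not_isUnit_zero h3
  obtain ⟨a, ha⟩ : ∃ a, z (FreeGroup.of (Sum.inl (0, false))) = a := ⟨_, rfl⟩
  obtain ⟨b, hb⟩ : ∃ b, z (FreeGroup.of (Sum.inl (0, true))) = b := ⟨_, rfl⟩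
  obtain ⟨c, hcc⟩ : ∃ c : Fin (m + 1) → (Mat r ℂ)ˣ, ∀ j, z (FreeGroup.of (Sum.inr j)) = c j :=
    ⟨_, fun _ => rfl⟩
  have hrel : (List.ofFn c).prod * (a * b * a⁻¹) = b := by
    rw [relU1_units, ha, hb] at hz1
    simp only [hcc] at hz1
    rw [← mul_assoc, mul_inv_eq_one] at hz1
    exact hz1
  rw [hb] at hz4
  have hz4' : (b : Mat r ℂ).charpoly = ∏ i, (X - C (ω' i)) := by
    rw [hz4]
    simp only [hωi]
  obtain ⟨P, hP, hbP⟩ := exists_diag_complex hinj hz4'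
  have hEc : ∀ j, EigIn E (c j : Mat r ℂ) := by
    intro j w hw
    rw [charpoly_of_isConj (hcc j ▸ hz2 j)] at hw
    exact hE j w hw
  -- the genus zero representation
  have hadj := adjoin_zT hr hinj (E := E) (fun I J h => hno I J (by simpa only [hωi] using h)) z
    hz3 a b c ha hb hcc hrel hEc hz4'
  obtain ⟨x, hx⟩ : ∃ x, x = mkR (zT a b c) := ⟨_, rfl⟩
  rw [← hx] at hadj
  have hx0 : x (FreeGroup.of (Sum.inr 0)) = b⁻¹ := by rw [hx, mkR_inr, zT_zero]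
  have hxl : x (FreeGroup.of (Sum.inr (Fin.last (m + 2)))) = a * b * a⁻¹ := by
    rw [hx, mkR_inr, zT_last]
  have hxm : ∀ j : Fin (m + 1), x (FreeGroup.of (Sum.inr ⟨j + 1, by omega⟩)) = c j := fun j => by
    rw [hx, mkR_inr, zT_mid]
  have hxrel : x (relatorU 0 (m + 3)) = 1 := by
    rw [relU0_units, prod_ofFn3, hx0, hxl]
    simp only [hxm]
    rw [mul_assoc, hrel, inv_mul_cancel]
  obtain ⟨C', hC'⟩ : ∃ C' : Fin (m + 3) → (Mat r ℂ)ˣ, C' = zT 1 b Cl := ⟨_, rfl⟩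
  have hC0 : C' 0 = b⁻¹ := by rw [hC', zT_zero]
  have hCl : C' (Fin.last (m + 2)) = b := by rw [hC', zT_last, one_mul, inv_one, mul_one]
  have hCm : ∀ j : Fin (m + 1), C' ⟨j + 1, by omega⟩ = Cl j := fun j => by rw [hC', zT_mid]
  have hEb : EigIn E' (b : Mat r ℂ) := eigIn_of_charpoly hz4 hωE
  obtain ⟨δ, hδ⟩ : ∃ δ : ℂ, δ = (b : Mat r ℂ).det := ⟨_, rfl⟩
  have hδ0 : δ ≠ 0 := by
    rw [hδ]
    exact ((Matrix.isUnit_iff_isUnit_det _).1 b.isUnit).ne_zero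
  obtain ⟨F, hF⟩ := exists_fib_poly2 (m := m) (fun i => Lagrange.basis Finset.univ ω' i) δ
    (a : Mat r ℂ) f
  -- the inverse of the first matrix
  have hadjug : ∀ u : (Mat r ℂ)ˣ, IsConj b⁻¹ u →
      δ • (u : Mat r ℂ).adjugate = ((u⁻¹ : (Mat r ℂ)ˣ) : Mat r ℂ) := by
    intro u hu
    have h3 : (u : Mat r ℂ).det = δ⁻¹ := by
      obtain ⟨g, rfl⟩ := isConj_iff.1 hu
      have hg : IsUnit (g : Mat r ℂ).det := (Matrix.isUnit_iff_isUnit_det _).1 g.isUnit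
      have hg' : (g : Mat r ℂ).det ≠ 0 := hg.ne_zero
      rw [Units.val_mul, Units.val_mul, Matrix.coe_units_inv, Matrix.coe_units_inv,
        Matrix.det_mul, Matrix.det_mul, Matrix.det_nonsing_inv, Matrix.det_nonsing_inv, hδ,
        Ring.inverse_eq_inv']
      field_simp
    rw [Matrix.coe_units_inv, Matrix.inv_def, h3, Ring.inverse_eq_inv', inv_inv]
  have hev : evalG x F = 0 := by
    refine hG (m := m) hr φ₁ E' hc hUP C' ?_ ?_ ?_ x ⟨?_, ?_, ss_of_adjoin x hadj⟩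
      (fun M hM => scalar_of_adjoin x hadj M hM) F ?_
    · refine fin_cases3 ?_ (fun j => ?_) ?_
      · rw [hC0]
        exact eigIn_inv hEb
      · rw [hCm]
        exact (hE j).mono hEE
      · rw [hCl]
        exact hEb
    · rw [hC0]
      have hωne : ∀ i, ω' i ≠ 0 := by
        intro i h0
        obtain ⟨e, _, he⟩ := hωE i
        rw [hωi, h0] at he
        exact e.ne_zero he
      refine hasCyc_of_diag (P := P) (ω := fun i => (ω' i)⁻¹) (inv_injective.comp hinj) hP ?_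
      have h3 : diagonal ω' * diagonal (fun i => (ω' i)⁻¹) = 1 := by
        rw [Matrix.diagonal_mul_diagonal, ← Matrix.diagonal_one]
        congr 1
        funext i
        exact mul_inv_cancel₀ (hωne i)
      calc ((b⁻¹ : (Mat r ℂ)ˣ) : Mat r ℂ) * P
          = ((b⁻¹ : (Mat r ℂ)ˣ) : Mat r ℂ) * (P * diagonal ω') *
            diagonal (fun i => (ω' i)⁻¹) := by
              rw [mul_assoc, mul_assoc P, h3, mul_one]
        _ = (((b⁻¹ : (Mat r ℂ)ˣ) : Mat r ℂ) * (b : Mat r ℂ)) * P *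
            diagonal (fun i => (ω' i)⁻¹) := by
              rw [← hbP]; simp only [mul_assoc]
        _ = _ := by rw [Units.inv_mul, one_mul]
    · rw [hCl]
      exact hasCyc_of_diag hinj hP hbP
    · rintro w rfl
      exact hxrel
    · refine fin_cases3 ?_ (fun j => ?_) ?_
      · rw [hC0, hx0]
      · rw [hCm, hxm, ← hcc]
        exact hz2 j
      · rw [hCl, hxl]
        exact isConj_iff.2 ⟨a, rfl⟩
    · rintro y ⟨⟨⟨hy1, hy2, _⟩, hy3⟩, _⟩
      have hy0 := hy2 0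
      have hyl := hy2 (Fin.last (m + 2))
      rw [hC0] at hy0
      rw [hCl] at hyl
      obtain ⟨b', hb'⟩ : ∃ b', b' = (y (FreeGroup.of (Sum.inr 0)))⁻¹ := ⟨_, rfl⟩
      have hbb : IsConj b b' := by
        obtain ⟨g, hg⟩ := isConj_iff.1 hy0
        rw [hb', ← hg]
        refine isConj_iff.2 ⟨g, ?_⟩
        group
      rw [evalG_eq_evMat, hF, hadjug _ hy0, ← hb']
      have h3 := fibre_vanish hr ι₁ h₁ ι₂ h₂ hφ₂ hprin hroot hc ω hωE hωd Cl f hf b'
        (y (FreeGroup.of (Sum.inr (Fin.last (m + 2)))))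
        (fun j : Fin (m + 1) => y (FreeGroup.of (Sum.inr ⟨j + 1, by omega⟩))) ?_ (fun j => ?_)
        ?_ (hy3 _) (fun j => hy3 _) ?_ ?_ (a : Mat r ℂ)
      · rw [← h3, hω']
        rfl
      · have h4 := hy1 _ rfl
        rw [relU0_units, prod_ofFn3] at h4
        rw [hb', inv_inv]
        exact h4
      · have h4 := hy2 ⟨j + 1, by omega⟩
        rwa [hCm] at h4
      · rw [hb']
        exact (GR r φ₁).inv_mem (hy3 _)
      · rw [charpoly_of_isConj hbb, hz4]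
      · rw [charpoly_of_isConj hyl, hz4]
  rw [evalG_eq_evMat, hF, hx0, hxl] at hev
  rw [hadjug b⁻¹ (IsConj.refl _), inv_inv] at hev
  have h5 := sum_proj_mul hinj hr hP hbP (a : Mat r ℂ)
    ((Matrix.isUnit_iff_isUnit_det _).1 a.isUnit)
  have h6 : ∑ i, Polynomial.aeval ((a * b * a⁻¹ : (Mat r ℂ)ˣ) : Mat r ℂ)
      (Lagrange.basis Finset.univ ω' i) * (a : Mat r ℂ) *
      Polynomial.aeval (b : Mat r ℂ) (Lagrange.basis Finset.univ ω' i) = (a : Mat r ℂ) := by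
    rw [Units.val_mul, Units.val_mul, Matrix.coe_units_inv]
    exact h5
  rw [h6] at hev
  rw [evalG_eq_evMat, ← hev]
  congr 1
  funext k
  rcases k with ⟨k, _ | _⟩ | j
  · obtain rfl : k = 0 := Subsingleton.elim _ _
    rw [ha]
    rfl
  · obtain rfl : k = 0 := Subsingleton.elim _ _
    rw [hb]
    rfl
  · rw [hcc]
    change _ = (x (FreeGroup.of (Sum.inr ⟨j + 1, by omega⟩)) : Mat r ℂ)
    rw [hxm]

end Vale.Agent.P002R
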