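import Vale.Agent.P002R.YDefs

/-!
# The fibre of the second handle matrix: the genus zero tuple and polynomials
-/

namespace Vale.Agent.P002R

open Matrix

section tuple

variable {G : Type*} [Group G] {m : ℕ}

/-- The genus zero tuple attached to a genus one tuple. -/
def zT (a b : G) (c : Fin (m + 1) → G) : Fin (m + 3) → G :=
  Fin.cons (α := fun _ => G) b⁻¹ (Fin.snoc (α := fun _ => G) c (a * b * a⁻¹))

theorem zT_zero (a b : G) (c : Fin (m + 1) → G) : zT a b c 0 = b⁻¹ := rfl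

theorem zT_mid (a b : G) (c : Fin (m + 1) → G) (j : Fin (m + 1)) :
    zT a b c ⟨j + 1, by omega⟩ = c j := by
  have h : (⟨j + 1, by omega⟩ : Fin (m + 3)) = Fin.succ (Fin.castSucc j) := rfl
  rw [h, zT, Fin.cons_succ, Fin.snoc_castSucc]

theorem zT_last (a b : G) (c : Fin (m + 1) → G) : zT a b c (Fin.last (m + 2)) = a * b * a⁻¹ := by
  rw [← Fin.succ_last, zT, Fin.cons_succ, Fin.snoc_last]

theorem fin_cases3 {p : Fin (m + 3) → Prop} (h0 : p 0)
    (h1 : ∀ j : Fin (m + 1), p ⟨j + 1, by omega⟩) (h2 : p (Fin.last (m + 2))) : ∀ j, p j := by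
  intro j
  refine Fin.cases h0 (fun j => ?_) j
  refine Fin.lastCases ?_ (fun j => ?_) j
  · rwa [Fin.succ_last]
  · exact h1 j

theorem prod_ofFn3 (d : Fin (m + 3) → G) : (List.ofFn d).prod =
    d 0 * (List.ofFn fun j : Fin (m + 1) => d ⟨j + 1, by omega⟩).prod * d (Fin.last (m + 2)) := by
  rw [List.ofFn_succ, List.ofFn_succ', List.prod_cons, List.concat_eq_append, List.prod_append,
    List.prod_singleton, Fin.succ_last, mul_assoc]
  rfl

end tuple

theorem relU0_units {n r : ℕ} (y : FU 0 n →* (Mat r ℂ)ˣ) : y (relatorU 0 n) =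
    (List.ofFn fun j : Fin n => y (FreeGroup.of (Sum.inr j))).prod := by
  rw [relatorU_eqn, List.ofFn_zero, List.prod_nil, mul_one, map_list_prod, List.map_ofFn]
  rfl

theorem relU1_units {n r : ℕ} (x : FU 1 n →* (Mat r ℂ)ˣ) : x (relatorU 1 n) =
    (List.ofFn fun j : Fin n => x (FreeGroup.of (Sum.inr j))).prod *
      (x (FreeGroup.of (Sum.inl (0, false))) * x (FreeGroup.of (Sum.inl (0, true))) *
        (x (FreeGroup.of (Sum.inl (0, false))))⁻¹ * (x (FreeGroup.of (Sum.inl (0, true))))⁻¹) := by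
  rw [relatorU_eqn, map_mul, map_list_prod, List.map_ofFn]
  simp only [List.ofFn_succ (n := 0), List.ofFn_zero, List.prod_nil, List.prod_cons, mul_one,
    map_mul, map_inv]
  rfl

section evMat

variable {κ : Type*} {r : ℕ} {S T : Type*} [CommRing S] [Algebra ℂ S] [CommRing T] [Algebra ℂ T]

/-- Evaluation of a polynomial at matrices. -/
noncomputable def evMat (c : κ → Mat r S) (f : MvPolynomial (κ × Fin r × Fin r) ℂ) : S :=
  MvPolynomial.aeval (fun p => c p.1 p.2.1 p.2.2) f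

theorem evalG_eq_evMat (y : FreeGroup κ →* (Mat r ℂ)ˣ) (f : MvPolynomial (κ × Fin r × Fin r) ℂ) :
    evalG y f = evMat (fun k => (y (FreeGroup.of k) : Mat r ℂ)) f := evalG_eqn y f

theorem evMat_map (ψ : S →ₐ[ℂ] T) (c : κ → Mat r S) (f : MvPolynomial (κ × Fin r × Fin r) ℂ) :
    ψ (evMat c f) = evMat (fun k => (c k).map ψ) f := by
  rw [evMat, evMat, ← AlgHom.comp_apply, MvPolynomial.comp_aeval]
  rfl

/-- The matrices of the handle and of the boundary components. -/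
noncomputable def hMat {m : ℕ} (a b : Mat r S) (c : Fin (m + 1) → Mat r S) :
    GenU 1 (m + 1) → Mat r S :=
  Sum.elim (fun k => if k.2 then b else a) c

theorem hMat_map {m : ℕ} (ψ : S →ₐ[ℂ] T) (a b : Mat r S) (c : Fin (m + 1) → Mat r S) :
    (fun k => (hMat a b c k).map ψ) = hMat (a.map ψ) (b.map ψ) fun j => (c j).map ψ := by
  funext k
  rcases k with ⟨k, _ | _⟩ | k <;> rfl

theorem map_aevalMat (ψ : S →ₐ[ℂ] T) (A : Mat r S) (p : Polynomial ℂ) :
    (Polynomial.aeval A p).map ψ = Polynomial.aeval (A.map ψ) p :=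
  (Polynomial.aeval_algHom_apply ψ.mapMatrix A p).symm

end evMat

/-- The polynomial in the matrices of genus zero. -/
theorem exists_fib_poly2 {m r : ℕ} (p : Fin r → Polynomial ℂ) (δ : ℂ) (B : Mat r ℂ)
    (f : MvPolynomial (GenU 1 (m + 1) × Fin r × Fin r) ℂ) :
    ∃ F : MvPolynomial (GenU 0 (m + 3) × Fin r × Fin r) ℂ, ∀ c : GenU 0 (m + 3) → Mat r ℂ,
      evMat c F = evMat (hMat (∑ i, Polynomial.aeval (c (Sum.inr (Fin.last (m + 2)))) (p i) * B *
          Polynomial.aeval (δ • (c (Sum.inr 0)).adjugate) (p i))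
        (δ • (c (Sum.inr 0)).adjugate)
        fun j : Fin (m + 1) => c (Sum.inr ⟨j + 1, by omega⟩)) f := by
  obtain ⟨cg, hcg⟩ : ∃ cg : GenU 0 (m + 3) →
      Mat r (MvPolynomial (GenU 0 (m + 3) × Fin r × Fin r) ℂ),
    cg = fun k => Matrix.of fun i j => MvPolynomial.X (k, (i, j)) := ⟨_, rfl⟩
  refine ⟨evMat (hMat (∑ i, Polynomial.aeval (cg (Sum.inr (Fin.last (m + 2)))) (p i) *
          B.map (algebraMap ℂ _) *
          Polynomial.aeval (δ • (cg (Sum.inr 0)).adjugate) (p i))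
        (δ • (cg (Sum.inr 0)).adjugate)
        fun j : Fin (m + 1) => cg (Sum.inr ⟨j + 1, by omega⟩)) f, fun c => ?_⟩
  obtain ⟨ev, hev⟩ : ∃ ev : MvPolynomial (GenU 0 (m + 3) × Fin r × Fin r) ℂ →ₐ[ℂ] ℂ,
    ev = MvPolynomial.aeval (fun p => c p.1 p.2.1 p.2.2) := ⟨_, rfl⟩
  have h1 : ∀ k, (cg k).map ev = c k := by
    intro k
    ext i j
    rw [hcg, Matrix.map_apply, hev]
    exact MvPolynomial.aeval_X _ _
  have h2 : ∀ F, evMat c F = ev F := fun F => by rw [hev]; rfl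
  have h4 : (δ • (cg (Sum.inr 0)).adjugate).map ev = δ • (c (Sum.inr 0)).adjugate := by
    have h5 : (cg (Sum.inr 0)).adjugate.map ev = (c (Sum.inr 0)).adjugate := by
      rw [← h1]
      exact RingHom.map_adjugate (ev : _ →+* ℂ) (cg (Sum.inr 0))
    rw [← h5]
    ext i j
    exact map_smul ev δ ((cg (Sum.inr 0)).adjugate i j)
  rw [h2, evMat_map, hMat_map, h4]
  simp only [h1]
  congr 2
  have h3 : ∀ M : Mat r (MvPolynomial (GenU 0 (m + 3) × Fin r × Fin r) ℂ),
      M.map ev = ev.mapMatrix M := fun M => rfl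
  rw [h3, map_sum]
  refine Finset.sum_congr rfl fun i _ => ?_
  rw [map_mul, map_mul]
  congr 1
  · congr 1
    · rw [← h3, map_aevalMat, h1]
    · ext i j
      rw [← h3, Matrix.map_apply, Matrix.map_apply]
      exact ev.commutes _
  · rw [← h3, map_aevalMat, h4]

/-- The polynomial in the torus. -/
theorem exists_torus_poly2 {r m : ℕ} (b P Q : Mat r ℂ)
    (c : Fin (m + 1) → Mat r ℂ) (f : MvPolynomial (GenU 1 (m + 1) × Fin r × Fin r) ℂ) :
    ∃ G : MvPolynomial (Fin r) ℂ, ∀ t : Fin r → ℂ, MvPolynomial.eval t G =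
      evMat (hMat (P * diagonal t * Q) b c) f := by
  refine ⟨evMat (hMat (P.map (algebraMap ℂ _) *
    diagonal (fun j => (MvPolynomial.X j : MvPolynomial (Fin r) ℂ)) * Q.map (algebraMap ℂ _))
    (b.map (algebraMap ℂ _)) fun j => (c j).map (algebraMap ℂ _)) f, fun t => ?_⟩
  obtain ⟨ev, hev⟩ : ∃ ev : MvPolynomial (Fin r) ℂ →ₐ[ℂ] ℂ, ev = MvPolynomial.aeval t := ⟨_, rfl⟩
  have h1 : ∀ F, MvPolynomial.eval t F = ev F := fun F => by
    rw [hev, ← MvPolynomial.coe_aeval_eq_eval]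
    rfl
  have h2 : ∀ M : Mat r ℂ, (M.map (algebraMap ℂ (MvPolynomial (Fin r) ℂ))).map ev = M := by
    intro M
    ext i j
    exact ev.commutes _
  have h3 : ∀ M : Mat r (MvPolynomial (Fin r) ℂ), M.map ev = ev.mapMatrix M := fun M => rfl
  rw [h1, evMat_map, hMat_map, h2]
  simp only [h2]
  congr 2
  rw [h3, map_mul, map_mul, ← h3, ← h3, ← h3, h2, h2]
  congr 2
  rw [Matrix.diagonal_map (map_zero ev)]
  congr 1
  funext j
  rw [hev, MvPolynomial.aeval_X]

end Vale.Agent.P002R
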