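import Vale.Agent.P002R.RReducibleG
import Vale.Agent.P002R.RFam

/-!
# Density with a condition on the boundary classes: reducible representations and products
-/

namespace Vale.Agent.P002R

open Matrix

/-- A condition on the boundary classes which implies that the eigenvalues are in `E` and which is
inherited by blocks and by tensor factors. -/
structure ClassOK (E : Subgroup ℂˣ) (Q : ∀ r : ℕ, Mat r ℂ → Prop) : Prop where
  eig : ∀ {r : ℕ} {M : Mat r ℂ}, Q r M → EigIn E M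
  conj : ∀ {r : ℕ} {X Y : (Mat r ℂ)ˣ}, IsConj X Y → Q r (X : Mat r ℂ) → Q r (Y : Mat r ℂ)
  blk : ∀ {r r₁ r₂ : ℕ} {D : P002.Dec r r₁ r₂} {A : (Mat r₁ ℂ)ˣ} {B : (Mat r₂ ℂ)ˣ},
    Q r (blkU D (A, B) : Mat r ℂ) → Q r₁ (A : Mat r₁ ℂ) ∧ Q r₂ (B : Mat r₂ ℂ)
  kr₁ : ∀ {r r₁ r₂ : ℕ} {e : Fin r₁ × Fin r₂ ≃ Fin r} {A : Mat r₁ ℂ}, 0 < r₂ →
    Q r (kr e A (1 : Mat r₂ ℂ)) → Q r₁ A
  kr₂ : ∀ {r r₁ r₂ : ℕ} {e : Fin r₁ × Fin r₂ ≃ Fin r} {B : Mat r₂ ℂ}, 0 < r₁ →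
    Q r (kr e (1 : Mat r₁ ℂ) B) → Q r₂ B

/-- Irreducible representations of dimension `r` with boundary classes in `Q` are in the Zariski
closure of the irreducible integral ones (integral up to scalars), with the same classes. -/
def IrrDenseQ {κ ι : Type} (Q : ι → ∀ r : ℕ, Mat r ℂ → Prop) (Rel : Set (FreeGroup (κ ⊕ ι)))
    {R : Type*} [CommRing R] (φ : R →+* ℂ) (r : ℕ) : Prop :=
  ∀ C : ι → (Mat r ℂ)ˣ, (∀ j, Q j r (C j : Mat r ℂ)) → ∀ x ∈ YG Rel C,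
    (∀ M : Mat r ℂ, (∀ w, Commute M (x w : Mat r ℂ)) → ∃ c : ℂ, M = c • (1 : Mat r ℂ)) →
    ∀ f : MvPolynomial ((κ ⊕ ι) × Fin r × Fin r) ℂ, (∀ y ∈ DGT Rel φ C, evalG y f = 0) →
      evalG x f = 0

theorem IrrDense.toQ {κ ι : Type} {Q : ι → ∀ r : ℕ, Mat r ℂ → Prop}
    {Rel : Set (FreeGroup (κ ⊕ ι))} {R : Type*} [CommRing R] {φ : R →+* ℂ} {E : Subgroup ℂˣ}
    {r : ℕ} (hQ : ∀ j, ∀ M, Q j r M → EigIn E M) (h : IrrDense Rel φ E r) :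
    IrrDenseQ Q Rel φ r :=
  fun C hC => h C fun j => hQ j _ (hC j)

theorem classOK_eig (E : Subgroup ℂˣ) : ClassOK E fun _ M => EigIn E M where
  eig := id
  conj := fun h hX => hX.conj h
  blk := fun h => h.blk
  kr₁ := fun h hA => hA.kr₁ h
  kr₂ := fun h hA => hA.kr₂ h

/-- `M` has a cyclic vector. -/
def HasCyc (r : ℕ) (M : Mat r ℂ) : Prop :=
  ∃ v : Fin r → ℂ, ∀ W : Submodule ℂ (Fin r → ℂ), v ∈ W → (∀ y ∈ W, M *ᵥ y ∈ W) → W = ⊤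

theorem HasCyc.of_surj {r s : ℕ} {M : Mat r ℂ} {N : Mat s ℂ} (hM : HasCyc r M)
    (π : (Fin r → ℂ) →ₗ[ℂ] (Fin s → ℂ)) (hπ : Function.Surjective π)
    (h : ∀ x, π (M *ᵥ x) = N *ᵥ π x) : HasCyc s N := by
  obtain ⟨v, hv⟩ := hM
  refine ⟨π v, fun W hW hN => ?_⟩
  have h1 := hv (W.comap π) hW fun y hy => by
    rw [Submodule.mem_comap, h]
    exact hN _ hy
  rw [Submodule.eq_top_iff']
  intro y
  obtain ⟨x, rfl⟩ := hπ y
  have h2 : x ∈ W.comap π := by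
    rw [h1]
    trivial
  exact h2

theorem classOK_cyc (E : Subgroup ℂˣ) : ClassOK E fun r M => EigIn E M ∧ HasCyc r M where
  eig := fun h => h.1
  conj := fun {r X Y} h hX => by
    refine ⟨hX.1.conj h, ?_⟩
    obtain ⟨U, rfl⟩ := isConj_iff.mp h
    refine hX.2.of_surj (Matrix.mulVecLin (U : Mat r ℂ)) ?_ fun x => ?_
    · intro y
      refine ⟨((U⁻¹ : (Mat r ℂ)ˣ) : Mat r ℂ) *ᵥ y, ?_⟩
      rw [Matrix.mulVecLin_apply, mulVec_mulVec, Units.mul_inv, one_mulVec]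
    · rw [Matrix.mulVecLin_apply, Matrix.mulVecLin_apply, Units.val_mul, Units.val_mul,
        mulVec_mulVec, mulVec_mulVec, Matrix.mul_assoc, Units.inv_mul, Matrix.mul_one]
  blk := fun {r r₁ r₂ D A B} h => by
    rw [blkU_coe] at h
    refine ⟨⟨(EigIn.blk (by rw [blkU_coe]; exact h.1)).1, ?_⟩,
      ⟨(EigIn.blk (by rw [blkU_coe]; exact h.1)).2, ?_⟩⟩
    · refine h.2.of_surj (Matrix.mulVecLin D.Q₁) (fun y => ⟨D.P₁ *ᵥ y, ?_⟩) fun x => ?_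
      · rw [Matrix.mulVecLin_apply, mulVec_mulVec, D.h11, one_mulVec]
      · rw [Matrix.mulVecLin_apply, Matrix.mulVecLin_apply, mulVec_mulVec, mulVec_mulVec,
          P002.Dec.blk_complex, Matrix.mul_add, ← Matrix.mul_assoc, ← Matrix.mul_assoc,
          ← Matrix.mul_assoc, ← Matrix.mul_assoc, D.h11, D.h12, Matrix.one_mul, Matrix.zero_mul,
          Matrix.zero_mul, add_zero]
    · refine h.2.of_surj (Matrix.mulVecLin D.Q₂) (fun y => ⟨D.P₂ *ᵥ y, ?_⟩) fun x => ?_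
      · rw [Matrix.mulVecLin_apply, mulVec_mulVec, D.h22, one_mulVec]
      · rw [Matrix.mulVecLin_apply, Matrix.mulVecLin_apply, mulVec_mulVec, mulVec_mulVec,
          P002.Dec.blk_complex, Matrix.mul_add, ← Matrix.mul_assoc, ← Matrix.mul_assoc,
          ← Matrix.mul_assoc, ← Matrix.mul_assoc, D.h22, D.h21, Matrix.one_mul, Matrix.zero_mul,
          Matrix.zero_mul, zero_add]
  kr₁ := fun {r r₁ r₂ e A} h hA => by
    refine ⟨hA.1.kr₁ h, ?_⟩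
    refine hA.2.of_surj (LinearMap.funLeft ℂ ℂ fun i => e (i, ⟨0, h⟩))
      (LinearMap.funLeft_surjective_of_injective ℂ ℂ _ fun i j hij => by simpa using hij)
      fun x => ?_
    ext i
    simp only [LinearMap.funLeft_apply, mulVec, dotProduct]
    rw [← e.sum_comp, Fintype.sum_prod_type]
    refine Finset.sum_congr rfl fun k _ => ?_
    simp only [kr_apply, Matrix.one_apply]
    simp
  kr₂ := fun {r r₁ r₂ e B} h hB => by
    refine ⟨hB.1.kr₂ h, ?_⟩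
    refine hB.2.of_surj (LinearMap.funLeft ℂ ℂ fun i => e (⟨0, h⟩, i))
      (LinearMap.funLeft_surjective_of_injective ℂ ℂ _ fun i j hij => by simpa using hij)
      fun x => ?_
    ext i
    simp only [LinearMap.funLeft_apply, mulVec, dotProduct]
    rw [← e.sum_comp, Fintype.sum_prod_type_right]
    refine Finset.sum_congr rfl fun k _ => ?_
    simp only [kr_apply, Matrix.one_apply]
    simp

section main

variable {κ ι : Type} {r : ℕ}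

/-- Reducible representations, with a condition on the classes. -/
theorem partIVQ [Finite κ] {R : Type*} [CommRing R] (φ : R →+* ℂ) (E : Subgroup ℂˣ)
    {Q : ι → ∀ r : ℕ, Mat r ℂ → Prop} (hQ : ∀ j, ClassOK E (Q j))
    (hc : CoefOK' φ E r) (Rel : Set (FreeGroup (κ ⊕ ι))) (hchar : CharOK Rel)
    (hirr : ∀ r' ≤ r, 0 < r' → IrrDenseQ Q Rel φ r')
    (C : ι → (Mat r ℂ)ˣ) (hC : ∀ j, Q j r (C j : Mat r ℂ))
    (x : FreeGroup (κ ⊕ ι) →* (Mat r ℂ)ˣ) (hx : x ∈ YG Rel C)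
    (f : MvPolynomial ((κ ⊕ ι) × Fin r × Fin r) ℂ)
    (hf : ∀ y ∈ DG Rel φ C, evalG y f = 0) : evalG x f = 0 := by
  induction r using Nat.strong_induction_on with
  | _ r ih =>
  rcases Nat.eq_zero_or_pos r with rfl | hr0
  · refine hf x ⟨hx, fun k => ?_⟩
    have h1 : x (FreeGroup.of k) = 1 := by
      apply Units.ext
      exact Subsingleton.elim _ _
    rw [h1]
    exact (GR 0 φ).one_mem
  by_cases hcen : ∀ M : Mat r ℂ, (∀ w, Commute M (x w : Mat r ℂ)) →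
      ∃ c : ℂ, M = c • (1 : Mat r ℂ)
  · exact hirr r le_rfl hr0 C hC x hx hcen f fun y hy => hf y hy.1
  push Not at hcen
  obtain ⟨M, hM, hMs⟩ := hcen
  obtain ⟨hrel, hconj, hss⟩ := hx
  obtain ⟨u, hu⟩ := hc.unit
  have hu' : ∀ k : ℕ, 0 < k → φ (u : R) ^ k ≠ 1 := by
    intro k hk h1
    apply hu k hk
    have h2 : Units.map (φ : R →* ℂ) u ^ k = 1 := by
      apply Units.ext
      rw [Units.val_pow_eq_pow_val, Units.val_one]
      exact h1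
    rw [h2]
    exact E.one_mem
  have : Nonempty (Fin r) := ⟨⟨0, hr0⟩⟩
  obtain ⟨μ, hμM⟩ := Module.End.exists_eigenvalue (Matrix.mulVecLin M)
  let E₁ : Submodule ℂ (Fin r → ℂ) := Module.End.eigenspace (Matrix.mulVecLin M) μ
  have hE1 : E₁ ≠ ⊥ := hμM
  have hE1' : E₁ ≠ ⊤ := by
    intro htop
    apply hMs μ
    ext i j
    have hm : (Pi.single j 1 : Fin r → ℂ) ∈ E₁ := by rw [htop]; trivial
    rw [Module.End.mem_eigenspace_iff, Matrix.mulVecLin_apply] at hm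
    have := congrFun hm i
    simpa [Matrix.one_apply, Pi.single_apply, eq_comm] using this
  have hinv1 : P002.InvS x E₁ := by
    intro w v hv
    rw [Module.End.mem_eigenspace_iff, Matrix.mulVecLin_apply] at hv ⊢
    rw [mulVec_mulVec, (hM w).eq, ← mulVec_mulVec, hv, mulVec_smul]
  obtain ⟨E₂, hinv2, hcompl⟩ := hss E₁ hinv1
  obtain ⟨D, hD1, hD2⟩ := P002.exists_dec E₁ E₂ hcompl
  have hsum : Module.finrank ℂ E₁ + Module.finrank ℂ E₂ = r := by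
    rw [Submodule.finrank_add_eq_of_isCompl hcompl]
    simp
  have hlt1 : Module.finrank ℂ E₁ < r := by
    have := Submodule.finrank_lt hE1'
    simpa using this
  have hpos1 : 0 < Module.finrank ℂ E₁ := by
    rw [Module.finrank_pos_iff]
    exact Submodule.nontrivial_iff_ne_bot.mpr hE1
  have hlt2 : Module.finrank ℂ E₂ < r := by omega
  have hpos2 : 0 < Module.finrank ℂ E₂ := by omega
  have hm1 : ∀ w, (x w : Mat r ℂ) * D.P₁ = D.P₁ * (D.Q₁ * (x w : Mat r ℂ) * D.P₁) := by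
    intro w
    apply D.mul_P₁
    rw [hD1]
    exact hinv1 w
  have hm2 : ∀ w, (x w : Mat r ℂ) * D.P₂ = D.P₂ * (D.Q₂ * (x w : Mat r ℂ) * D.P₂) := by
    intro w
    apply D.mul_P₂
    rw [hD2]
    exact hinv2 w
  set x₁ := P002.compr x D.P₁ D.Q₁ D.h11 hm1 with hx1
  set x₂ := P002.compr x D.P₂ D.Q₂ D.h22 hm2 with hx2
  have hs1 : SS x₁ := P002.compr_ss x hss _ _ _ _
  have hs2 : SS x₂ := P002.compr_ss x hss _ _ _ _
  have hrel1 : ∀ w ∈ Rel, x₁ w = 1 := by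
    intro w hw
    apply Units.ext
    rw [hx1, P002.compr_apply, hrel w hw]
    simp [D.h11]
  have hrel2 : ∀ w ∈ Rel, x₂ w = 1 := by
    intro w hw
    apply Units.ext
    rw [hx2, P002.compr_apply, hrel w hw]
    simp [D.h22]
  have hblk : ∀ w, (x w : Mat r ℂ) = D.blk (x₁ w : Mat _ ℂ) (x₂ w : Mat _ ℂ) := by
    intro w
    rw [P002.Dec.blk_complex, hx1, hx2, P002.compr_apply, P002.compr_apply, ← hm1, ← hm2,
      Matrix.mul_assoc, Matrix.mul_assoc, ← Matrix.mul_add, D.hs, Matrix.mul_one]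
  -- the boundary classes of the pieces
  let C₁ : ι → (Mat (Module.finrank ℂ E₁) ℂ)ˣ := fun j => x₁ (FreeGroup.of (Sum.inr j))
  let C₂ : ι → (Mat (Module.finrank ℂ E₂) ℂ)ˣ := fun j => x₂ (FreeGroup.of (Sum.inr j))
  have hCblk : ∀ j, IsConj (C j) (blkU D (C₁ j, C₂ j)) := by
    intro j
    have : blkU D (C₁ j, C₂ j) = x (FreeGroup.of (Sum.inr j)) := by
      apply Units.ext
      rw [blkU_coe, hblk]
    rw [this]
    exact hconj j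
  have heig : ∀ j, Q j _ (C₁ j : Mat (Module.finrank ℂ E₁) ℂ) ∧
      Q j _ (C₂ j : Mat (Module.finrank ℂ E₂) ℂ) := fun j =>
    (hQ j).blk ((hQ j).conj (hCblk j) (hC j))
  have hY1 : x₁ ∈ YG Rel C₁ := ⟨hrel1, fun j => IsConj.refl _, hs1⟩
  have hY2 : x₂ ∈ YG Rel C₂ := ⟨hrel2, fun j => IsConj.refl _, hs2⟩
  have step1 : ∀ y₂ ∈ DG Rel φ C₂,
      evK (fun k => D.blk (x₁ (FreeGroup.of k) : Mat _ ℂ) (y₂ (FreeGroup.of k) : Mat _ ℂ)) f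
        = 0 := by
    intro y₂ hy₂
    obtain ⟨f₁, hf₁⟩ := exists_poly₁ D f (fun k => (y₂ (FreeGroup.of k) : Mat _ ℂ))
    rw [← hf₁]
    refine ih _ hlt1 (hc.mono hlt1.le)
      (fun r' hr' => hirr r' (hr'.trans hlt1.le)) C₁ (fun j => (heig j).1) x₁ hY1 f₁ ?_
    intro y₁ hy₁
    rw [hf₁]
    exact two_block_DG φ u hu'
      { hc := hc, hchar := hchar, hr1 := hpos1, hr2 := hpos2, hr := hsum, C₁ := C₁, C₂ := C₂,
        D₀ := D, hC := hCblk, nC₁ := fun j => (hQ j).eig (heig j).1,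
        nC₂ := fun j => (hQ j).eig (heig j).2, y₁ := y₁,
        y₂ := y₂, h₁ := hy₁, h₂ := hy₂ } D f hf
  have step2 : evK (fun k => D.blk (x₁ (FreeGroup.of k) : Mat _ ℂ)
      (x₂ (FreeGroup.of k) : Mat _ ℂ)) f = 0 := by
    obtain ⟨f₂, hf₂⟩ := exists_poly₂ D f (fun k => (x₁ (FreeGroup.of k) : Mat _ ℂ))
    rw [← hf₂]
    refine ih _ hlt2 (hc.mono hlt2.le)
      (fun r' hr' => hirr r' (hr'.trans hlt2.le)) C₂ (fun j => (heig j).2) x₂ hY2 f₂ ?_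
    intro y₂ hy₂
    rw [hf₂]
    exact step1 y₂ hy₂
  rw [evalG_eq_evK]
  refine Eq.trans (congrArg (fun X => evK X f) (funext fun k => ?_)) step2
  exact hblk _

end main

section prod

variable {κ₁ ι₁ κ₂ ι₂ : Type} {r r₁ r₂ : ℕ}

/-- Density for tensor products, first factor. -/
theorem ten_dense₁Q {R : Type*} [CommRing R] (φ : R →+* ℂ)
    {Q₁ : ι₁ → ∀ r : ℕ, Mat r ℂ → Prop} (Rel₁ : Set (FreeGroup (κ₁ ⊕ ι₁)))
    {n : ℕ} (h₁ : IrrDenseQ Q₁ Rel₁ φ r₁) (e : Fin r₁ × Fin r₂ ≃ Fin n) (P : (Mat n ℂ)ˣ)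
    (z₁ : FreeGroup (κ₁ ⊕ ι₁) →* (Mat r₁ ℂ)ˣ) (y₂ : FreeGroup (κ₂ ⊕ ι₂) →* (Mat r₂ ℂ)ˣ)
    (ht₁ : Algebra.adjoin ℂ (Set.range fun w => (z₁ w : Mat r₁ ℂ)) = ⊤)
    (C₁ : ι₁ → (Mat r₁ ℂ)ˣ) (hE₁ : ∀ j, Q₁ j r₁ (C₁ j : Mat r₁ ℂ)) (hY₁ : z₁ ∈ YG Rel₁ C₁)
    (f : MvPolynomial (((κ₁ ⊕ κ₂) ⊕ (ι₁ ⊕ ι₂)) × Fin n × Fin n) ℂ)
    (hf : ∀ y₁ ∈ DGT Rel₁ φ C₁, evalG (conjH P (ten e y₁ y₂)) f = 0) :
    evalG (conjH P (ten e z₁ y₂)) f = 0 := by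
  obtain ⟨f₁, hf₁⟩ := exists_polyT₁ e (P : Mat n ℂ) ((P⁻¹ : (Mat n ℂ)ˣ) : Mat n ℂ) f
    (fun k => (y₂ (FreeGroup.of k) : Mat r₂ ℂ))
  rw [evalG_conjH_ten, ← hf₁]
  refine h₁ C₁ hE₁ z₁ hY₁ (fun M hM => scalar_of_adjoin z₁ ht₁ M hM) f₁ ?_
  intro y₁ hy₁
  rw [hf₁, ← evalG_conjH_ten]
  exact hf y₁ hy₁

/-- Density for tensor products, second factor. -/
theorem ten_dense₂Q {R : Type*} [CommRing R] (φ : R →+* ℂ)
    {Q₂ : ι₂ → ∀ r : ℕ, Mat r ℂ → Prop} (Rel₂ : Set (FreeGroup (κ₂ ⊕ ι₂)))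
    {n : ℕ} (h₂ : IrrDenseQ Q₂ Rel₂ φ r₂) (e : Fin r₁ × Fin r₂ ≃ Fin n) (P : (Mat n ℂ)ˣ)
    (y₁ : FreeGroup (κ₁ ⊕ ι₁) →* (Mat r₁ ℂ)ˣ) (z₂ : FreeGroup (κ₂ ⊕ ι₂) →* (Mat r₂ ℂ)ˣ)
    (ht₂ : Algebra.adjoin ℂ (Set.range fun w => (z₂ w : Mat r₂ ℂ)) = ⊤)
    (C₂ : ι₂ → (Mat r₂ ℂ)ˣ) (hE₂ : ∀ j, Q₂ j r₂ (C₂ j : Mat r₂ ℂ)) (hY₂ : z₂ ∈ YG Rel₂ C₂)
    (f : MvPolynomial (((κ₁ ⊕ κ₂) ⊕ (ι₁ ⊕ ι₂)) × Fin n × Fin n) ℂ)
    (hf : ∀ y₂ ∈ DGT Rel₂ φ C₂, evalG (conjH P (ten e y₁ y₂)) f = 0) :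
    evalG (conjH P (ten e y₁ z₂)) f = 0 := by
  obtain ⟨f₂, hf₂⟩ := exists_polyT₂ e (P : Mat n ℂ) ((P⁻¹ : (Mat n ℂ)ˣ) : Mat n ℂ) f
    (fun k => (y₁ (FreeGroup.of k) : Mat r₁ ℂ))
  rw [evalG_conjH_ten, ← hf₂]
  refine h₂ C₂ hE₂ z₂ hY₂ (fun M hM => scalar_of_adjoin z₂ ht₂ M hM) f₂ ?_
  intro y₂ hy₂
  rw [hf₂, ← evalG_conjH_ten]
  exact hf y₂ hy₂

/-- Density for tensor products. -/
theorem ten_denseQ {R : Type*} [CommRing R] (φ : R →+* ℂ) (E : Subgroup ℂˣ)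
    {Q₁ : ι₁ → ∀ r : ℕ, Mat r ℂ → Prop} {Q₂ : ι₂ → ∀ r : ℕ, Mat r ℂ → Prop}
    (hQ₁ : ∀ j, ClassOK E (Q₁ j)) (hQ₂ : ∀ j, ClassOK E (Q₂ j))
    (Rel₁ : Set (FreeGroup (κ₁ ⊕ ι₁))) (Rel₂ : Set (FreeGroup (κ₂ ⊕ ι₂)))
    {n : ℕ} (h₁ : IrrDenseQ Q₁ Rel₁ φ r₁) (h₂ : IrrDenseQ Q₂ Rel₂ φ r₂)
    (hr₁ : 0 < r₁) (hr₂ : 0 < r₂) (e : Fin r₁ × Fin r₂ ≃ Fin n) (P : (Mat n ℂ)ˣ)
    (z₁ : FreeGroup (κ₁ ⊕ ι₁) →* (Mat r₁ ℂ)ˣ) (z₂ : FreeGroup (κ₂ ⊕ ι₂) →* (Mat r₂ ℂ)ˣ)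
    (ht₁ : Algebra.adjoin ℂ (Set.range fun w => (z₁ w : Mat r₁ ℂ)) = ⊤)
    (ht₂ : Algebra.adjoin ℂ (Set.range fun w => (z₂ w : Mat r₂ ℂ)) = ⊤)
    (hz₁ : ∀ w ∈ Rel₁, z₁ w = 1) (hz₂ : ∀ w ∈ Rel₂, z₂ w = 1)
    (C : ι₁ ⊕ ι₂ → (Mat n ℂ)ˣ) (hC : ∀ j, Sum.elim Q₁ Q₂ j n (C j : Mat n ℂ))
    (hconj : ∀ j, IsConj (C j) (conjH P (ten e z₁ z₂) (FreeGroup.of (Sum.inr j))))
    (f : MvPolynomial (((κ₁ ⊕ κ₂) ⊕ (ι₁ ⊕ ι₂)) × Fin n × Fin n) ℂ)
    (hf : ∀ y ∈ DGT (prodRel Rel₁ Rel₂) φ C, evalG y f = 0) :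
    evalG (conjH P (ten e z₁ z₂)) f = 0 := by
  obtain ⟨C₁, hC₁⟩ : ∃ C₁ : ι₁ → (Mat r₁ ℂ)ˣ, ∀ j, C₁ j = z₁ (FreeGroup.of (Sum.inr j)) :=
    ⟨_, fun j => rfl⟩
  obtain ⟨C₂, hC₂⟩ : ∃ C₂ : ι₂ → (Mat r₂ ℂ)ˣ, ∀ j, C₂ j = z₂ (FreeGroup.of (Sum.inr j)) :=
    ⟨_, fun j => rfl⟩
  have hCC₁ : ∀ j, IsConj (C (Sum.inl j)) (krU₁ e (C₁ j)) := fun j => by
    rw [hC₁]
    exact (hconj (Sum.inl j)).trans (conj_boundary₁ e P z₁ z₂ j)
  have hCC₂ : ∀ j, IsConj (C (Sum.inr j)) (krU₂ e (C₂ j)) := fun j => by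
    rw [hC₂]
    exact (hconj (Sum.inr j)).trans (conj_boundary₂ e P z₁ z₂ j)
  have hE₁ : ∀ j, Q₁ j r₁ (C₁ j : Mat r₁ ℂ) := by
    intro j
    have h := (hQ₁ j).conj (hCC₁ j) (hC (Sum.inl j))
    rw [krU₁_coe] at h
    exact (hQ₁ j).kr₁ hr₂ h
  have hE₂ : ∀ j, Q₂ j r₂ (C₂ j : Mat r₂ ℂ) := by
    intro j
    have h := (hQ₂ j).conj (hCC₂ j) (hC (Sum.inr j))
    rw [krU₂_coe] at h
    exact (hQ₂ j).kr₂ hr₁ h
  have hY₁ : z₁ ∈ YG Rel₁ C₁ :=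
    ⟨hz₁, fun j => by rw [hC₁], ss_of_adjoin z₁ ht₁⟩
  have hY₂ : z₂ ∈ YG Rel₂ C₂ :=
    ⟨hz₂, fun j => by rw [hC₂], ss_of_adjoin z₂ ht₂⟩
  refine ten_dense₂Q φ Rel₂ h₂ e P z₁ z₂ ht₂ C₂ hE₂ hY₂ f fun y₂ hy₂ => ?_
  refine ten_dense₁Q φ Rel₁ h₁ e P z₁ y₂ ht₁ C₁ hE₁ hY₁ f fun y₁ hy₁ => ?_
  exact conj_vanish_DGT φ f hf (ten e y₁ y₂) (ten_mem_DGT φ e hCC₁ hCC₂ hy₁ hy₂) P

/-- Irreducible representations of a product. -/
theorem prod_irrDenseQ {R : Type*} [CommRing R] (φ : R →+* ℂ) (E : Subgroup ℂˣ)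
    {Q₁ : ι₁ → ∀ r : ℕ, Mat r ℂ → Prop} {Q₂ : ι₂ → ∀ r : ℕ, Mat r ℂ → Prop}
    (hQ₁ : ∀ j, ClassOK E (Q₁ j)) (hQ₂ : ∀ j, ClassOK E (Q₂ j))
    (Rel₁ : Set (FreeGroup (κ₁ ⊕ ι₁))) (Rel₂ : Set (FreeGroup (κ₂ ⊕ ι₂)))
    (h₁ : ∀ r' ≤ r, 0 < r' → IrrDenseQ Q₁ Rel₁ φ r')
    (h₂ : ∀ r' ≤ r, 0 < r' → IrrDenseQ Q₂ Rel₂ φ r') :
    ∀ r' ≤ r, 0 < r' → IrrDenseQ (Sum.elim Q₁ Q₂) (prodRel Rel₁ Rel₂) φ r' := by
  intro n hn hpos C hC x hx hcen f hf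
  have hxtop := burnside_top x hx.2.2 hcen
  obtain ⟨r₁, r₂, e, P, z₁, z₂, hr₁, hr₂, ht₁, ht₂, hz₁, hz₂, rfl⟩ :=
    exists_ten hpos x hx.1 hxtop
  have hcard : r₁ * r₂ = n := by
    have := Fintype.card_congr e
    simpa using this
  have hle₁ : r₁ ≤ r := le_trans (by rw [← hcard]; exact Nat.le_mul_of_pos_right _ hr₂) hn
  have hle₂ : r₂ ≤ r := le_trans (by rw [← hcard]; exact Nat.le_mul_of_pos_left _ hr₁) hn
  exact ten_denseQ φ E hQ₁ hQ₂ Rel₁ Rel₂ (h₁ r₁ hle₁ hr₁) (h₂ r₂ hle₂ hr₂) hr₁ hr₂ e P z₁ z₂ ht₁ ht₂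
    hz₁ hz₂ C hC hx.2.1 f hf

end prod

section equiv

variable {κ ι κ' ι' : Type} {r : ℕ}

/-- Invariance under renaming of the generators and change of the relators. -/
theorem IrrDenseQ.congr (e₁ : κ ≃ κ') (e₂ : ι ≃ ι') {R : Type*} [CommRing R] {φ : R →+* ℂ}
    {Q : ι → ∀ r : ℕ, Mat r ℂ → Prop} {Q' : ι' → ∀ r : ℕ, Mat r ℂ → Prop}
    (hQ : ∀ j M, Q' j r M → Q (e₂.symm j) r M) (Rel : Set (FreeGroup (κ ⊕ ι))) (Rel' : Set (FreeGroup (κ' ⊕ ι')))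
    (h : ∀ y : FreeGroup (κ ⊕ ι) →* (Mat r ℂ)ˣ, (∀ w ∈ Rel, y w = 1) ↔
      ∀ w ∈ Rel', y (renE e₁.symm e₂.symm w) = 1)
    (hI : IrrDenseQ Q Rel φ r) : IrrDenseQ Q' Rel' φ r := by
  intro C' hC' x' hx' hirr f' hf'
  rw [← evalG_renE e₁ e₂ x' f']
  refine hI (C' ∘ e₂) (fun j => by
    have h1 := hQ (e₂ j) _ (hC' (e₂ j))
    rwa [Equiv.symm_apply_apply] at h1) (x'.comp (renE e₁ e₂)) ?_ ?_ _ ?_
  · refine ⟨(h _).2 fun w hw => ?_, fun j => ?_, hx'.2.2.renE e₁ e₂⟩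
    · rw [MonoidHom.comp_apply, renE_symm']
      exact hx'.1 w hw
    · rw [MonoidHom.comp_apply, renE_inr]
      exact hx'.2.1 _
  · intro M hM
    refine hirr M fun w => ?_
    have := hM (renE e₁.symm e₂.symm w)
    rwa [MonoidHom.comp_apply, renE_symm'] at this
  · intro y hy
    have h1 := hf' _ (mem_DGT_renE e₁ e₂ φ Rel Rel' (fun y hy => (h y).1 hy) C' y hy)
    have h2 := evalG_renE e₁ e₂ (y.comp (renE e₁.symm e₂.symm)) f'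
    have h3 : (y.comp (renE e₁.symm e₂.symm)).comp (renE e₁ e₂) = y := by
      ext1 w
      simp only [MonoidHom.comp_apply, renE_symm]
    rw [h3] at h2
    rw [h2, h1]

end equiv

/-- Representations without generators. -/
theorem irrDenseQ_of_isEmpty {κ ι : Type} [IsEmpty κ] [IsEmpty ι] {r : ℕ}
    {R : Type*} [CommRing R] (φ : R →+* ℂ) (Q : ι → ∀ r : ℕ, Mat r ℂ → Prop)
    (Rel : Set (FreeGroup (κ ⊕ ι))) : IrrDenseQ Q Rel φ r := by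
  intro C _ x hx hirr f hf
  exact hf x ⟨⟨hx, fun k => by rcases k with k | k <;> exact isEmptyElim k⟩,
    burnside_top x hx.2.2 hirr⟩

theorem fam_irrDenseQ {R : Type*} [CommRing R] (φ : R →+* ℂ) (E : Subgroup ℂˣ) (r : ℕ) (k : ℕ) :
    ∀ (κ ι : Fin k → Type) (Q : ∀ i, ι i → ∀ r : ℕ, Mat r ℂ → Prop)
      (_ : ∀ i j, ClassOK E (Q i j)) (Rel : ∀ i, Set (FreeGroup (κ i ⊕ ι i))),
      (∀ i, ∀ r' ≤ r, 0 < r' → IrrDenseQ (Q i) (Rel i) φ r') →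
      ∀ r' ≤ r, 0 < r' → IrrDenseQ (fun p : Σ i, ι i => Q p.1 p.2) (famRel Rel) φ r' := by
  induction k with
  | zero =>
    intro κ ι Q _ Rel _ r' _ _
    have : IsEmpty (Σ i, κ i) := ⟨fun p => p.1.elim0⟩
    have : IsEmpty (Σ i, ι i) := ⟨fun p => p.1.elim0⟩
    exact irrDenseQ_of_isEmpty φ _ _
  | succ k ih =>
    intro κ ι Q hQ Rel hRel r' hr' hr'0
    have h1 := ih (fun i => κ i.succ) (fun i => ι i.succ) (fun i => Q i.succ)
      (fun i => hQ i.succ) (fun i => Rel i.succ) (fun i => hRel i.succ)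
    have h2 := prod_irrDenseQ φ E (hQ 0) (fun p : Σ i : Fin k, ι i.succ => hQ p.1.succ p.2)
      (Rel 0) (famRel fun i : Fin k => Rel i.succ) (hRel 0) h1 r' hr' hr'0
    refine IrrDenseQ.congr (splitE κ) (splitE ι) (fun j M hM => ?_) _ _ ?_ h2
    · obtain ⟨j', rfl⟩ := (splitE ι).surjective j
      rw [Equiv.symm_apply_apply]
      rcases j' with j' | ⟨i, j'⟩
      · exact hM
      · exact hM
    intro y
    obtain ⟨G, hG⟩ : ∃ G : FreeGroup ((Σ i, κ i) ⊕ (Σ i, ι i)) →*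
        FreeGroup ((κ 0 ⊕ Σ i : Fin k, κ i.succ) ⊕ (ι 0 ⊕ Σ i : Fin k, ι i.succ)),
        G = renE (splitE κ).symm (splitE ι).symm := ⟨_, rfl⟩
    rw [← hG]
    have hz : ∀ p : κ 0 ⊕ ι 0, G (FreeGroup.of (incS 0 p)) = FreeGroup.of (inc₁ p) := by
      rintro (p | p)
      · rw [hG, incS, Sum.map_inl, renE_inl, splitE_symm_zero]; rfl
      · rw [hG, incS, Sum.map_inr, renE_inr, splitE_symm_zero]; rfl
    have hs : ∀ (i : Fin k) (p : κ i.succ ⊕ ι i.succ), G (FreeGroup.of (incS i.succ p)) =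
        FreeGroup.of (inc₂ (incS (κ := fun i => κ i.succ) (ι := fun i => ι i.succ) i p)) := by
      rintro i (p | p)
      · rw [hG, incS, Sum.map_inl, renE_inl, splitE_symm_succ]; rfl
      · rw [hG, incS, Sum.map_inr, renE_inr, splitE_symm_succ]; rfl
    have hz' : ∀ w, G (FreeGroup.map (incS 0) w) = FreeGroup.map inc₁ w := by
      intro w
      have : G.comp (FreeGroup.map (incS 0)) = FreeGroup.map inc₁ := by
        apply FreeGroup.ext_hom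
        intro p
        rw [MonoidHom.comp_apply, FreeGroup.map.of, FreeGroup.map.of, hz]
      exact DFunLike.congr_fun this w
    have hs' : ∀ (i : Fin k) w, G (FreeGroup.map (incS i.succ) w) =
        FreeGroup.map inc₂ (FreeGroup.map (incS (κ := fun i => κ i.succ)
          (ι := fun i => ι i.succ) i) w) := by
      intro i w
      have : G.comp (FreeGroup.map (incS i.succ)) = (FreeGroup.map inc₂).comp
          (FreeGroup.map (incS (κ := fun i => κ i.succ) (ι := fun i => ι i.succ) i)) := by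
        apply FreeGroup.ext_hom
        intro p
        rw [MonoidHom.comp_apply, MonoidHom.comp_apply, FreeGroup.map.of, FreeGroup.map.of,
          FreeGroup.map.of, hs]
      exact DFunLike.congr_fun this w
    constructor
    · intro hy
      have hy1 : ∀ w ∈ Rel 0, y (FreeGroup.map inc₁ w) = 1 := fun w hw =>
        hy _ (Or.inl (Or.inl ⟨w, hw, rfl⟩))
      have hy2 : ∀ w ∈ famRel (fun i : Fin k => Rel i.succ), y (FreeGroup.map inc₂ w) = 1 :=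
        fun w hw => hy _ (Or.inl (Or.inr ⟨w, hw, rfl⟩))
      have hy3 : ∀ (p : κ 0 ⊕ ι 0) (q : (Σ i : Fin k, κ i.succ) ⊕ (Σ i : Fin k, ι i.succ)),
          Commute (y (FreeGroup.of (inc₁ p))) (y (FreeGroup.of (inc₂ q))) := by
        intro p q
        have := hy _ (Or.inr ⟨p, q, rfl⟩)
        rw [map_mul, map_mul, map_mul, map_inv, map_inv, mul_inv_eq_one, mul_inv_eq_iff_eq_mul]
          at this
        exact this
      rintro w (⟨i, v, hv, rfl⟩ | ⟨i, j, p, q, hij, rfl⟩)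
      · induction i using Fin.cases with
        | zero => rw [hz']; exact hy1 v hv
        | succ i => rw [hs']; exact hy2 _ (Or.inl ⟨i, v, hv, rfl⟩)
      · suffices h : Commute (y (G (FreeGroup.of (incS i p)))) (y (G (FreeGroup.of (incS j q)))) by
          rw [map_mul, map_mul, map_mul, map_inv, map_inv, map_mul, map_mul, map_mul, map_inv,
            map_inv, mul_inv_eq_one, mul_inv_eq_iff_eq_mul]
          exact h
        induction i using Fin.cases with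
        | zero =>
          induction j using Fin.cases with
          | zero => exact absurd rfl hij
          | succ j => rw [hz, hs]; exact hy3 _ _
        | succ i =>
          induction j using Fin.cases with
          | zero => rw [hz, hs]; exact (hy3 _ _).symm
          | succ j =>
            rw [hs, hs]
            have := hy2 _ (Or.inr ⟨i, j, p, q, fun h => hij (by rw [h]), rfl⟩)
            rw [map_mul, map_mul, map_mul, map_inv, map_inv, FreeGroup.map.of, FreeGroup.map.of,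
              map_mul, map_mul, map_mul, map_inv, map_inv, mul_inv_eq_one,
              mul_inv_eq_iff_eq_mul] at this
            exact this
    · intro hy
      have hcm : ∀ (i j : Fin (k + 1)) (p : κ i ⊕ ι i) (q : κ j ⊕ ι j), i ≠ j →
          Commute (y (G (FreeGroup.of (incS i p)))) (y (G (FreeGroup.of (incS j q)))) := by
        intro i j p q hij
        have := hy _ (Or.inr ⟨i, j, p, q, hij, rfl⟩)
        rw [map_mul, map_mul, map_mul, map_inv, map_inv, map_mul, map_mul, map_mul, map_inv,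
          map_inv, mul_inv_eq_one, mul_inv_eq_iff_eq_mul] at this
        exact this
      rintro w ((⟨v, hv, rfl⟩ | ⟨v, hv, rfl⟩) | ⟨p, q, rfl⟩)
      · rw [← hz']
        exact hy _ (Or.inl ⟨0, v, hv, rfl⟩)
      · rcases hv with ⟨i, v, hv, rfl⟩ | ⟨i, j, p, q, hij, rfl⟩
        · rw [← hs']
          exact hy _ (Or.inl ⟨i.succ, v, hv, rfl⟩)
        · have := hcm i.succ j.succ p q (fun h => hij (Fin.succ_injective k h))
          rw [hs, hs] at this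
          rw [map_mul, map_mul, map_mul, map_inv, map_inv, FreeGroup.map.of, FreeGroup.map.of,
            map_mul, map_mul, map_mul, map_inv, map_inv, mul_inv_eq_one, mul_inv_eq_iff_eq_mul]
          exact this
      · have hq : ∃ (j : Fin k) (q' : κ j.succ ⊕ ι j.succ),
            q = incS (κ := fun i => κ i.succ) (ι := fun i => ι i.succ) j q' := by
          rcases q with ⟨j, q⟩ | ⟨j, q⟩
          · exact ⟨j, Sum.inl q, rfl⟩
          · exact ⟨j, Sum.inr q, rfl⟩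
        obtain ⟨j, q', rfl⟩ := hq
        have := hcm 0 j.succ p q' (Fin.succ_ne_zero j).symm
        rw [hz, hs] at this
        rw [map_mul, map_mul, map_mul, map_inv, map_inv, mul_inv_eq_one, mul_inv_eq_iff_eq_mul]
        exact this

end Vale.Agent.P002R
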