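import Vale.Agent.P002R.ZGeneric
import Vale.Agent.P002R.ZCell
import Vale.Agent.P002R.ZIrrQ
import Vale.Agent.P002.JordanForm
import Vale.Agent.P002G.Cyc

/-!
# P002, genus 0: every irreducible representation is a limit of representations in chart form
-/

namespace Vale.Agent.P002R

open Matrix

variable {n r : ℕ}

/-- The images of the boundary generators. -/
def bt (x : FU 0 n →* (Mat r ℂ)ˣ) (j : Fin n) : Mat r ℂ :=
  (x (FreeGroup.of (Sum.inr j)) : Mat r ℂ)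

theorem bt_eqn (x : FU 0 n →* (Mat r ℂ)ˣ) (j : Fin n) :
    bt x j = (x (FreeGroup.of (Sum.inr j)) : Mat r ℂ) := rfl

/-- The representation with given boundary. -/
def mkR (c : Fin n → (Mat r ℂ)ˣ) : FU 0 n →* (Mat r ℂ)ˣ :=
  FreeGroup.lift (Sum.elim (fun k => k.1.elim0) c)

theorem mkR_inr (c : Fin n → (Mat r ℂ)ˣ) (j : Fin n) :
    mkR c (FreeGroup.of (Sum.inr j)) = c j := by
  rw [mkR, FreeGroup.lift_apply_of]
  rfl

theorem bt_mkR (c : Fin n → (Mat r ℂ)ˣ) (j : Fin n) : bt (mkR c) j = (c j : Mat r ℂ) := by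
  rw [bt_eqn, mkR_inr]

theorem relU_iff (x : FU 0 n →* (Mat r ℂ)ˣ) :
    x (relatorU 0 n) = 1 ↔ ((List.finRange n).map (bt x)).prod = 1 := by
  have h1 : ((x (relatorU 0 n) : (Mat r ℂ)ˣ) : Mat r ℂ) =
      ((List.finRange n).map (bt x)).prod := by
    unfold relatorU
    rw [List.ofFn_zero, List.prod_nil, mul_one, map_list_prod, List.ofFn_eq_map, List.map_map,
      ← Units.coeHom_apply, map_list_prod, List.map_map]
    rfl
  rw [← h1, Units.val_eq_one]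

/-- Evaluation at a tuple. -/
noncomputable def evT (f : MvPolynomial (GenU 0 n × Fin r × Fin r) ℂ) (c : Fin n → Mat r ℂ) : ℂ :=
  MvPolynomial.eval (fun p => (Sum.elim (fun _ => (0 : Mat r ℂ)) c p.1) p.2.1 p.2.2) f

theorem evalG_eq_evT (x : FU 0 n →* (Mat r ℂ)ˣ) (f : MvPolynomial (GenU 0 n × Fin r × Fin r) ℂ) :
    evalG x f = evT f (bt x) := by
  rw [evalG_eq_eval, evT]
  have h1 : (fun p : GenU 0 n × Fin r × Fin r =>
      (x (FreeGroup.of p.1) : Mat r ℂ) p.2.1 p.2.2) =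
      fun p => (Sum.elim (fun _ => (0 : Mat r ℂ)) (bt x) p.1) p.2.1 p.2.2 := by
    funext p
    obtain ⟨k | j, a, b⟩ := p
    · exact k.1.elim0
    · rfl
  rw [h1]

theorem evT_continuous (f : MvPolynomial (GenU 0 n × Fin r × Fin r) ℂ) :
    Continuous (evT f) := by
  have h1 : Continuous fun c : Fin n → Mat r ℂ => fun p : GenU 0 n × Fin r × Fin r =>
      (Sum.elim (fun _ => (0 : Mat r ℂ)) c p.1) p.2.1 p.2.2 := by
    refine continuous_pi fun p => ?_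
    obtain ⟨k | j, a, b⟩ := p
    · exact k.1.elim0
    · exact (continuous_apply b).comp ((continuous_apply a).comp (continuous_apply j))
  exact (MvPolynomial.continuous_eval f).comp h1

/-! ### Triangular forms -/

theorem exists_upT (C : (Mat r ℂ)ˣ) : ∃ J : (Mat r ℂ)ˣ, IsConj C J ∧ UpT (J : Mat r ℂ) := by
  obtain ⟨d, ν, -, hν, -, h⟩ := P002.exists_jordan (C : Mat r ℂ)
  obtain ⟨P, hP⟩ := h 1 one_ne_zero
  refine ⟨P⁻¹ * C * P, isConj_iff.2 ⟨P⁻¹, by rw [inv_inv]⟩, ?_⟩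
  have h1 : ((P⁻¹ * C * P : (Mat r ℂ)ˣ) : Mat r ℂ) =
      diagonal d + (1 : ℂ) • ν.map (Int.cast : ℤ → ℂ) := by
    rw [Units.val_mul, Units.val_mul, hP]
    calc ((P⁻¹ : (Mat r ℂ)ˣ) : Mat r ℂ) * ((P : Mat r ℂ) *
          (diagonal d + (1 : ℂ) • ν.map (Int.cast : ℤ → ℂ)) * ((P⁻¹ : (Mat r ℂ)ˣ) : Mat r ℂ)) *
          (P : Mat r ℂ)
        = (((P⁻¹ : (Mat r ℂ)ˣ) : Mat r ℂ) * (P : Mat r ℂ)) *
          (diagonal d + (1 : ℂ) • ν.map (Int.cast : ℤ → ℂ)) *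
          (((P⁻¹ : (Mat r ℂ)ˣ) : Mat r ℂ) * (P : Mat r ℂ)) := by
          simp only [Matrix.mul_assoc]
      _ = _ := by rw [Units.inv_mul, Matrix.one_mul, Matrix.mul_one]
  rw [h1]
  intro i j hij
  rw [Matrix.add_apply, Matrix.diagonal_apply_ne _ hij.ne', Matrix.smul_apply, Matrix.map_apply,
    hν i j hij.not_gt, Int.cast_zero, smul_zero, add_zero]

/-- transposed unit -/
def trU (C : (Mat r ℂ)ˣ) : (Mat r ℂ)ˣ where
  val := (C : Mat r ℂ)ᵀ
  inv := ((C⁻¹ : (Mat r ℂ)ˣ) : Mat r ℂ)ᵀ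
  val_inv := by rw [← Matrix.transpose_mul, Units.inv_mul, Matrix.transpose_one]
  inv_val := by rw [← Matrix.transpose_mul, Units.mul_inv, Matrix.transpose_one]

theorem trU_val (C : (Mat r ℂ)ˣ) : (trU C : Mat r ℂ) = (C : Mat r ℂ)ᵀ := rfl

theorem exists_loT (C : (Mat r ℂ)ˣ) : ∃ J : (Mat r ℂ)ˣ, IsConj C J ∧ LoT (J : Mat r ℂ) := by
  obtain ⟨J, hJ, hup⟩ := exists_upT (trU C)
  refine ⟨trU J, ?_, ?_⟩
  · obtain ⟨P, hP⟩ := isConj_iff.1 hJ
    refine isConj_iff.2 ⟨(trU P)⁻¹, ?_⟩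
    rw [inv_inv, ← hP]
    apply Units.ext
    have h1 : ((trU P)⁻¹ : (Mat r ℂ)ˣ) = trU P⁻¹ := by
      rw [inv_eq_iff_mul_eq_one]
      apply Units.ext
      rw [Units.val_mul, trU_val, trU_val, ← Matrix.transpose_mul, Units.inv_mul,
        Matrix.transpose_one, Units.val_one]
    rw [h1]
    simp only [Units.val_mul, trU_val, Matrix.transpose_mul, Matrix.transpose_transpose,
      Matrix.mul_assoc]
  · rw [trU_val]
    exact hup.transpose

section normed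

open scoped Matrix.Norms.Operator

theorem continuousAt_cj_norm (J : Fin n → Mat r ℂ) {Y : Fin n → Mat r ℂ} (hY : ∀ j, IsUnit (Y j)) :
    ContinuousAt (fun Y : Fin n → Mat r ℂ => cj J Y) Y := by
  refine continuousAt_pi.2 fun j => ?_
  obtain ⟨D, hD, -⟩ := deriv_cj J hY j
  exact hD.hasFDerivAt.continuousAt

end normed

theorem continuousAt_cj (J : Fin n → Mat r ℂ) {Y : Fin n → Mat r ℂ} (hY : ∀ j, IsUnit (Y j)) :
    ContinuousAt (fun Y : Fin n → Mat r ℂ => cj J Y) Y := continuousAt_cj_norm J hY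

theorem hasCyc_iff (M : Mat r ℂ) : HasCyc r M ↔ ∃ v, (P002.kry M v).det ≠ 0 := by
  unfold HasCyc
  refine exists_congr fun v => ?_
  have h1 := P002G.cyc_iff M v
  rw [Matrix.isUnit_iff_isUnit_det, isUnit_iff_ne_zero] at h1
  exact h1

/-- Representations in chart form. -/
structure ChartForm (b e : Fin n) (x : FU 0 n →* (Mat r ℂ)ˣ) : Prop where
  up : UpT (bt x b)
  lo : LoT (bt x e)
  cell : ∀ l₁ l₂ : List (Fin n), List.finRange n = b :: (l₁ ++ (l₂ ++ [e])) →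
    ∃ X : Mat r ℂ, (l₁.map (bt x)).prod = zZ X ∧ ∀ i, X i i ≠ 0
  cyc : ∀ (t : Fin n) (l₁ l₂ : List (Fin n)),
    List.finRange n = b :: (l₁ ++ t :: l₂) → HasCyc r (bt x t) →
    ∀ i₀ : Fin r, (i₀ : ℕ) = 0 →
      (P002.kry (bt x t) (((l₁.map (bt x)).prod)⁻¹ *ᵥ (Pi.single i₀ 1 : Fin r → ℂ))).det ≠ 0

theorem unit_conj (g M : (Mat r ℂ)ˣ) :
    ((g⁻¹ * M * g : (Mat r ℂ)ˣ) : Mat r ℂ) = (g : Mat r ℂ)⁻¹ * (M : Mat r ℂ) * (g : Mat r ℂ) := by
  rw [Units.val_mul, Units.val_mul, Matrix.coe_units_inv]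

/-- products of conjugates -/
theorem prod_conj {ι : Type*} (g : (Mat r ℂ)ˣ) (c : ι → Mat r ℂ) (l : List ι) :
    (l.map fun j => (g : Mat r ℂ)⁻¹ * c j * (g : Mat r ℂ)).prod =
      (g : Mat r ℂ)⁻¹ * (l.map c).prod * (g : Mat r ℂ) := by
  have h1 : (g : Mat r ℂ) * (g : Mat r ℂ)⁻¹ = 1 := by
    rw [← Matrix.coe_units_inv, Units.mul_inv]
  have h2 : (g : Mat r ℂ)⁻¹ * (g : Mat r ℂ) = 1 := by
    rw [← Matrix.coe_units_inv, Units.inv_mul]
  induction l with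
  | nil => simp [h2]
  | cons j l ih =>
    rw [List.map_cons, List.prod_cons, ih, List.map_cons, List.prod_cons]
    calc (g : Mat r ℂ)⁻¹ * c j * (g : Mat r ℂ) *
          ((g : Mat r ℂ)⁻¹ * (l.map c).prod * (g : Mat r ℂ))
        = (g : Mat r ℂ)⁻¹ * c j * ((g : Mat r ℂ) * (g : Mat r ℂ)⁻¹) * (l.map c).prod *
          (g : Mat r ℂ) := by simp only [Matrix.mul_assoc]
      _ = _ := by rw [h1, Matrix.mul_one]; simp only [Matrix.mul_assoc]

/-- Nonvanishing of all minors gives the decomposition. -/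
theorem exists_zZ (G : Mat r ℂ) (h : ∀ (k : ℕ) (f g : Fin k → Fin r), Function.Injective f →
    Function.Injective g → (G.submatrix f g).det ≠ 0) :
    ∃ X : Mat r ℂ, G = zZ X ∧ ∀ i, X i i ≠ 0 := by
  refine exists_UL G fun k _ => ?_
  obtain ⟨e⟩ : Nonempty (Fin (Fintype.card {i : Fin r // k ≤ (i : ℕ)}) ≃
    {i : Fin r // k ≤ (i : ℕ)}) := ⟨(Fintype.equivFin _).symm⟩
  rw [← Matrix.det_submatrix_equiv_self e]
  exact h _ (fun i => ((e i : {i : Fin r // k ≤ (i : ℕ)}) : Fin r))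
    (fun i => ((e i : {i : Fin r // k ≤ (i : ℕ)}) : Fin r))
    (Subtype.val_injective.comp e.injective) (Subtype.val_injective.comp e.injective)

theorem hasCyc_conj {M N g : Mat r ℂ} (h : g * M = N * g) (hg : IsUnit g) (hM : HasCyc r M) :
    HasCyc r N := by
  rw [hasCyc_iff] at hM ⊢
  obtain ⟨v, hv⟩ := hM
  refine ⟨g *ᵥ v, ?_⟩
  rw [← P002.mul_kry g M v N h, det_mul]
  exact mul_ne_zero (isUnit_iff_ne_zero.1 ((Matrix.isUnit_iff_isUnit_det _).1 hg)) hv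

theorem uU_single (X : Mat r ℂ) (i₀ : Fin r) (hi₀ : (i₀ : ℕ) = 0) :
    uU X *ᵥ (Pi.single i₀ 1 : Fin r → ℂ) = Pi.single i₀ 1 := by
  ext i
  rw [Matrix.mulVec_single_one]
  show uU X i i₀ = _
  rw [uU_apply]
  by_cases h : i = i₀
  · rw [if_pos h, h, Pi.single_eq_same]
  · rw [if_neg h, Pi.single_eq_of_ne h, if_neg]
    rw [Fin.lt_def]
    omega

/-- Density of the representations in chart form. -/
theorem exists_chartForm (hr : 0 < r) (b e : Fin n) (l₀ : List (Fin n))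
    (hL : List.finRange n = b :: (l₀ ++ [e])) (C : Fin n → (Mat r ℂ)ˣ)
    (x : FU 0 n →* (Mat r ℂ)ˣ) (hrel : x (relatorU 0 n) = 1)
    (hcl : ∀ j, IsConj (C j) (x (FreeGroup.of (Sum.inr j))))
    (hadj : Algebra.adjoin ℂ (Set.range fun w => (x w : Mat r ℂ)) = ⊤)
    (f : MvPolynomial (GenU 0 n × Fin r × Fin r) ℂ) (hf : evalG x f ≠ 0) :
    ∃ (x' : FU 0 n →* (Mat r ℂ)ˣ) (g : (Mat r ℂ)ˣ), evalG (conjH g x') f ≠ 0 ∧
      x' (relatorU 0 n) = 1 ∧ (∀ j, IsConj (C j) (x' (FreeGroup.of (Sum.inr j)))) ∧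
      Algebra.adjoin ℂ (Set.range fun w => (x' w : Mat r ℂ)) = ⊤ ∧ ChartForm b e x' := by
  classical
  -- normal forms
  obtain ⟨Ju, hJu, hJup⟩ := exists_upT (C b)
  obtain ⟨Jl, hJl, hJlo⟩ := exists_loT (C e)
  have hbe : b ≠ e := by
    have h1 := List.nodup_finRange n
    rw [hL, List.nodup_cons] at h1
    intro h
    exact h1.1 (List.mem_append_right _ (by rw [h]; exact List.mem_singleton_self e))
  obtain ⟨J, hJ0, hJlast, hJc⟩ : ∃ J : Fin n → (Mat r ℂ)ˣ, J b = Ju ∧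
      J e = Jl ∧ ∀ j, IsConj (C j) (J j) := by
    refine ⟨fun j => if j = b then Ju else if j = e then Jl else C j, if_pos rfl,
      ?_, fun j => ?_⟩
    · show (if e = b then Ju else if e = e then Jl else C e) = Jl
      rw [if_neg hbe.symm, if_pos rfl]
    · simp only
      by_cases h1 : j = b
      · rw [if_pos h1, h1]
        exact hJu
      · rw [if_neg h1]
        by_cases h2 : j = e
        · rw [if_pos h2, h2]
          exact hJl
        · rw [if_neg h2]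
  have hy : ∀ j, ∃ y : (Mat r ℂ)ˣ, y * J j * y⁻¹ = x (FreeGroup.of (Sum.inr j)) := fun j =>
    isConj_iff.1 ((hJc j).symm.trans (hcl j))
  choose y hy using hy
  obtain ⟨Y₀, hY₀⟩ : ∃ Y₀ : Fin n → Mat r ℂ, ∀ j, Y₀ j = (y j : Mat r ℂ) := ⟨_, fun _ => rfl⟩
  obtain ⟨J', hJ'⟩ : ∃ J' : Fin n → Mat r ℂ, ∀ j, J' j = (J j : Mat r ℂ) := ⟨_, fun _ => rfl⟩
  have hY₀u : ∀ j, IsUnit (Y₀ j) := fun j => by rw [hY₀]; exact (y j).isUnit
  have hJ'u : ∀ j, IsUnit (J' j) := fun j => by rw [hJ']; exact (J j).isUnit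
  have hcj : cj J' Y₀ = bt x := by
    funext j
    rw [cj_apply, hY₀, hJ', bt_eqn, ← hy, Units.val_mul, Units.val_mul, Matrix.coe_units_inv]
  have hrel' : ((List.finRange n).map (cj J' Y₀)).prod = 1 := by
    rw [hcj]
    exact (relU_iff x).1 hrel
  have hgen : ∀ z : FU 0 n →* (Mat r ℂ)ˣ,
      Algebra.adjoin ℂ (Set.range fun w => (z w : Mat r ℂ)) = ⊤ ↔
        Algebra.adjoin ℂ (Set.range (bt z)) = ⊤ := by
    intro z
    constructor
    · intro h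
      have h1 := adjoin_gen_eq_top z h
      rw [eq_top_iff, ← h1, Algebra.adjoin_le_iff]
      rintro _ ⟨k | j, rfl⟩
      · exact k.1.elim0
      · exact Algebra.subset_adjoin ⟨j, rfl⟩
    · intro h
      rw [eq_top_iff, ← h, Algebra.adjoin_le_iff]
      rintro _ ⟨j, rfl⟩
      exact Algebra.subset_adjoin ⟨FreeGroup.of (Sum.inr j), rfl⟩
  have hadj' : Algebra.adjoin ℂ (Set.range (cj J' Y₀)) = ⊤ := by
    rw [hcj]
    exact (hgen x).1 hadj
  -- the neighbourhood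
  have hU : {Y : Fin n → Mat r ℂ | evT f (cj J' Y) ≠ 0} ∈ nhds Y₀ := by
    have h1 : ContinuousAt (fun Y : Fin n → Mat r ℂ => evT f (cj J' Y)) Y₀ :=
      ContinuousAt.comp (f := fun Y : Fin n → Mat r ℂ => cj J' Y)
        (evT_continuous f).continuousAt (continuousAt_cj J' hY₀u)
    refine h1.eventually_ne ?_
    rw [hcj, ← evalG_eq_evT]
    exact hf
  obtain ⟨Y, hYU, hYu, hYrel, hYadj, hYgen⟩ := exists_generic_flags hr (List.finRange n)
    (List.nodup_finRange _) (fun j => List.mem_finRange j) J' hJ'u Y₀ hY₀u hrel' hadj' _ hU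
  have hYU' : evT f (cj J' Y) ≠ 0 := hYU
  -- the representation of the generic point
  choose yy hyy using hYu
  obtain ⟨z, hz⟩ : ∃ z : FU 0 n →* (Mat r ℂ)ˣ, ∀ j,
      z (FreeGroup.of (Sum.inr j)) = yy j * J j * (yy j)⁻¹ :=
    ⟨mkR fun j => yy j * J j * (yy j)⁻¹, fun j => mkR_inr _ j⟩
  have hbz : bt z = cj J' Y := by
    funext j
    rw [cj_apply, hJ', ← hyy, bt_eqn, hz, Units.val_mul, Units.val_mul, Matrix.coe_units_inv]
  -- the conjugating element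
  obtain ⟨X₀, hX₀, hX₀d⟩ := exists_zZ ((Y b)⁻¹ * Y e) (by
    intro k f g hf hg
    have h1 := (hYgen b e [] l₀ [] hL).1 k f g hf hg
    rw [List.map_nil, List.prod_nil, Matrix.mul_one] at h1
    exact h1)
  have hU₀u : IsUnit (uU X₀).det := by rw [det_uU]; exact isUnit_one
  have hL₀u : IsUnit (lL X₀).det := by
    rw [det_lL, isUnit_iff_ne_zero]
    exact Finset.prod_ne_zero_iff.2 fun i _ => hX₀d i
  have hU₀1 : uU X₀ * (uU X₀)⁻¹ = 1 := Matrix.mul_nonsing_inv _ hU₀u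
  have hU₀2 : (uU X₀)⁻¹ * uU X₀ = 1 := Matrix.nonsing_inv_mul _ hU₀u
  have hL₀1 : lL X₀ * (lL X₀)⁻¹ = 1 := Matrix.mul_nonsing_inv _ hL₀u
  have hL₀2 : (lL X₀)⁻¹ * lL X₀ = 1 := Matrix.nonsing_inv_mul _ hL₀u
  have hYb1 : Y b * (Y b)⁻¹ = 1 := by
    rw [← hyy, ← Matrix.coe_units_inv, Units.mul_inv]
  have hYb2 : (Y b)⁻¹ * Y b = 1 := by
    rw [← hyy, ← Matrix.coe_units_inv, Units.inv_mul]
  have hYe1 : Y e * (Y e)⁻¹ = 1 := by
    rw [← hyy, ← Matrix.coe_units_inv, Units.mul_inv]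
  have hYe2 : (Y e)⁻¹ * Y e = 1 := by
    rw [← hyy, ← Matrix.coe_units_inv, Units.inv_mul]
  obtain ⟨g, hg⟩ : ∃ g : (Mat r ℂ)ˣ, (g : Mat r ℂ) = Y b * uU X₀ := by
    have h1 : IsUnit (Y b * uU X₀) := by
      rw [← hyy]
      exact (yy b).isUnit.mul ((Matrix.isUnit_iff_isUnit_det _).2 hU₀u)
    exact ⟨h1.unit, rfl⟩
  have hge : (g : Mat r ℂ) = Y e * (lL X₀)⁻¹ := by
    have h1 : Y e = Y b * uU X₀ * lL X₀ := by
      rw [Matrix.mul_assoc]
      show Y e = Y b * zZ X₀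
      rw [← hX₀, ← Matrix.mul_assoc, hYb1, Matrix.one_mul]
    rw [h1, Matrix.mul_assoc _ (lL X₀), hL₀1, Matrix.mul_one, hg]
  have hginv1 : (g : Mat r ℂ)⁻¹ = (uU X₀)⁻¹ * (Y b)⁻¹ := by
    rw [hg]
    exact Matrix.mul_inv_rev _ _
  have hginv2 : (g : Mat r ℂ)⁻¹ = lL X₀ * (Y e)⁻¹ := by
    rw [hge, Matrix.mul_inv_rev, Matrix.nonsing_inv_nonsing_inv _ hL₀u]
  have hbx : ∀ j, bt (conjH g⁻¹ z) j = (g : Mat r ℂ)⁻¹ * cj J' Y j * (g : Mat r ℂ) := by
    intro j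
    rw [bt_eqn, conjH_apply, inv_inv, unit_conj, ← bt_eqn, hbz]
  have hbl : ∀ l : List (Fin n), (l.map (bt (conjH g⁻¹ z))).prod =
      (g : Mat r ℂ)⁻¹ * (l.map (cj J' Y)).prod * (g : Mat r ℂ) := by
    intro l
    rw [← prod_conj]
    congr 2
    funext j
    exact hbx j
  refine ⟨conjH g⁻¹ z, g, ?_, ?_, ?_, ?_, ?_⟩
  · have h1 : conjH g (conjH g⁻¹ z) = z := by
      ext1 w
      simp only [conjH_apply]
      group
    rw [h1, evalG_eq_evT, hbz]
    exact hYU'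
  · rw [conjH_apply]
    have h1 : z (relatorU 0 n) = 1 := by
      rw [relU_iff, hbz]
      exact hYrel
    rw [h1, mul_one, inv_inv, inv_mul_cancel]
  · intro j
    refine (hJc j).trans ?_
    rw [conjH_apply, hz, isConj_iff]
    exact ⟨g⁻¹ * yy j, by group⟩
  · refine adjoin_conj_top z g⁻¹ ?_
    rw [hgen, hbz]
    exact hYadj
  · refine ⟨?_, ?_, ?_, ?_⟩
    · -- upper triangular
      rw [hbx, cj_apply, hJ', hJ0]
      have h1 : (g : Mat r ℂ)⁻¹ * (Y b * (Ju : Mat r ℂ) * (Y b)⁻¹) * (g : Mat r ℂ) =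
          (uU X₀)⁻¹ * (Ju : Mat r ℂ) * uU X₀ := by
        rw [hginv1, hg]
        calc (uU X₀)⁻¹ * (Y b)⁻¹ * (Y b * (Ju : Mat r ℂ) * (Y b)⁻¹) * (Y b * uU X₀)
            = (uU X₀)⁻¹ * ((Y b)⁻¹ * Y b) * (Ju : Mat r ℂ) * ((Y b)⁻¹ * Y b) * uU X₀ := by
              simp only [Matrix.mul_assoc]
          _ = _ := by rw [hYb2, Matrix.mul_one, Matrix.mul_one]
      rw [h1]
      exact ((upT_uU X₀).inv fun i => by rw [uU_diag]; exact one_ne_zero).mul hJup |>.mul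
        (upT_uU X₀)
    · rw [hbx, cj_apply, hJ', hJlast]
      have h1 : (g : Mat r ℂ)⁻¹ * (Y e * (Jl : Mat r ℂ) * (Y e)⁻¹) * (g : Mat r ℂ) =
          lL X₀ * (Jl : Mat r ℂ) * (lL X₀)⁻¹ := by
        rw [hginv2, hge]
        calc lL X₀ * (Y e)⁻¹ * (Y e * (Jl : Mat r ℂ) * (Y e)⁻¹) * (Y e * (lL X₀)⁻¹)
            = lL X₀ * ((Y e)⁻¹ * Y e) * (Jl : Mat r ℂ) * ((Y e)⁻¹ * Y e) * (lL X₀)⁻¹ := by
              simp only [Matrix.mul_assoc]
          _ = _ := by rw [hYe2, Matrix.mul_one, Matrix.mul_one]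
      rw [h1]
      exact ((loT_lL X₀).mul hJlo).mul ((loT_lL X₀).inv fun i => by rw [lL_diag]; exact hX₀d i)
    · intro l₁ l₂ hl
      obtain ⟨X, hX, hXd⟩ := exists_zZ ((Y b)⁻¹ * (l₁.map (cj J' Y)).prod * Y e)
        (hYgen b e l₁ l₂ [] hl).1
      have h1 : (l₁.map (bt (conjH g⁻¹ z))).prod =
          ((uU X₀)⁻¹ * uU X) * (lL X * (lL X₀)⁻¹) := by
        rw [hbl, hginv1, hge]
        calc (uU X₀)⁻¹ * (Y b)⁻¹ * (l₁.map (cj J' Y)).prod * (Y e * (lL X₀)⁻¹)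
            = (uU X₀)⁻¹ * ((Y b)⁻¹ * (l₁.map (cj J' Y)).prod * Y e) * (lL X₀)⁻¹ := by
              simp only [Matrix.mul_assoc]
          _ = _ := by rw [hX, zZ_eqn]; simp only [Matrix.mul_assoc]
      have hUi : UpT (uU X₀)⁻¹ := (upT_uU X₀).inv fun i => by rw [uU_diag]; exact one_ne_zero
      have hLi : LoT (lL X₀)⁻¹ := (loT_lL X₀).inv fun i => by rw [lL_diag]; exact hX₀d i
      obtain ⟨X', h2, h3, h4⟩ := exists_coord ((uU X₀)⁻¹ * uU X) (lL X * (lL X₀)⁻¹)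
        (hUi.mul (upT_uU X)) (fun i => by
          rw [hUi.mul_diag (upT_uU X), uU_diag, inv_diag (upT_uU X₀)
            (fun i => by rw [uU_diag]; exact one_ne_zero), uU_diag, inv_one, mul_one])
        ((loT_lL X).mul hLi)
      refine ⟨X', ?_, fun i => ?_⟩
      · rw [h1, zZ_eqn, h2, h3]
      · rw [h4, (loT_lL X).mul_diag hLi, lL_diag, LoT.inv_diag (loT_lL X₀)
          (fun i => by rw [lL_diag]; exact hX₀d i), lL_diag]
        exact mul_ne_zero (hXd i) (inv_ne_zero (hX₀d i))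
    · intro t l₁ l₂ hl ht i₀ hi₀
      have hg1 : (g : Mat r ℂ) * (g : Mat r ℂ)⁻¹ = 1 := by
        rw [← Matrix.coe_units_inv, Units.mul_inv]
      have hg2 : (g : Mat r ℂ)⁻¹ * (g : Mat r ℂ) = 1 := by
        rw [← Matrix.coe_units_inv, Units.inv_mul]
      have hYt2 : (Y t)⁻¹ * Y t = 1 := by
        rw [← hyy, ← Matrix.coe_units_inv, Units.inv_mul]
      have hYu : IsUnit (Y t)⁻¹ := by
        rw [← hyy, ← Matrix.coe_units_inv]
        exact Units.isUnit _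
      have hgu : IsUnit (g : Mat r ℂ)⁻¹ := by
        rw [← Matrix.coe_units_inv]
        exact Units.isUnit _
      have hct : HasCyc r (J' t) := by
        refine hasCyc_conj (g := (Y t)⁻¹ * (g : Mat r ℂ)) (M := bt (conjH g⁻¹ z) t) ?_
          (hYu.mul g.isUnit) ht
        rw [hbx, cj_apply]
        calc (Y t)⁻¹ * (g : Mat r ℂ) * ((g : Mat r ℂ)⁻¹ * (Y t * J' t * (Y t)⁻¹) * (g : Mat r ℂ))
            = (Y t)⁻¹ * ((g : Mat r ℂ) * (g : Mat r ℂ)⁻¹) * Y t * J' t * (Y t)⁻¹ * (g : Mat r ℂ) := by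
              simp only [Matrix.mul_assoc]
          _ = J' t * ((Y t)⁻¹ * (g : Mat r ℂ)) := by
              rw [hg1, Matrix.mul_one, hYt2, Matrix.one_mul, Matrix.mul_assoc]
      have h1 := (hYgen b t l₁ [] l₂ hl).2 ((hasCyc_iff _).1 hct) i₀
      obtain ⟨P, hP⟩ : ∃ P, P = (l₁.map (cj J' Y)).prod := ⟨_, rfl⟩
      rw [hbl, ← hP]
      rw [← hP] at h1
      have h2 : ((g : Mat r ℂ)⁻¹ * P * (g : Mat r ℂ))⁻¹ *ᵥ (Pi.single i₀ 1 : Fin r → ℂ) =
          (g : Mat r ℂ)⁻¹ *ᵥ ((P⁻¹ * Y b) *ᵥ Pi.single i₀ 1) := by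
        have hgd : IsUnit (g : Mat r ℂ).det := (Matrix.isUnit_iff_isUnit_det _).1 g.isUnit
        rw [Matrix.mul_inv_rev, Matrix.mul_inv_rev, Matrix.nonsing_inv_nonsing_inv _ hgd]
        conv_lhs => rw [hg]
        rw [← hg, ← Matrix.mulVec_mulVec, ← Matrix.mulVec_mulVec, ← Matrix.mulVec_mulVec]
        rw [show (g : Mat r ℂ) *ᵥ (Pi.single i₀ 1 : Fin r → ℂ) = Y b *ᵥ Pi.single i₀ 1 by
          rw [hg, ← Matrix.mulVec_mulVec, uU_single _ _ hi₀]]
      rw [h2, hbx, ← P002.mul_kry (g : Mat r ℂ)⁻¹ (cj J' Y t), det_mul]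
      · exact mul_ne_zero (isUnit_iff_ne_zero.1 ((Matrix.isUnit_iff_isUnit_det _).1 hgu)) h1
      · rw [Matrix.mul_assoc, hg1, Matrix.mul_one]

/-- Conjugation acts on polynomials. -/
theorem exists_conjP {K : Type*} (g : (Mat r ℂ)ˣ) (f : MvPolynomial (K × Fin r × Fin r) ℂ) :
    ∃ f' : MvPolynomial (K × Fin r × Fin r) ℂ, ∀ y : FreeGroup K →* (Mat r ℂ)ˣ,
      evalG y f' = evalG (conjH g y) f := by
  refine ⟨MvPolynomial.aeval (fun p : K × Fin r × Fin r =>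
    ∑ b, (∑ a, MvPolynomial.C ((g : Mat r ℂ) p.2.1 a) * MvPolynomial.X (p.1, a, b)) *
      MvPolynomial.C (((g⁻¹ : (Mat r ℂ)ˣ) : Mat r ℂ) b p.2.2)) f, fun y => ?_⟩
  rw [← AlgHom.comp_apply, MvPolynomial.comp_aeval]
  unfold evalG
  refine congrArg (fun h : K × Fin r × Fin r → ℂ => MvPolynomial.aeval h f) ?_
  funext p
  rw [conjH_apply, Units.val_mul, Units.val_mul, Matrix.mul_apply, map_sum]
  refine Finset.sum_congr rfl fun b _ => ?_
  rw [map_mul, Matrix.mul_apply, map_sum]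
  congr 1
  · refine Finset.sum_congr rfl fun a _ => ?_
    rw [map_mul, MvPolynomial.aeval_X, MvPolynomial.aeval_C]
    rfl
  · rw [MvPolynomial.aeval_C]
    rfl

/-- Splitting the list of the punctures. -/
theorem finRange_split (m k : ℕ) (hk : k ≤ m + 1) :
    List.finRange (m + 3) = 0 :: ((List.ofFn fun j : Fin k => (⟨j + 1, by omega⟩ : Fin (m + 3))) ++
      ((List.ofFn fun j : Fin (m + 1 - k) => (⟨k + 1 + j, by omega⟩ : Fin (m + 3))) ++
        [Fin.last (m + 2)])) := by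
  apply List.ext_getElem
  · simp
    omega
  · intro i h1 h2
    rw [List.getElem_finRange]
    rcases i with _ | i
    · rfl
    · rw [List.getElem_cons_succ, List.getElem_append]
      split_ifs with h
      · rw [List.getElem_ofFn]
        ext
        rfl
      · rw [List.getElem_append]
        rw [List.length_ofFn] at h
        split_ifs with h'
        · rw [List.getElem_ofFn]
          ext
          simp only [Fin.val_cast, List.length_ofFn]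
          omega
        · simp only [List.length_ofFn] at h'
          rw [List.length_finRange] at h1
          ext
          simp only [Fin.val_cast, List.getElem_singleton, Fin.val_last]
          omega

end Vale.Agent.P002R
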