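import Vale.Agent.P002R.ZOneChart
import Vale.Agent.P002R.ZTot
import Vale.Agent.P002G.VecV

/-!
# P002, genus 1: the chart with all density hypotheses discharged
-/

namespace Vale.Agent.P002R

open Matrix

theorem totV_of_totM {R : Type*} [CommRing R] (φ : R →+* ℂ) {r : ℕ} (J : Mat r ℂ)
    (h : P002G.TotM φ J) : TotV φ (⊤ : Subgroup Rˣ) J := by
  intro D hD F hF X hX1 hX2
  obtain ⟨F', hF'⟩ : ∃ F' : Matrix (Fin r) (Fin r) ℂ → ℂ, ∀ X, F' X =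
    MvPolynomial.eval (fun p => X p.1 p.2) F := ⟨_, fun _ => rfl⟩
  have hP : P002G.IsPoly F' := (isPoly_entries F).congr fun X => (hF' X).symm
  have hint : ∀ X : Mat r R, (∀ i, IsUnit (X i i)) → (∀ i j, j < i → D ∣ X i j) →
      P002G.CjC J (P002G.zZ (X.map φ)) → F' (X.map φ) = 0 := by
    intro X' h1 h2 h3
    rw [hF']
    exact hF X' (fun i => by
      obtain ⟨w, hw⟩ := h1 i
      exact ⟨w, Subgroup.mem_top _, hw⟩) h2 h3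
  rw [← hF']
  exact h D hD F' hP hint X hX1 hX2

/-- Density of the integral points in the chart, genus 1. -/
theorem chart_density1_full {R₀ : Type*} [CommRing R₀] (φ₀ : R₀ →+* ℂ) (E : Subgroup ℂˣ) {n m : ℕ}
    (hc : CoefOK φ₀ E (n + 1))
    (hUP : ∀ (u : R₀ˣ) (D : R₀), D ≠ 0 → ∃ M : ℕ, 0 < M ∧ D ∣ (u : R₀) ^ M - 1)
    (G : Subgroup (Mat (n + 1) ℂ)ˣ)
    (hR : ∀ (A : Mat (n + 1) R₀) (U : (Mat (n + 1) ℂ)ˣ), IsUnit A.det →
      (U : Mat (n + 1) ℂ) = A.map φ₀ → U ∈ G)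
    (C : Fin (m + 1) → (Mat (n + 1) ℂ)ˣ) (hE : ∀ j, EigIn E (C j : Mat (n + 1) ℂ))
    (h0 : ∃ v, P002G.Cyc (C 0 : Mat (n + 1) ℂ) v)
    (x : FU 1 (m + 1) →* (Mat (n + 1) ℂ)ˣ) (hx1 : x (relatorU 1 (m + 1)) = 1)
    (hxC : ∀ j, IsConj (C j) (x (FreeGroup.of (Sum.inr j))))
    (hup : UpT (cseq1 x 0)) (hlo : LoT (cseq1 x (m + 2)))
    (hcell : ∀ k ≤ m + 1, ∃ X : Mat (n + 1) ℂ,
      (List.ofFn fun j : Fin k => cseq1 x ((j : ℕ) + 1)).prod = zZ X ∧ ∀ i, X i i ≠ 0)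
    (hcyc : P002G.Cyc (cseq1 x (m + 1))
      (((List.ofFn fun j : Fin m => cseq1 x ((j : ℕ) + 1)).prod)⁻¹ *ᵥ P002G.e0 n ℂ))
    (f : MvPolynomial (GenU 1 (m + 1) × Fin (n + 1) × Fin (n + 1)) ℂ)
    (hf : ∀ y : FU 1 (m + 1) →* (Mat (n + 1) ℂ)ˣ, y (relatorU 1 (m + 1)) = 1 →
      (∀ j, IsConj (C j) (y (FreeGroup.of (Sum.inr j)))) →
      (∀ k, y (FreeGroup.of k) ∈ G) → evalG y f = 0) :
    evalG x f = 0 := by
  obtain ⟨u, hu⟩ := hc.exists_free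
  exact chart_density1 φ₀ E hc (P002G.fibV_top φ₀ hc.inj u hu (hUP u) n)
    (P002G.vecV_top φ₀ hc.inj u hu (hUP u) (n + 1)) G hR C hE
    (fun j _ => totV_of_totM φ₀ _ (totM_of_eigIn hc (Nat.succ_pos n) hUP (C j) (hE j)))
    h0 x hx1 hxC hup hlo hcell hcyc f hf

/-- Matrices with unit determinant over the small ring are integral up to scalars over the big
ring. -/
theorem mem_GR_of_two_rings {R₀ R : Type*} [CommRing R₀] [CommRing R] (φ₀ : R₀ →+* ℂ)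
    (φ : R →+* ℂ) (ι : R₀ →+* R) (hι : ∀ a, φ (ι a) = φ₀ a) {r : ℕ}
    (hroot : ∀ u : R₀ˣ, ∃ c : Rˣ, ι (u : R₀) = (c : R) ^ r)
    (A : Mat r R₀) (U : (Mat r ℂ)ˣ) (hA : IsUnit A.det) (hU : (U : Mat r ℂ) = A.map φ₀) :
    U ∈ GR r φ := by
  obtain ⟨u, hu⟩ := hA
  obtain ⟨c, hc⟩ := hroot u
  refine mem_GR_of φ U (A.map ι) ?_ c ?_
  · rw [hU]
    ext i j
    simp only [Matrix.map_apply, hι]
  · have h1 := RingHom.map_det ι A
    have h2 : (A.map ι).det = ι A.det := h1.symm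
    rw [h2, ← hu, hc]

end Vale.Agent.P002R
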