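import Vale.Agent.P002R.YFibre1
import Vale.Agent.P002R.ZGlue
import Vale.Agent.P002R.ZOneHyp

/-!
# The fibre of the second handle matrix: vanishing at integral genus zero tuples
-/

namespace Vale.Agent.P002R

open Matrix Polynomial

variable {r : ℕ}

/-- Elements of `ℂ^* SL_r(R)` with determinant in `E` are integral. -/
theorem exists_int_of_GR {R : Type} [CommRing R] {φ : R →+* ℂ} {E : Subgroup ℂˣ}
    (hc : CoefOK φ E r) (hr : 0 < r) (U : (Mat r ℂ)ˣ) (hU : U ∈ GR r φ)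
    (hdet : ∃ e ∈ E, (e : ℂ) = (U : Mat r ℂ).det) : ∃ A : Mat r R, (U : Mat r ℂ) = A.map φ := by
  obtain ⟨c, y, rfl⟩ := hU
  obtain ⟨e, he, he'⟩ := hdet
  have h1 : ((scalarU c * slU φ y : (Mat r ℂ)ˣ) : Mat r ℂ) = (c : ℂ) • (y : Mat r R).map φ := by
    ext i j
    rw [scalarU_mul_coe, slU_coe]
  have h2 : (c : ℂ) ^ r = (e : ℂ) := by
    rw [he', h1, Matrix.det_smul, Fintype.card_fin]
    have h3 : ((y : Mat r R).map φ).det = φ (y : Mat r R).det := (RingHom.map_det φ _).symm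
    rw [h3, y.2, map_one, mul_one]
  have h3 : c ^ r = e := by
    ext1
    rw [Units.val_pow_eq_pow_val, h2]
  obtain ⟨c₀, hc₀⟩ := hc.root r hr le_rfl c (by rw [h3]; exact he)
  refine ⟨c₀ • (y : Mat r R), ?_⟩
  rw [h1, ← hc₀]
  ext i j
  simp only [Matrix.smul_apply, Matrix.map_apply, smul_eq_mul, map_mul]

theorem GR_ring_mono {R₁ R : Type} [CommRing R₁] [CommRing R] {φ₁ : R₁ →+* ℂ} {φ : R →+* ℂ}
    (ι : R₁ →+* R) (hι : ∀ a, φ (ι a) = φ₁ a) (U : (Mat r ℂ)ˣ) (hU : U ∈ GR r φ₁) :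
    U ∈ GR r φ := by
  obtain ⟨c, y, rfl⟩ := hU
  refine ⟨c, SpecialLinearGroup.map ι y, ?_⟩
  congr 1
  apply Units.ext
  ext i j
  rw [slU_coe, slU_coe]
  change φ₁ _ = φ (ι _)
  rw [hι]

theorem det_of_charpoly {M : Mat r ℂ} {ω : Fin r → ℂ} (h : M.charpoly = ∏ i, (X - C (ω i))) :
    M.det = ∏ i, ω i := by
  have h1 : ∏ i, (X - C (ω i)) =
      ((Finset.univ.val.map ω).map fun a => (X - C a : ℂ[X])).prod := by
    rw [Multiset.map_map]
    rfl
  rw [Matrix.det_eq_prod_roots_charpoly_of_splits (IsAlgClosed.splits _), h, h1,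
    Polynomial.roots_multiset_prod_X_sub_C]
  rfl

theorem det_sub_of_charpoly {M : Mat r ℂ} {ω : Fin r → ℂ} (h : M.charpoly = ∏ i, (X - C (ω i)))
    (i : Fin r) : (M - Matrix.scalar (Fin r) (ω i)).det = 0 := by
  have h1 := Matrix.eval_charpoly M (ω i)
  rw [h, eval_prod, Finset.prod_eq_zero (Finset.mem_univ i) (by simp)] at h1
  rw [← neg_sub, Matrix.det_neg, ← h1, mul_zero]

theorem prod_mem_E {E : Subgroup ℂˣ} {ι : Type*} (s : Finset ι) (g : ι → ℂ)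
    (h : ∀ i ∈ s, ∃ e ∈ E, (e : ℂ) = g i) : ∃ e ∈ E, (e : ℂ) = ∏ i ∈ s, g i := by
  classical
  induction s using Finset.induction_on with
  | empty => exact ⟨1, one_mem _, by simp⟩
  | insert i s hi ih =>
    obtain ⟨e, he, h1⟩ := h i (Finset.mem_insert_self _ _)
    obtain ⟨e', he', h2⟩ := ih fun j hj => h j (Finset.mem_insert_of_mem hj)
    exact ⟨e * e', mul_mem he he', by rw [Units.val_mul, h1, h2, Finset.prod_insert hi]⟩

/-- Integral diagonalization. -/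
theorem exists_diag_GR {R₁ R₂ : Type} [CommRing R₁] [CommRing R₂] {φ₁ : R₁ →+* ℂ} {φ₂ : R₂ →+* ℂ}
    (ι : R₁ →+* R₂) (hι : ∀ a, φ₂ (ι a) = φ₁ a) (hφ₂ : Function.Injective φ₂) (hprin : Prin ι)
    {E : Subgroup ℂˣ} (hc : CoefOK φ₁ E r) (hr : 0 < r) (ω : Fin r → R₁)
    (hωE : ∀ i, ∃ e ∈ E, (e : ℂ) = φ₁ (ω i)) (hωd : ∀ i j, i ≠ j → IsUnit (ω i - ω j))
    (U : (Mat r ℂ)ˣ) (hU : U ∈ GR r φ₁)
    (hch : (U : Mat r ℂ).charpoly = ∏ i, (X - C (φ₁ (ω i)))) :
    ∃ P : Mat r R₂, IsUnit P.det ∧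
      (U : Mat r ℂ) * P.map φ₂ = P.map φ₂ * diagonal fun i => φ₁ (ω i) := by
  have : IsDomain R₁ := hc.inj.isDomain φ₁
  have : IsDomain R₂ := hφ₂.isDomain φ₂
  have hιi : Function.Injective ι := by
    intro a b hab
    apply hc.inj
    rw [← hι, ← hι, hab]
  obtain ⟨A, hA⟩ := exists_int_of_GR hc hr U hU (by
    rw [det_of_charpoly hch]
    exact prod_mem_E _ _ fun i _ => hωE i)
  have h1 : ∀ i, (A - Matrix.scalar (Fin r) (ω i)).det = 0 := by
    intro i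
    apply hc.inj
    rw [map_zero, RingHom.map_det, ← det_sub_of_charpoly hch i, hA]
    congr 1
    ext k l
    simp only [RingHom.mapMatrix_apply, Matrix.map_apply, Matrix.sub_apply, map_sub,
      Matrix.scalar_apply, Matrix.diagonal_apply]
    split_ifs
    · rfl
    · rw [map_zero]
  obtain ⟨P, hP, h2⟩ := exists_diag ι hιi hprin A ω hωd h1
  refine ⟨P, hP, ?_⟩
  have h3 := congrArg (fun M : Mat r R₂ => M.map φ₂) h2
  simp only [Matrix.map_mul] at h3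
  have h4 : (A.map ι).map φ₂ = A.map φ₁ := by
    ext i j
    simp only [Matrix.map_apply, hι]
  rw [h4, ← hA, Matrix.diagonal_map (map_zero φ₂)] at h3
  rw [h3]
  congr 2
  funext i
  exact hι _

/-- Units form an infinite set. -/
theorem infinite_units {R₁ R₂ : Type} [CommRing R₁] [CommRing R₂] {φ₁ : R₁ →+* ℂ}
    {φ₂ : R₂ →+* ℂ} (ι : R₁ →+* R₂) (hι : ∀ a, φ₂ (ι a) = φ₁ a) {E : Subgroup ℂˣ}
    (hc : CoefOK φ₁ E r) : {z : ℂ | ∃ w : R₂ˣ, φ₂ (w : R₂) = z}.Infinite := by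
  obtain ⟨u, hu⟩ := hc.unit
  obtain ⟨v, hv⟩ : ∃ v : ℂˣ, v = Units.map (φ₁ : R₁ →* ℂ) u := ⟨_, rfl⟩
  rw [← hv] at hu
  have hinj : Function.Injective fun k : ℕ => ((v ^ k : ℂˣ) : ℂ) := by
    have key : ∀ k l : ℕ, k < l → ((v ^ k : ℂˣ) : ℂ) ≠ ((v ^ l : ℂˣ) : ℂ) := by
      intro k l hkl h
      have h1 : v ^ k = v ^ l := Units.ext h
      apply hu (l - k) (by omega)
      have h2 : v ^ (l - k) = 1 := by
        apply mul_left_cancel (a := v ^ k)
        rw [← pow_add, Nat.add_sub_cancel' hkl.le, mul_one, h1]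
      rw [h2]
      exact one_mem _
    intro k l h
    rcases lt_trichotomy k l with h1 | h1 | h1
    · exact absurd h (key k l h1)
    · exact h1
    · exact absurd h.symm (key l k h1)
  refine (Set.infinite_range_of_injective hinj).mono ?_
  rintro _ ⟨k, rfl⟩
  refine ⟨Units.map (ι : R₁ →* R₂) (u ^ k), ?_⟩
  have h1 : φ₂ (ι ((u ^ k : R₁ˣ) : R₁)) = φ₁ ((u ^ k : R₁ˣ) : R₁) := hι _
  refine h1.trans ?_
  have h2 : v ^ k = Units.map (φ₁ : R₁ →* ℂ) (u ^ k) := by rw [hv, map_pow]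
  change _ = ((v ^ k : ℂˣ) : ℂ)
  rw [h2]
  rfl

theorem diag_single_mul (N : Mat r ℂ) (i : Fin r) :
    diagonal (Pi.single i (1 : ℂ)) * N * diagonal (Pi.single i 1) =
      diagonal (Pi.single i (N i i)) := by
  ext k l
  rw [Matrix.mul_diagonal, Matrix.diagonal_mul, Matrix.diagonal_apply]
  by_cases hk : k = i
  · subst hk
    rw [Pi.single_eq_same, one_mul]
    by_cases hl : l = k
    · subst hl
      rw [Pi.single_eq_same, mul_one, if_pos rfl, Pi.single_eq_same]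
    · rw [Pi.single_eq_of_ne hl, mul_zero, if_neg (Ne.symm hl)]
  · rw [Pi.single_eq_of_ne hk, zero_mul, zero_mul]
    split_ifs
    · rw [Pi.single_eq_of_ne hk]
    · rfl

theorem sum_proj_conj {M M' P P' : Mat r ℂ} {ω : Fin r → ℂ} (hω : Function.Injective ω)
    (hP : IsUnit P.det) (hP' : IsUnit P'.det) (h : M * P = P * diagonal ω)
    (h' : M' * P' = P' * diagonal ω) (B : Mat r ℂ) :
    ∑ i, proj ω i M * B * proj ω i M' = P * diagonal (fun i => (P⁻¹ * B * P') i i) * P'⁻¹ := by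
  have h1 : ∀ i, proj ω i M = P * diagonal (Pi.single i 1) * P⁻¹ := fun i => by
    rw [← proj_mul hω h i, mul_assoc, Matrix.mul_nonsing_inv P hP, mul_one]
  have h2 : ∀ i, proj ω i M' = P' * diagonal (Pi.single i 1) * P'⁻¹ := fun i => by
    rw [← proj_mul hω h' i, mul_assoc, Matrix.mul_nonsing_inv P' hP', mul_one]
  have h3 : ∀ i, proj ω i M * B * proj ω i M' =
      P * diagonal (Pi.single i ((P⁻¹ * B * P') i i)) * P'⁻¹ := by
    intro i
    rw [h1, h2, ← diag_single_mul]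
    simp only [mul_assoc]
  simp only [h3]
  rw [← Finset.sum_mul, ← Finset.mul_sum]
  congr 2
  ext k l
  rw [Matrix.sum_apply]
  simp only [Matrix.diagonal_apply]
  by_cases hkl : k = l
  · subst hkl
    simp only [if_true]
    rw [Finset.sum_eq_single k]
    · rw [Pi.single_eq_same]
    · intro j _ hj
      rw [Pi.single_eq_of_ne (Ne.symm hj)]
    · intro hk
      exact absurd (Finset.mem_univ _) hk
  · simp [hkl]

/-- Vanishing at the tuples over an integral genus zero tuple. -/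
theorem fibre_vanish {m : ℕ} (hr : 0 < r) {R₁ R₂ R₃ : Type} [CommRing R₁] [CommRing R₂]
    [CommRing R₃] {φ₁ : R₁ →+* ℂ} {φ₂ : R₂ →+* ℂ} {φ₃ : R₃ →+* ℂ}
    (ι₁ : R₁ →+* R₂) (h₁ : ∀ a, φ₂ (ι₁ a) = φ₁ a) (ι₂ : R₂ →+* R₃) (h₂ : ∀ a, φ₃ (ι₂ a) = φ₂ a)
    (hφ₂ : Function.Injective φ₂) (hprin : Prin ι₁)
    (hroot : ∀ u : R₂ˣ, ∃ c : R₃ˣ, ι₂ (u : R₂) = (c : R₃) ^ r)
    {E : Subgroup ℂˣ} (hc : CoefOK φ₁ E r) (ω : Fin r → R₁)
    (hωE : ∀ i, ∃ e ∈ E, (e : ℂ) = φ₁ (ω i)) (hωd : ∀ i j, i ≠ j → IsUnit (ω i - ω j))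
    (Cl : Fin (m + 1) → (Mat r ℂ)ˣ) (f : MvPolynomial (GenU 1 (m + 1) × Fin r × Fin r) ℂ)
    (hf : ∀ y ∈ DTor φ₃ Cl, evalG y f = 0) (b l : (Mat r ℂ)ˣ) (c : Fin (m + 1) → (Mat r ℂ)ˣ)
    (hrel : b⁻¹ * (List.ofFn c).prod * l = 1) (hyC : ∀ j, IsConj (Cl j) (c j))
    (hbG : b ∈ GR r φ₁) (hlG : l ∈ GR r φ₁) (hcG : ∀ j, c j ∈ GR r φ₁)
    (hb : (b : Mat r ℂ).charpoly = ∏ i, (X - C (φ₁ (ω i))))
    (hl : (l : Mat r ℂ).charpoly = ∏ i, (X - C (φ₁ (ω i)))) (B : Mat r ℂ) :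
    evMat (hMat (∑ i, proj (fun i => φ₁ (ω i)) i (l : Mat r ℂ) * B *
      proj (fun i => φ₁ (ω i)) i (b : Mat r ℂ)) (b : Mat r ℂ) fun j => (c j : Mat r ℂ)) f = 0 := by
  obtain ⟨P, hP, hbP⟩ := exists_diag_GR ι₁ h₁ hφ₂ hprin hc hr ω hωE hωd b hbG hb
  obtain ⟨Q, hQ, hlQ⟩ := exists_diag_GR ι₁ h₁ hφ₂ hprin hc hr ω hωE hωd l hlG hl
  obtain ⟨ω', hω'⟩ : ∃ ω' : Fin r → ℂ, ω' = fun i => φ₁ (ω i) := ⟨_, rfl⟩
  rw [← hω'] at hbP hlQ ⊢
  have hinj : Function.Injective ω' := by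
    intro i j hij
    by_contra hne
    rw [hω'] at hij
    have : Nontrivial R₁ := ⟨1, 0, fun h => by
      have h3 := congrArg φ₁ h
      rw [map_one, map_zero] at h3
      exact one_ne_zero h3⟩
    have h3 := hωd i j hne
    rw [sub_eq_zero.2 (hc.inj hij)] at h3
    exact not_isUnit_zero h3
  -- complex matrices
  have hdet : ∀ M : Mat r R₂, IsUnit M.det → IsUnit (M.map φ₂).det := by
    intro M hM
    have h3 : (M.map φ₂).det = φ₂ M.det := (RingHom.map_det φ₂ _).symm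
    rw [h3]
    exact hM.map φ₂
  have hP' := hdet P hP
  have hQ' := hdet Q hQ
  obtain ⟨Pi, hPi⟩ : ∃ Pi : Mat r R₂, Pi = P⁻¹ := ⟨_, rfl⟩
  have hPPi : P * Pi = 1 := by rw [hPi]; exact Matrix.mul_nonsing_inv P hP
  have hPiP : Pi * P = 1 := by rw [hPi]; exact Matrix.nonsing_inv_mul P hP
  have hPi' : (P.map φ₂)⁻¹ = Pi.map φ₂ := by
    apply Matrix.inv_eq_right_inv
    rw [← Matrix.map_mul, hPPi, Matrix.map_one φ₂ (map_zero φ₂) (map_one φ₂)]
  obtain ⟨G, hG⟩ := exists_torus_poly2 (b : Mat r ℂ) (Q.map φ₂) (Pi.map φ₂)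
    (fun j => (c j : Mat r ℂ)) f
  have hG0 : G = 0 := by
    refine MvPolynomial.funext_set (fun _ => {z : ℂ | ∃ w : R₂ˣ, φ₂ (w : R₂) = z})
      (fun _ => infinite_units ι₁ h₁ hc) fun t ht => ?_
    rw [map_zero, hG]
    choose w hw using fun i => ht i (Set.mem_univ i)
    -- the handle matrix
    obtain ⟨A, hA⟩ : ∃ A : Mat r R₂, A = Q * diagonal (fun i => (w i : R₂)) * Pi := ⟨_, rfl⟩
    have hAu : IsUnit A.det := by
      rw [hA, Matrix.det_mul, Matrix.det_mul, Matrix.det_diagonal]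
      refine (hQ.mul ?_).mul ?_
      · exact IsUnit.prod_univ_iff.2 fun i => (w i).isUnit
      · exact IsUnit.of_mul_eq_one P.det (by rw [← Matrix.det_mul, hPiP, Matrix.det_one])
    have hAmap : A.map φ₂ = Q.map φ₂ * diagonal t * Pi.map φ₂ := by
      rw [hA, Matrix.map_mul, Matrix.map_mul, Matrix.diagonal_map (map_zero φ₂)]
      congr 3
      funext i
      exact hw i
    obtain ⟨U, hU⟩ : ∃ U : (Mat r ℂ)ˣ, (U : Mat r ℂ) = A.map φ₂ :=
      (Matrix.isUnit_iff_isUnit_det _).2 (hdet A hAu)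
    have hUb : U * b * U⁻¹ = l := by
      rw [mul_inv_eq_iff_eq_mul]
      apply Units.ext
      rw [Units.val_mul, Units.val_mul, hU, hAmap]
      have h3 : Pi.map φ₂ * (b : Mat r ℂ) = diagonal ω' * Pi.map φ₂ := by
        have h4 : Pi.map φ₂ * P.map φ₂ = 1 := by
          rw [← Matrix.map_mul, hPiP, Matrix.map_one φ₂ (map_zero φ₂) (map_one φ₂)]
        have h5 : P.map φ₂ * Pi.map φ₂ = 1 := by
          rw [← Matrix.map_mul, hPPi, Matrix.map_one φ₂ (map_zero φ₂) (map_one φ₂)]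
        calc Pi.map φ₂ * (b : Mat r ℂ)
            = Pi.map φ₂ * ((b : Mat r ℂ) * P.map φ₂) * Pi.map φ₂ := by
              rw [mul_assoc, mul_assoc, h5, mul_one]
          _ = (Pi.map φ₂ * P.map φ₂) * diagonal ω' * Pi.map φ₂ := by
              rw [hbP]; simp only [mul_assoc]
          _ = _ := by rw [h4, one_mul]
      calc Q.map φ₂ * diagonal t * Pi.map φ₂ * (b : Mat r ℂ)
          = Q.map φ₂ * (diagonal t * diagonal ω') * Pi.map φ₂ := by
            rw [mul_assoc, h3]; simp only [mul_assoc]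
        _ = Q.map φ₂ * (diagonal ω' * diagonal t) * Pi.map φ₂ := by
            rw [Matrix.diagonal_mul_diagonal, Matrix.diagonal_mul_diagonal]
            congr 3
            funext i
            exact mul_comm _ _
        _ = (Q.map φ₂ * diagonal ω') * diagonal t * Pi.map φ₂ := by simp only [mul_assoc]
        _ = (l : Mat r ℂ) * (Q.map φ₂ * diagonal t * Pi.map φ₂) := by
            rw [← hlQ]; simp only [mul_assoc]
    obtain ⟨y, hy⟩ : ∃ y : FU 1 (m + 1) →* (Mat r ℂ)ˣ, y = FreeGroup.lift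
      (Sum.elim (fun k => if k.2 then b else U) c) := ⟨_, rfl⟩
    have hy1 : y (FreeGroup.of (Sum.inl (0, false))) = U := by
      rw [hy, FreeGroup.lift_apply_of]; rfl
    have hy2 : y (FreeGroup.of (Sum.inl (0, true))) = b := by
      rw [hy, FreeGroup.lift_apply_of]; rfl
    have hy3 : ∀ j, y (FreeGroup.of (Sum.inr j)) = c j := fun j => by
      rw [hy, FreeGroup.lift_apply_of]; rfl
    have hyD : y ∈ DTor φ₃ Cl := by
      refine ⟨?_, fun j => ?_, ?_⟩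
      · rw [relU1_units, hy1, hy2]
        simp only [hy3]
        rw [hUb]
        have h3 : (List.ofFn c).prod * l = b := by
          rw [mul_assoc, inv_mul_eq_one] at hrel
          exact hrel.symm
        rw [← mul_assoc, h3, mul_inv_cancel]
      · rw [hy3]
        exact hyC j
      · rintro (⟨k, _ | _⟩ | j)
        · obtain rfl : k = 0 := Subsingleton.elim _ _
          rw [hy1]
          exact mem_GR_of_two_rings φ₂ φ₃ ι₂ h₂ hroot A U hAu hU
        · obtain rfl : k = 0 := Subsingleton.elim _ _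
          rw [hy2]
          exact GR_ring_mono (ι₂.comp ι₁) (fun a => (h₂ _).trans (h₁ a)) b hbG
        · rw [hy3]
          exact GR_ring_mono (ι₂.comp ι₁) (fun a => (h₂ _).trans (h₁ a)) _ (hcG j)
    have h3 := hf y hyD
    rw [evalG_eq_evMat] at h3
    rw [← h3]
    congr 1
    funext k
    rcases k with ⟨k, _ | _⟩ | j
    · obtain rfl : k = 0 := Subsingleton.elim _ _
      rw [hy1, hU, hAmap]
      rfl
    · obtain rfl : k = 0 := Subsingleton.elim _ _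
      rw [hy2]
      rfl
    · rw [hy3]
      rfl
  rw [sum_proj_conj hinj hQ' hP' hlQ hbP B, hPi', ← hG, hG0, map_zero]

end Vale.Agent.P002R
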