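import Vale.Agent.P002R.YG1

/-!
# The number fields for genus one
-/

namespace Vale.Agent.P002R

open NumberField

theorem CoefOK.group_mono {R : Type*} [CommRing R] {φ : R →+* ℂ} {E E' : Subgroup ℂˣ} {r : ℕ}
    (hc : CoefOK φ E' r) (h : E ≤ E') (hneg : (-1 : ℂˣ) ∈ E) : CoefOK φ E r := by
  refine ⟨hc.inj, hneg, fun k hk hkr z hz => hc.root k hk hkr z (h hz), ?_⟩
  obtain ⟨u, hu⟩ := hc.unit
  exact ⟨u, fun k hk hmem => hu k hk (h hmem)⟩

/-- Integral elements of `ℂ` in the field are in the ring of integers. -/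
theorem exists_O {L : IntermediateField ℚ ℂ} {z : ℂ} (hz : z ∈ L) (hint : IsIntegral ℤ z) :
    ∃ w : 𝓞 L, phiO (algebraMap L ℂ) w = z := by
  have hint' : IsIntegral ℤ (⟨z, hz⟩ : L) := by
    rw [← isIntegral_algebraMap_iff (A := L) (B := ℂ) (algebraMap L ℂ).injective]
    exact hint
  obtain ⟨w, hw⟩ : ∃ w : 𝓞 L, w = ⟨⟨z, hz⟩, hint'⟩ := ⟨_, rfl⟩
  exact ⟨w, by rw [hw]; rfl⟩

theorem mem_of_phiO {L : IntermediateField ℚ ℂ} (w : 𝓞 L) : phiO (algebraMap L ℂ) w ∈ L :=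
  ((w : L) : L).2

/-- The number field for genus one. -/
theorem exists_tor_field (S : Set ℂˣ) (hS : S.Finite)
    (hint : ∀ z ∈ S, IsIntegral ℤ (z : ℂ) ∧ IsIntegral ℤ ((z⁻¹ : ℂˣ) : ℂ)) (r : ℕ) :
    ∃ L : IntermediateField ℚ ℂ, FiniteDimensional ℚ L ∧
      CoefOK (phiO (algebraMap L ℂ)) (Subgroup.closure (insert (-1) S)) r ∧
      TorOK (phiO (algebraMap L ℂ)) (Subgroup.closure (insert (-1) S)) r := by
  obtain ⟨E, hE⟩ : ∃ E, E = Subgroup.closure (insert (-1) S) := ⟨_, rfl⟩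
  rw [← hE]
  -- the field of the eigenvalues
  obtain ⟨K, hK, hcK⟩ := exists_field_E S hS hint (r + 1)
  rw [← hE] at hcK
  have hEK : ∀ e ∈ E, (e : ℂ) ∈ K := by
    intro e he
    obtain ⟨w, hw⟩ := hcK.root 1 one_pos (by omega) e (by rwa [pow_one])
    rw [← hw]
    exact mem_of_phiO w
  -- the exceptional units
  obtain ⟨ω, hω1, hω2, hω3⟩ := exists_omega r K
  obtain ⟨S', hS'⟩ : ∃ S', S' = S ∪ Set.range ω := ⟨_, rfl⟩
  have hS'f : S'.Finite := hS' ▸ hS.union (Set.finite_range ω)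
  have hint' : ∀ z ∈ S', IsIntegral ℤ (z : ℂ) ∧ IsIntegral ℤ ((z⁻¹ : ℂˣ) : ℂ) := by
    intro z hz
    rw [hS'] at hz
    rcases hz with hz | ⟨i, rfl⟩
    · exact hint z hz
    · rw [Units.val_inv_eq_inv_val]
      exact hω1 i
  obtain ⟨L₁, hL₁, hc₁⟩ := exists_field_E S' hS'f hint' r
  obtain ⟨E', hE'⟩ : ∃ E', E' = Subgroup.closure (insert (-1) S') := ⟨_, rfl⟩
  rw [← hE'] at hc₁
  have hEE : E ≤ E' := by
    rw [hE, hE', hS']
    exact Subgroup.closure_mono (Set.insert_subset_insert Set.subset_union_left)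
  have hneg : (-1 : ℂˣ) ∈ E := by
    rw [hE]
    exact Subgroup.subset_closure (Set.mem_insert _ _)
  have hωE : ∀ i, ω i ∈ E' := by
    intro i
    rw [hE', hS']
    exact Subgroup.subset_closure (Set.mem_insert_of_mem _ (Or.inr ⟨i, rfl⟩))
  obtain ⟨L₂, hL₂, h12, hprin⟩ := exists_prin_field L₁ hL₁
  obtain ⟨L₃, hL₃, h23, hroot⟩ := exists_root_field L₂ hL₂ r.factorial (Nat.factorial_pos r)
  have hc₂ : CoefOK (phiO (algebraMap L₂ ℂ)) E' r :=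
    hc₁.ring_mono (iotaO h12) (phiO_iotaO h12) (phiO_injective _)
  have hc₃ : CoefOK (phiO (algebraMap L₃ ℂ)) E' r :=
    hc₂.ring_mono (iotaO h23) (phiO_iotaO h23) (phiO_injective _)
  refine ⟨L₃, hL₃, hc₃.group_mono hEE hneg, ?_⟩
  have hω₁ : ∀ i, ∃ w : 𝓞 L₁, phiO (algebraMap L₁ ℂ) w = (ω i : ℂ) := by
    intro i
    obtain ⟨w, hw⟩ := hc₁.root 1 one_pos (Nat.succ_le_of_lt (lt_of_le_of_lt (Nat.zero_le _) i.2))
      (ω i) (by rw [pow_one]; exact hωE i)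
    exact ⟨w, hw⟩
  choose w hw using hω₁
  refine ⟨𝓞 L₁, 𝓞 L₂, inferInstance, inferInstance, phiO (algebraMap L₁ ℂ),
    phiO (algebraMap L₂ ℂ), iotaO h12, iotaO h23, E', w, phiO_iotaO h12, phiO_iotaO h23,
    phiO_injective _, hprin, fun r' hr' hr'0 u => ?_, hEE, hc₁, Product.hUP_field L₁ hL₁,
    fun i => ⟨ω i, hωE i, (hw i).symm⟩, fun i j hij => ?_, fun I J h => ?_⟩
  · refine exists_unit_root h23 r (fun u => ?_) r' hr' hr'0 u
    obtain ⟨z, hz⟩ := IsAlgClosed.exists_pow_nat_eq (phiO (algebraMap L₂ ℂ) (u : 𝓞 L₂))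
      (Nat.factorial_pos r)
    exact ⟨z, hroot u z hz, hz⟩
  · obtain ⟨hne, hinv⟩ := hω2 i j hij
    have h1 : (ω i : ℂ) - ω j ∈ L₁ := by
      rw [← hw, ← hw]
      exact L₁.sub_mem (mem_of_phiO _) (mem_of_phiO _)
    obtain ⟨v, hv⟩ := exists_O (L₁.inv_mem h1) hinv
    refine IsUnit.of_mul_eq_one v ?_
    apply phiO_injective (algebraMap L₁ ℂ)
    rw [map_mul, map_sub, hw, hw, hv, map_one]
    exact mul_inv_cancel₀ (sub_ne_zero.2 hne)
  · obtain ⟨ε, hε, h1⟩ := h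
    refine hω3 I J (ε : ℂ) (hEK ε hε) ?_
    simpa only [hw] using h1

end Vale.Agent.P002R
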