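import Mathlib

/-!
# Roots of unity whose differences are units
-/

namespace Vale.Agent.P002R

open Polynomial

/-- For a primitive root of unity `μ` whose order is a product of two different primes, `1 - μ` is
a unit. -/
theorem isIntegral_inv_one_sub {P Q : ℕ} (hP : P.Prime) (hQ : Q.Prime) (hPQ : P ≠ Q) (μ : ℂ)
    (hμ : IsPrimitiveRoot μ (P * Q)) : IsIntegral ℤ (1 - μ)⁻¹ := by
  have h0 : 0 < P * Q := Nat.mul_pos hP.pos hQ.pos
  have h1 : eval 1 (cyclotomic (P * Q) ℂ) = 1 := by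
    refine eval_one_cyclotomic_not_prime_pow fun {p} hp k hk => ?_
    have h2 : P ∣ p ^ k := hk ▸ Dvd.intro _ rfl
    have h3 : Q ∣ p ^ k := hk ▸ Dvd.intro_left _ rfl
    have h4 := (Nat.prime_dvd_prime_iff_eq hP hp).1 (hP.dvd_of_dvd_pow h2)
    have h5 := (Nat.prime_dvd_prime_iff_eq hQ hp).1 (hQ.dvd_of_dvd_pow h3)
    exact hPQ (h4.trans h5.symm)
  rw [cyclotomic_eq_prod_X_sub_primitiveRoots hμ, eval_prod] at h1
  have hmem : μ ∈ primitiveRoots (P * Q) ℂ := (mem_primitiveRoots h0).2 hμ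
  rw [← Finset.mul_prod_erase _ _ hmem, eval_sub, eval_X, eval_C] at h1
  rw [inv_eq_of_mul_eq_one_right h1]
  refine IsIntegral.prod _ fun ν hν => ?_
  rw [eval_sub, eval_X, eval_C]
  refine isIntegral_one.sub ?_
  exact ((mem_primitiveRoots h0).1 (Finset.mem_of_mem_erase hν)).isIntegral h0

theorem degree_le_of_mem {n : ℕ} (hn : 0 < n) (K : IntermediateField ℚ ℂ) [FiniteDimensional ℚ K]
    (μ : ℂ) (hμ : IsPrimitiveRoot μ n) (h : μ ∈ K) : n.totient ≤ Module.finrank ℚ K := by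
  have h1 := minpoly.natDegree_le (A := ℚ) (⟨μ, h⟩ : K)
  have h2 : minpoly ℚ (⟨μ, h⟩ : K) = minpoly ℚ μ := by
    rw [← minpoly.algebraMap_eq (algebraMap K ℂ).injective]
    rfl
  rwa [h2, ← cyclotomic_eq_minpoly_rat hμ hn, natDegree_cyclotomic] at h1

theorem sum_two_pow_lt {r : ℕ} (I : Finset (Fin r)) : ∑ i ∈ I, 2 ^ (i : ℕ) < 2 ^ r := by
  have h := Nat.geomSum_lt (m := 2) le_rfl (s := I.map Fin.valEmbedding) (n := r) (by
    intro k hk
    rw [Finset.mem_map] at hk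
    obtain ⟨i, _, rfl⟩ := hk
    exact i.2)
  rwa [Finset.sum_map] at h

theorem sum_two_pow_inj {r : ℕ} (I J : Finset (Fin r))
    (h : ∑ i ∈ I, 2 ^ (i : ℕ) = ∑ i ∈ J, 2 ^ (i : ℕ)) : I = J := by
  apply Finset.map_injective Fin.valEmbedding
  apply Finset.geomSum_injective (n := 2) le_rfl
  change ∑ i ∈ I.map Fin.valEmbedding, 2 ^ i = ∑ i ∈ J.map Fin.valEmbedding, 2 ^ i
  rw [Finset.sum_map, Finset.sum_map]
  exact h

/-- Exceptional units without multiplicative relations over a number field. -/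
theorem exists_omega (r : ℕ) (K : IntermediateField ℚ ℂ) [FiniteDimensional ℚ K] :
    ∃ ω : Fin r → ℂˣ, (∀ i, IsIntegral ℤ (ω i : ℂ) ∧ IsIntegral ℤ (ω i : ℂ)⁻¹) ∧
      (∀ i j, i ≠ j → (ω i : ℂ) ≠ ω j ∧ IsIntegral ℤ ((ω i : ℂ) - ω j)⁻¹) ∧
      ∀ (I J : Finset (Fin r)) (ε : ℂ), ε ∈ K → ∏ i ∈ I, (ω i : ℂ) = ε * ∏ j ∈ J, (ω j : ℂ) →
        I = J := by
  obtain ⟨N, hN⟩ : ∃ N, N = max (2 ^ r) (Module.finrank ℚ K + 2) := ⟨_, rfl⟩
  have hN1 : 2 ^ r ≤ N := hN ▸ le_max_left _ _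
  have hN2 : Module.finrank ℚ K + 2 ≤ N := hN ▸ le_max_right _ _
  obtain ⟨P, hP1, hP⟩ := Nat.exists_infinite_primes (N + 1)
  obtain ⟨Q, hQ1, hQ⟩ := Nat.exists_infinite_primes (P + 1)
  have hPQ : P ≠ Q := by omega
  have h0 : 0 < P * Q := Nat.mul_pos hP.pos hQ.pos
  obtain ⟨ζ, hζ⟩ : ∃ ζ : ℂ, IsPrimitiveRoot ζ (P * Q) := ⟨_, Complex.isPrimitiveRoot_exp _ h0.ne'⟩
  have hζ0 : ζ ≠ 0 := hζ.ne_zero h0.ne'
  -- small powers are primitive
  have hprim : ∀ d : ℕ, 0 < d → d < 2 ^ r → IsPrimitiveRoot (ζ ^ d) (P * Q) := by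
    intro d hd hd'
    refine hζ.pow_of_coprime d ?_
    refine Nat.Coprime.mul_right ?_ ?_
    · exact Nat.Coprime.symm ((Nat.Prime.coprime_iff_not_dvd hP).2 fun h =>
        absurd (Nat.le_of_dvd hd h) (by omega))
    · exact Nat.Coprime.symm ((Nat.Prime.coprime_iff_not_dvd hQ).2 fun h =>
        absurd (Nat.le_of_dvd hd h) (by omega))
  have hnotmem : ∀ d : ℕ, 0 < d → d < 2 ^ r → ζ ^ d ∉ K := by
    intro d hd hd' hmem
    have h1 := degree_le_of_mem h0 K _ (hprim d hd hd') hmem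
    rw [Nat.totient_mul ((Nat.coprime_primes hP hQ).2 hPQ), Nat.totient_prime hP,
      Nat.totient_prime hQ] at h1
    have h2 : P - 1 ≤ (P - 1) * (Q - 1) := Nat.le_mul_of_pos_right _ (by omega)
    omega
  refine ⟨fun i => Units.mk0 (ζ ^ 2 ^ (i : ℕ)) (pow_ne_zero _ hζ0), fun i => ?_, fun i j hij => ?_,
    fun I J ε hε h => ?_⟩
  · have h1 : IsIntegral ℤ ζ := hζ.isIntegral h0
    have h2 : IsIntegral ℤ ζ⁻¹ := hζ.inv.isIntegral h0
    rw [Units.val_mk0, ← inv_pow]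
    exact ⟨h1.pow _, h2.pow _⟩
  · rw [Units.val_mk0, Units.val_mk0]
    have key : ∀ a b : ℕ, a < b → b < 2 ^ r → ζ ^ a ≠ ζ ^ b ∧ IsIntegral ℤ (ζ ^ a - ζ ^ b)⁻¹ := by
      intro a b hab hb
      have h1 : IsPrimitiveRoot (ζ ^ (b - a)) (P * Q) := hprim _ (by omega) (by omega)
      have h2 : ζ ^ a - ζ ^ b = ζ ^ a * (1 - ζ ^ (b - a)) := by
        rw [mul_sub, mul_one, ← pow_add, Nat.add_sub_cancel' hab.le]
      have h3 : (1 : ℂ) - ζ ^ (b - a) ≠ 0 := by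
        rw [sub_ne_zero]
        exact (h1.ne_one (by
          have := hP.two_le
          have := hQ.two_le
          nlinarith)).symm
      refine ⟨fun h => ?_, ?_⟩
      · rw [← sub_eq_zero, h2] at h
        exact (mul_ne_zero (pow_ne_zero _ hζ0) h3) h
      · rw [h2, mul_inv, ← inv_pow]
        exact ((hζ.inv.isIntegral h0).pow _).mul (isIntegral_inv_one_sub hP hQ hPQ _ h1)
    have hlt : ∀ i : Fin r, 2 ^ (i : ℕ) < 2 ^ r := fun i => Nat.pow_lt_pow_right (by norm_num) i.2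
    rcases lt_or_gt_of_ne hij with h | h
    · exact key _ _ (Nat.pow_lt_pow_right (by norm_num) h) (hlt j)
    · obtain ⟨h1, h2⟩ := key _ _ (Nat.pow_lt_pow_right (a := 2) (by norm_num) h) (hlt i)
      refine ⟨h1.symm, ?_⟩
      rw [← neg_sub, inv_neg]
      exact h2.neg
  · simp only [Units.val_mk0, Finset.prod_pow_eq_pow_sum] at h
    apply sum_two_pow_inj
    have hI := sum_two_pow_lt I
    have hJ := sum_two_pow_lt J
    by_contra hne
    have hε0 : ε ≠ 0 := by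
      rintro rfl
      rw [zero_mul] at h
      exact pow_ne_zero _ hζ0 h
    rcases lt_or_gt_of_ne hne with h1 | h1
    · refine hnotmem (∑ i ∈ J, 2 ^ (i : ℕ) - ∑ i ∈ I, 2 ^ (i : ℕ)) (by omega) (by omega) ?_
      have h2 : ζ ^ (∑ i ∈ J, 2 ^ (i : ℕ) - ∑ i ∈ I, 2 ^ (i : ℕ)) = ε⁻¹ := by
        apply eq_inv_of_mul_eq_one_left
        apply mul_left_cancel₀ (pow_ne_zero (∑ i ∈ I, 2 ^ (i : ℕ)) hζ0)
        rw [← mul_assoc, ← pow_add, Nat.add_sub_cancel' h1.le, mul_one, h]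
        ring
      rw [h2]
      exact K.inv_mem hε
    · refine hnotmem (∑ i ∈ I, 2 ^ (i : ℕ) - ∑ i ∈ J, 2 ^ (i : ℕ)) (by omega) (by omega) ?_
      have h2 : ζ ^ (∑ i ∈ I, 2 ^ (i : ℕ) - ∑ i ∈ J, 2 ^ (i : ℕ)) = ε := by
        apply mul_left_cancel₀ (pow_ne_zero (∑ i ∈ J, 2 ^ (i : ℕ)) hζ0)
        rw [← pow_add, Nat.add_sub_cancel' h1.le, h]
        ring
      rw [h2]
      exact hε

end Vale.Agent.P002R
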