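import Vale.Agent.P002R.Z1Chart
import Vale.Agent.P002R.RTop

/-!
# P002, genus 1: twist flows along the first handle generator
-/

namespace Vale.Agent.P002R

open Matrix

variable {n r : ℕ}

/-- Exponential sums with distinct bases. -/
theorem expsum_eq_zero {M : Type*} (s : Finset M) (c x : M → ℂ)
    (hx : ∀ m ∈ s, ∀ m' ∈ s, x m = x m' → m = m')
    (h : ∀ k : ℕ, ∑ m ∈ s, c m * x m ^ k = 0) : ∀ m ∈ s, c m = 0 := by
  classical
  intro m hm
  have hp : ∀ p : Polynomial ℂ, ∑ m ∈ s, c m * p.eval (x m) = 0 := by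
    intro p
    induction p using Polynomial.induction_on' with
    | add p q hp hq =>
      simp only [Polynomial.eval_add, mul_add, Finset.sum_add_distrib, hp, hq, add_zero]
    | monomial k a =>
      have h1 : ∑ m ∈ s, c m * (Polynomial.monomial k a).eval (x m) =
          a * ∑ m ∈ s, c m * x m ^ k := by
        rw [Finset.mul_sum]
        refine Finset.sum_congr rfl fun m _ => ?_
        rw [Polynomial.eval_monomial]
        ring
      rw [h1, h, mul_zero]
  have h1 := hp (∏ m' ∈ s.erase m, (Polynomial.X - Polynomial.C (x m')))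
  rw [Finset.sum_eq_single m] at h1
  · rcases mul_eq_zero.1 h1 with h2 | h2
    · exact h2
    · exfalso
      rw [Polynomial.eval_prod, Finset.prod_eq_zero_iff] at h2
      obtain ⟨m', hm', h3⟩ := h2
      rw [Finset.mem_erase] at hm'
      rw [Polynomial.eval_sub, Polynomial.eval_X, Polynomial.eval_C, sub_eq_zero] at h3
      exact hm'.1 (hx m hm m' hm'.2 h3).symm
  · intro m' hm' hne
    rw [Polynomial.eval_prod, Finset.prod_eq_zero (Finset.mem_erase.2 ⟨hne, hm'⟩) (by simp),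
      mul_zero]
  · intro h2
    exact absurd hm h2

/-- A polynomial that vanishes on the powers of a multiplicatively independent point. -/
theorem mv_eq_zero (G : MvPolynomial (Fin r) ℂ) (ν : Fin r → ℂ)
    (hind : ∀ m m' : Fin r → ℕ, ∏ i, ν i ^ m i = ∏ i, ν i ^ m' i → m = m')
    (h : ∀ k : ℕ, MvPolynomial.eval (fun i => ν i ^ k) G = 0) : G = 0 := by
  have h1 : ∀ m ∈ G.support, G.coeff m = 0 := by
    apply expsum_eq_zero G.support (fun m => G.coeff m) (fun m => ∏ i, ν i ^ m i)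
    · intro m _ m' _ h
      exact DFunLike.ext' (hind m m' h)
    · intro k
      rw [← h k, MvPolynomial.eval_eq']
      refine Finset.sum_congr rfl fun m _ => ?_
      congr 1
      rw [← Finset.prod_pow]
      refine Finset.prod_congr rfl fun i _ => ?_
      rw [← pow_mul, ← pow_mul, mul_comm]
  ext m
  by_cases hm : m ∈ G.support
  · rw [h1 m hm, MvPolynomial.coeff_zero]
  · rw [MvPolynomial.notMem_support_iff.1 hm, MvPolynomial.coeff_zero]

/-- the first handle generator -/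
abbrev kA : GenU 1 n := Sum.inl (0, false)

/-- the second handle generator -/
abbrev kB : GenU 1 n := Sum.inl (0, true)

theorem kA_ne_kB : (kA : GenU 1 n) ≠ kB := by
  intro h
  simp at h

/-- Substitution of `b a` for `b`. -/
noncomputable def twF (f : MvPolynomial (GenU 1 n × Fin r × Fin r) ℂ) :
    MvPolynomial (GenU 1 n × Fin r × Fin r) ℂ :=
  MvPolynomial.bind₁ (fun p => if p.1 = kB then
    ∑ l, MvPolynomial.X (kB, p.2.1, l) * MvPolynomial.X (kA, l, p.2.2)
    else MvPolynomial.X p) f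

theorem evalG_twF (y : FU 1 n →* (Mat r ℂ)ˣ)
    (f : MvPolynomial (GenU 1 n × Fin r × Fin r) ℂ) :
    evalG y (twF f) = evalG (flow y kB (y (FreeGroup.of kA))) f := by
  rw [evalG_eqn, evalG_eqn, twF, MvPolynomial.aeval_bind₁]
  congr 2
  funext p
  obtain ⟨k, i, j⟩ := p
  by_cases hk : k = kB
  · subst hk
    rw [if_pos rfl, flow_of, if_pos rfl, map_sum, Units.val_mul, Matrix.mul_apply]
    refine Finset.sum_congr rfl fun l _ => ?_
    rw [map_mul, MvPolynomial.aeval_X, MvPolynomial.aeval_X]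
  · rw [if_neg hk, flow_of, if_neg hk, MvPolynomial.aeval_X]

/-- The zero set of the vanishing ideal of a twist stable set is stable under the powers of the
twist. -/
theorem twist_pow_closure {D : Set (FU 1 n →* (Mat r ℂ)ˣ)}
    (hD : ∀ y ∈ D, flow y kB (y (FreeGroup.of kA)) ∈ D) {z : FU 1 n →* (Mat r ℂ)ˣ}
    (hz : ∀ f : MvPolynomial (GenU 1 n × Fin r × Fin r) ℂ, (∀ y ∈ D, evalG y f = 0) →
      evalG z f = 0) (k : ℕ) :
    ∀ f : MvPolynomial (GenU 1 n × Fin r × Fin r) ℂ, (∀ y ∈ D, evalG y f = 0) →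
      evalG (flow z kB (z (FreeGroup.of kA) ^ k)) f = 0 := by
  induction k with
  | zero =>
    intro f hf
    rw [pow_zero]
    have h1 : flow z kB 1 = z := by
      ext1 l
      rw [flow_of, mul_one]
      split_ifs with h
      · rw [h]
      · rfl
    rw [h1]
    exact hz f hf
  | succ k ih =>
    intro f hf
    have h1 := ih (twF f) (fun y hy => by
      rw [evalG_twF]
      exact hf _ (hD y hy))
    rw [evalG_twF] at h1
    have h2 : flow (flow z kB (z (FreeGroup.of kA) ^ k)) kB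
        (flow z kB (z (FreeGroup.of kA) ^ k) (FreeGroup.of kA)) =
        flow z kB (z (FreeGroup.of kA) ^ (k + 1)) := by
      ext1 l
      rw [flow_of z kB (z (FreeGroup.of kA) ^ (k + 1)), flow_of (flow _ _ _), flow_of, flow_of,
        flow_of, if_neg kA_ne_kB, if_pos rfl]
      split_ifs with h
      · rw [pow_succ, mul_assoc]
      · rfl
    rwa [h2] at h1

/-- FLOW STEP: the zero set of the vanishing ideal of a twist stable set is stable under
`b ↦ b P`, if `P` is diagonal in the eigenbasis of `a` and the eigenvalues of `a` are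
multiplicatively independent. -/
theorem twist_flow {D : Set (FU 1 n →* (Mat r ℂ)ˣ)}
    (hD : ∀ y ∈ D, flow y kB (y (FreeGroup.of kA)) ∈ D) {z : FU 1 n →* (Mat r ℂ)ˣ}
    (hz : ∀ f : MvPolynomial (GenU 1 n × Fin r × Fin r) ℂ, (∀ y ∈ D, evalG y f = 0) →
      evalG z f = 0)
    {A : Mat r ℂ} {ν : Fin r → ℂ} (hA : IsUnit A)
    (heig : mt z (Sum.inr false) * A = A * diagonal ν)
    (hind : ∀ m m' : Fin r → ℕ, ∏ i, ν i ^ m i = ∏ i, ν i ^ m' i → m = m')
    (P : (Mat r ℂ)ˣ) (w : Fin r → ℂ) (hP : (P : Mat r ℂ) * A = A * diagonal w) :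
    ∀ f : MvPolynomial (GenU 1 n × Fin r × Fin r) ℂ, (∀ y ∈ D, evalG y f = 0) →
      evalG (flow z kB P) f = 0 := by
  intro f hf
  have hAd : IsUnit A.det := (Matrix.isUnit_iff_isUnit_det _).1 hA
  obtain ⟨b, hb⟩ : ∃ b : Mat r ℂ, b = (z (FreeGroup.of kB) : Mat r ℂ) := ⟨_, rfl⟩
  -- the family
  obtain ⟨G, hG⟩ : ∃ G : MvPolynomial (Fin r) ℂ, G = MvPolynomial.bind₁
      (fun p : GenU 1 n × Fin r × Fin r => if p.1 = kB then
        ∑ l, MvPolynomial.C ((b * A) p.2.1 l) * MvPolynomial.X l * MvPolynomial.C (A⁻¹ l p.2.2)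
        else MvPolynomial.C ((z (FreeGroup.of p.1) : Mat r ℂ) p.2.1 p.2.2)) f := ⟨_, rfl⟩
  have key : ∀ (Q : (Mat r ℂ)ˣ) (v : Fin r → ℂ), (Q : Mat r ℂ) * A = A * diagonal v →
      evalG (flow z kB Q) f = MvPolynomial.eval v G := by
    intro Q v hQ
    have hQ' : (Q : Mat r ℂ) = A * diagonal v * A⁻¹ := by
      rw [← hQ, Matrix.mul_assoc, Matrix.mul_nonsing_inv _ hAd, Matrix.mul_one]
    rw [evalG_eqn, hG, ← MvPolynomial.coe_aeval_eq_eval, RingHom.coe_coe,
      MvPolynomial.aeval_bind₁]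
    congr 2
    funext p
    obtain ⟨k, i, j⟩ := p
    by_cases hk : k = kB
    · subst hk
      rw [if_pos rfl, flow_of, if_pos rfl, map_sum, Units.val_mul, hQ', ← hb,
        ← Matrix.mul_assoc, ← Matrix.mul_assoc, Matrix.mul_apply]
      refine Finset.sum_congr rfl fun l _ => ?_
      rw [map_mul, map_mul, MvPolynomial.aeval_X, MvPolynomial.aeval_C, MvPolynomial.aeval_C,
        Matrix.mul_diagonal]
      rfl
    · rw [if_neg hk, flow_of, if_neg hk, MvPolynomial.aeval_C]
      rfl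
  have hG0 : G = 0 := by
    apply mv_eq_zero G ν hind
    intro k
    rw [← key (z (FreeGroup.of kA) ^ k) (fun i => ν i ^ k)]
    · exact twist_pow_closure hD hz k f hf
    · rw [Units.val_pow_eq_pow_val]
      have h1 : (z (FreeGroup.of kA) : Mat r ℂ) * A = A * diagonal ν := heig
      have h2 : diagonal (fun i => ν i ^ k) = (diagonal ν) ^ k := by
        rw [Matrix.diagonal_pow]
        rfl
      rw [h2]
      clear h2
      induction k with
      | zero => rw [pow_zero, pow_zero, Matrix.one_mul, Matrix.mul_one]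
      | succ k ih =>
        rw [pow_succ', pow_succ', Matrix.mul_assoc, ih, ← Matrix.mul_assoc, h1,
          Matrix.mul_assoc]
  rw [key P w hP, hG0, map_zero]

/-! ### Stability of the integral points -/

theorem flow_kB_relator (y : FU 1 n →* (Mat r ℂ)ˣ) (P : (Mat r ℂ)ˣ)
    (hP : Commute (y (FreeGroup.of kA)) P) :
    flow y kB P (relatorU 1 n) = y (relatorU 1 n) := by
  rw [relatorU_eqn, map_mul, map_mul, map_list_prod, map_list_prod, map_list_prod, map_list_prod]
  congr 1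
  · congr 1
    rw [List.map_ofFn, List.map_ofFn]
    congr 1
    funext j
    simp only [Function.comp_apply]
    rw [flow_of, if_neg (by simp)]
  · simp only [List.ofFn_succ (n := 0), List.ofFn_zero, List.map_cons, List.map_nil,
      List.prod_nil, List.prod_cons, mul_one, map_mul, map_inv]
    rw [flow_of, flow_of, if_neg (by simp), if_pos (by simp)]
    have h1 : y (FreeGroup.of (Sum.inl (0, false))) * P =
        P * y (FreeGroup.of (Sum.inl (0, false))) := hP
    have h2 : P * (y (FreeGroup.of (Sum.inl (0, false))))⁻¹ =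
        (y (FreeGroup.of (Sum.inl (0, false))))⁻¹ * P := by
      rw [mul_inv_eq_iff_eq_mul, mul_assoc, ← h1, inv_mul_cancel_left]
    rw [_root_.mul_inv_rev]
    simp only [mul_assoc]
    rw [← mul_assoc P, h2, mul_assoc, ← mul_assoc P P⁻¹, mul_inv_cancel, one_mul]

theorem flow_kB_inr (y : FU 1 n →* (Mat r ℂ)ˣ) (P : (Mat r ℂ)ˣ) (j : Fin n) :
    flow y kB P (FreeGroup.of (Sum.inr j)) = y (FreeGroup.of (Sum.inr j)) := by
  rw [flow_of, if_neg (by simp)]

theorem flow_kB_kA (y : FU 1 n →* (Mat r ℂ)ˣ) (P : (Mat r ℂ)ˣ) :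
    flow y kB P (FreeGroup.of kA) = y (FreeGroup.of kA) := by
  rw [flow_of, if_neg kA_ne_kB]

theorem flow_kB_kB (y : FU 1 n →* (Mat r ℂ)ˣ) (P : (Mat r ℂ)ˣ) :
    flow y kB P (FreeGroup.of kB) = y (FreeGroup.of kB) * P := by
  rw [flow_of, if_pos rfl]

/-- The twist by `a` does not change the algebra. -/
theorem adjoin_twist (y : FU 1 n →* (Mat r ℂ)ˣ)
    (h : Algebra.adjoin ℂ (Set.range fun w => (y w : Mat r ℂ)) = ⊤) :
    Algebra.adjoin ℂ (Set.range fun w =>
      (flow y kB (y (FreeGroup.of kA)) w : Mat r ℂ)) = ⊤ := by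
  obtain ⟨y', hy'⟩ : ∃ y', y' = flow y kB (y (FreeGroup.of kA)) := ⟨_, rfl⟩
  rw [← hy']
  have hA : y' (FreeGroup.of kA) = y (FreeGroup.of kA) := by rw [hy', flow_kB_kA]
  have hB : y' (FreeGroup.of kB) = y (FreeGroup.of kB) * y (FreeGroup.of kA) := by
    rw [hy', flow_kB_kB]
  rw [eq_top_iff, ← h, Algebra.adjoin_le_iff]
  have h1 : y = y'.comp (FreeGroup.lift fun k : GenU 1 n => if k = kB then
      FreeGroup.of kB * (FreeGroup.of kA)⁻¹ else FreeGroup.of k) := by
    ext1 k
    rw [MonoidHom.comp_apply, FreeGroup.lift_apply_of]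
    split_ifs with hk
    · subst hk
      rw [map_mul, map_inv, hA, hB, mul_inv_cancel_right]
    · rw [hy', flow_of, if_neg hk]
  rintro _ ⟨w, rfl⟩
  beta_reduce
  rw [h1]
  exact Algebra.subset_adjoin ⟨_, rfl⟩

/-- integral points: relation, classes, values in a subgroup -/
theorem twist_mem_general (C : Fin n → (Mat r ℂ)ˣ) (G : Subgroup (Mat r ℂ)ˣ)
    (y : FU 1 n →* (Mat r ℂ)ˣ) (h1 : y (relatorU 1 n) = 1)
    (h2 : ∀ j, IsConj (C j) (y (FreeGroup.of (Sum.inr j))))
    (h3 : ∀ k, y (FreeGroup.of k) ∈ G) :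
    flow y kB (y (FreeGroup.of kA)) (relatorU 1 n) = 1 ∧
      (∀ j, IsConj (C j) (flow y kB (y (FreeGroup.of kA)) (FreeGroup.of (Sum.inr j)))) ∧
      ∀ k, flow y kB (y (FreeGroup.of kA)) (FreeGroup.of k) ∈ G := by
  refine ⟨?_, fun j => ?_, fun k => ?_⟩
  · rw [flow_kB_relator _ _ (Commute.refl _), h1]
  · rw [flow_kB_inr]
    exact h2 j
  · rw [flow_of]
    split_ifs with hk
    · exact G.mul_mem (h3 _) (h3 _)
    · exact h3 _

theorem DGT_twist {R : Type*} [CommRing R] (φ : R →+* ℂ) (C : Fin n → (Mat r ℂ)ˣ)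
    (y : FU 1 n →* (Mat r ℂ)ˣ) (hy : y ∈ DGT {relatorU 1 n} φ C) :
    flow y kB (y (FreeGroup.of kA)) ∈ DGT {relatorU 1 n} φ C := by
  obtain ⟨⟨⟨h1, h2, h3⟩, h4⟩, h5⟩ := hy
  obtain ⟨a1, a2, a3⟩ := twist_mem_general C (GR r φ) y (h1 _ rfl) h2 h4
  refine ⟨⟨⟨fun w hw => ?_, a2, SS_of_adjoin _ (adjoin_twist y h5)⟩, a3⟩, adjoin_twist y h5⟩
  rw [Set.mem_singleton_iff.1 hw]
  exact a1

end Vale.Agent.P002R
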