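import Vale.Agent.P002R.Z2Main
import Vale.Agent.P002R.Z2Twist
import Vale.Agent.P002R.RTensor
import Vale.Agent.P002G.InvEig

/-!
# P002, genus 1, arbitrary classes: reduction to prescribed eigenvalues of the second handle matrix
-/

namespace Vale.Agent.P002R

open Matrix

variable {n r : ℕ}

/-- The characteristic polynomial of the inverse. -/
theorem charpoly_inv_prod (M M' : Mat r ℂ) (hM : M' * M = 1) (c : Fin r → ℂ)
    (hc : ∀ i, c i ≠ 0)
    (h : M.charpoly = ∏ i, (Polynomial.X - Polynomial.C (c i))) :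
    M'.charpoly = ∏ i, (Polynomial.X - Polynomial.C (c i)⁻¹) := by
  have hdet : M.det = ∏ i, c i := by
    have h1 : M.charpoly.eval 0 = ∏ i, (0 - c i) := by
      rw [h, Polynomial.eval_prod]
      refine Finset.prod_congr rfl fun i _ => ?_
      rw [Polynomial.eval_sub, Polynomial.eval_X, Polynomial.eval_C]
    rw [Matrix.eval_charpoly] at h1
    have h2 : (scalar (Fin r) (0 : ℂ) - M).det = (-1) ^ r * M.det := by
      rw [map_zero, zero_sub, Matrix.det_neg, Fintype.card_fin]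
    rw [h2] at h1
    have h3 : ∏ i, (0 - c i) = (-1) ^ r * ∏ i, c i := by
      have : ∀ i, 0 - c i = (-1) * c i := fun i => by ring
      simp only [this]
      rw [Finset.prod_mul_distrib, Finset.prod_const, Finset.card_univ, Fintype.card_fin]
    rw [h3] at h1
    exact mul_left_cancel₀ (pow_ne_zero _ (by norm_num)) h1
  have hdet0 : M.det ≠ 0 := by
    rw [hdet]
    exact Finset.prod_ne_zero_iff.2 fun i _ => hc i
  apply Polynomial.eq_of_infinite_eval_eq
  refine Set.Infinite.mono (s := ({0} : Set ℂ)ᶜ) ?_ (Set.finite_singleton 0).infinite_compl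
  intro x hx
  have hx0 : x ≠ 0 := hx
  show M'.charpoly.eval x = (∏ i, (Polynomial.X - Polynomial.C (c i)⁻¹)).eval x
  rw [Matrix.eval_charpoly, Polynomial.eval_prod]
  apply mul_right_cancel₀ hdet0
  rw [← Matrix.det_mul]
  have h1 : (scalar (Fin r) x - M') * M = (-x) • (scalar (Fin r) x⁻¹ - M) := by
    rw [Matrix.sub_mul, hM, Matrix.scalar_apply, Matrix.scalar_apply,
      ← Matrix.smul_one_eq_diagonal, ← Matrix.smul_one_eq_diagonal, smul_sub, smul_smul,
      Matrix.smul_mul, Matrix.one_mul, neg_mul, mul_inv_cancel₀ hx0, neg_smul, neg_smul, one_smul]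
    abel
  rw [h1, Matrix.det_smul, ← Matrix.eval_charpoly, h, Polynomial.eval_prod, Fintype.card_fin,
    hdet, ← Finset.prod_mul_distrib]
  have h2 : (-x) ^ r = ∏ _i : Fin r, (-x) := by
    rw [Finset.prod_const, Finset.card_univ, Fintype.card_fin]
  rw [h2, ← Finset.prod_mul_distrib]
  refine Finset.prod_congr rfl fun i _ => ?_
  rw [Polynomial.eval_sub, Polynomial.eval_X, Polynomial.eval_C, Polynomial.eval_sub,
    Polynomial.eval_X, Polynomial.eval_C]
  have := hc i
  field_simp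
  ring

/-- REDUCTION: if the representations (irreducible, with the prescribed classes, not all scalar)
whose second handle matrix has the eigenvalues `ω` are in the closure of the twist stable set `D`,
then all irreducible representations are. -/
theorem irr_of_fibre (hr : 0 < r) (C : Fin n → (Mat r ℂ)ˣ) (j₀ : Fin n)
    (hns : ∀ μ : ℂ, (C j₀ : Mat r ℂ) ≠ μ • (1 : Mat r ℂ))
    {D : Set (FU 1 n →* (Mat r ℂ)ˣ)}
    (hD : ∀ y ∈ D, flow y kB (y (FreeGroup.of kA)) ∈ D)
    (ω : Fin r → ℂ) (hω : ∀ i, ω i ≠ 0)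
    (hfib : ∀ z : FU 1 n →* (Mat r ℂ)ˣ, z (relatorU 1 n) = 1 →
      (∀ j, IsConj (C j) (z (FreeGroup.of (Sum.inr j)))) →
      Algebra.adjoin ℂ (Set.range fun w => (z w : Mat r ℂ)) = ⊤ →
      (z (FreeGroup.of kB) : Mat r ℂ).charpoly =
        ∏ i, (Polynomial.X - Polynomial.C (ω i)) →
      ∀ f : MvPolynomial (GenU 1 n × Fin r × Fin r) ℂ, (∀ y ∈ D, evalG y f = 0) →
        evalG z f = 0)
    (x : FU 1 n →* (Mat r ℂ)ˣ) (hrel : x (relatorU 1 n) = 1)
    (hcl : ∀ j, IsConj (C j) (x (FreeGroup.of (Sum.inr j))))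
    (hadj : Algebra.adjoin ℂ (Set.range fun w => (x w : Mat r ℂ)) = ⊤)
    (f : MvPolynomial (GenU 1 n × Fin r × Fin r) ℂ) (hf : ∀ y ∈ D, evalG y f = 0) :
    evalG x f = 0 := by
  by_contra hxf
  obtain ⟨z, A, ν, hzf, hzr, hzC, -, hG⟩ := exists_genRep hr C j₀ hns x hrel hcl hadj f hxf
  have hAd : IsUnit A.det := (Matrix.isUnit_iff_isUnit_det _).1 hG.unit
  have hAA : A * A⁻¹ = 1 := Matrix.mul_nonsing_inv _ hAd
  have hAA' : A⁻¹ * A = 1 := Matrix.nonsing_inv_mul _ hAd
  obtain ⟨b, hb⟩ : ∃ b : Mat r ℂ, b = (z (FreeGroup.of kB) : Mat r ℂ) := ⟨_, rfl⟩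
  have hbu : IsUnit b := by rw [hb]; exact Units.isUnit _
  have hbd : IsUnit b.det := (Matrix.isUnit_iff_isUnit_det _).1 hbu
  obtain ⟨N, hN⟩ : ∃ N : Mat r ℂ, N = A⁻¹ * b⁻¹ * A := ⟨_, rfl⟩
  have hmin : ∀ S : Finset (Fin r),
      (N.submatrix (Subtype.val : S → Fin r) Subtype.val).det ≠ 0 := by
    intro S
    have h1 := hG.minor [] (List.finRange n) rfl S.card (fun k => (S.equivFin.symm k : Fin r))
      (fun k => (S.equivFin.symm k : Fin r))
      (Subtype.val_injective.comp S.equivFin.symm.injective)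
      (Subtype.val_injective.comp S.equivFin.symm.injective)
    rw [List.map_nil, List.prod_nil, Matrix.mul_one, Matrix.mul_inv_rev] at h1
    have h2 : mt z (Sum.inr true) = b := by rw [hb]; rfl
    rw [h2, ← hN] at h1
    have h3 : N.submatrix (fun k => (S.equivFin.symm k : Fin r))
        (fun k => (S.equivFin.symm k : Fin r)) =
        (N.submatrix (Subtype.val : S → Fin r) Subtype.val).submatrix S.equivFin.symm
          S.equivFin.symm := rfl
    rw [h3, Matrix.det_submatrix_equiv_self] at h1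
    exact h1
  have hdeg : (∏ i : Fin r, (Polynomial.X - Polynomial.C (ω i)⁻¹)).natDegree = r := by
    rw [Polynomial.natDegree_prod_of_monic _ _ fun i _ => Polynomial.monic_X_sub_C _]
    simp
  obtain ⟨w, hw0, hw⟩ := P002G.InvEig.inv_eig N hmin
    (∏ i : Fin r, (Polynomial.X - Polynomial.C (ω i)⁻¹))
    (Polynomial.monic_prod_of_monic _ _ fun i _ => Polynomial.monic_X_sub_C _)
    hdeg (by
      rw [Polynomial.coeff_zero_eq_eval_zero, Polynomial.eval_prod]
      refine Finset.prod_ne_zero_iff.2 fun i _ => ?_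
      rw [Polynomial.eval_sub, Polynomial.eval_X, Polynomial.eval_C, zero_sub]
      exact neg_ne_zero.2 (inv_ne_zero (hω i)))
  -- the flow
  have hww : diagonal (fun i => (w i)⁻¹) * diagonal w = (1 : Mat r ℂ) := by
    rw [Matrix.diagonal_mul_diagonal, ← Matrix.diagonal_one]
    congr 1
    funext i
    exact inv_mul_cancel₀ (hw0 i)
  have hww' : diagonal w * diagonal (fun i => (w i)⁻¹) = (1 : Mat r ℂ) := by
    rw [Matrix.diagonal_mul_diagonal, ← Matrix.diagonal_one]
    congr 1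
    funext i
    exact mul_inv_cancel₀ (hw0 i)
  obtain ⟨P, hP1, hP2⟩ : ∃ P : (Mat r ℂ)ˣ, (P : Mat r ℂ) = A * diagonal (fun i => (w i)⁻¹) * A⁻¹ ∧
      ((P⁻¹ : (Mat r ℂ)ˣ) : Mat r ℂ) = A * diagonal w * A⁻¹ := by
    refine ⟨⟨A * diagonal (fun i => (w i)⁻¹) * A⁻¹, A * diagonal w * A⁻¹, ?_, ?_⟩, rfl, rfl⟩
    · calc _ = A * diagonal (fun i => (w i)⁻¹) * (A⁻¹ * A) * diagonal w * A⁻¹ := by
            simp only [Matrix.mul_assoc]
        _ = A * (diagonal (fun i => (w i)⁻¹) * diagonal w) * A⁻¹ := by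
            rw [hAA', Matrix.mul_one]
            simp only [Matrix.mul_assoc]
        _ = 1 := by rw [hww, Matrix.mul_one, hAA]
    · calc _ = A * diagonal w * (A⁻¹ * A) * diagonal (fun i => (w i)⁻¹) * A⁻¹ := by
            simp only [Matrix.mul_assoc]
        _ = A * (diagonal w * diagonal (fun i => (w i)⁻¹)) * A⁻¹ := by
            rw [hAA', Matrix.mul_one]
            simp only [Matrix.mul_assoc]
        _ = 1 := by rw [hww', Matrix.mul_one, hAA]
  have hPA : (P : Mat r ℂ) * A = A * diagonal (fun i => (w i)⁻¹) := by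
    rw [hP1, Matrix.mul_assoc, hAA', Matrix.mul_one]
  have hPA' : ((P⁻¹ : (Mat r ℂ)ˣ) : Mat r ℂ) * A = A * diagonal w := by
    rw [hP2, Matrix.mul_assoc, hAA', Matrix.mul_one]
  have hcomm : Commute (z (FreeGroup.of kA)) P := by
    have h1 : (z (FreeGroup.of kA) : Mat r ℂ) * A = A * diagonal ν := hG.eig
    have h2 : (z (FreeGroup.of kA) : Mat r ℂ) = A * diagonal ν * A⁻¹ := by
      rw [← h1, Matrix.mul_assoc, hAA, Matrix.mul_one]
    apply Units.ext
    rw [Units.val_mul, Units.val_mul, h2, hP1]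
    calc _ = A * diagonal ν * (A⁻¹ * A) * diagonal (fun i => (w i)⁻¹) * A⁻¹ := by
            simp only [Matrix.mul_assoc]
      _ = A * (diagonal ν * diagonal (fun i => (w i)⁻¹)) * A⁻¹ := by
            rw [hAA', Matrix.mul_one]
            simp only [Matrix.mul_assoc]
      _ = A * (diagonal (fun i => (w i)⁻¹) * diagonal ν) * A⁻¹ := by
            rw [Matrix.diagonal_mul_diagonal, Matrix.diagonal_mul_diagonal]
            congr 3
            funext i
            ring
      _ = A * diagonal (fun i => (w i)⁻¹) * (A⁻¹ * A) * diagonal ν * A⁻¹ := by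
            rw [hAA', Matrix.mul_one]
            simp only [Matrix.mul_assoc]
      _ = _ := by simp only [Matrix.mul_assoc]
  obtain ⟨z', hz'⟩ : ∃ z', z' = flow z kB P := ⟨_, rfl⟩
  have hz'A : z' (FreeGroup.of kA) = z (FreeGroup.of kA) := by rw [hz', flow_kB_kA]
  have hz'r : z' (relatorU 1 n) = 1 := by rw [hz', flow_kB_relator _ _ hcomm, hzr]
  have hz'c : ∀ j, z' (FreeGroup.of (Sum.inr j)) = z (FreeGroup.of (Sum.inr j)) := fun j => by
    rw [hz', flow_kB_inr]
  have hz'top : Algebra.adjoin ℂ (Set.range fun w => (z' w : Mat r ℂ)) = ⊤ := by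
    apply adjoin_top_of_simple hr
    intro W hW
    refine hG.irr W (fun j v hv => ?_) (fun v hv => ?_)
    · have h1 := hW (FreeGroup.of (Sum.inr j)) v hv
      rw [hz'c] at h1
      exact h1
    · have h1 := hW (FreeGroup.of kA) v hv
      rw [hz'A] at h1
      exact h1
  have hz'b : (z' (FreeGroup.of kB) : Mat r ℂ) = b * (P : Mat r ℂ) := by
    rw [hz', flow_kB_kB, Units.val_mul, hb]
  have hz'ch : (z' (FreeGroup.of kB) : Mat r ℂ).charpoly =
      ∏ i, (Polynomial.X - Polynomial.C (ω i)) := by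
    have h1 : (((P⁻¹ : (Mat r ℂ)ˣ) : Mat r ℂ) * b⁻¹).charpoly =
        ∏ i, (Polynomial.X - Polynomial.C (ω i)⁻¹) := by
      rw [← hw, hP2, hN]
      calc (A * diagonal w * A⁻¹ * b⁻¹).charpoly = (A * (diagonal w * A⁻¹ * b⁻¹)).charpoly := by
            simp only [Matrix.mul_assoc]
        _ = ((diagonal w * A⁻¹ * b⁻¹) * A).charpoly := Matrix.charpoly_mul_comm _ _
        _ = (diagonal w * (A⁻¹ * b⁻¹ * A)).charpoly := by simp only [Matrix.mul_assoc]
        _ = _ := Matrix.charpoly_mul_comm _ _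
    have h2 := charpoly_inv_prod (((P⁻¹ : (Mat r ℂ)ˣ) : Mat r ℂ) * b⁻¹)
      (z' (FreeGroup.of kB) : Mat r ℂ) (by
        rw [hz'b]
        calc b * (P : Mat r ℂ) * (((P⁻¹ : (Mat r ℂ)ˣ) : Mat r ℂ) * b⁻¹) =
            b * ((P : Mat r ℂ) * ((P⁻¹ : (Mat r ℂ)ˣ) : Mat r ℂ)) * b⁻¹ := by
              simp only [Matrix.mul_assoc]
          _ = 1 := by rw [Units.mul_inv, Matrix.mul_one, Matrix.mul_nonsing_inv _ hbd])
      (fun i => (ω i)⁻¹) (fun i => inv_ne_zero (hω i)) h1
    simpa only [inv_inv] using h2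
  have hclo := hfib z' hz'r (fun j => by rw [hz'c]; exact hzC j) hz'top hz'ch
  have hback := twist_flow hD hclo hG.unit (by
    rw [mt_inr, hz'A]
    exact hG.eig) hG.indep P⁻¹ w hPA' f hf
  apply hzf
  have h1 : flow z' kB P⁻¹ = z := by
    ext1 l
    rw [flow_of]
    split_ifs with hl
    · rw [hz', flow_kB_kB, mul_inv_cancel_right, hl]
    · rw [hz', flow_of, if_neg hl]
  rwa [h1] at hback

end Vale.Agent.P002R
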