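import Vale.Agent.P002R.YFibre
import Vale.Agent.P002R.YOmega
import Vale.Agent.P002R.Z2Scalar
import Vale.Agent.P002R.Z2Glue

/-!
# Genus one: all classes
-/

namespace Vale.Agent.P002R

open Matrix Polynomial

/-- Conditions on the coefficient ring in genus one. -/
def TorOK {R₃ : Type} [CommRing R₃] (φ₃ : R₃ →+* ℂ) (E : Subgroup ℂˣ) (r : ℕ) : Prop :=
  ∃ (R₁ R₂ : Type) (_ : CommRing R₁) (_ : CommRing R₂) (φ₁ : R₁ →+* ℂ) (φ₂ : R₂ →+* ℂ)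
    (ι₁ : R₁ →+* R₂) (ι₂ : R₂ →+* R₃) (E' : Subgroup ℂˣ) (ω : Fin r → R₁),
    (∀ a, φ₂ (ι₁ a) = φ₁ a) ∧ (∀ a, φ₃ (ι₂ a) = φ₂ a) ∧ Function.Injective φ₂ ∧ Prin ι₁ ∧
    (∀ r' ≤ r, 0 < r' → ∀ u : R₂ˣ, ∃ c : R₃ˣ, ι₂ (u : R₂) = (c : R₃) ^ r') ∧
    E ≤ E' ∧ CoefOK φ₁ E' r ∧
    (∀ (u : R₁ˣ) (D : R₁), D ≠ 0 → ∃ M : ℕ, 0 < M ∧ D ∣ (u : R₁) ^ M - 1) ∧
    (∀ i, ∃ e ∈ E', (e : ℂ) = φ₁ (ω i)) ∧ (∀ i j, i ≠ j → IsUnit (ω i - ω j)) ∧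
    ∀ (I J : Finset (Fin r)), (∃ ε ∈ E, ∏ i ∈ I, φ₁ (ω i) = (ε : ℂ) * ∏ j ∈ J, φ₁ (ω j)) → I = J

theorem TorOK.mono {R₃ : Type} [CommRing R₃] {φ₃ : R₃ →+* ℂ} {E : Subgroup ℂˣ} {r r' : ℕ}
    (h : TorOK φ₃ E r) (hr : r' ≤ r) : TorOK φ₃ E r' := by
  obtain ⟨R₁, R₂, i₁, i₂, φ₁, φ₂, ι₁, ι₂, E', ω, h1, h2, h3, h4, h5, h6, h7, h8, h9, h10, h11⟩ := h
  refine ⟨R₁, R₂, i₁, i₂, φ₁, φ₂, ι₁, ι₂, E', fun i => ω (Fin.castLE hr i), h1, h2, h3, h4,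
    fun s hs => h5 s (hs.trans hr), h6, h7.mono hr, h8, fun i => h9 _, fun i j hij => h10 _ _ ?_,
    fun I J h => ?_⟩
  · intro h
    exact hij (Fin.castLE_injective hr h)
  · have h12 := h11 (I.map (Fin.castLEEmb hr)) (J.map (Fin.castLEEmb hr)) (by
      simpa only [Finset.prod_map, Fin.castLEEmb_apply] using h)
    exact Finset.map_injective _ h12

/-- The main theorem in genus one, all classes. -/
theorem g1_all (hG : G02Irr) {m r : ℕ} (hr : 0 < r) {R₃ : Type} [CommRing R₃] (φ₃ : R₃ →+* ℂ)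
    (E : Subgroup ℂˣ) (hT : TorOK φ₃ E r) (hc₃ : CoefOK φ₃ E r) (Cl : Fin (m + 1) → (Mat r ℂ)ˣ)
    (hE : ∀ j, EigIn E (Cl j : Mat r ℂ)) (x : FU 1 (m + 1) →* (Mat r ℂ)ˣ)
    (hx : x ∈ YG ({relatorU 1 (m + 1)} : Set (FreeGroup ((Fin 1 × Bool) ⊕ Fin (m + 1)))) Cl)
    (hirr : ∀ M : Mat r ℂ, (∀ w, Commute M (x w : Mat r ℂ)) → ∃ c : ℂ, M = c • (1 : Mat r ℂ))
    (f : MvPolynomial (((Fin 1 × Bool) ⊕ Fin (m + 1)) × Fin r × Fin r) ℂ)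
    (hf : ∀ y ∈ DGT ({relatorU 1 (m + 1)} : Set (FreeGroup ((Fin 1 × Bool) ⊕ Fin (m + 1)))) φ₃ Cl,
      evalG y f = 0) : evalG x f = 0 := by
  by_cases hsc : ∀ j, ∃ μ : ℂ, (Cl j : Mat r ℂ) = μ • (1 : Mat r ℂ)
  · exact scalar_case hr φ₃ E hc₃ Cl hE hsc x hx hirr f hf
  push Not at hsc
  obtain ⟨j₀, hns⟩ := hsc
  obtain ⟨hx1, hx2, hx3⟩ := hx
  have hadj := adjoin_top_of_irr x hx3 hirr
  obtain ⟨R₁, R₂, i₁, i₂, φ₁, φ₂, ι₁, ι₂, E', ω, h1, h2, h3, h4, h5, h6, h7, h8, h9, h10, h11⟩ := hT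
  refine upgrade x hadj (DTor φ₃ Cl) (fun f' hf' => ?_) f fun y hy hadj' => ?_
  · refine irr_of_fibre hr Cl j₀ hns (D := DTor φ₃ Cl) (fun y hy => ?_) (fun i => φ₁ (ω i))
      (fun i => ?_) (fun z hz1 hz2 hz3 hz4 f'' hf'' => ?_) x (hx1 _ rfl) hx2 hadj f' hf'
    · exact twist_mem_general Cl (GR r φ₃) y hy.1 hy.2.1 hy.2.2
    · obtain ⟨e, _, he⟩ := h9 i
      rw [← he]
      exact e.ne_zero
    · exact fibre_density hG hr ι₁ h1 ι₂ h2 h3 h4 (h5 r le_rfl hr) h6 h7 h8 ω h9 h10 h11 Cl hE z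
        hz1 hz2 hz3 hz4 f'' hf''
  · refine hf y ⟨⟨⟨?_, hy.2.1, ss_of_adjoin y hadj'⟩, hy.2.2⟩, hadj'⟩
    rintro w rfl
    exact hy.1

/-- Punctured tori. -/
theorem g1_irrDenseAll (hG : G02Irr) {n r : ℕ} (hn : 0 < n) {R : Type} [CommRing R]
    (φ : R →+* ℂ) (E : Subgroup ℂˣ) (hT : TorOK φ E r) (hc : CoefOK φ E r)
    {Q : Fin n → ∀ r : ℕ, Mat r ℂ → Prop} (hE : ∀ j r M, Q j r M → EigIn E M) :
    ∀ r' ≤ r, 0 < r' →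
      IrrDenseQ Q ({relatorU 1 n} : Set (FreeGroup ((Fin 1 × Bool) ⊕ Fin n))) φ r' := by
  intro r' hr' hr'0
  obtain ⟨m, rfl⟩ : ∃ m, n = m + 1 := ⟨n - 1, by omega⟩
  intro C hC x hx hirr f hf
  exact g1_all hG hr'0 φ E (hT.mono hr') (hc.mono hr') C (fun j => hE _ _ _ (hC j)) x hx hirr f hf

/-- Two given punctures can be moved to two given places. -/
theorem exists_perm_two_g1 {n : ℕ} {T : Finset (Fin n)} (hT : 2 ≤ T.card) (a b : Fin n)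
    (hab : a ≠ b) : ∃ e : Equiv.Perm (Fin n), e a ∈ T ∧ e b ∈ T := by
  obtain ⟨x, hx, y, hy, hxy⟩ := Finset.one_lt_card.1 hT
  have hb' : (Equiv.swap x a) b ≠ x := by
    intro h
    apply hab
    have h1 : (Equiv.swap x a) a = x := Equiv.swap_apply_right x a
    exact (Equiv.swap x a).injective (h1.trans h.symm)
  refine ⟨Equiv.swap x a * 1 |>.trans (Equiv.swap ((Equiv.swap x a) b) y), ?_, ?_⟩
  · have h1 : ((Equiv.swap x a * 1).trans (Equiv.swap ((Equiv.swap x a) b) y)) a = x := by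
      rw [mul_one, Equiv.trans_apply, Equiv.swap_apply_right]
      exact Equiv.swap_apply_of_ne_of_ne hb'.symm hxy
    rw [h1]
    exact hx
  · have h1 : ((Equiv.swap x a * 1).trans (Equiv.swap ((Equiv.swap x a) b) y)) b = y := by
      rw [mul_one, Equiv.trans_apply, Equiv.swap_apply_left]
    rw [h1]
    exact hy

/-- Spheres with at least two regular classes. -/
theorem g02_irrDenseQ (hG : G02Irr) {n r : ℕ} (hn : 3 ≤ n) {R : Type} [CommRing R] (φ : R →+* ℂ)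
    (E : Subgroup ℂˣ) (hc : CoefOK φ E r)
    (hUP : ∀ (u : Rˣ) (D : R), D ≠ 0 → ∃ M : ℕ, 0 < M ∧ D ∣ (u : R) ^ M - 1)
    {T : Finset (Fin n)} (hT : 2 ≤ T.card) {Q : Fin n → ∀ r : ℕ, Mat r ℂ → Prop}
    (hE : ∀ j r M, Q j r M → EigIn E M) (hQ : ∀ j ∈ T, ∀ r M, Q j r M → HasCyc r M) :
    ∀ r' ≤ r, 0 < r' →
      IrrDenseQ Q ({relatorU 0 n} : Set (FreeGroup ((Fin 0 × Bool) ⊕ Fin n))) φ r' := by
  intro r' hr' hr'0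
  obtain ⟨m, rfl⟩ : ∃ m, n = m + 3 := ⟨n - 3, by omega⟩
  obtain ⟨e, ha, hl⟩ := exists_perm_two_g1 hT (0 : Fin (m + 3)) (Fin.last (m + 2))
    (by rw [Ne, Fin.ext_iff]; simp)
  refine irrDenseQ_reorder e fun C hC x hx hirr f hf => ?_
  exact hG hr'0 φ E (hc.mono hr') hUP C (fun j => hE _ _ _ (hC j)) (hQ _ ha _ _ (hC 0))
    (hQ _ hl _ _ (hC _)) x hx hirr f hf

end Vale.Agent.P002R
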