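import Vale.Agent.P002R.YDiag

/-!
# Invariant subspaces and determinants
-/

namespace Vale.Agent.P002R

open Matrix

/-- `M` preserves `W` and the determinant of the restriction is `δ`. -/
def DetOn {r : ℕ} (W : Submodule ℂ (Fin r → ℂ)) (M : Mat r ℂ) (δ : ℂ) : Prop :=
  ∃ h : ∀ v ∈ W, Matrix.mulVecLin M v ∈ W, LinearMap.det ((Matrix.mulVecLin M).restrict h) = δ

variable {r : ℕ} {W : Submodule ℂ (Fin r → ℂ)}

theorem DetOn.inv {M : Mat r ℂ} {δ : ℂ} (h : DetOn W M δ) : ∀ v ∈ W, M *ᵥ v ∈ W := by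
  obtain ⟨h, _⟩ := h
  exact h

theorem DetOn.unique {M : Mat r ℂ} {δ δ' : ℂ} (h : DetOn W M δ) (h' : DetOn W M δ') : δ = δ' := by
  obtain ⟨h, rfl⟩ := h
  obtain ⟨h', rfl⟩ := h'
  rfl

theorem detOn_one : DetOn W (1 : Mat r ℂ) 1 := by
  have h : ∀ v ∈ W, Matrix.mulVecLin (1 : Mat r ℂ) v ∈ W := by
    intro v hv
    rwa [Matrix.mulVecLin_apply, Matrix.one_mulVec]
  refine ⟨h, ?_⟩
  have h1 : (Matrix.mulVecLin (1 : Mat r ℂ)).restrict h = LinearMap.id := by
    ext v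
    simp [LinearMap.restrict_apply]
  rw [h1, LinearMap.det_id]

theorem DetOn.mul {M N : Mat r ℂ} {δ ε : ℂ} (hM : DetOn W M δ) (hN : DetOn W N ε) :
    DetOn W (M * N) (δ * ε) := by
  obtain ⟨hM, rfl⟩ := hM
  obtain ⟨hN, rfl⟩ := hN
  have h : ∀ v ∈ W, Matrix.mulVecLin (M * N) v ∈ W := by
    intro v hv
    have := hM _ (hN v hv)
    rwa [Matrix.mulVecLin_apply, Matrix.mulVecLin_apply, Matrix.mulVec_mulVec] at this
  refine ⟨h, ?_⟩
  have h1 : (Matrix.mulVecLin (M * N)).restrict h =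
      (Matrix.mulVecLin M).restrict hM ∘ₗ (Matrix.mulVecLin N).restrict hN := by
    ext v
    simp [LinearMap.restrict_apply, Matrix.mulVec_mulVec]
  rw [h1, LinearMap.det_comp]

theorem detOn_prod (E : Subgroup ℂˣ) (l : List (Mat r ℂ))
    (h : ∀ M ∈ l, ∃ e ∈ E, DetOn W M (e : ℂ)) : ∃ e ∈ E, DetOn W l.prod (e : ℂ) := by
  induction l with
  | nil => exact ⟨1, one_mem _, by rw [List.prod_nil, Units.val_one]; exact detOn_one⟩
  | cons M l ih =>
    obtain ⟨e, he, h1⟩ := h M List.mem_cons_self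
    obtain ⟨e', he', h2⟩ := ih fun N hN => h N (List.mem_cons_of_mem _ hN)
    refine ⟨e * e', mul_mem he he', ?_⟩
    rw [List.prod_cons, Units.val_mul]
    exact h1.mul h2

/-- Matrices with eigenvalues in `E`. -/
theorem detOn_of_eigIn {E : Subgroup ℂˣ} {M : Mat r ℂ} (hM : EigIn E M)
    (hW : ∀ v ∈ W, M *ᵥ v ∈ W) : ∃ e ∈ E, DetOn W M (e : ℂ) := by
  have h : ∀ v ∈ W, Matrix.mulVecLin M v ∈ W := hW
  obtain ⟨f, hf⟩ : ∃ f, f = (Matrix.mulVecLin M).restrict h := ⟨_, rfl⟩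
  have h1 : LinearMap.det f = f.charpoly.roots.prod :=
    Module.End.det_eq_prod_roots_charpoly_of_splits (IsAlgClosed.splits _)
  have h2 : ∀ z ∈ f.charpoly.roots, ∃ e ∈ E, (e : ℂ) = z := by
    intro z hz
    apply hM
    have h3 := (Polynomial.mem_roots (LinearMap.charpoly_monic f).ne_zero).1 hz
    obtain ⟨v, hv⟩ := ((Module.End.hasEigenvalue_iff_isRoot_charpoly f z).2 h3).exists_hasEigenvector
    have h4 : M *ᵥ (v : Fin r → ℂ) = z • (v : Fin r → ℂ) := by
      have h5 := congrArg Subtype.val (Module.End.mem_eigenspace_iff.1 hv.1)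
      rw [hf] at h5
      exact h5
    have h6 : (Matrix.mulVecLin M).charpoly = M.charpoly := Matrix.charpoly_mulVecLin M
    rw [← h6, ← Module.End.hasEigenvalue_iff_isRoot_charpoly]
    refine Module.End.hasEigenvalue_of_hasEigenvector (x := (v : Fin r → ℂ)) ⟨?_, ?_⟩
    · rw [Module.End.mem_eigenspace_iff]
      exact h4
    · intro h0
      exact hv.2 (Subtype.ext h0)
  have h3 : ∀ s : Multiset ℂ, (∀ z ∈ s, ∃ e ∈ E, (e : ℂ) = z) → ∃ e ∈ E, (e : ℂ) = s.prod := by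
    intro s
    induction s using Multiset.induction_on with
    | empty => exact fun _ => ⟨1, one_mem _, by simp⟩
    | cons z s ih =>
      intro hs
      obtain ⟨e, he, h1⟩ := hs z (Multiset.mem_cons_self _ _)
      obtain ⟨e', he', h2⟩ := ih fun w hw => hs w (Multiset.mem_cons_of_mem hw)
      exact ⟨e * e', mul_mem he he', by rw [Units.val_mul, h1, h2, Multiset.prod_cons]⟩
  obtain ⟨e, he, h4⟩ := h3 _ h2
  exact ⟨e, he, h, by rw [h4, ← hf, h1]⟩

/-- Invariant subspaces of matrices with distinct eigenvalues. -/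
theorem mem_of_coeff {M P : Mat r ℂ} {ω : Fin r → ℂ} (hω : Function.Injective ω)
    (hP : IsUnit P.det) (h : M * P = P * diagonal ω) (hW : ∀ v ∈ W, M *ᵥ v ∈ W)
    (v : Fin r → ℂ) (hv : v ∈ W) (i : Fin r) (hi : (P⁻¹ *ᵥ v) i ≠ 0) : P.col i ∈ W := by
  have h1 : ∀ q : Polynomial ℂ, Polynomial.aeval M q *ᵥ v ∈ W := by
    intro q
    induction q using Polynomial.induction_on' with
    | add p q hp hq =>
      rw [map_add, Matrix.add_mulVec]
      exact W.add_mem hp hq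
    | monomial n c =>
      rw [Polynomial.aeval_monomial, ← Algebra.smul_def, Matrix.smul_mulVec]
      refine W.smul_mem _ ?_
      induction n with
      | zero => rwa [pow_zero, Matrix.one_mulVec]
      | succ n ih =>
        rw [pow_succ', ← Matrix.mulVec_mulVec]
        exact hW _ ih
  have h2 : proj ω i M *ᵥ v = (P⁻¹ *ᵥ v) i • P.col i := by
    have h3 := proj_mul hω h i
    have h4 : proj ω i M = P * diagonal (Pi.single i 1) * P⁻¹ := by
      rw [← h3, mul_assoc, Matrix.mul_nonsing_inv P hP, mul_one]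
    rw [h4, ← Matrix.mulVec_mulVec, ← Matrix.mulVec_mulVec]
    ext k
    rw [Matrix.mulVec, dotProduct, Finset.sum_eq_single i]
    · rw [Matrix.mulVec_diagonal, Pi.single_eq_same, one_mul, Pi.smul_apply, smul_eq_mul,
        Matrix.col_apply, mul_comm]
    · intro j _ hj
      rw [Matrix.mulVec_diagonal, Pi.single_eq_of_ne hj, zero_mul, mul_zero]
    · intro hi
      exact absurd (Finset.mem_univ _) hi
  have h3 : proj ω i M *ᵥ v ∈ W := h1 _
  rw [h2] at h3
  have h4 := W.smul_mem ((P⁻¹ *ᵥ v) i)⁻¹ h3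
  rwa [smul_smul, inv_mul_cancel₀ hi, one_smul] at h4

theorem detOn_diag {M P : Mat r ℂ} {ω : Fin r → ℂ} (hω : Function.Injective ω)
    (hP : IsUnit P.det) (h : M * P = P * diagonal ω) (hW : ∀ v ∈ W, M *ᵥ v ∈ W)
    (I : Finset (Fin r)) (hI : ∀ i, i ∈ I ↔ P.col i ∈ W) : DetOn W M (∏ i ∈ I, ω i) := by
  classical
  have hW' : ∀ v ∈ W, Matrix.mulVecLin M v ∈ W := hW
  refine ⟨hW', ?_⟩
  have hcol : ∀ i, M *ᵥ P.col i = ω i • P.col i := by
    intro i
    ext k
    have h1 := congrFun (congrFun h k) i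
    rw [Matrix.mul_diagonal, Matrix.mul_apply] at h1
    rw [Matrix.mulVec, dotProduct, Pi.smul_apply, smul_eq_mul, Matrix.col_apply, mul_comm, ← h1]
    rfl
  obtain ⟨u, hu⟩ : ∃ u : I → W, ∀ i, (u i : Fin r → ℂ) = P.col i :=
    ⟨fun i => ⟨P.col i, (hI i).1 i.2⟩, fun _ => rfl⟩
  have hli : LinearIndependent ℂ u := by
    have h1 : LinearIndependent ℂ P.col :=
      Matrix.linearIndependent_cols_iff_isUnit.2 ((Matrix.isUnit_iff_isUnit_det _).2 hP)
    refine LinearIndependent.of_comp W.subtype ?_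
    have h2 : (W.subtype ∘ u) = fun i : I => P.col i := by
      funext i
      exact hu i
    rw [h2]
    exact h1.comp _ Subtype.val_injective
  have hspan : ⊤ ≤ Submodule.span ℂ (Set.range u) := by
    rintro ⟨v, hv⟩ -
    have h1 : v = ∑ i, (P⁻¹ *ᵥ v) i • P.col i := by
      have h2 : v = P *ᵥ (P⁻¹ *ᵥ v) := by
        rw [Matrix.mulVec_mulVec, Matrix.mul_nonsing_inv P hP, Matrix.one_mulVec]
      conv_lhs => rw [h2]
      ext k
      rw [Matrix.mulVec, dotProduct, Finset.sum_apply]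
      refine Finset.sum_congr rfl fun i _ => ?_
      rw [Pi.smul_apply, smul_eq_mul, Matrix.col_apply, mul_comm]
    have h3 : (⟨v, hv⟩ : W) = ∑ i : I, (P⁻¹ *ᵥ v) i • u i := by
      apply Subtype.ext
      rw [AddSubmonoidClass.coe_finsetSum]
      simp only [Submodule.coe_smul, hu]
      conv_lhs => rw [h1]
      rw [Finset.sum_coe_sort I (fun i => (P⁻¹ *ᵥ v) i • P.col i)]
      symm
      refine Finset.sum_subset (Finset.subset_univ _) fun i _ hi => ?_
      have h4 : (P⁻¹ *ᵥ v) i = 0 := by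
        by_contra hne
        exact hi ((hI i).2 (mem_of_coeff hω hP h hW v hv i hne))
      rw [h4, zero_smul]
    rw [h3]
    exact Submodule.sum_mem _ fun i _ => Submodule.smul_mem _ _ (Submodule.subset_span ⟨i, rfl⟩)
  obtain ⟨b, hb⟩ : ∃ b : Module.Basis I ℂ W, ∀ i, b i = u i :=
    ⟨Module.Basis.mk hli hspan, fun i => Module.Basis.mk_apply hli hspan i⟩
  rw [← LinearMap.det_toMatrix b]
  have h5 : LinearMap.toMatrix b b ((Matrix.mulVecLin M).restrict hW') =
      diagonal fun i : I => ω i := by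
    ext i j
    rw [LinearMap.toMatrix_apply]
    have h6 : ((Matrix.mulVecLin M).restrict hW') (b j) = ω j • b j := by
      apply Subtype.ext
      rw [LinearMap.restrict_apply, hb]
      change M *ᵥ (u j : Fin r → ℂ) = ω j • (u j : Fin r → ℂ)
      rw [hu]
      exact hcol j
    rw [h6, map_smul, Finsupp.smul_apply, b.repr_self, smul_eq_mul]
    by_cases hij : i = j
    · subst hij
      rw [Finsupp.single_eq_same, mul_one, Matrix.diagonal_apply_eq]
    · rw [Finsupp.single_eq_of_ne hij, mul_zero, Matrix.diagonal_apply_ne _ hij]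
  rw [h5, Matrix.det_diagonal, Finset.prod_coe_sort I (fun i => ω i)]

/-- A subspace which is invariant under `b`, the `c`s and `a b a⁻¹` is invariant under `a`. -/
theorem inv_of_inv {E : Subgroup ℂˣ} {a b P : Mat r ℂ} (ha : IsUnit a.det) (l : List (Mat r ℂ))
    (hrel : l.prod * (a * b * a⁻¹) = b) (hl : ∀ M ∈ l, EigIn E M) {ω : Fin r → ℂ}
    (hω : Function.Injective ω) (hP : IsUnit P.det) (hb : b * P = P * diagonal ω)
    (hno : ∀ (I J : Finset (Fin r)), (∃ ε ∈ E, ∏ i ∈ I, ω i = (ε : ℂ) * ∏ j ∈ J, ω j) → I = J)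
    (hWb : ∀ v ∈ W, b *ᵥ v ∈ W) (hWl : ∀ M ∈ l, ∀ v ∈ W, M *ᵥ v ∈ W)
    (hWd : ∀ v ∈ W, (a * b * a⁻¹) *ᵥ v ∈ W) : ∀ v ∈ W, a *ᵥ v ∈ W := by
  classical
  obtain ⟨I, hI⟩ : ∃ I : Finset (Fin r), ∀ i, i ∈ I ↔ P.col i ∈ W :=
    ⟨Finset.univ.filter fun i => P.col i ∈ W, fun i => by simp⟩
  obtain ⟨J, hJ⟩ : ∃ J : Finset (Fin r), ∀ i, i ∈ J ↔ (a * P).col i ∈ W :=
    ⟨Finset.univ.filter fun i => (a * P).col i ∈ W, fun i => by simp⟩
  have haP : IsUnit (a * P).det := by rw [Matrix.det_mul]; exact ha.mul hP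
  have hd : (a * b * a⁻¹) * (a * P) = (a * P) * diagonal ω := by
    calc (a * b * a⁻¹) * (a * P) = a * b * (a⁻¹ * a) * P := by simp only [mul_assoc]
      _ = a * (b * P) := by rw [Matrix.nonsing_inv_mul a ha, mul_one, mul_assoc]
      _ = _ := by rw [hb, mul_assoc]
  have h1 := detOn_diag hω hP hb hWb I hI
  have h2 := detOn_diag hω haP hd hWd J hJ
  obtain ⟨ε, hε, h3⟩ := detOn_prod E l fun M hM => detOn_of_eigIn (hl M hM) (hWl M hM)
  have h4 := h3.mul h2
  rw [hrel] at h4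
  have h5 : I = J := hno I J ⟨ε, hε, h1.unique h4⟩
  intro v hv
  have h6 : a *ᵥ v = ∑ i, (P⁻¹ *ᵥ v) i • (a * P).col i := by
    have h2 : v = P *ᵥ (P⁻¹ *ᵥ v) := by
      rw [Matrix.mulVec_mulVec, Matrix.mul_nonsing_inv P hP, Matrix.one_mulVec]
    conv_lhs => rw [h2]
    rw [Matrix.mulVec_mulVec]
    ext k
    rw [Matrix.mulVec, dotProduct, Finset.sum_apply]
    refine Finset.sum_congr rfl fun i _ => ?_
    rw [Pi.smul_apply, smul_eq_mul, Matrix.col_apply, mul_comm]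
  rw [h6]
  refine Submodule.sum_mem _ fun i _ => ?_
  by_cases h7 : (P⁻¹ *ᵥ v) i = 0
  · rw [h7, zero_smul]
    exact W.zero_mem
  · refine W.smul_mem _ ((hJ i).1 ?_)
    rw [← h5]
    exact (hI i).2 (mem_of_coeff hω hP hb hWb v hv i h7)

end Vale.Agent.P002R
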