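import Vale.Agent.P002R.ZGlue3
import Vale.Agent.P002R.ZTot

/-!
# P002, genus 0: the main theorem for irreducible representations
-/

namespace Vale.Agent.P002R

/-- The main theorem in genus zero: at least three nonderogatory classes. -/
theorem g0Irr : G0Irr :=
  g0Irr_of_totD fun _ _ hc _ hr J hJ => totD_of_eigIn hc hr J hJ

end Vale.Agent.P002R
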