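import Vale.Agent.P002R.ZDens
import Vale.Agent.P002R.ZFinal0
import Vale.Agent.P002R.ZStatement
import Vale.Agent.P002R.RNoneP

/-!
# Potential density of integral points for products of curves: spheres with three regular classes
-/

namespace Vale.Agent.P002R.Product

open Matrix NumberField

theorem IsNonderogatory.hasCyc {r : ℕ} {M : SpecialLinearGroup (Fin r) ℂ}
    (h : IsNonderogatory M) : HasCyc r M.1 := by
  obtain ⟨v, hv⟩ := h
  refine ⟨v, fun W hW hWM => ?_⟩
  have h1 : ∀ k : ℕ, (M.1 ^ k) *ᵥ v ∈ W := by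
    intro k
    induction k with
    | zero => rwa [pow_zero, Matrix.one_mulVec]
    | succ k ih =>
      rw [pow_succ', ← Matrix.mulVec_mulVec]
      exact hWM _ ih
  rcases Nat.eq_zero_or_pos r with hr | hr
  · subst hr
    exact Subsingleton.elim _ _
  · have : Nonempty (Fin r) := ⟨⟨0, hr⟩⟩
    have h2 := hv.span_eq_top_of_card_eq_finrank (by simp)
    rw [eq_top_iff, ← h2, Submodule.span_le]
    rintro _ ⟨i, rfl⟩
    exact h1 i

/-- The curves which are allowed in terms of the number of nonderogatory classes. -/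
theorem okCurveQ_of_ncard {g n r : ℕ} (C : Fin n → SpecialLinearGroup (Fin r) ℂ)
    (h : 3 ≤ 2 * g + {j | IsNonderogatory (C j)}.ncard) : OKCurveQ g n r C := by
  refine Or.inr ⟨(Set.toFinite {j | IsNonderogatory (C j)}).toFinset, ?_, fun j hj => ?_⟩
  · rw [← Set.ncard_eq_toFinset_card]
    exact h
  · exact ((Set.Finite.mem_toFinset (Set.toFinite {j | IsNonderogatory (C j)})).1 hj).hasCyc

/-- Spheres with at least three nonderogatory classes are allowed. -/
theorem main0 (k : ℕ) (g n : Fin k → ℕ) (r : ℕ) :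
    (∃ L : IntermediateField ℚ ℂ, FiniteDimensional ℚ L ∧
      IsZariskiDense {X ∈ YNone g n r | IsIntegralPoint L X} (YNone g n r)) ∧
    ∀ C : (i : Fin k) → Fin (n i) → SpecialLinearGroup (Fin r) ℂ,
      (∀ i, 2 ≤ g i ∨ n i = 0 ∨
        (g i = 0 ∧ (n i ≤ 2 ∨ 3 ≤ {j | IsNonderogatory (C i j)}.ncard))) →
      ((∀ i j z, IsEigenvalue (C i j) z → IsIntegral ℤ z ∧ IsIntegral ℤ z⁻¹) →
        ∃ L : IntermediateField ℚ ℂ, FiniteDimensional ℚ L ∧
          IsZariskiDense {X ∈ Y g C | IsIntegralPoint L X} (Y g C)) ∧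
      ∀ N : ℕ, 0 < N → (∀ i j z, IsEigenvalue (C i j) z → z ^ N = 1) →
        ∀ L : IntermediateField ℚ ℂ, FiniteDimensional ℚ L →
          (∀ z : ℂ, z ^ (2 * N * r.factorial) = 1 → z ∈ L) → Infinite (𝓞 L)ˣ →
          IsZariskiDenseRep {X ∈ Y g C | IsIntegralRep L X} (Y g C) := by
  refine ⟨?_, fun C hg => ?_⟩
  · obtain ⟨L, hL, h⟩ := none_density_prod g n r
    exact ⟨L, hL, h.isZariskiDense⟩
  · have hg' : ∀ i, OKCurveQ (g i) (n i) r (C i) := by
      intro i
      rcases hg i with h | h | ⟨h, h2 | h3⟩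
      · exact Or.inl (Or.inl h)
      · exact Or.inl (Or.inr (Or.inl h))
      · exact Or.inl (Or.inr (Or.inr ⟨h, h2⟩))
      · exact okCurveQ_of_ncard (C i) (h3.trans (Nat.le_add_left _ _))
    have hg1 : ∀ i, g i = 1 → n i = 0 := by
      intro i h
      have h1 := hg i
      omega
    refine ⟨fun hC => ?_, fun N hN hC L hL hμ hu =>
      density_roots0 Vale.Agent.P002R.g0Irr C N hN hC hg' hg1 L hL hμ hu⟩
    obtain ⟨L, hL, h⟩ := exists_density0 Vale.Agent.P002R.g0Irr C hC hg' hg1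
    exact ⟨L, hL, h.isZariskiDense⟩

end Vale.Agent.P002R.Product
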