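import Vale.Agent.P002R.YCases
import Vale.Agent.P002R.YField
import Vale.Agent.P002R.ZMain0

/-!
# Potential density of integral points for products of curves: the final form
-/

namespace Vale.Agent.P002R.Product

open Matrix NumberField Vale.Agent.P002L

variable {k r : ℕ} {g n : Fin k → ℕ}

theorem FRel_irrDense3 {R : Type} [CommRing R] (φ : R →+* ℂ) (E : Subgroup ℂˣ)
    (hc : CoefOK φ E r) (Q : ∀ i, Fin (n i) → ∀ r : ℕ, Mat r ℂ → Prop)
    (hQ : ∀ i j, ClassOK E (Q i j))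
    (hI : ∀ i, ¬ OKCurve (g i) (n i) → ∀ r' ≤ r, 0 < r' →
      IrrDenseQ (fun j => Q i j)
        ({relatorU (g i) (n i)} : Set (FreeGroup ((Fin (g i) × Bool) ⊕ Fin (n i)))) φ r') :
    ∀ r' ≤ r, 0 < r' → IrrDenseQ (fun p : Σ i, Fin (n i) => Q p.1 p.2)
      (FRel g n) φ r' := by
  refine fam_irrDenseQ φ E r k _ _ (fun i j => Q i j) hQ _ fun i r' hr' hr'0 => ?_
  by_cases h : 2 ≤ g i ∨ n i = 0
  · exact (surface_irrDense φ E hc h r' hr' hr'0).toQ fun j M hM => (hQ i j).eig hM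
  by_cases h1 : g i = 0 ∧ n i ≤ 2
  · exact (abel_irrDense φ E _ (fun r'' x hx => surface_comm (Or.inl h1) r'' x hx) r' hr'0).toQ
      fun j M hM => (hQ i j).eig hM
  · have h2 : ¬ OKCurve (g i) (n i) := by
      unfold OKCurve
      omega
    exact hI i h2 r' hr' hr'0

theorem density_EQ3 (C : ∀ i, Fin (n i) → SpecialLinearGroup (Fin r) ℂ) (E : Subgroup ℂˣ)
    (Q : ∀ i, Fin (n i) → ∀ r : ℕ, Mat r ℂ → Prop) (hQ : ∀ i j, ClassOK E (Q i j))
    (hC : ∀ i j, Q i j r ((C i j).1))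
    (L : IntermediateField ℚ ℂ) (hL : FiniteDimensional ℚ L)
    (hc : CoefOK (phiO (algebraMap L ℂ)) E r)
    (hI : ∀ i, ¬ OKCurve (g i) (n i) → ∀ r' ≤ r, 0 < r' →
      IrrDenseQ (fun j => Q i j)
        ({relatorU (g i) (n i)} : Set (FreeGroup ((Fin (g i) × Bool) ⊕ Fin (n i))))
        (phiO (algebraMap L ℂ)) r') :
    IsZariskiDenseRep {X ∈ Y g C | IsIntegralRep L X} (Y g C) := by
  have : NumberField L := { to_charZero := inferInstance, to_finiteDimensional := hL }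
  obtain ⟨φ, hφ⟩ : ∃ φ, φ = phiO (algebraMap L ℂ) := ⟨_, rfl⟩
  rw [← hφ] at hc hI
  have hφi : Function.Injective φ := hc.inj
  obtain ⟨C', hC'⟩ : ∃ C' : ((i : Fin k) × Fin (n i)) → (Mat r ℂ)ˣ,
      C' = fun p => SpecialLinearGroup.toGL (C p.1 p.2) := ⟨_, rfl⟩
  refine ⟨fun _ hX => hX.1, fun F hF X hX => ?_⟩
  rw [← evalG_toU]
  -- integral representations
  have key : ∀ y : FreeGroup (Gens g n) →* SpecialLinearGroup (Fin r) (𝓞 L),
      (∀ w ∈ FRel g n, y w = 1) →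
      (∀ p, IsConj (C' p) (slU φ (y (FreeGroup.of (Sum.inr p))))) →
      SS ((slU φ).comp y) → evalG ((slU φ).comp y) F = 0 := by
    intro y hy hyC hyS
    obtain ⟨Z, hZ⟩ : ∃ Z : Gens g n → SpecialLinearGroup (Fin r) (𝓞 L),
        ∀ p, Z p = y (FreeGroup.of p) := ⟨_, fun _ => rfl⟩
    obtain ⟨X', hX'⟩ : ∃ X' : Gens g n → SpecialLinearGroup (Fin r) ℂ,
        X' = fun p => SpecialLinearGroup.map (phiO (algebraMap L ℂ)) (Z p) := ⟨_, rfl⟩
    have h0 : FreeGroup.lift X' = (SpecialLinearGroup.map (phiO (algebraMap L ℂ))).comp y := by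
      apply FreeGroup.ext_hom
      intro p
      rw [FreeGroup.lift_apply_of, hX', MonoidHom.comp_apply, ← hZ]
    have h1 : (slU φ).comp y = toU X' := by
      rw [toU, h0, hφ]; rfl
    rw [h1, evalG_toU]
    refine hF _ ⟨⟨⟨?_, ?_⟩, fun i j => Statement.isConj_toGL _ _ ?_⟩, ?_⟩
    · rw [isRep_iff]
      intro w hw
      rw [h0, MonoidHom.comp_apply, hy w hw, map_one]
    · rw [← SS_toU, ← h1]; exact hyS
    · have := hyC ⟨i, j⟩
      rw [hC', ← MonoidHom.comp_apply, h1, toU_of] at this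
      exact this
    · rw [hX']; exact isIntegralRep_map Z
  rcases Nat.eq_zero_or_pos r with hr | hr
  · subst hr
    have h1 : toU X = (slU φ).comp 1 := by
      ext w i
      exact i.elim0
    rw [h1]
    refine key 1 (fun w _ => rfl) (fun p => ?_) ?_
    · have : C' p = slU φ ((1 : FreeGroup (Gens g n) →* SpecialLinearGroup (Fin 0) (𝓞 L))
          (FreeGroup.of (Sum.inr p))) := Units.ext (Subsingleton.elim _ _)
      rw [← this]
    · rw [← h1]; exact (SS_toU X).2 hX.1.2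
  · have hEig : ∀ p : Σ i, Fin (n i), Q p.1 p.2 r (C' p : Mat r ℂ) := by
      intro p
      rw [hC']
      exact hC p.1 p.2
    have hYG : toU X ∈ YG (FRel g n) C' := by
      refine ⟨fun w hw => ?_, fun p => ?_, (SS_toU X).2 hX.1.2⟩
      · rw [toU, MonoidHom.comp_apply, (isRep_iff X).1 hX.1.1 w hw, map_one]
      · rw [hC', toU_of]
        exact Statement.toGL_isConj _ _ (hX.2 p.1 p.2)
    obtain ⟨ζ, hζ⟩ := hc.root r hr le_rfl
      (Units.mk0 (Complex.exp (2 * Real.pi * Complex.I / r)) (Complex.exp_ne_zero _)) (by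
        have h1 : (Units.mk0 (Complex.exp (2 * Real.pi * Complex.I / r))
            (Complex.exp_ne_zero _)) ^ r = 1 := by
          ext1
          rw [Units.val_pow_eq_pow_val, Units.val_mk0, Units.val_one,
            (Complex.isPrimitiveRoot_exp r hr.ne').pow_eq_one]
        rw [h1]
        exact one_mem _)
    rw [Units.val_mk0] at hζ
    have hζp : IsPrimitiveRoot (φ ζ) r := by
      rw [hζ]
      exact Complex.isPrimitiveRoot_exp r hr.ne'
    refine unscaleG φ hφi ζ (hφi ?_) hζp hr (FRel g n) (FRel_charOK g n) C' ?_ F key (toU X) ?_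
      fun f' hf' => partIVQ φ E (Q := fun p : Σ i, Fin (n i) => Q p.1 p.2)
        (fun p => hQ p.1 p.2) hc.weak (FRel g n) (FRel_charOK g n)
        (FRel_irrDense3 φ E hc Q hQ hI) C' hEig (toU X) hYG f' hf'
    · rw [map_pow, map_one]
      exact hζp.pow_eq_one
    · intro p
      rw [hC']
      exact (C p.1 p.2).2
    · intro w
      rw [toU_coe]
      exact (FreeGroup.lift X w).2


/-- The allowed curves: positive genus, at most two punctures, rank at most three, one regular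
class, or all classes but one scalar plus rank one. -/
def OKCurve3 (g n r : ℕ) (C : Fin n → SpecialLinearGroup (Fin r) ℂ) : Prop :=
  1 ≤ g ∨ n ≤ 2 ∨ r ≤ 3 ∨ (∃ j, HasCyc r (C j).1) ∨ ∃ j₀, ∀ j, j ≠ j₀ → RO r (C j).1

/-- Low genus. -/
theorem low_irrDenseQ3 {g n r : ℕ} {R : Type} [CommRing R] (h01 : G01Irr) (hR : G0R) (φ : R →+* ℂ)
    (E : Subgroup ℂˣ) (hc : CoefOK φ E r)
    (hUP : ∀ (u : Rˣ) (D : R), D ≠ 0 → ∃ M : ℕ, 0 < M ∧ D ∣ (u : R) ^ M - 1)
    (C : Fin n → SpecialLinearGroup (Fin r) ℂ) (hg : OKCurve3 g n r C)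
    (h : ¬ OKCurve g n) (h1 : g = 1 → TorOK φ E r) :
    ∀ r' ≤ r, 0 < r' → IrrDenseQ (fun j => QD E (HasCyc r (C j).1) (RO r (C j).1))
      ({relatorU g n} : Set (FreeGroup ((Fin g × Bool) ⊕ Fin n))) φ r' := by
  have h4 : g = 0 ∨ g = 1 := by
    unfold OKCurve at h
    omega
  rcases h4 with rfl | rfl
  · have hn : 3 ≤ n := by
      unfold OKCurve at h
      omega
    intro r' hr' hr'0 C' hC' x hx hirr f hf
    refine g0_cases h01 hR (by omega) hr'0 φ E (hc.le_mono hr') hUP C' (fun j => (hC' j).1) ?_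
      x hx hirr f hf
    rcases hg with hg | hg | hg | ⟨j, hj⟩ | ⟨j₀, hj₀⟩
    · omega
    · omega
    · exact Or.inl (by omega)
    · exact Or.inr (Or.inl ⟨j, (hC' j).2.1 hj⟩)
    · exact Or.inr (Or.inr ⟨j₀, fun j hj => (hC' j).2.2 (hj₀ j hj)⟩)
  · refine g1_irrDenseAll (g02_of_g01 h01) ?_ φ E (h1 rfl) hc fun j r M hM => hM.1
    unfold OKCurve at h
    omega

/-- Density of the integral representations. -/
theorem density_E4 (h01 : G01Irr) (hR : G0R) (C : ∀ i, Fin (n i) → SpecialLinearGroup (Fin r) ℂ)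
    (E : Subgroup ℂˣ) (hC : ∀ i j, EigIn E ((C i j).1))
    (hg : ∀ i, OKCurve3 (g i) (n i) r (C i)) (L : IntermediateField ℚ ℂ)
    (hL : FiniteDimensional ℚ L) (hc : CoefOK (phiO (algebraMap L ℂ)) E r)
    (hT : (∀ i, g i = 1 → n i = 0) ∨ TorOK (phiO (algebraMap L ℂ)) E r) :
    IsZariskiDenseRep {X ∈ Y g C | IsIntegralRep L X} (Y g C) := by
  refine density_EQ3 C E (fun i j => QD E (HasCyc r (C i j).1) (RO r (C i j).1))
    (fun i j => classOK_QD E _ _) (fun i j => ⟨hC i j, id, id⟩) L hL hc fun i hi => ?_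
  refine low_irrDenseQ3 h01 hR _ E hc (hUP_field L hL) (C i) (hg i) hi fun h => ?_
  rcases hT with h1 | h1
  · exact absurd (Or.inr (Or.inl (h1 i h))) hi
  · exact h1

/-- Existence of the field. -/
theorem exists_density4 (h01 : G01Irr) (hR : G0R)
    (C : ∀ i, Fin (n i) → SpecialLinearGroup (Fin r) ℂ)
    (hC : ∀ i j z, IsEigenvalue (C i j) z → IsIntegral ℤ z ∧ IsIntegral ℤ z⁻¹)
    (hg : ∀ i, OKCurve3 (g i) (n i) r (C i)) :
    ∃ L : IntermediateField ℚ ℂ, FiniteDimensional ℚ L ∧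
      IsZariskiDenseRep {X ∈ Y g C | IsIntegralRep L X} (Y g C) := by
  have h0 : ∀ i j z, IsEigenvalue (C i j) z → z ≠ 0 := by
    rintro i j z hz rfl
    have h1 : (C i j).1.charpoly.eval 0 = 0 := hz
    rw [Matrix.eval_charpoly, map_zero, zero_sub, Matrix.det_neg, (C i j).2, mul_one] at h1
    exact pow_ne_zero _ (by norm_num) h1
  obtain ⟨S, hS⟩ : ∃ S : Set ℂˣ, S = {z : ℂˣ | ∃ i j, IsEigenvalue (C i j) (z : ℂ)} :=
    ⟨_, rfl⟩
  have hSf : S.Finite := by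
    have h1 : (⋃ p : (i : Fin k) × Fin (n i), {z : ℂ | (C p.1 p.2).1.charpoly.IsRoot z}).Finite :=
      Set.finite_iUnion fun p => Polynomial.finite_setOfPred_isRoot
        (Matrix.charpoly_monic _).ne_zero
    refine Set.Finite.of_injOn (f := fun z : ℂˣ => (z : ℂ)) ?_ (Units.val_injective.injOn) h1
    intro z hz
    rw [hS] at hz
    obtain ⟨i, j, hz⟩ := hz
    exact Set.mem_iUnion.2 ⟨⟨i, j⟩, hz⟩
  obtain ⟨L, hL, hc, hT⟩ := exists_tor_field S hSf (fun z hz => by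
    rw [hS] at hz
    obtain ⟨i, j, hz⟩ := hz
    rw [Units.val_inv_eq_inv_val]
    exact hC i j z hz) r
  refine ⟨L, hL, density_E4 h01 hR C _ (fun i j z hz => ?_) hg L hL hc (Or.inr hT)⟩
  refine ⟨Units.mk0 z (h0 i j z hz), Subgroup.subset_closure (Set.mem_insert_of_mem _ ?_), rfl⟩
  rw [hS]
  exact ⟨i, j, hz⟩

/-- Quasi-unipotent classes, explicit fields, no punctured torus. -/
theorem density_roots4 (h01 : G01Irr) (hR : G0R)
    (C : ∀ i, Fin (n i) → SpecialLinearGroup (Fin r) ℂ) (N : ℕ)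
    (hN : 0 < N) (hC : ∀ i j z, IsEigenvalue (C i j) z → z ^ N = 1)
    (hg : ∀ i, OKCurve3 (g i) (n i) r (C i)) (hg1 : ∀ i, g i = 1 → n i = 0)
    (L : IntermediateField ℚ ℂ) (hL : FiniteDimensional ℚ L)
    (hμ : ∀ z : ℂ, z ^ (2 * N * r.factorial) = 1 → z ∈ L) (hu : Infinite (𝓞 L)ˣ) :
    IsZariskiDenseRep {X ∈ Y g C | IsIntegralRep L X} (Y g C) :=
  density_E4 h01 hR C _ (fun i j => eigIn_roots (C i j) N hN (hC i j)) hg L hL
    (coefOK_roots N hN r L hL hμ hu) (Or.inl hg1)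

theorem okCurve3_of {g n r : ℕ} (C : Fin n → SpecialLinearGroup (Fin r) ℂ)
    (h : 1 ≤ g ∨ n ≤ 2 ∨ r ≤ 3 ∨ (∃ j, IsNonderogatory (C j)) ∨
      ∃ j₀, ∀ j, j ≠ j₀ → ∃ z : ℂ, ((C j).1 - z • 1).rank ≤ 1) : OKCurve3 g n r C := by
  refine h.imp_right (Or.imp_right (Or.imp_right (Or.imp_left fun h => ?_)))
  obtain ⟨j, hj⟩ := h
  exact ⟨j, hj.hasCyc⟩

/-- The main theorem, final form. -/
theorem main3 (h01 : G01Irr) (hR : G0R) (k : ℕ) (g n : Fin k → ℕ) (r : ℕ) :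
    (∃ L : IntermediateField ℚ ℂ, FiniteDimensional ℚ L ∧
      IsZariskiDense {X ∈ YNone g n r | IsIntegralPoint L X} (YNone g n r)) ∧
    ∀ C : (i : Fin k) → Fin (n i) → SpecialLinearGroup (Fin r) ℂ,
      (∀ i, 1 ≤ g i ∨ n i ≤ 2 ∨ r ≤ 3 ∨ (∃ j, IsNonderogatory (C i j)) ∨
        ∃ j₀, ∀ j, j ≠ j₀ → ∃ z : ℂ, ((C i j).1 - z • 1).rank ≤ 1) →
      ((∀ i j z, IsEigenvalue (C i j) z → IsIntegral ℤ z ∧ IsIntegral ℤ z⁻¹) →
        ∃ L : IntermediateField ℚ ℂ, FiniteDimensional ℚ L ∧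
          IsZariskiDense {X ∈ Y g C | IsIntegralPoint L X} (Y g C) ∧
          IsZariskiDenseRep {X ∈ Y g C | IsIntegralRep L X} (Y g C)) ∧
      ((∀ i, g i = 1 → n i = 0) →
        ∀ N : ℕ, 0 < N → (∀ i j z, IsEigenvalue (C i j) z → z ^ N = 1) →
        ∀ L : IntermediateField ℚ ℂ, FiniteDimensional ℚ L →
          (∀ z : ℂ, z ^ (2 * N * r.factorial) = 1 → z ∈ L) → Infinite (𝓞 L)ˣ →
          IsZariskiDenseRep {X ∈ Y g C | IsIntegralRep L X} (Y g C)) := by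
  refine ⟨?_, fun C hg => ?_⟩
  · obtain ⟨L, hL, h⟩ := none_density_prod g n r
    exact ⟨L, hL, h.isZariskiDense⟩
  · have hg' : ∀ i, OKCurve3 (g i) (n i) r (C i) := fun i => okCurve3_of (C i) (hg i)
    refine ⟨fun hC => ?_, fun hg1 N hN hC L hL hμ hu =>
      density_roots4 h01 hR C N hN hC hg' hg1 L hL hμ hu⟩
    obtain ⟨L, hL, h⟩ := exists_density4 h01 hR C hC hg'
    exact ⟨L, hL, h.isZariskiDense, h⟩

end Vale.Agent.P002R.Product
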