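import Vale.Agent.P002R.ZIrrQ
import Vale.Agent.P002R.RBaseE
import Vale.Agent.P002R.RUp
import Vale.Agent.P002R.Z2Scalar

/-!
# P002: free products of cyclic groups
-/

namespace Vale.Agent.P002R

open Matrix

variable {r : ℕ}

/-- The closure of a product of sets of matrices. -/
theorem multi_closure {K : Type} [Finite K] (A B : K → Set (Mat r ℂ))
    (hAB : ∀ k, ∀ P : MvPolynomial (Fin r × Fin r) ℂ,
      (∀ M ∈ A k, MvPolynomial.eval (fun p => M p.1 p.2) P = 0) →
      ∀ M ∈ B k, MvPolynomial.eval (fun p => M p.1 p.2) P = 0)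
    (f : MvPolynomial (K × Fin r × Fin r) ℂ)
    (hf : ∀ M : K → Mat r ℂ, (∀ k, M k ∈ A k) →
      MvPolynomial.eval (fun p => M p.1 p.2.1 p.2.2) f = 0)
    (M : K → Mat r ℂ) (hM : ∀ k, M k ∈ B k) :
    MvPolynomial.eval (fun p => M p.1 p.2.1 p.2.2) f = 0 := by
  classical
  cases nonempty_fintype K
  have key : ∀ (t : Finset K) (M : K → Mat r ℂ), (∀ k, k ∉ t → M k ∈ A k) →
      (∀ k ∈ t, M k ∈ B k) → MvPolynomial.eval (fun p => M p.1 p.2.1 p.2.2) f = 0 := by
    intro t
    induction t using Finset.induction_on with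
    | empty => exact fun M hM _ => hf M fun k => hM k (Finset.notMem_empty k)
    | insert a t ha ih =>
      intro M hMA hMB
      obtain ⟨Pa, hPa⟩ : ∃ Pa : MvPolynomial (Fin r × Fin r) ℂ, Pa =
        MvPolynomial.aeval (fun p : K × Fin r × Fin r =>
          if p.1 = a then MvPolynomial.X p.2 else MvPolynomial.C (M p.1 p.2.1 p.2.2)) f :=
        ⟨_, rfl⟩
      have h1 : ∀ N : Mat r ℂ, MvPolynomial.eval (fun p => N p.1 p.2) Pa =
          MvPolynomial.eval (fun p => (Function.update M a N) p.1 p.2.1 p.2.2) f := by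
        intro N
        rw [hPa]
        clear hPa ih hf
        induction f using MvPolynomial.induction_on with
        | C x => simp
        | add f g hf hg => simp only [map_add, hf, hg]
        | mul_X f p hf =>
          rw [map_mul, map_mul, map_mul, hf]
          congr 1
          rw [MvPolynomial.aeval_X, MvPolynomial.eval_X]
          by_cases hp : p.1 = a
          · rw [if_pos hp, MvPolynomial.eval_X, hp, Function.update_self]
          · rw [if_neg hp, MvPolynomial.eval_C, Function.update_of_ne hp]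
      have h2 := hAB a Pa (fun N hN => by
        rw [h1]
        refine ih _ (fun k hk => ?_) fun k hk => ?_
        · by_cases hka : k = a
          · rw [hka, Function.update_self]
            exact hN
          · rw [Function.update_of_ne hka]
            refine hMA k ?_
            rw [Finset.mem_insert]
            push Not
            exact ⟨hka, hk⟩
        · have hka : k ≠ a := fun h => ha (h ▸ hk)
          rw [Function.update_of_ne hka]
          exact hMB k (Finset.mem_insert_of_mem hk)) (M a) (hMB a (Finset.mem_insert_self a t))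
      rw [h1, Function.update_eq_self] at h2
      exact h2
  exact key Finset.univ M (fun k hk => absurd (Finset.mem_univ k) hk) fun k _ => hM k

/-- The closure of an integral conjugacy orbit. -/
theorem conj_closure (J : (Mat r ℂ)ˣ) (P : MvPolynomial (Fin r × Fin r) ℂ)
    (hP : ∀ Z : SpecialLinearGroup (Fin r) ℤ, MvPolynomial.eval
      (fun p => ((slU (Int.castRingHom ℂ) Z * J * (slU (Int.castRingHom ℂ) Z)⁻¹ : (Mat r ℂ)ˣ) :
        Mat r ℂ) p.1 p.2) P = 0) (U : (Mat r ℂ)ˣ) :
    MvPolynomial.eval (fun p => ((U * J * U⁻¹ : (Mat r ℂ)ˣ) : Mat r ℂ) p.1 p.2) P = 0 := by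
  obtain ⟨y₀, hy₀⟩ : ∃ y₀ : FreeGroup Unit →* (Mat r ℂ)ˣ, y₀ (FreeGroup.of ()) = J :=
    ⟨FreeGroup.lift fun _ => J, FreeGroup.lift_apply_of⟩
  have hev : ∀ y : FreeGroup Unit →* (Mat r ℂ)ˣ,
      evalG y (MvPolynomial.rename (fun p : Fin r × Fin r => ((() : Unit), p)) P) =
        MvPolynomial.eval (fun p => (y (FreeGroup.of ()) : Mat r ℂ) p.1 p.2) P := by
    intro y
    rw [evalG_eq_eval, MvPolynomial.eval_rename]
    rfl
  have h1 := conj_vanish_gen {y | ∃ Z : SpecialLinearGroup (Fin r) ℤ,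
      y = conjH (slU (Int.castRingHom ℂ) Z) y₀} (fun y hy X => ?_)
    (MvPolynomial.rename (fun p : Fin r × Fin r => ((() : Unit), p)) P) (fun y hy => ?_) y₀
    ⟨1, ?_⟩ U
  · rw [hev, conjH_apply, hy₀] at h1
    exact h1
  · obtain ⟨Z, rfl⟩ := hy
    refine ⟨X * Z, ?_⟩
    ext1 w
    rw [conjH_apply, conjH_apply, conjH_apply, map_mul]
    group
  · obtain ⟨Z, rfl⟩ := hy
    rw [hev, conjH_apply, hy₀]
    exact hP Z
  · ext1 w
    rw [conjH_apply, map_one]
    group

theorem exists_integral_form {R : Type*} [CommRing R] {φ : R →+* ℂ} {E : Subgroup ℂˣ}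
    (hc : CoefOK φ E r) (hr : 0 < r) (C : (Mat r ℂ)ˣ) (hC : EigIn E (C : Mat r ℂ)) :
    ∃ J : (Mat r ℂ)ˣ, IsConj C J ∧ J ∈ GR r φ := by
  obtain ⟨δ, -, h⟩ := exists_dataE φ hc hr C hC
  obtain ⟨J, -, hJ⟩ := h 1 1 (by rw [map_one]; exact one_ne_zero)
  refine ⟨PhiU φ J, hJ, ?_⟩
  obtain ⟨e, he, hed⟩ := (hC.conj hJ).det
  obtain ⟨c, hcc⟩ := exists_unit_root_of_mem hc hr (J : Mat r R).det e he (by
    rw [hed, PhiU_coe, RingHom.map_det]
    rfl)
  exact mem_GR_of φ _ (J : Mat r R) (PhiU_coe φ J) c hcc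

theorem slU_mem_GR_int {R : Type*} [CommRing R] (φ : R →+* ℂ) (Z : SpecialLinearGroup (Fin r) ℤ) :
    slU (Int.castRingHom ℂ) Z ∈ GR r φ := slU_int_mem_GR φ Z

theorem scalarU_mem_GR {R : Type*} [CommRing R] (φ : R →+* ℂ) (c : ℂˣ) :
    (scalarU c : (Mat r ℂ)ˣ) ∈ GR r φ := ⟨c, 1, by simp⟩

/-- Free products of cyclic groups: no relations, some generators in prescribed classes. -/
theorem freeClass_irrDenseQ {κ ι : Type} [Finite κ] [Finite ι] {R : Type*} [CommRing R]
    (φ : R →+* ℂ) (E : Subgroup ℂˣ) (hc : CoefOK φ E r) (hr : 0 < r)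
    {Q : ι → ∀ r : ℕ, Mat r ℂ → Prop} (hQ : ∀ j M, Q j r M → EigIn E M) :
    IrrDenseQ Q (∅ : Set (FreeGroup (κ ⊕ ι))) φ r := by
  intro C hC x hx hirr f hf
  have hadj := burnside_top x hx.2.2 hirr
  refine upgrade x hadj {y | (∀ j, IsConj (C j) (y (FreeGroup.of (Sum.inr j)))) ∧
    ∀ k, y (FreeGroup.of k) ∈ GR r φ} (fun f' hf' => ?_) f ?_
  · choose J hJ1 hJ2 using fun j => exists_integral_form hc hr (C j) (hQ j _ (hC j))
    rw [evalG_eq_eval]
    refine multi_closure (fun k => {M | ∃ u : (Mat r ℂ)ˣ, (u : Mat r ℂ) = M ∧ u ∈ GR r φ ∧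
        ∀ j, k = Sum.inr j → IsConj (C j) u})
      (fun k => {M | ∃ u : (Mat r ℂ)ˣ, (u : Mat r ℂ) = M ∧ ∀ j, k = Sum.inr j → IsConj (C j) u})
      ?_ f' ?_ (fun k => (x (FreeGroup.of k) : Mat r ℂ)) ?_
    · rintro (k | j) P hP M hM
      · obtain ⟨u, rfl, -⟩ := hM
        have h1 : P = 0 := by
          refine P002.scaledSL_dense P fun c X => ?_
          rw [← hP _ ⟨scalarU c * slU (Int.castRingHom ℂ) X, rfl,
            (GR r φ).mul_mem (scalarU_mem_GR φ c) (slU_int_mem_GR φ X), fun j hj => by simp at hj⟩]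
          congr 2
          funext p
          rw [scalarU_mul_coe]
          rfl
        rw [h1, map_zero]
      · obtain ⟨u, rfl, hu⟩ := hM
        obtain ⟨U, hU⟩ := isConj_iff.1 ((hJ1 j).symm.trans (hu j rfl))
        rw [← hU]
        refine conj_closure (J j) P (fun Z => ?_) U
        refine hP _ ⟨_, rfl, (GR r φ).mul_mem ((GR r φ).mul_mem (slU_int_mem_GR φ Z) (hJ2 j))
          ((GR r φ).inv_mem (slU_int_mem_GR φ Z)), fun j' hj' => ?_⟩
        have h1 : j' = j := (Sum.inr_injective hj').symm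
        subst h1
        exact (hJ1 j').trans (isConj_iff.2 ⟨_, rfl⟩)
    · intro M hM
      choose u hu1 hu2 hu3 using hM
      have h1 := hf' (FreeGroup.lift u) ⟨fun j => by
        rw [FreeGroup.lift_apply_of]
        exact hu3 _ j rfl, fun k => by
        rw [FreeGroup.lift_apply_of]
        exact hu2 k⟩
      rw [evalG_eq_eval] at h1
      rw [← h1]
      congr 2
      funext p
      rw [FreeGroup.lift_apply_of, hu1]
    · intro k
      exact ⟨x (FreeGroup.of k), rfl, fun j hj => by rw [hj]; exact hx.2.1 j⟩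
  · rintro y ⟨h1, h2⟩ h3
    exact hf y ⟨⟨⟨fun w hw => absurd hw (Set.notMem_empty w), h1, ss_of_adjoin y h3⟩, h2⟩, h3⟩

end Vale.Agent.P002R
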