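import Vale.Agent.P002R.YOrb1
import Vale.Agent.P002R.RNoneP

/-!
# P002: words for the generators of a factor, some points with a class, the others free
-/

namespace Vale.Agent.P002R.Orb

open Matrix

variable {g n : ℕ}

/-- The first kind of generators: the handles and all free points except `o`. -/
abbrev KO (g n : ℕ) (p : Fin n → Prop) (o : Option (Fin n)) :=
  (Fin g × Bool) ⊕ {j : Fin n // ¬ p j ∧ some j ≠ o}

/-- The second kind of generators: the points with a class. -/
abbrev IO (n : ℕ) (p : Fin n → Prop) := {j : Fin n // p j}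

open Classical in
/-- The generators of the points, with `1` at `o`. -/
noncomputable def baseO (g : ℕ) {n : ℕ} (p : Fin n → Prop) (o : Option (Fin n)) (j : Fin n) :
    FreeGroup (KO g n p o ⊕ IO n p) :=
  if h : p j then FreeGroup.of (Sum.inr ⟨j, h⟩)
  else if h' : some j ≠ o then FreeGroup.of (Sum.inl (Sum.inr ⟨j, h, h'⟩)) else 1

/-- The product of the commutators. -/
def comO (g : ℕ) {n : ℕ} (p : Fin n → Prop) (o : Option (Fin n)) :
    FreeGroup (KO g n p o ⊕ IO n p) :=
  (List.ofFn fun l : Fin g => (FreeGroup.of (Sum.inl (Sum.inl (l, false))) *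
    FreeGroup.of (Sum.inl (Sum.inl (l, true))) *
    (FreeGroup.of (Sum.inl (Sum.inl (l, false))))⁻¹ *
    (FreeGroup.of (Sum.inl (Sum.inl (l, true))))⁻¹ : FreeGroup (KO g n p o ⊕ IO n p))).prod

/-- The word of a point. -/
noncomputable def ptO (g : ℕ) {n : ℕ} (p : Fin n → Prop) (o : Option (Fin n)) (j : Fin n) :
    FreeGroup (KO g n p o ⊕ IO n p) :=
  if some j = o then (comO g p o * ((List.ofFn (baseO g p o)).take j).prod)⁻¹ *
    (((List.ofFn (baseO g p o)).drop (j + 1)).prod)⁻¹
  else baseO g p o j

/-- The word of a generator. -/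
noncomputable def wO (g : ℕ) {n : ℕ} (p : Fin n → Prop) (o : Option (Fin n)) :
    (Fin g × Bool) ⊕ Fin n → FreeGroup (KO g n p o ⊕ IO n p)
  | Sum.inl q => FreeGroup.of (Sum.inl (Sum.inl q))
  | Sum.inr j => ptO g p o j

/-- The relator, if all points have classes. -/
def relO (g : ℕ) {n : ℕ} (p : Fin n → Prop) (o : Option (Fin n)) :
    Set (FreeGroup (KO g n p o ⊕ IO n p)) :=
  {w | o = none ∧ w = comO g p o * (List.ofFn (baseO g p o)).prod}

/-- The surface relation. -/
def SurfR {H : Type*} [Group H] (X : (Fin g × Bool) ⊕ Fin n → H) : Prop :=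
  (List.ofFn fun l : Fin g => X (Sum.inl (l, false)) * X (Sum.inl (l, true)) *
    (X (Sum.inl (l, false)))⁻¹ * (X (Sum.inl (l, true)))⁻¹).prod *
      (List.ofFn fun j : Fin n => X (Sum.inr j)).prod = 1

theorem ofFn_split {H : Type*} [Monoid H] (f : Fin n → H) (j : Fin n) :
    (List.ofFn f).prod = ((List.ofFn f).take j).prod * (f j * ((List.ofFn f).drop (j + 1)).prod) := by
  conv_lhs => rw [← List.take_append_drop (j : ℕ) (List.ofFn f)]
  rw [List.prod_append]
  congr 1
  have h1 : (j : ℕ) < (List.ofFn f).length := by rw [List.length_ofFn]; exact j.2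
  rw [List.drop_eq_getElem_cons h1, List.prod_cons, List.getElem_ofFn]

theorem take_congr {H : Type*} {f f' : Fin n → H} (j : ℕ) (h : ∀ l : Fin n, (l : ℕ) < j → f l = f' l) :
    (List.ofFn f).take j = (List.ofFn f').take j := by
  apply List.ext_getElem
  · rw [List.length_take, List.length_take, List.length_ofFn, List.length_ofFn]
  · intro l h1 h2
    rw [List.getElem_take, List.getElem_take, List.getElem_ofFn, List.getElem_ofFn]
    apply h
    rw [List.length_take] at h1
    exact lt_of_lt_of_le h1 (min_le_left _ _)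

theorem drop_congr {H : Type*} {f f' : Fin n → H} (j : ℕ) (h : ∀ l : Fin n, j ≤ (l : ℕ) → f l = f' l) :
    (List.ofFn f).drop j = (List.ofFn f').drop j := by
  apply List.ext_getElem
  · rw [List.length_drop, List.length_drop, List.length_ofFn, List.length_ofFn]
  · intro l h1 h2
    rw [List.getElem_drop, List.getElem_drop, List.getElem_ofFn, List.getElem_ofFn]
    apply h
    exact Nat.le_add_right j l

theorem map_take_ofFn {H H' : Type*} [Monoid H] [Monoid H'] (φ : H →* H') (f : Fin n → H) (j : ℕ) :
    φ ((List.ofFn f).take j).prod = ((List.ofFn fun l => φ (f l)).take j).prod := by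
  rw [map_list_prod, List.map_take, List.map_ofFn]
  rfl

theorem map_drop_ofFn {H H' : Type*} [Monoid H] [Monoid H'] (φ : H →* H') (f : Fin n → H) (j : ℕ) :
    φ ((List.ofFn f).drop j).prod = ((List.ofFn fun l => φ (f l)).drop j).prod := by
  rw [map_list_prod, List.map_drop, List.map_ofFn]
  rfl

theorem map_comO {p : Fin n → Prop} {o : Option (Fin n)} {H : Type*} [Group H]
    (x : FreeGroup (KO g n p o ⊕ IO n p) →* H) :
    x (comO g p o) = (List.ofFn fun l : Fin g => x (wO g p o (Sum.inl (l, false))) *
      x (wO g p o (Sum.inl (l, true))) * (x (wO g p o (Sum.inl (l, false))))⁻¹ *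
      (x (wO g p o (Sum.inl (l, true))))⁻¹).prod := by
  unfold comO
  rw [map_list_prod, List.map_ofFn]
  congr 2
  funext l
  simp only [Function.comp, map_mul, map_inv]
  rfl

/-- From homomorphisms to tuples. -/
theorem surfR_of_hom {p : Fin n → Prop} {o : Option (Fin n)} {H : Type*} [Group H]
    (x : FreeGroup (KO g n p o ⊕ IO n p) →* H) (hx : ∀ w ∈ relO g p o, x w = 1) :
    SurfR fun q => x (wO g p o q) := by
  unfold SurfR
  rw [← map_comO]
  cases o with
  | none =>
    have h1 := hx _ ⟨rfl, rfl⟩
    rw [map_mul, map_list_prod, List.map_ofFn] at h1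
    rw [← h1]
    congr 3
  | some j₀ =>
    rw [ofFn_split _ j₀]
    have h1 : (List.ofFn fun j => x (wO g p (some j₀) (Sum.inr j))).take j₀ =
        (List.ofFn fun j => x (baseO g p (some j₀) j)).take j₀ := by
      refine take_congr _ fun l hl => ?_
      simp only [wO, ptO]
      rw [if_neg]
      intro h
      have := Option.some_injective _ h
      rw [this] at hl
      exact lt_irrefl _ hl
    have h2 : (List.ofFn fun j => x (wO g p (some j₀) (Sum.inr j))).drop (j₀ + 1) =
        (List.ofFn fun j => x (baseO g p (some j₀) j)).drop (j₀ + 1) := by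
      refine drop_congr _ fun l hl => ?_
      simp only [wO, ptO]
      rw [if_neg]
      intro h
      have := Option.some_injective _ h
      rw [this] at hl
      omega
    have h3 : x (wO g p (some j₀) (Sum.inr j₀)) = (x (comO g p (some j₀)) *
        ((List.ofFn fun j => x (baseO g p (some j₀) j)).take j₀).prod)⁻¹ *
        (((List.ofFn fun j => x (baseO g p (some j₀) j)).drop (j₀ + 1)).prod)⁻¹ := by
      simp only [wO, ptO, if_true]
      rw [map_mul, map_inv, map_inv, map_mul, map_take_ofFn, map_drop_ofFn]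
    have h4 : (fun q => x (wO g p (some j₀) q)) (Sum.inr j₀) = x (wO g p (some j₀) (Sum.inr j₀)) :=
      rfl
    rw [h1, h2, h4, h3]
    group

/-- From tuples to homomorphisms. -/
theorem hom_of_surfR {p : Fin n → Prop} {o : Option (Fin n)} (ho : ∀ j, some j = o → ¬ p j)
    (hn : o = none → ∀ j, p j) {H : Type*} [Group H] (X : (Fin g × Bool) ⊕ Fin n → H)
    (hX : SurfR X) : ∃ x : FreeGroup (KO g n p o ⊕ IO n p) →* H, (∀ w ∈ relO g p o, x w = 1) ∧
      ∀ q, x (wO g p o q) = X q := by
  obtain ⟨x, hx1, hx2, hx3⟩ : ∃ x : FreeGroup (KO g n p o ⊕ IO n p) →* H,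
      (∀ q, x (FreeGroup.of (Sum.inl (Sum.inl q))) = X (Sum.inl q)) ∧
      (∀ j : {j : Fin n // ¬ p j ∧ some j ≠ o}, x (FreeGroup.of (Sum.inl (Sum.inr j))) =
        X (Sum.inr j.1)) ∧ ∀ j : IO n p, x (FreeGroup.of (Sum.inr j)) = X (Sum.inr j.1) := by
    refine ⟨FreeGroup.lift (Sum.elim (Sum.elim (fun q => X (Sum.inl q)) fun j => X (Sum.inr j.1))
      fun j => X (Sum.inr j.1)), fun q => ?_, fun j => ?_, fun j => ?_⟩ <;>
    · rw [FreeGroup.lift_apply_of]
      rfl
  have hbase : ∀ j, some j ≠ o → x (baseO g p o j) = X (Sum.inr j) := by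
    intro j hj
    unfold baseO
    split_ifs with h
    · exact hx3 ⟨j, h⟩
    · exact hx2 ⟨j, h, hj⟩
  have hcom : x (comO g p o) = (List.ofFn fun l : Fin g => X (Sum.inl (l, false)) *
      X (Sum.inl (l, true)) * (X (Sum.inl (l, false)))⁻¹ * (X (Sum.inl (l, true)))⁻¹).prod := by
    rw [map_comO]
    simp only [wO, hx1]
  refine ⟨x, ?_, ?_⟩
  · rintro w ⟨h0, rfl⟩
    subst h0
    rw [map_mul, hcom, map_list_prod, List.map_ofFn]
    have h1 : (⇑x ∘ baseO g p none) = fun j => X (Sum.inr j) := by
      funext j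
      exact hbase j (by simp)
    rw [h1]
    exact hX
  · rintro (q | j)
    · exact hx1 q
    · simp only [wO, ptO]
      split_ifs with h
      · subst h
        rw [map_mul, map_inv, map_inv, map_mul, hcom, map_take_ofFn, map_drop_ofFn]
        have h1 : (List.ofFn fun l => x (baseO g p (some j) l)).take j =
            (List.ofFn fun l => X (Sum.inr l)).take j := by
          refine take_congr _ fun l hl => hbase l ?_
          intro h
          have := Option.some_injective _ h
          rw [this] at hl
          exact lt_irrefl _ hl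
        have h2 : (List.ofFn fun l => x (baseO g p (some j) l)).drop (j + 1) =
            (List.ofFn fun l => X (Sum.inr l)).drop (j + 1) := by
          refine drop_congr _ fun l hl => hbase l ?_
          intro h
          have := Option.some_injective _ h
          rw [this] at hl
          omega
        rw [h1, h2]
        have h3 := hX
        unfold SurfR at h3
        rw [ofFn_split _ j, ← mul_assoc, ← mul_assoc] at h3
        obtain ⟨a, ha⟩ : ∃ a, a = (List.ofFn fun l : Fin g => X (Sum.inl (l, false)) *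
          X (Sum.inl (l, true)) * (X (Sum.inl (l, false)))⁻¹ * (X (Sum.inl (l, true)))⁻¹).prod *
          ((List.ofFn fun l => X (Sum.inr l)).take j).prod := ⟨_, rfl⟩
        rw [← ha] at h3 ⊢
        rw [mul_eq_one_iff_eq_inv] at h3
        rw [← h3, inv_mul_cancel_left]
      · exact hbase j h

theorem wO_class {p : Fin n → Prop} {o : Option (Fin n)} (ho : ∀ j, some j = o → ¬ p j)
    (j : IO n p) : wO g p o (Sum.inr j.1) = FreeGroup.of (Sum.inr j) := by
  simp only [wO, ptO]
  rw [if_neg fun h => ho _ h j.2, baseO, dif_pos j.2]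

theorem exists_wO {p : Fin n → Prop} {o : Option (Fin n)} (ho : ∀ j, some j = o → ¬ p j)
    (q : KO g n p o ⊕ IO n p) : ∃ s, FreeGroup.of q = wO g p o s := by
  rcases q with (q | j) | j
  · exact ⟨Sum.inl q, rfl⟩
  · refine ⟨Sum.inr j.1, ?_⟩
    simp only [wO, ptO]
    rw [if_neg j.2.2, baseO, dif_neg j.2.1, dif_pos j.2.2]
  · exact ⟨Sum.inr j.1, (wO_class ho j).symm⟩

theorem relO_charOK {p : Fin n → Prop} {o : Option (Fin n)} (hn : o = none → ∀ j, p j) :
    CharOK (relO g p o) := by
  rintro w ⟨rfl, rfl⟩ A _ χ hχ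
  rw [map_mul, map_list_prod, List.map_ofFn, map_comO]
  have h1 : (⇑χ ∘ baseO g p none) = fun _ => 1 := by
    funext j
    simp only [Function.comp, baseO]
    rw [dif_pos (hn rfl j)]
    exact hχ _
  rw [h1]
  simp

end Vale.Agent.P002R.Orb
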