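import Vale.Agent.P002R.YOrb2
import Vale.Agent.P002R.YMain3

/-!
# P002: words for the generators of a product, some points with a class, the others free
-/

namespace Vale.Agent.P002R.Orb

open Matrix Product

variable {k r : ℕ} {g n : Fin k → ℕ}

/-- The generators of the product. -/
abbrev KM (g : Fin k → ℕ) {n : Fin k → ℕ} (p : ∀ i, Fin (n i) → Prop)
    (o : ∀ i, Option (Fin (n i))) :=
  (Σ i, KO (g i) (n i) (p i) (o i)) ⊕ (Σ i, IO (n i) (p i))

/-- The relators of the product. -/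
def relM (g : Fin k → ℕ) {n : Fin k → ℕ} (p : ∀ i, Fin (n i) → Prop)
    (o : ∀ i, Option (Fin (n i))) : Set (FreeGroup (KM g p o)) :=
  famRel fun i => relO (g i) (p i) (o i)

/-- Inclusion of a factor. -/
def incM (g : Fin k → ℕ) {n : Fin k → ℕ} (p : ∀ i, Fin (n i) → Prop)
    (o : ∀ i, Option (Fin (n i))) (i : Fin k) :
    FreeGroup (KO (g i) (n i) (p i) (o i) ⊕ IO (n i) (p i)) →* FreeGroup (KM g p o) :=
  FreeGroup.map (incS (κ := fun i => KO (g i) (n i) (p i) (o i)) (ι := fun i => IO (n i) (p i)) i)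

/-- The word of a generator. -/
noncomputable def wordM (g : Fin k → ℕ) {n : Fin k → ℕ} (p : ∀ i, Fin (n i) → Prop)
    (o : ∀ i, Option (Fin (n i))) : Gens g n → FreeGroup (KM g p o)
  | Sum.inl ⟨i, q⟩ => incM g p o i (wO (g i) (p i) (o i) (Sum.inl q))
  | Sum.inr ⟨i, j⟩ => incM g p o i (wO (g i) (p i) (o i) (Sum.inr j))

variable {p : ∀ i, Fin (n i) → Prop} {o : ∀ i, Option (Fin (n i))}

theorem wordM_mem (s : Gens g n) : ∃ w, wordM g p o s = incM g p o (factor s) w := by
  rcases s with ⟨i, q⟩ | ⟨i, j⟩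
  · exact ⟨_, rfl⟩
  · exact ⟨_, rfl⟩

/-- Different factors commute. -/
theorem commute_of_homM {H : Type*} [Group H] (x : FreeGroup (KM g p o) →* H)
    (hx : ∀ w ∈ relM g p o, x w = 1) {i j : Fin k} (hij : i ≠ j)
    (w : FreeGroup (KO (g i) (n i) (p i) (o i) ⊕ IO (n i) (p i)))
    (w' : FreeGroup (KO (g j) (n j) (p j) (o j) ⊕ IO (n j) (p j))) :
    Commute (x (incM g p o i w)) (x (incM g p o j w')) := by
  have h0 : ∀ s t, Commute (x (incM g p o i (FreeGroup.of s)))
      (x (incM g p o j (FreeGroup.of t))) := by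
    intro s t
    have := hx _ (Or.inr ⟨i, j, s, t, hij, rfl⟩)
    rw [map_mul, map_mul, map_mul, map_inv, map_inv, mul_inv_eq_one, mul_inv_eq_iff_eq_mul] at this
    exact this
  have step : ∀ {K : Type} (z : FreeGroup K →* H) (y : H), (∀ p, Commute y (z (FreeGroup.of p))) →
      ∀ w, Commute y (z w) := by
    intro K z y hy w
    have : (⊤ : Subgroup (FreeGroup K)) ≤ (Subgroup.centralizer {y}).comap z := by
      rw [← FreeGroup.closure_range_of, Subgroup.closure_le]
      rintro _ ⟨p, rfl⟩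
      rw [SetLike.mem_coe, Subgroup.mem_comap, Subgroup.mem_centralizer_singleton_iff]
      exact (hy p).symm
    have h := this (Subgroup.mem_top w)
    rw [Subgroup.mem_comap, Subgroup.mem_centralizer_singleton_iff] at h
    exact h.symm
  have h1 : ∀ q, Commute (x (incM g p o i w)) (x (incM g p o j (FreeGroup.of q))) := fun q =>
    (step (x.comp (incM g p o i)) _ (fun p => (h0 p q).symm) w).symm
  exact step (x.comp (incM g p o j)) _ h1 w'

theorem rel_of_homM {H : Type*} [Group H] (x : FreeGroup (KM g p o) →* H)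
    (hx : ∀ w ∈ relM g p o, x w = 1) : IsRepG (fun s : Gens g n => x (wordM g p o s)) := by
  constructor
  · intro i
    exact surfR_of_hom (x.comp (incM g p o i)) fun w hw => hx _ (Or.inl ⟨i, w, hw, rfl⟩)
  · intro s t hst
    obtain ⟨w, hw⟩ := wordM_mem (p := p) (o := o) s
    obtain ⟨w', hw'⟩ := wordM_mem (p := p) (o := o) t
    simp only
    rw [hw, hw']
    exact commute_of_homM x hx hst w w'

theorem hom_of_relM (ho : ∀ i j, some j = o i → ¬ p i j) (hn : ∀ i, o i = none → ∀ j, p i j)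
    {H : Type*} [Group H] (X : Gens g n → H) (hX : IsRepG X) :
    ∃ x : FreeGroup (KM g p o) →* H, (∀ w ∈ relM g p o, x w = 1) ∧
      ∀ s, x (wordM g p o s) = X s := by
  have h0 : ∀ i, ∃ x : FreeGroup (KO (g i) (n i) (p i) (o i) ⊕ IO (n i) (p i)) →* H,
      (∀ w ∈ relO (g i) (p i) (o i), x w = 1) ∧ ∀ q, x (wO (g i) (p i) (o i) q) =
        Sum.elim (fun q => X (Sum.inl ⟨i, q⟩)) (fun j => X (Sum.inr ⟨i, j⟩)) q := fun i =>
    hom_of_surfR (ho i) (hn i) (Sum.elim (fun q => X (Sum.inl ⟨i, q⟩)) fun j => X (Sum.inr ⟨i, j⟩))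
      (hX.1 i)
  choose x hx1 hx2 using h0
  obtain ⟨y, hy⟩ : ∃ y : FreeGroup (KM g p o) →* H, ∀ i, y.comp (incM g p o i) = x i := by
    refine ⟨FreeGroup.lift (Sum.elim (fun s => x s.1 (FreeGroup.of (Sum.inl s.2)))
      fun s => x s.1 (FreeGroup.of (Sum.inr s.2))), fun i => ?_⟩
    apply FreeGroup.ext_hom
    rintro (q | q)
    · rw [MonoidHom.comp_apply, incM, FreeGroup.map.of, FreeGroup.lift_apply_of]
      rfl
    · rw [MonoidHom.comp_apply, incM, FreeGroup.map.of, FreeGroup.lift_apply_of]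
      rfl
  have hy' : ∀ i w, y (incM g p o i w) = x i w := fun i w => by
    rw [← hy i, MonoidHom.comp_apply]
  have hword : ∀ s, y (wordM g p o s) = X s := by
    rintro (⟨i, q⟩ | ⟨i, j⟩)
    · exact (hy' i _).trans (hx2 i _)
    · exact (hy' i _).trans (hx2 i _)
  refine ⟨y, ?_, hword⟩
  rintro w (⟨i, v, hv, rfl⟩ | ⟨i, j, s, t, hij, rfl⟩)
  · exact (hy' i v).trans (hx1 i v hv)
  · have hgen : ∀ (i : Fin k) (s : KO (g i) (n i) (p i) (o i) ⊕ IO (n i) (p i)),
        ∃ q : Gens g n, factor q = i ∧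
        y (FreeGroup.of (incS (κ := fun i => KO (g i) (n i) (p i) (o i))
          (ι := fun i => IO (n i) (p i)) i s)) = X q := by
      intro i s
      have h1 : y (FreeGroup.of (incS (κ := fun i => KO (g i) (n i) (p i) (o i))
          (ι := fun i => IO (n i) (p i)) i s)) = x i (FreeGroup.of s) := by
        rw [← hy' i, incM, FreeGroup.map.of]
      obtain ⟨q, hq⟩ := exists_wO (g := g i) (ho i) s
      rw [h1, hq, hx2]
      rcases q with q | j
      · exact ⟨Sum.inl ⟨i, q⟩, rfl, rfl⟩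
      · exact ⟨Sum.inr ⟨i, j⟩, rfl, rfl⟩
    obtain ⟨s', hs, hs'⟩ := hgen i s
    obtain ⟨t', ht, ht'⟩ := hgen j t
    rw [map_mul, map_mul, map_mul, map_inv, map_inv, mul_inv_eq_one, mul_inv_eq_iff_eq_mul,
      hs', ht']
    exact hX.2 s' t' (by rw [hs, ht]; exact hij)

/-- Pull back of a function to the tuples of generators. -/
theorem exists_pullbackW {K : Type} (W : Gens g n → FreeGroup K)
    (F : MvPolynomial (Gens g n × Fin r × Fin r) ℂ) :
    ∃ f : MvPolynomial (K × Fin r × Fin r) ℂ,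
      ∀ x : FreeGroup K →* SpecialLinearGroup (Fin r) ℂ,
        evalG (SpecialLinearGroup.toGL.comp x) f = value F fun p => x (W p) := by
  choose M hM using fun p : Gens g n => exists_word_matrix r (W p)
  refine ⟨MvPolynomial.aeval (fun p => M p.1 p.2.1 p.2.2) F, fun x => ?_⟩
  have h : (evalG (SpecialLinearGroup.toGL.comp x)).comp
      (MvPolynomial.aeval (R := ℂ) (fun p : Gens g n × Fin r × Fin r => M p.1 p.2.1 p.2.2)) =
      MvPolynomial.aeval (fun p : Gens g n × Fin r × Fin r => (x (W p.1)).1 p.2.1 p.2.2) := by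
    apply MvPolynomial.algHom_ext
    intro p
    rw [AlgHom.comp_apply, MvPolynomial.aeval_X, MvPolynomial.aeval_X, ← hM p.1 x]
    rfl
  exact DFunLike.congr_fun h F

theorem stable_iff_homW {K : Type} (W : Gens g n → FreeGroup K)
    (hW : ∀ p, ∃ q, FreeGroup.of p = W q) (x : FreeGroup K →* SpecialLinearGroup (Fin r) ℂ)
    (V : Submodule ℂ (Fin r → ℂ)) :
    (∀ w, ∀ v ∈ V, ((SpecialLinearGroup.toGL.comp x) w : Mat r ℂ) *ᵥ v ∈ V) ↔
      IsInvSubspace (fun p : Gens g n => x (W p)) V := by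
  constructor
  · intro h p
    exact h (W p)
  · intro h w
    obtain ⟨H, hH⟩ : ∃ H : Subgroup (Mat r ℂ)ˣ, ∀ M, M ∈ H ↔
        ∀ v ∈ V, (M : Mat r ℂ) *ᵥ v ∈ V :=
      ⟨{ carrier := {M | ∀ v ∈ V, (M : Mat r ℂ) *ᵥ v ∈ V}
         mul_mem' := fun {a b} ha hb v hv => by
          rw [Units.val_mul, ← Matrix.mulVec_mulVec]
          exact ha _ (hb _ hv)
         one_mem' := fun v hv => by
          rw [Units.val_one, Matrix.one_mulVec]
          exact hv
         inv_mem' := fun {a} ha => Statement.inv_stable a V ha }, fun M => Iff.rfl⟩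
    have h1 : (⊤ : Subgroup (FreeGroup K)) ≤ H.comap (SpecialLinearGroup.toGL.comp x) := by
      rw [← FreeGroup.closure_range_of, Subgroup.closure_le]
      rintro _ ⟨p, rfl⟩
      rw [SetLike.mem_coe, Subgroup.mem_comap, hH]
      obtain ⟨q, hq⟩ := hW p
      intro v hv
      have := h q v hv
      simp only at this
      rw [← hq] at this
      exact this
    exact (hH _).1 (h1 (Subgroup.mem_top w))

theorem SS_iff_homW {K : Type} (W : Gens g n → FreeGroup K)
    (hW : ∀ p, ∃ q, FreeGroup.of p = W q) (x : FreeGroup K →* SpecialLinearGroup (Fin r) ℂ) :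
    SS (SpecialLinearGroup.toGL.comp x) ↔ ∀ V : Submodule ℂ (Fin r → ℂ),
      IsInvSubspace (fun p : Gens g n => x (W p)) V → ∃ V' : Submodule ℂ (Fin r → ℂ),
        IsInvSubspace (fun p : Gens g n => x (W p)) V' ∧ IsCompl V V' := by
  have h := stable_iff_homW W hW x
  unfold SS
  simp only [h]

theorem of_eq_wordM (ho : ∀ i j, some j = o i → ¬ p i j) (s : KM g p o) :
    ∃ q : Gens g n, FreeGroup.of s = wordM g p o q := by
  have h : ∀ (i : Fin k) (s : KO (g i) (n i) (p i) (o i) ⊕ IO (n i) (p i)),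
      ∃ q : Gens g n, FreeGroup.of (incS (κ := fun i => KO (g i) (n i) (p i) (o i))
          (ι := fun i => IO (n i) (p i)) i s) = wordM g p o q := by
    intro i s
    obtain ⟨q, hq⟩ := exists_wO (g := g i) (ho i) s
    have h1 : FreeGroup.of (incS (κ := fun i => KO (g i) (n i) (p i) (o i))
          (ι := fun i => IO (n i) (p i)) i s) = incM g p o i (FreeGroup.of s) := by
      rw [incM, FreeGroup.map.of]
    rw [h1, hq]
    rcases q with q | j
    · exact ⟨Sum.inl ⟨i, q⟩, rfl⟩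
    · exact ⟨Sum.inr ⟨i, j⟩, rfl⟩
  rcases s with ⟨i, s⟩ | ⟨i, s⟩
  · exact h i (Sum.inl s)
  · exact h i (Sum.inr s)

theorem relM_charOK (hn : ∀ i, o i = none → ∀ j, p i j) : CharOK (relM g p o) :=
  famRel_charOK _ fun i => relO_charOK (hn i)

/-- The word of a point with a class. -/
theorem wordM_class (ho : ∀ i j, some j = o i → ¬ p i j) (i : Fin k) (j : IO (n i) (p i)) :
    wordM g p o (Sum.inr ⟨i, j.1⟩) = FreeGroup.of (Sum.inr ⟨i, j⟩) := by
  simp only [wordM]
  rw [wO_class (ho i), incM, FreeGroup.map.of]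
  rfl

end Vale.Agent.P002R.Orb
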