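import Vale.Agent.P002R.YOrb3

/-!
# P002: density for products of curves, some points with a class, the others free
-/

namespace Vale.Agent.P002R.Orb

open Matrix NumberField Product Vale.Agent.P002L

/-- The irreducible representations of a factor. -/
theorem relO_irrDenseQ {g n : ℕ} {p : Fin n → Prop} {o : Option (Fin n)}
    (hn : o = none → ∀ j, p j) {R : Type} [CommRing R] (φ : R →+* ℂ) (E : Subgroup ℂˣ) {r : ℕ}
    (hc : CoefOK φ E r) (Q : Fin n → ∀ r : ℕ, Mat r ℂ → Prop) (hQ : ∀ j, ClassOK E (Q j))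
    (h : o = none → ∀ r' ≤ r, 0 < r' →
      IrrDenseQ Q ({relatorU g n} : Set (FreeGroup ((Fin g × Bool) ⊕ Fin n))) φ r') :
    ∀ r' ≤ r, 0 < r' → IrrDenseQ (fun j : IO n p => Q j.1) (relO g p o) φ r' := by
  intro r' hr' hr'0
  cases o with
  | some j₀ =>
    have h1 : relO g p (some j₀) = ∅ := by
      ext w
      simp [relO]
    rw [h1]
    exact freeClass_irrDenseQ φ E (hc.le_mono hr') hr'0 fun j M hM => (hQ j.1).eig hM
  | none =>
    have hp := hn rfl
    have hE : IsEmpty {j : Fin n // ¬ p j ∧ some j ≠ none} := ⟨fun j => j.2.1 (hp _)⟩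
    obtain ⟨e₁, he₁⟩ : ∃ e₁ : Fin g × Bool ≃ KO g n p none,
        ∀ q, e₁ q = Sum.inl q := ⟨(Equiv.sumEmpty _ _).symm, fun q => rfl⟩
    obtain ⟨e₂, he₂⟩ : ∃ e₂ : Fin n ≃ IO n p, ∀ j, e₂ j = ⟨j, hp j⟩ :=
      ⟨(Equiv.subtypeUnivEquiv hp).symm, fun q => rfl⟩
    refine IrrDenseQ.congr e₁ e₂ (fun j M hM => ?_) _ _ ?_ (h rfl r' hr' hr'0)
    · have h1 : (e₂.symm j) = j.1 := by
        rw [Equiv.symm_apply_eq, he₂]
      rw [h1]
      exact hM
    intro y
    have h1 : renE e₁.symm e₂.symm (comO g p none) = (List.ofFn fun i : Fin g =>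
        (FreeGroup.of (Sum.inl (i, false)) * FreeGroup.of (Sum.inl (i, true)) *
        (FreeGroup.of (Sum.inl (i, false)))⁻¹ * (FreeGroup.of (Sum.inl (i, true)))⁻¹ :
          FU g n)).prod := by
      have h2 : ∀ q, renE e₁.symm e₂.symm (FreeGroup.of (Sum.inl (Sum.inl q)) :
          FreeGroup (KO g n p none ⊕ IO n p)) = (FreeGroup.of (Sum.inl q) : FU g n) := by
        intro q
        rw [renE_inl, ← he₁, Equiv.symm_apply_apply]
      unfold comO
      rw [map_list_prod, List.map_ofFn]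
      simp only [Function.comp_def, map_mul, map_inv, h2]
    have h2 : renE e₁.symm e₂.symm (List.ofFn (baseO g p none)).prod =
        (List.ofFn fun j : Fin n => (FreeGroup.of (Sum.inr j) : FU g n)).prod := by
      rw [map_list_prod, List.map_ofFn]
      congr 2
      funext j
      rw [Function.comp_apply, baseO, dif_pos (hp j), renE_inr, ← he₂, Equiv.symm_apply_apply]
    have h3 : y (renE e₁.symm e₂.symm (comO g p none * (List.ofFn (baseO g p none)).prod)) = 1 ↔
        y (relatorU g n) = 1 := by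
      rw [map_mul, h1, h2, relatorU, map_mul, map_mul]
      exact ⟨fun h => mul_eq_one_comm.1 h, fun h => mul_eq_one_comm.1 h⟩
    constructor
    · rintro hy w ⟨-, rfl⟩
      exact h3.2 (hy _ rfl)
    · rintro hy w hw
      rw [Set.mem_singleton_iff.1 hw]
      exact h3.1 (hy _ ⟨rfl, rfl⟩)

variable {k r : ℕ} {g n : Fin k → ℕ}

/-- Density, some points with a class, the others free. -/
theorem density_mixed (C : ∀ i, Fin (n i) → SpecialLinearGroup (Fin r) ℂ)
    (p : ∀ i, Fin (n i) → Prop) (E : Subgroup ℂˣ)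
    (Q : ∀ i, Fin (n i) → ∀ r : ℕ, Mat r ℂ → Prop) (hQ : ∀ i j, ClassOK E (Q i j))
    (hC : ∀ i j, p i j → Q i j r ((C i j).1))
    (L : IntermediateField ℚ ℂ) (hL : FiniteDimensional ℚ L)
    (hc : CoefOK (phiO (algebraMap L ℂ)) E r)
    (hI : ∀ i, (∀ j, p i j) → ∀ r' ≤ r, 0 < r' →
      IrrDenseQ (fun j => Q i j)
        ({relatorU (g i) (n i)} : Set (FreeGroup ((Fin (g i) × Bool) ⊕ Fin (n i))))
        (phiO (algebraMap L ℂ)) r')
    (F : MvPolynomial (Gens g n × Fin r × Fin r) ℂ)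
    (hF : ∀ X ∈ YNone g n r, (∀ i j, p i j → IsConj (C i j) (X (Sum.inr ⟨i, j⟩))) →
      IsIntegralRep L X → value F X = 0)
    (X : Gens g n → SpecialLinearGroup (Fin r) ℂ) (hX : X ∈ YNone g n r)
    (hXC : ∀ i j, p i j → IsConj (C i j) (X (Sum.inr ⟨i, j⟩))) : value F X = 0 := by
  rcases Nat.eq_zero_or_pos r with hr | hr
  · subst hr
    exact hF X hX hXC fun p i => i.elim0
  obtain ⟨φ, hφ⟩ : ∃ φ, φ = phiO (algebraMap L ℂ) := ⟨_, rfl⟩
  rw [← hφ] at hc hI
  obtain ⟨ζ, hζ⟩ := hc.root r hr le_rfl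
    (Units.mk0 (Complex.exp (2 * Real.pi * Complex.I / r)) (Complex.exp_ne_zero _)) (by
      have h1 : (Units.mk0 (Complex.exp (2 * Real.pi * Complex.I / r)) (Complex.exp_ne_zero _)) ^ r
          = 1 := by
        apply Units.ext
        rw [Units.val_pow_eq_pow_val, Units.val_mk0,
          (Complex.isPrimitiveRoot_exp r hr.ne').pow_eq_one, Units.val_one]
      rw [h1]
      exact one_mem _)
  rw [Units.val_mk0] at hζ
  have hζp : IsPrimitiveRoot (φ ζ) r := by
    rw [hζ]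
    exact Complex.isPrimitiveRoot_exp r hr.ne'
  -- the point which is eliminated
  obtain ⟨o, ho, hn⟩ : ∃ o : ∀ i, Option (Fin (n i)), (∀ i j, some j = o i → ¬ p i j) ∧
      ∀ i, o i = none → ∀ j, p i j := by
    classical
    refine ⟨fun i => if h : ∃ j, ¬ p i j then some h.choose else none, fun i j hj => ?_,
      fun i hi j => ?_⟩
    · simp only at hj
      split_ifs at hj with h
      rw [Option.some_injective _ hj]
      exact h.choose_spec
    · simp only at hi
      split_ifs at hi with h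
      push Not at h
      exact h j
  obtain ⟨x, hx1, hx2⟩ := hom_of_relM ho hn X hX.1
  have hX' : (fun s : Gens g n => x (wordM g p o s)) = X := funext hx2
  obtain ⟨f, hf⟩ := exists_pullbackW (wordM g p o) F
  have hchar : CharOK (relM g p o) := relM_charOK hn
  have hirr : ∀ r' ≤ r, 0 < r' →
      IrrDenseQ (fun s : Σ i, IO (n i) (p i) => Q s.1 s.2.1) (relM g p o) φ r' :=
    fam_irrDenseQ φ E r k (fun i => KO (g i) (n i) (p i) (o i)) (fun i => IO (n i) (p i))
      (fun i j => Q i j.1) (fun i j => hQ i j.1) (fun i => relO (g i) (p i) (o i)) fun i =>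
      relO_irrDenseQ (hn i) φ E hc (Q i) (hQ i) fun h => hI i (hn i h)
  obtain ⟨C', hC'⟩ : ∃ C' : (Σ i, IO (n i) (p i)) → (Mat r ℂ)ˣ,
      C' = fun s => SpecialLinearGroup.toGL (C s.1 s.2.1) := ⟨_, rfl⟩
  have hC'Q : ∀ s : Σ i, IO (n i) (p i), Q s.1 s.2.1 r (C' s : Mat r ℂ) := by
    intro s
    rw [hC']
    exact hC s.1 s.2.1 s.2.2
  have hxY : SpecialLinearGroup.toGL.comp x ∈ YG (relM g p o) C' := by
    refine ⟨fun w hw => ?_, ?_, ?_⟩
    · rw [MonoidHom.comp_apply, hx1 w hw, map_one]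
    · rintro ⟨i, j⟩
      rw [hC', MonoidHom.comp_apply, ← wordM_class (g := g) ho i j, hx2]
      exact Statement.toGL_isConj _ _ (hXC i j.1 j.2)
    · rw [SS_iff_homW (wordM g p o) (of_eq_wordM ho), hX']
      exact hX.2
  rw [← hX', ← hf x]
  refine unscaleG φ hc.inj ζ (hc.inj ?_) hζp hr (relM g p o) hchar C' (fun s => ?_) f ?_
    (SpecialLinearGroup.toGL.comp x) (fun w => (x w).2) (fun f' hf' => partIVQ φ E
      (Q := fun s : Σ i, IO (n i) (p i) => Q s.1 s.2.1) (fun s => hQ s.1 s.2.1) hc.weak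
      (relM g p o) hchar hirr C' hC'Q _ hxY f' hf')
  · rw [map_pow, map_one]
    exact hζp.pow_eq_one
  · rw [hC']
    exact (C s.1 s.2.1).2
  · intro y hy hyC hyS
    obtain ⟨z, hz⟩ : ∃ z : FreeGroup (KM g p o) →* SpecialLinearGroup (Fin r) ℂ,
        z = (SpecialLinearGroup.map φ).comp y := ⟨_, rfl⟩
    have h1 : (slU φ).comp y = SpecialLinearGroup.toGL.comp z := by rw [hz]; rfl
    rw [h1, hf z]
    rw [h1, SS_iff_homW (wordM g p o) (of_eq_wordM ho)] at hyS
    refine hF _ ⟨rel_of_homM z fun w hw => ?_, hyS⟩ (fun i j hij => ?_) fun p i j => ?_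
    · rw [hz, MonoidHom.comp_apply, hy w hw, map_one]
    · have h2 := hyC ⟨i, ⟨j, hij⟩⟩
      have h3 : slU φ (y (FreeGroup.of (Sum.inr ⟨i, ⟨j, hij⟩⟩))) =
          SpecialLinearGroup.toGL (z (wordM g p o (Sum.inr ⟨i, j⟩))) := by
        rw [wordM_class (g := g) ho i ⟨j, hij⟩, hz]
        rfl
      rw [h3, hC'] at h2
      exact Statement.isConj_toGL _ _ h2
    · refine ⟨(y (wordM g _ o p)).1 i j, ?_⟩
      rw [hz, hφ]
      rfl

end Vale.Agent.P002R.Orb
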