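import Mathlib

/-!
# Statement of the density theorem for products of orbifold curves: definitions
-/

namespace Vale.Agent.P002R.Orbifold

open Matrix NumberField

variable {k r : ℕ} {g n : Fin k → ℕ}

/-- Generators of `Γ = Γ_1 × ... × Γ_k`, where `Γ_i` is the fundamental group of a smooth complex
curve of genus `g i` with `n i` special points, punctures (`m i j = 0`) or orbifold points of
order `m i j > 0`: `inl ⟨i, l, false⟩ = a_{i,l}`, `inl ⟨i, l, true⟩ = b_{i,l}` for `l < g i`, and
`inr ⟨i, j⟩ = c_{i,j}`, the loop around the `j`-th special point of the `i`-th curve. If all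
`m i j` are `0`, then `Γ` is the fundamental group of a product of curves. -/
abbrev Gens (g n : Fin k → ℕ) := ((i : Fin k) × (Fin (g i) × Bool)) ⊕ ((i : Fin k) × Fin (n i))

/-- The factor to which a generator belongs. -/
def factor : Gens g n → Fin k := Sum.elim Sigma.fst Sigma.fst

/-- `Rep_r(Γ)(A)`: tuples in `SL_r(A)` such that `∏ [A_{i,l}, B_{i,l}] * ∏ C_{i,j} = 1` for all
`i`, `C_{i,j} ^ m_{i,j} = 1`, and matrices which belong to different factors commute, that is,
representations of `Γ = ∏ Γ_i`,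
`Γ_i = ⟨a_{i,l}, b_{i,l}, c_{i,j} | ∏ [a_{i,l}, b_{i,l}] * ∏ c_{i,j}, c_{i,j} ^ m_{i,j}⟩`. -/
def IsRep (m : ∀ i, Fin (n i) → ℕ) {A : Type*} [CommRing A]
    (X : Gens g n → SpecialLinearGroup (Fin r) A) : Prop :=
  (∀ i, (List.ofFn fun l : Fin (g i) => X (Sum.inl ⟨i, l, false⟩) * X (Sum.inl ⟨i, l, true⟩) *
    (X (Sum.inl ⟨i, l, false⟩))⁻¹ * (X (Sum.inl ⟨i, l, true⟩))⁻¹).prod *
      (List.ofFn fun j : Fin (n i) => X (Sum.inr ⟨i, j⟩)).prod = 1) ∧
  (∀ i j, X (Sum.inr ⟨i, j⟩) ^ m i j = 1) ∧
  ∀ p q : Gens g n, factor p ≠ factor q → X p * X q = X q * X p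

/-- The value of a polynomial in the matrix entries of the generators. -/
noncomputable def value {S A : Type*} [CommRing S] [CommRing A] [Algebra S A]
    (F : MvPolynomial (Gens g n × Fin r × Fin r) S)
    (X : Gens g n → SpecialLinearGroup (Fin r) A) : A :=
  MvPolynomial.eval₂ (algebraMap S A) (fun p => (X p.1).1 p.2.1 p.2.2) F

/-- `F` defines an element of `𝒪(Rep_r)^{SL_r}` over `S`: a function on the scheme of
representations (over `S`) which is invariant under conjugation by the group scheme `SL_r`. -/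
def IsInvariant (m : ∀ i, Fin (n i) → ℕ) {S : Type} [CommRing S]
    (F : MvPolynomial (Gens g n × Fin r × Fin r) S) : Prop :=
  ∀ (A : Type) [CommRing A] [Algebra S A] (X : Gens g n → SpecialLinearGroup (Fin r) A)
    (P : SpecialLinearGroup (Fin r) A), IsRep m X → value F (fun p => P * X p * P⁻¹) = value F X

/-- Tuples of matrices in `SL_r(ℂ)`. -/
abbrev Tup (g n : Fin k → ℕ) (r : ℕ) := Gens g n → SpecialLinearGroup (Fin r) ℂ

/-- `W` is an invariant subspace. -/
def IsInvSubspace (X : Tup g n r) (W : Submodule ℂ (Fin r → ℂ)) : Prop :=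
  ∀ p, ∀ v ∈ W, (X p).1 *ᵥ v ∈ W

/-- The points of `M_r(Γ)(ℂ)`, represented by the semisimple representations: every invariant
subspace has an invariant complement. -/
def YNone (g n : Fin k → ℕ) (m : ∀ i, Fin (n i) → ℕ) (r : ℕ) : Set (Tup g n r) :=
  {X | IsRep m X ∧ ∀ W, IsInvSubspace X W → ∃ W', IsInvSubspace X W' ∧ IsCompl W W'}

/-- The points of `Y`: those with `ρ(c_{i,j})` in the conjugacy class of `C i j`, for all
punctures. -/
def Y (g : Fin k → ℕ) (m : ∀ i, Fin (n i) → ℕ)
    (C : ∀ i, Fin (n i) → SpecialLinearGroup (Fin r) ℂ) : Set (Tup g n r) :=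
  {X | X ∈ YNone g n m r ∧ ∀ i j, m i j = 0 → IsConj (C i j) (X (Sum.inr ⟨i, j⟩))}

/-- `z` is an eigenvalue of `M`. -/
def IsEigenvalue (M : SpecialLinearGroup (Fin r) ℂ) (z : ℂ) : Prop := M.1.charpoly.IsRoot z

/-- `M` is nonderogatory: it has a cyclic vector, that is, it has only one Jordan block
for each eigenvalue. -/
def IsNonderogatory (M : SpecialLinearGroup (Fin r) ℂ) : Prop :=
  ∃ v : Fin r → ℂ, LinearIndependent ℂ fun i : Fin r => (M.1 ^ (i : ℕ)) *ᵥ v

/-- The `𝓞 L`-integral points of `M_r(Γ)(ℂ)`: all conjugation-invariant functions defined over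
`ℤ` take values in `𝓞 L`. -/
def IsIntegralPoint (m : ∀ i, Fin (n i) → ℕ) (L : IntermediateField ℚ ℂ) (X : Tup g n r) :
    Prop :=
  ∀ F : MvPolynomial (Gens g n × Fin r × Fin r) ℤ, IsInvariant m F → ∃ a : 𝓞 L, value F X = a.1.1

/-- All matrices have entries in `𝓞 L`, that is, `X` comes from a representation into
`SL_r(𝓞 L)`. -/
def IsIntegralRep (L : IntermediateField ℚ ℂ) (X : Tup g n r) : Prop :=
  ∀ p i j, ∃ a : 𝓞 L, (X p).1 i j = a.1.1

/-- The classes of the elements of `T` with property `P` are Zariski dense in the image of `T` in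
`M_r(Γ)(ℂ)`: every invariant function that vanishes on them vanishes on `T`. -/
def IsZariskiDense (m : ∀ i, Fin (n i) → ℕ) (P : Tup g n r → Prop) (T : Set (Tup g n r)) : Prop :=
  ∀ F : MvPolynomial (Gens g n × Fin r × Fin r) ℂ, IsInvariant m F →
    (∀ X ∈ T, P X → value F X = 0) → ∀ X ∈ T, value F X = 0

/-- The elements of `T` with property `P` are Zariski dense in `T`, as a set of points of the
representation variety. -/
def IsZariskiDenseRep (P : Tup g n r → Prop) (T : Set (Tup g n r)) : Prop :=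
  ∀ F : MvPolynomial (Gens g n × Fin r × Fin r) ℂ,
    (∀ X ∈ T, P X → value F X = 0) → ∀ X ∈ T, value F X = 0

end Vale.Agent.P002R.Orbifold
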