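import Vale.Agent.P002R.RFreeE
import Vale.Agent.P002R.RReducibleG
import Vale.Agent.P002R.RProd
import Vale.Agent.P002.JordanForm

/-!
# Free products of a free group and of groups with prescribed classes of the generators
-/

namespace Vale.Agent.P002R

open Matrix

/-- Every class with eigenvalues in `E` contains a matrix which is integral up to a scalar. -/
theorem exists_int_class {R : Type*} [CommRing R] (φ : R →+* ℂ) (E : Subgroup ℂˣ) {r : ℕ}
    (hr : 0 < r) (hc : CoefOK φ E r) (C : (Mat r ℂ)ˣ) (hC : EigIn E (C : Mat r ℂ)) :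
    ∃ (c : ℂˣ) (Z : SpecialLinearGroup (Fin r) R), IsConj C (scalarU c * slU φ Z) := by
  obtain ⟨d, ν, -, h2, h3, h4⟩ := P002.exists_jordan (C : Mat r ℂ)
  have hd : ∀ i, ∃ e ∈ E, (e : ℂ) = d i := by
    intro i
    apply hC
    rw [h3, Polynomial.IsRoot.def, Polynomial.eval_prod]
    apply Finset.prod_eq_zero (Finset.mem_univ i)
    simp
  choose e heE he using hd
  obtain ⟨δ, hδ⟩ : ∃ δ : ℂˣ, δ = ∏ i, e i := ⟨_, rfl⟩
  have hδE : δ ∈ E := by
    rw [hδ]
    exact Subgroup.prod_mem E fun i _ => heE i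
  obtain ⟨a, ha⟩ : ∃ a : ℂˣ, a ^ r = δ := by
    obtain ⟨z, hz⟩ := IsAlgClosed.exists_pow_nat_eq (δ : ℂ) hr
    have hz0 : z ≠ 0 := by
      rintro rfl
      rw [zero_pow hr.ne'] at hz
      exact δ.ne_zero hz.symm
    exact ⟨Units.mk0 z hz0, Units.ext (by rw [Units.val_pow_eq_pow_val, Units.val_mk0, hz])⟩
  have hw : ∀ i, ∃ w : R, φ w = ((e i * a⁻¹ : ℂˣ) : ℂ) := by
    intro i
    obtain ⟨w, hw⟩ := hc.root r hr le_rfl (e i * a⁻¹) (by
      rw [mul_pow, inv_pow, ha]
      exact E.mul_mem (E.pow_mem (heE i) r) (E.inv_mem hδE))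
    exact ⟨w, hw⟩
  choose w hw using hw
  have hlow : ∀ i j, j < i → (diagonal w + ν.map (Int.castRingHom R)) i j = 0 := by
    intro i j hij
    rw [Matrix.add_apply, Matrix.diagonal_apply_ne _ hij.ne', Matrix.map_apply,
      h2 i j (not_lt.2 hij.le), map_zero, add_zero]
  have hdet : (diagonal w + ν.map (Int.castRingHom R)).det = 1 := by
    rw [Matrix.det_of_isUpperTriangular (fun i j hij => hlow i j hij)]
    have h5 : ∀ i, (diagonal w + ν.map (Int.castRingHom R)) i i = w i := by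
      intro i
      rw [Matrix.add_apply, Matrix.diagonal_apply_eq, Matrix.map_apply, h2 i i (lt_irrefl i),
        map_zero, add_zero]
    rw [Finset.prod_congr rfl fun i _ => h5 i]
    apply hc.inj
    rw [map_prod, map_one, Finset.prod_congr rfl fun i _ => hw i, ← Units.coe_prod,
      Finset.prod_mul_distrib, Finset.prod_const, Finset.card_univ, Fintype.card_fin, inv_pow, ha,
      hδ, mul_inv_cancel, Units.val_one]
  obtain ⟨P, hP⟩ := h4 a a.ne_zero
  refine ⟨a, ⟨_, hdet⟩, ?_⟩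
  have h6 : (diagonal d + (a : ℂ) • ν.map (Int.cast : ℤ → ℂ) : Mat r ℂ) =
      ((scalarU a * slU φ ⟨_, hdet⟩ : (Mat r ℂ)ˣ) : Mat r ℂ) := by
    change _ = algebraMap ℂ (Mat r ℂ) (a : ℂ) * ((diagonal w + ν.map (Int.castRingHom R)).map φ)
    rw [Algebra.algebraMap_eq_smul_one, Matrix.smul_mul, Matrix.one_mul]
    ext i j
    simp only [Matrix.add_apply, Matrix.smul_apply, Matrix.map_apply, map_add, smul_eq_mul,
      mul_add, eq_intCast, map_intCast]
    congr 1
    by_cases hij : i = j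
    · subst hij
      rw [Matrix.diagonal_apply_eq, Matrix.diagonal_apply_eq, hw, Units.val_mul, he, mul_comm,
        mul_assoc, Units.inv_mul, mul_one]
    · rw [Matrix.diagonal_apply_ne _ hij, Matrix.diagonal_apply_ne _ hij, map_zero, mul_zero]
  rw [h6] at hP
  refine (isConj_iff.2 ⟨P, ?_⟩).symm
  exact Units.ext (by rw [Units.val_mul, Units.val_mul]; exact hP.symm)

/-- The representations with given classes: all generators are moved by matrices of
determinant one. -/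
noncomputable def yV {κ ι : Type} {r : ℕ} (a : κ → ℂˣ) (M : ι → (Mat r ℂ)ˣ)
    (V : κ ⊕ ι → SpecialLinearGroup (Fin r) ℂ) : FreeGroup (κ ⊕ ι) →* (Mat r ℂ)ˣ :=
  FreeGroup.lift (Sum.elim (fun k => scalarU (a k) * SpecialLinearGroup.toGL (V (Sum.inl k)))
    (fun j => SpecialLinearGroup.toGL (V (Sum.inr j)) * M j *
      (SpecialLinearGroup.toGL (V (Sum.inr j)))⁻¹))

theorem yV_poly {κ ι : Type} {r : ℕ} (a : κ → ℂˣ) (M : ι → (Mat r ℂ)ˣ) {T : Type}
    (Φ : κ ⊕ ι → SpecialLinearGroup (Fin r) (MvPolynomial T ℤ))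
    (G : MvPolynomial ((κ ⊕ ι) × Fin r × Fin r) ℂ) :
    ∃ p : MvPolynomial T ℂ, ∀ s : T → ℂ,
      MvPolynomial.eval s p = evalG (yV a M fun k => Statement.spec s (Φ k)) G := by
  obtain ⟨Ψ, hΨ⟩ : ∃ Ψ : κ ⊕ ι → SpecialLinearGroup (Fin r) (MvPolynomial T ℂ), Ψ = fun k =>
      SpecialLinearGroup.map (MvPolynomial.map (Int.castRingHom ℂ)) (Φ k) := ⟨_, rfl⟩
  have hspec : ∀ (s : T → ℂ) (k : κ ⊕ ι),
      SpecialLinearGroup.map (MvPolynomial.eval s) (Ψ k) = Statement.spec s (Φ k) := by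
    intro s k
    rw [hΨ]
    apply Subtype.ext
    ext i j
    change MvPolynomial.eval s (MvPolynomial.map (Int.castRingHom ℂ) ((Φ k).1 i j)) =
      MvPolynomial.eval₂ (Int.castRingHom ℂ) s ((Φ k).1 i j)
    rw [MvPolynomial.eval_map]
  obtain ⟨B, hB⟩ : ∃ B : κ ⊕ ι → Matrix (Fin r) (Fin r) (MvPolynomial T ℂ), B = Sum.elim
      (fun k => (MvPolynomial.C (a k : ℂ) : MvPolynomial T ℂ) • (Ψ (Sum.inl k)).1)
      (fun j => (Ψ (Sum.inr j)).1 * (M j : Mat r ℂ).map MvPolynomial.C *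
        (Ψ (Sum.inr j)).1.adjugate) := ⟨_, rfl⟩
  have hBs : ∀ (s : T → ℂ) (q : κ ⊕ ι), (B q).map (MvPolynomial.eval s) =
      (yV a M (fun k => Statement.spec s (Φ k)) (FreeGroup.of q) : Mat r ℂ) := by
    intro s q
    rw [yV, FreeGroup.lift_apply_of, hB]
    rcases q with k | j
    · simp only [Sum.elim_inl]
      rw [← hspec]
      change _ = algebraMap ℂ (Mat r ℂ) (a k : ℂ) * ((Ψ (Sum.inl k)).1.map (MvPolynomial.eval s))
      rw [Algebra.algebraMap_eq_smul_one, Matrix.smul_mul, Matrix.one_mul]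
      ext i j
      simp [Matrix.map_apply, Matrix.smul_apply]
    · simp only [Sum.elim_inr]
      rw [← hspec]
      have h1 : (((SpecialLinearGroup.toGL
          (SpecialLinearGroup.map (MvPolynomial.eval s) (Ψ (Sum.inr j))))⁻¹ : (Mat r ℂ)ˣ) :
          Mat r ℂ) = (Ψ (Sum.inr j)).1.adjugate.map (MvPolynomial.eval s) := by
        rw [← map_inv]
        change ((SpecialLinearGroup.map (MvPolynomial.eval s) (Ψ (Sum.inr j)))⁻¹).1 = _
        rw [Matrix.SpecialLinearGroup.coe_inv]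
        exact (RingHom.map_adjugate (MvPolynomial.eval s) _).symm
      rw [Units.val_mul, Units.val_mul, h1]
      have h2 : ((M j : Mat r ℂ).map (MvPolynomial.C (σ := T))).map (MvPolynomial.eval s) =
          (M j : Mat r ℂ) := by
        ext i j'
        simp [Matrix.map_apply]
      rw [Matrix.map_mul, Matrix.map_mul, h2]
      rfl
  refine ⟨MvPolynomial.aeval (fun p : (κ ⊕ ι) × Fin r × Fin r => B p.1 p.2.1 p.2.2) G,
    fun s => ?_⟩
  rw [evalG_eq_eval]
  have h3 : ((MvPolynomial.aeval s : MvPolynomial T ℂ →ₐ[ℂ] ℂ)).comp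
      (MvPolynomial.aeval (R := ℂ) (fun p : (κ ⊕ ι) × Fin r × Fin r => B p.1 p.2.1 p.2.2)) =
      MvPolynomial.aeval (fun p : (κ ⊕ ι) × Fin r × Fin r =>
        (yV a M (fun k => Statement.spec s (Φ k)) (FreeGroup.of p.1) : Mat r ℂ) p.2.1 p.2.2) := by
    apply MvPolynomial.algHom_ext
    intro p
    rw [AlgHom.comp_apply, MvPolynomial.aeval_X, MvPolynomial.aeval_X, ← hBs]
    rfl
  exact DFunLike.congr_fun h3 G

theorem free_irrDense_cls {κ ι : Type} {R : Type*} [CommRing R] (φ : R →+* ℂ) (E : Subgroup ℂˣ)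
    {r : ℕ} (hr : 0 < r) (hc : CoefOK φ E r) :
    IrrDense (∅ : Set (FreeGroup (κ ⊕ ι))) φ E r := by
  intro C hC x hx hirr f hf
  have htop := adjoin_gen_eq_top x (burnside_top x hx.2.2 hirr)
  obtain ⟨D, hD0, hD⟩ := Statement.exists_generating_poly_at
    (fun k => (x (FreeGroup.of k) : Mat r ℂ)) htop
  choose c Z hZ using fun j => exists_int_class φ E hr hc (C j) (hC j)
  obtain ⟨M, hM⟩ : ∃ M : ι → (Mat r ℂ)ˣ, M = fun j => scalarU (c j) * slU φ (Z j) := ⟨_, rfl⟩
  -- the given representation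
  have hx' : ∃ (a : κ → ℂˣ) (V : κ ⊕ ι → SpecialLinearGroup (Fin r) ℂ), x = yV a M V := by
    have hdet : ∀ U : (Mat r ℂ)ˣ, (U : Mat r ℂ).det ≠ 0 := fun U =>
      ((Matrix.isUnit_iff_isUnit_det _).1 U.isUnit).ne_zero
    have h1 : ∀ k : κ, ∃ (a : ℂˣ) (V : SpecialLinearGroup (Fin r) ℂ),
        x (FreeGroup.of (Sum.inl k)) = scalarU a * SpecialLinearGroup.toGL V := by
      intro k
      obtain ⟨s, Q, hs, hQ⟩ := Statement.exists_scale hr _ (hdet (x (FreeGroup.of (Sum.inl k))))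
      refine ⟨(Units.mk0 s hs)⁻¹, Q, Units.ext ?_⟩
      change _ = algebraMap ℂ (Mat r ℂ) (((Units.mk0 s hs)⁻¹ : ℂˣ) : ℂ) * (Q : Mat r ℂ)
      rw [hQ, Algebra.algebraMap_eq_smul_one, Matrix.smul_mul, Matrix.one_mul, smul_smul,
        Units.val_inv_eq_inv_val, Units.val_mk0, inv_mul_cancel₀ hs, one_smul]
    have h2 : ∀ j : ι, ∃ V : SpecialLinearGroup (Fin r) ℂ,
        x (FreeGroup.of (Sum.inr j)) =
          SpecialLinearGroup.toGL V * M j * (SpecialLinearGroup.toGL V)⁻¹ := by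
      intro j
      have h3 : IsConj (M j) (x (FreeGroup.of (Sum.inr j))) := by
        rw [hM]
        exact (hZ j).symm.trans (hx.2.1 j)
      obtain ⟨U, hU⟩ := isConj_iff.1 h3
      obtain ⟨s, Q, hs, hQ⟩ := Statement.exists_scale hr _ (hdet U)
      refine ⟨Q, ?_⟩
      have h4 : SpecialLinearGroup.toGL Q = scalarU (Units.mk0 s hs) * U := by
        apply Units.ext
        change (Q : Mat r ℂ) = algebraMap ℂ (Mat r ℂ) ((Units.mk0 s hs : ℂˣ) : ℂ) * (U : Mat r ℂ)
        rw [hQ, Algebra.algebraMap_eq_smul_one, Matrix.smul_mul, Matrix.one_mul, Units.val_mk0]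
      have h5 := scalarU_comm (Units.mk0 s hs) (U * M j * U⁻¹)
      calc x (FreeGroup.of (Sum.inr j)) =
          (U * M j * U⁻¹) * scalarU (Units.mk0 s hs) * (scalarU (Units.mk0 s hs))⁻¹ := by
            rw [mul_inv_cancel_right, hU]
        _ = scalarU (Units.mk0 s hs) * (U * M j * U⁻¹) * (scalarU (Units.mk0 s hs))⁻¹ := by
            rw [h5]
        _ = SpecialLinearGroup.toGL Q * M j * (SpecialLinearGroup.toGL Q)⁻¹ := by
            rw [h4, _root_.mul_inv_rev]
            simp only [mul_assoc]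
    choose a V hV using h1
    choose V' hV' using h2
    refine ⟨a, Sum.elim V V', ?_⟩
    apply FreeGroup.ext_hom
    rintro (k | j)
    · rw [yV, FreeGroup.lift_apply_of, Sum.elim_inl, hV, Sum.elim_inl]
    · rw [yV, FreeGroup.lift_apply_of, Sum.elim_inr, hV', Sum.elim_inr]
  obtain ⟨a, V, rfl⟩ := hx'
  obtain ⟨T, Φ, t, -, ht, -⟩ := Statement.exists_family V V
  obtain ⟨p, hp⟩ := yV_poly a M Φ (D * f)
  have hp0 : p = 0 := by
    apply Statement.eq_zero_of_int
    intro s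
    rw [hp]
    obtain ⟨Y, hY⟩ : ∃ Y : κ ⊕ ι → SpecialLinearGroup (Fin r) ℤ,
        Y = fun k => Statement.spec s (Φ k) := ⟨_, rfl⟩
    have h2 : (fun k => Statement.spec (fun i => (s i : ℂ)) (Φ k)) =
        fun k => SpecialLinearGroup.map (Int.castRingHom ℂ) (Y k) := by
      funext k
      rw [hY]
      apply Subtype.ext
      ext i j
      change MvPolynomial.eval₂ (Int.castRingHom ℂ) (fun i => (s i : ℂ)) ((Φ k).1 i j) =
        Int.castRingHom ℂ (MvPolynomial.eval₂ (Int.castRingHom ℤ) s ((Φ k).1 i j))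
      rw [MvPolynomial.hom_eval₂]
      congr 1
    rw [h2]
    obtain ⟨y, hy⟩ : ∃ y, y = yV a M fun k => SpecialLinearGroup.map (Int.castRingHom ℂ) (Y k) :=
      ⟨_, rfl⟩
    rw [← hy, map_mul, mul_eq_zero, or_iff_not_imp_left]
    intro h3
    rw [evalG_eq_eval] at h3
    have h4 := hD (fun k => (y (FreeGroup.of k) : Mat r ℂ)) h3
    have h5 : Algebra.adjoin ℂ (Set.range fun w => (y w : Mat r ℂ)) = ⊤ := by
      rw [eq_top_iff, ← h4]
      apply Algebra.adjoin_mono
      rintro _ ⟨k, rfl⟩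
      exact ⟨FreeGroup.of k, rfl⟩
    have h6 : ∀ k, SpecialLinearGroup.toGL (SpecialLinearGroup.map (Int.castRingHom ℂ) (Y k)) =
        slU φ (SpecialLinearGroup.map (Int.castRingHom R) (Y k)) := by
      intro k
      apply Units.ext
      change (Y k).1.map (Int.castRingHom ℂ) = ((Y k).1.map (Int.castRingHom R)).map φ
      ext i j
      simp
    have h7 : ∀ Y : SpecialLinearGroup (Fin r) R, slU φ Y ∈ GR r φ := fun Y =>
      ⟨1, Y, by rw [map_one, one_mul]⟩
    refine hf y ⟨⟨⟨fun w hw => absurd hw (Set.notMem_empty w), fun j => ?_,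
      ss_of_adjoin y h5⟩, ?_⟩, h5⟩
    · refine (hZ j).trans ?_
      rw [hy, yV, FreeGroup.lift_apply_of, Sum.elim_inr, hM]
      exact isConj_iff.2 ⟨_, rfl⟩
    · rintro (k | j)
      · rw [hy, yV, FreeGroup.lift_apply_of, Sum.elim_inl, h6]
        exact ⟨_, _, rfl⟩
      · rw [hy, yV, FreeGroup.lift_apply_of, Sum.elim_inr, h6, hM]
        exact (GR r φ).mul_mem ((GR r φ).mul_mem (h7 _) ⟨_, _, rfl⟩) ((GR r φ).inv_mem (h7 _))
  have h8 := hp t
  rw [hp0, map_zero, funext ht, map_mul, eq_comm, mul_eq_zero] at h8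
  rcases h8 with h8 | h8
  · rw [evalG_eq_eval] at h8
    exact absurd h8 hD0
  · exact h8

end Vale.Agent.P002R
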