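import Vale.Agent.P002R.YOrbFam
import Vale.Agent.P002R.YOrbFree

/-!
# Density for products of curves with free punctures and prescribed classes
-/

namespace Vale.Agent.P002R.Orb

open Matrix NumberField Vale.Agent.P002L

section curve

variable {g n : ℕ} {r : ℕ}

/-- One curve with prescribed classes. -/
theorem curve_irrDenseQ3 {R : Type} [CommRing R] (h01 : G01Irr) (hR : G0R) (φ : R →+* ℂ)
    (E : Subgroup ℂˣ) (hc : CoefOK φ E r)
    (hUP : ∀ (u : Rˣ) (D : R), D ≠ 0 → ∃ M : ℕ, 0 < M ∧ D ∣ (u : R) ^ M - 1)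
    (C : Fin n → SpecialLinearGroup (Fin r) ℂ) (hg : Product.OKCurve3 g n r C)
    (h1 : g = 1 → n = 0 ∨ TorOK φ E r) :
    ∀ r' ≤ r, 0 < r' → IrrDenseQ (fun j => QD E (HasCyc r (C j).1) (RO r (C j).1))
      ({relatorU g n} : Set (FreeGroup ((Fin g × Bool) ⊕ Fin n))) φ r' := by
  intro r' hr' hr'0
  by_cases h : 2 ≤ g ∨ n = 0
  · exact (surface_irrDense φ E hc h r' hr' hr'0).toQ fun j M hM => hM.1
  by_cases h2 : g = 0 ∧ n ≤ 2
  · exact (abel_irrDense φ E _ (fun r'' x hx => surface_comm (Or.inl h2) r'' x hx) r' hr'0).toQ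
      fun j M hM => hM.1
  · have h3 : ¬ Product.OKCurve g n := by
      unfold Product.OKCurve
      omega
    refine Product.low_irrDenseQ3 h01 hR φ E hc hUP C hg h3 (fun h4 => ?_) r' hr' hr'0
    exact (h1 h4).resolve_left fun h5 => h (Or.inr h5)

variable {P : Fin n → Prop} {o : Option (Fin n)}

/-- One curve, general form. -/
theorem relO_irrDenseQ {R : Type} [CommRing R] (h01 : G01Irr) (hR : G0R) (φ : R →+* ℂ)
    (E : Subgroup ℂˣ) (hc : CoefOK φ E r)
    (hUP : ∀ (u : Rˣ) (D : R), D ≠ 0 → ∃ M : ℕ, 0 < M ∧ D ∣ (u : R) ^ M - 1)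
    (C : Fin n → SpecialLinearGroup (Fin r) ℂ) (hn : o = none → ∀ j, P j)
    (hg : o = none → Product.OKCurve3 g n r C)
    (h1 : o = none → g = 1 → n = 0 ∨ TorOK φ E r) :
    ∀ r' ≤ r, 0 < r' → IrrDenseQ (fun j : IO P => QD E (HasCyc r (C j.1).1) (RO r (C j.1).1))
      (RelO g P o) φ r' := by
  intro r' hr' hr'0
  rcases o with _ | j₀
  · have hE : IsEmpty {j : Fin n // ¬ P j ∧ (none : Option (Fin n)) ≠ some j} :=
      ⟨fun j => j.2.1 (hn rfl j.1)⟩
    refine IrrDenseQ.congr (Equiv.sumEmpty (Fin g × Bool) _).symm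
      (Equiv.subtypeUnivEquiv (hn rfl)).symm (fun j M hM => hM) _ _ (fun y => ?_)
      (curve_irrDenseQ3 h01 hR φ E hc hUP C (hg rfl) (h1 rfl) r' hr' hr'0)
    have h2 : y (renE (Equiv.sumEmpty (Fin g × Bool) _).symm.symm
        (Equiv.subtypeUnivEquiv (hn rfl)).symm.symm (tO g P none)) =
        (List.ofFn fun l : Fin g => y (FreeGroup.of (Sum.inl (l, false))) *
          y (FreeGroup.of (Sum.inl (l, true))) * (y (FreeGroup.of (Sum.inl (l, false))))⁻¹ *
          (y (FreeGroup.of (Sum.inl (l, true))))⁻¹).prod *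
          (List.ofFn fun j : Fin n => y (FreeGroup.of (Sum.inr j))).prod := by
      rw [tO, hO, map_mul, map_mul, map_list_prod, map_list_prod, map_list_prod, map_list_prod,
        List.map_ofFn, List.map_ofFn, List.map_ofFn, List.map_ofFn]
      congr 3
      · funext l
        simp only [Function.comp, map_mul, map_inv, renE_inl]
        rfl
      · funext j
        simp only [Function.comp, gO]
        rw [dif_pos (hn rfl j), renE_inr]
        rfl
    have h3 : y (relatorU g n) = (List.ofFn fun j : Fin n => y (FreeGroup.of (Sum.inr j))).prod *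
        (List.ofFn fun l : Fin g => y (FreeGroup.of (Sum.inl (l, false))) *
          y (FreeGroup.of (Sum.inl (l, true))) * (y (FreeGroup.of (Sum.inl (l, false))))⁻¹ *
          (y (FreeGroup.of (Sum.inl (l, true))))⁻¹).prod := by
      rw [relatorU_eqn, map_mul, map_list_prod, map_list_prod, List.map_ofFn, List.map_ofFn]
      congr 3
      funext l
      simp only [Function.comp, map_mul, map_inv]
    constructor
    · rintro hy w ⟨-, rfl⟩
      rw [h2]
      have := hy _ rfl
      rw [h3, mul_eq_one_iff_eq_inv] at this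
      rw [this, mul_inv_cancel]
    · rintro hy w hw
      rw [Set.mem_singleton_iff.1 hw, h3]
      have := hy _ ⟨rfl, rfl⟩
      rw [h2, mul_eq_one_iff_eq_inv] at this
      rw [this, mul_inv_cancel]
  · have h2 : RelO g P (some j₀) = ∅ := by
      rw [Set.eq_empty_iff_forall_notMem]
      rintro w ⟨h, -⟩
      cases h
    rw [h2]
    exact (free_irrDense_cls φ E hr'0 (hc.le_mono hr')).toQ fun j M hM => hM.1

end curve

variable {k r : ℕ} {g n : Fin k → ℕ}

/-- Density of the integral representations. -/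
theorem density_mixed (h01 : G01Irr) (hR : G0R) (P : ∀ i, Fin (n i) → Prop)
    (C : ∀ i, Fin (n i) → SpecialLinearGroup (Fin r) ℂ)
    (E : Subgroup ℂˣ) (hC : ∀ i j, P i j → EigIn E ((C i j).1))
    (hg : ∀ i, (∀ j, P i j) → Product.OKCurve3 (g i) (n i) r (C i)) (L : IntermediateField ℚ ℂ)
    (hL : FiniteDimensional ℚ L) (hc : CoefOK (phiO (algebraMap L ℂ)) E r)
    (hT : (∀ i, g i = 1 → (∀ j, P i j) → n i = 0) ∨ TorOK (phiO (algebraMap L ℂ)) E r) :
    IsDenseRep L (TP g P C) := by
  have ho : ∀ i, ∃ o : Option (Fin (n i)), (∀ j, o = some j → ¬ P i j) ∧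
      (o = none → ∀ j, P i j) := by
    intro i
    by_cases h : ∃ j, ¬ P i j
    · obtain ⟨j, hj⟩ := h
      refine ⟨some j, fun j' hj' => ?_, fun h => ?_⟩
      · rw [← Option.some.inj hj']
        exact hj
      · cases h
    · push Not at h
      exact ⟨none, fun j hj => (by cases hj), fun _ => h⟩
  choose o ho hn using ho
  refine tp_dense ho C ?_
  refine density_gen (RelF g P o) ?_ _ E
    (fun p => QD E (HasCyc r (C p.1 p.2.1).1) (RO r (C p.1 p.2.1).1))
    (fun p => classOK_QD E _ _) (fun p => ⟨hC _ _ p.2.2, id, id⟩) L hL hc ?_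
  · exact famRel_charOK _ fun i => RelO_charOK (hn i)
  · refine fam_irrDenseQ _ E r k _ _
      (fun i (j : IO (P i)) => QD E (HasCyc r (C i j.1).1) (RO r (C i j.1).1))
      (fun i j => classOK_QD E _ _) _ fun i => ?_
    refine relO_irrDenseQ h01 hR _ E hc (Product.hUP_field L hL) (C i) (hn i)
      (fun h => hg i (hn i h)) fun h h1 => ?_
    exact hT.imp_left fun h2 => h2 i h1 (hn i h)

end Vale.Agent.P002R.Orb
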