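import Vale.Agent.P002R.YOrbWord

/-!
# Products of curves with free punctures and prescribed classes
-/

namespace Vale.Agent.P002R.Orb

open Matrix NumberField

section fam

variable {k r : ℕ} {g n : Fin k → ℕ}

/-- The generators. -/
abbrev GF (g : Fin k → ℕ) (P : ∀ i, Fin (n i) → Prop) (o : ∀ i, Option (Fin (n i))) :=
  (Σ i, KO (g i) (P i) (o i)) ⊕ (Σ i, IO (P i))

/-- The relators. -/
def RelF (g : Fin k → ℕ) (P : ∀ i, Fin (n i) → Prop) (o : ∀ i, Option (Fin (n i))) :
    Set (FreeGroup (GF g P o)) := famRel fun i => RelO (g i) (P i) (o i)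

variable (g) (P : ∀ i, Fin (n i) → Prop) (o : ∀ i, Option (Fin (n i)))

/-- Inclusion of a factor. -/
def incF (i : Fin k) : FreeGroup (KO (g i) (P i) (o i) ⊕ IO (P i)) →* FreeGroup (GF g P o) :=
  FreeGroup.map (incS (κ := fun i => KO (g i) (P i) (o i)) (ι := fun i => IO (P i)) i)

/-- The generators as words. -/
noncomputable def aF : Gens g n → FreeGroup (GF g P o)
  | Sum.inl ⟨i, p⟩ => incF g P o i (wO (g i) (P i) (o i) (Sum.inl p))
  | Sum.inr ⟨i, j⟩ => incF g P o i (wO (g i) (P i) (o i) (Sum.inr j))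

/-- The generators are a part of the given generators. -/
def bF : GF g P o → Gens g n
  | Sum.inl ⟨i, Sum.inl p⟩ => Sum.inl ⟨i, p⟩
  | Sum.inl ⟨i, Sum.inr j⟩ => Sum.inr ⟨i, j.1⟩
  | Sum.inr ⟨i, j⟩ => Sum.inr ⟨i, j.1⟩

variable {g P o}

theorem aF_incG (i : Fin k) (p : GenU (g i) (n i)) :
    aF g P o (Product.incG i p) = incF g P o i (wO (g i) (P i) (o i) p) := by
  rcases p with p | p <;> rfl

theorem bF_incS (i : Fin k) (p : KO (g i) (P i) (o i) ⊕ IO (P i)) :
    bF g P o (incS (κ := fun i => KO (g i) (P i) (o i)) (ι := fun i => IO (P i)) i p) =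
      Product.incG i (bO (g i) (P i) (o i) p) := by
  rcases p with (p | p) | p <;> rfl

theorem exists_incS (q : GF g P o) : ∃ (i : Fin k) (p : KO (g i) (P i) (o i) ⊕ IO (P i)),
    q = incS (κ := fun i => KO (g i) (P i) (o i)) (ι := fun i => IO (P i)) i p := by
  rcases q with ⟨i, p⟩ | ⟨i, p⟩
  · exact ⟨i, Sum.inl p, rfl⟩
  · exact ⟨i, Sum.inr p, rfl⟩

theorem aF_bF (ho : ∀ i j, o i = some j → ¬ P i j) (q : GF g P o) :
    aF g P o (bF g P o q) = FreeGroup.of q := by
  obtain ⟨i, p, rfl⟩ := exists_incS q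
  rw [bF_incS, aF_incG, wO_bO (ho i), incF, FreeGroup.map.of]

/-- The semisimple representations with prescribed classes at the marked points in `P`. -/
def TP (g : Fin k → ℕ) (P : ∀ i, Fin (n i) → Prop)
    (C : ∀ i, Fin (n i) → SpecialLinearGroup (Fin r) ℂ) :
    Set (Gens g n → SpecialLinearGroup (Fin r) ℂ) :=
  {X | (∀ i, SRel fun p => X (Product.incG i p)) ∧
    (∀ p q : Gens g n, Product.factor p ≠ Product.factor q → X p * X q = X q * X p) ∧
    (∀ i j, P i j → IsConj (C i j) (X (Sum.inr ⟨i, j⟩))) ∧ IsSS X}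

theorem comp_incF {H : Type*} [Group H] (x : FreeGroup (GF g P o) →* H) (i : Fin k)
    (w : FreeGroup (KO (g i) (P i) (o i) ⊕ IO (P i))) :
    x (incF g P o i w) = (x.comp (incF g P o i)) w := rfl

theorem tp_to_tg (C : ∀ i, Fin (n i) → SpecialLinearGroup (Fin r) ℂ)
    (X : Gens g n → SpecialLinearGroup (Fin r) ℂ) (hX : X ∈ TP g P C) :
    X ∘ bF g P o ∈ TG (RelF g P o) (fun p => C p.1 p.2.1) ∧
      ∀ p, FreeGroup.lift (X ∘ bF g P o) (aF g P o p) = X p := by
  obtain ⟨h1, h2, h3, h4⟩ := hX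
  have key : ∀ i, (∀ w ∈ RelO (g i) (P i) (o i),
      FreeGroup.lift (X ∘ bF g P o) (incF g P o i w) = 1) ∧
      ∀ p, FreeGroup.lift (X ∘ bF g P o) (incF g P o i (wO (g i) (P i) (o i) p)) =
        X (Product.incG i p) := by
    intro i
    refine word_comp (fun p => X (Product.incG i p)) (h1 i)
      ((FreeGroup.lift (X ∘ bF g P o)).comp (incF g P o i)) fun p => ?_
    rw [MonoidHom.comp_apply, incF, FreeGroup.map.of, FreeGroup.lift_apply_of, Function.comp,
      bF_incS]
  have key2 : ∀ p, FreeGroup.lift (X ∘ bF g P o) (aF g P o p) = X p := by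
    intro p
    obtain ⟨q, hq⟩ := Product.exists_incG p
    rw [hq, aF_incG]
    exact (key _).2 q
  refine ⟨⟨?_, fun j => h3 j.1 j.2.1 j.2.2, ?_⟩, key2⟩
  · rintro w (⟨i, v, hv, rfl⟩ | ⟨i, j, p, q, hij, rfl⟩)
    · exact (key i).1 v hv
    · rw [map_mul, map_mul, map_mul, map_inv, map_inv, mul_inv_eq_one, mul_inv_eq_iff_eq_mul,
        FreeGroup.lift_apply_of, FreeGroup.lift_apply_of, Function.comp, Function.comp,
        bF_incS, bF_incS]
      exact h2 _ _ (by rw [Product.factor_incG, Product.factor_incG]; exact hij)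
  · intro W hW
    have hW' : IsInv X W := by
      have := hW.lift (aF g P o)
      rwa [funext key2] at this
    obtain ⟨W', h5, h6⟩ := h4 W hW'
    exact ⟨W', fun q => h5 _, h6⟩

/-- Words in different factors commute. -/
theorem commute_words {H : Type*} [Group H] (x : FreeGroup (GF g P o) →* H)
    (hx : ∀ w ∈ RelF g P o, x w = 1) {i j : Fin k} (hij : i ≠ j)
    (w : FreeGroup (KO (g i) (P i) (o i) ⊕ IO (P i)))
    (w' : FreeGroup (KO (g j) (P j) (o j) ⊕ IO (P j))) :
    Commute (x (incF g P o i w)) (x (incF g P o j w')) := by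
  have h0 : ∀ p q, Commute (x (incF g P o i (FreeGroup.of p)))
      (x (incF g P o j (FreeGroup.of q))) := by
    intro p q
    have := hx _ (Or.inr ⟨i, j, p, q, hij, rfl⟩)
    rw [map_mul, map_mul, map_mul, map_inv, map_inv, mul_inv_eq_one, mul_inv_eq_iff_eq_mul] at this
    rw [incF, incF, FreeGroup.map.of, FreeGroup.map.of]
    exact this
  have step : ∀ {K : Type} (z : FreeGroup K →* H) (y : H), (∀ p, Commute y (z (FreeGroup.of p))) →
      ∀ w, Commute y (z w) := by
    intro K z y hy w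
    have : (⊤ : Subgroup (FreeGroup K)) ≤ (Subgroup.centralizer {y}).comap z := by
      rw [← FreeGroup.closure_range_of, Subgroup.closure_le]
      rintro _ ⟨p, rfl⟩
      rw [SetLike.mem_coe, Subgroup.mem_comap, Subgroup.mem_centralizer_singleton_iff]
      exact (hy p).symm
    have h := this (Subgroup.mem_top w)
    rw [Subgroup.mem_comap, Subgroup.mem_centralizer_singleton_iff] at h
    exact h.symm
  have h1 : ∀ q, Commute (x (incF g P o i w)) (x (incF g P o j (FreeGroup.of q))) := fun q =>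
    (step (x.comp (incF g P o i)) _ (fun p => (h0 p q).symm) w).symm
  exact step (x.comp (incF g P o j)) _ h1 w'

theorem tg_to_tp (ho : ∀ i j, o i = some j → ¬ P i j)
    (C : ∀ i, Fin (n i) → SpecialLinearGroup (Fin r) ℂ)
    (X : GF g P o → SpecialLinearGroup (Fin r) ℂ)
    (hX : X ∈ TG (RelF g P o) (fun p => C p.1 p.2.1)) :
    (fun p => FreeGroup.lift X (aF g P o p)) ∈ TP g P C := by
  obtain ⟨h1, h2, h3⟩ := hX
  have hb : ∀ q, FreeGroup.lift X (aF g P o (bF g P o q)) = X q := by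
    intro q
    rw [aF_bF ho, FreeGroup.lift_apply_of]
  refine ⟨fun i => ?_, fun p q hpq => ?_, fun i j h => ?_, fun W hW => ?_⟩
  · simp only [aF_incG]
    exact srel_word ((FreeGroup.lift X).comp (incF g P o i)) fun w hw =>
      h1 _ (Or.inl ⟨i, w, hw, rfl⟩)
  · obtain ⟨p', hp'⟩ := Product.exists_incG p
    obtain ⟨q', hq'⟩ := Product.exists_incG q
    dsimp only
    rw [hp', hq', aF_incG, aF_incG]
    exact commute_words (FreeGroup.lift X) h1 hpq _ _
  · have h4 := hb (Sum.inr ⟨i, ⟨j, h⟩⟩)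
    change FreeGroup.lift X (aF g P o (Sum.inr ⟨i, j⟩)) = _ at h4
    simp only
    rw [h4]
    exact h2 ⟨i, ⟨j, h⟩⟩
  · have hW' : IsInv X W := by
      intro q v hv
      have := hW (bF g P o q) v hv
      simp only at this
      rwa [hb] at this
    obtain ⟨W', h5, h6⟩ := h3 W hW'
    exact ⟨W', h5.lift _, h6⟩

/-- Reduction to the presentation with one generator less for every curve with a free
puncture. -/
theorem tp_dense {L : IntermediateField ℚ ℂ} (ho : ∀ i j, o i = some j → ¬ P i j)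
    (C : ∀ i, Fin (n i) → SpecialLinearGroup (Fin r) ℂ)
    (h : IsDenseRep L (TG (RelF g P o) (fun p => C p.1 p.2.1))) : IsDenseRep L (TP g P C) :=
  tietze _ _ (aF g P o) (bF g P o) (tp_to_tg C) (tg_to_tp ho C) h

end fam

end Vale.Agent.P002R.Orb
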