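import Vale.Agent.P002R.YOrbStmt
import Vale.Agent.P002R.YMain3

/-!
# Density of the integral representations of a finitely presented group with prescribed classes
-/

namespace Vale.Agent.P002R.Orb

open Matrix NumberField

variable {ι : Type} {r : ℕ}

/-- The representation of the free group attached to a complex representation. -/
noncomputable def toU (X : ι → SpecialLinearGroup (Fin r) ℂ) :
    FreeGroup ι →* (Mat r ℂ)ˣ :=
  SpecialLinearGroup.toGL.comp (FreeGroup.lift X)

theorem toU_coe (X : ι → SpecialLinearGroup (Fin r) ℂ) (w : FreeGroup ι) :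
    (toU X w : Mat r ℂ) = (FreeGroup.lift X w).1 := rfl

theorem toU_of (X : ι → SpecialLinearGroup (Fin r) ℂ) (p : ι) :
    toU X (FreeGroup.of p) = SpecialLinearGroup.toGL (X p) := by
  rw [toU, MonoidHom.comp_apply, FreeGroup.lift_apply_of]

theorem evalG_toU (F : MvPolynomial (ι × Fin r × Fin r) ℂ)
    (X : ι → SpecialLinearGroup (Fin r) ℂ) : evalG (toU X) F = value F X := by
  rw [evalG_eqn, MvPolynomial.aeval_def, value]
  congr 1
  funext p
  rw [toU_of]
  rfl

theorem stable_iff (X : ι → SpecialLinearGroup (Fin r) ℂ) (W : Submodule ℂ (Fin r → ℂ)) :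
    (∀ w, ∀ v ∈ W, (toU X w : Mat r ℂ) *ᵥ v ∈ W) ↔ IsInv X W := by
  constructor
  · intro h p
    have := h (FreeGroup.of p)
    rw [toU_of] at this
    exact this
  · intro h w
    obtain ⟨H, hH⟩ : ∃ H : Subgroup (Mat r ℂ)ˣ, ∀ M, M ∈ H ↔
        ∀ v ∈ W, (M : Mat r ℂ) *ᵥ v ∈ W :=
      ⟨{ carrier := {M | ∀ v ∈ W, (M : Mat r ℂ) *ᵥ v ∈ W}
         mul_mem' := fun {a b} ha hb v hv => by
          rw [Units.val_mul, ← Matrix.mulVec_mulVec]
          exact ha _ (hb v hv)
         one_mem' := fun v hv => by rwa [Units.val_one, Matrix.one_mulVec]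
         inv_mem' := fun {a} ha => Statement.inv_stable a W ha }, fun M => Iff.rfl⟩
    have h1 : (⊤ : Subgroup (FreeGroup ι)) ≤ H.comap (toU X) := by
      rw [← FreeGroup.closure_range_of, Subgroup.closure_le]
      rintro _ ⟨k, rfl⟩
      rw [SetLike.mem_coe, Subgroup.mem_comap, hH, toU_of]
      exact h k
    exact (hH _).1 (h1 (Subgroup.mem_top w))

/-- Complete reducibility. -/
def IsSS (X : ι → SpecialLinearGroup (Fin r) ℂ) : Prop :=
  ∀ W, IsInv X W → ∃ W', IsInv X W' ∧ IsCompl W W'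

theorem SS_toU (X : ι → SpecialLinearGroup (Fin r) ℂ) : SS (toU X) ↔ IsSS X := by
  unfold SS IsSS
  simp only [stable_iff]

theorem IsIntegralRep.exists_lift {L : IntermediateField ℚ ℂ}
    {X : ι → SpecialLinearGroup (Fin r) ℂ} (h : IsIntegralRep L X) :
    ∃ Z : ι → SpecialLinearGroup (Fin r) (𝓞 L),
      ∀ p, X p = SpecialLinearGroup.map (phiO (algebraMap L ℂ)) (Z p) := by
  choose a ha using h
  have h1 : ∀ p, (X p).1 = (Matrix.of (a p)).map (phiO (algebraMap L ℂ)) := by
    intro p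
    ext i j
    exact ha p i j
  have h2 : ∀ p, (Matrix.of (a p)).det = 1 := by
    intro p
    apply phiO_injective (algebraMap L ℂ)
    rw [map_one, RingHom.map_det]
    have := (X p).2
    rw [h1] at this
    exact this
  refine ⟨fun p => ⟨Matrix.of (a p), h2 p⟩, fun p => Subtype.ext ?_⟩
  rw [h1]
  rfl

theorem isIntegralRep_map {L : IntermediateField ℚ ℂ}
    (Z : ι → SpecialLinearGroup (Fin r) (𝓞 L)) :
    IsIntegralRep L fun p => SpecialLinearGroup.map (phiO (algebraMap L ℂ)) (Z p) :=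
  fun p i j => ⟨(Z p).1 i j, rfl⟩

theorem IsIntegralRep.isIntegralPoint {L : IntermediateField ℚ ℂ} {R : Set (FreeGroup ι)}
    {X : ι → SpecialLinearGroup (Fin r) ℂ} (h : IsIntegralRep L X) :
    IsIntegralPoint R L X := by
  obtain ⟨Z, hZ⟩ := h.exists_lift
  intro F _
  refine ⟨value F Z, ?_⟩
  have h1 : (phiO (algebraMap L ℂ)).comp (algebraMap ℤ (𝓞 L)) = algebraMap ℤ ℂ :=
    RingHom.ext_int _ _
  rw [value, value, ← h1]
  change _ = phiO (algebraMap L ℂ) _
  rw [MvPolynomial.hom_eval₂]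
  congr 1
  funext p
  rw [hZ]
  rfl

theorem IsDenseRep.isDense {L : IntermediateField ℚ ℂ} {R : Set (FreeGroup ι)}
    {T : Set (ι → SpecialLinearGroup (Fin r) ℂ)} (h : IsDenseRep L T) : IsDense R L T :=
  fun F _ hF X hX => h F (fun X' hX' hX'' => hF X' hX' hX''.isIntegralPoint) X hX

/-- Words in integral matrices are integral. -/
theorem IsIntegralRep.lift {ι' : Type} {L : IntermediateField ℚ ℂ}
    {X : ι → SpecialLinearGroup (Fin r) ℂ} (h : IsIntegralRep L X) (a : ι' → FreeGroup ι) :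
    IsIntegralRep L fun p => FreeGroup.lift X (a p) := by
  obtain ⟨Z, hZ⟩ := h.exists_lift
  have h1 : FreeGroup.lift X =
      (SpecialLinearGroup.map (phiO (algebraMap L ℂ))).comp (FreeGroup.lift Z) := by
    apply FreeGroup.ext_hom
    intro p
    rw [MonoidHom.comp_apply, FreeGroup.lift_apply_of, FreeGroup.lift_apply_of, hZ]
  have h2 : (fun p => FreeGroup.lift X (a p)) =
      fun p => SpecialLinearGroup.map (phiO (algebraMap L ℂ)) (FreeGroup.lift Z (a p)) := by
    funext p
    rw [h1, MonoidHom.comp_apply]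
  rw [h2]
  exact isIntegralRep_map _

/-- Semisimple representations with given relators and given classes of the generators in `ι`. -/
def TG {κ ι : Type} (Rel : Set (FreeGroup (κ ⊕ ι))) (C : ι → SpecialLinearGroup (Fin r) ℂ) :
    Set (κ ⊕ ι → SpecialLinearGroup (Fin r) ℂ) :=
  {X | (∀ w ∈ Rel, FreeGroup.lift X w = 1) ∧ (∀ j, IsConj (C j) (X (Sum.inr j))) ∧ IsSS X}

theorem density_gen {κ ι : Type} [Finite κ] [Finite ι] (Rel : Set (FreeGroup (κ ⊕ ι)))
    (hchar : CharOK Rel) (C : ι → SpecialLinearGroup (Fin r) ℂ) (E : Subgroup ℂˣ)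
    (Q : ι → ∀ r : ℕ, Mat r ℂ → Prop) (hQ : ∀ j, ClassOK E (Q j)) (hC : ∀ j, Q j r ((C j).1))
    (L : IntermediateField ℚ ℂ) (hL : FiniteDimensional ℚ L)
    (hc : CoefOK (phiO (algebraMap L ℂ)) E r)
    (hirr : ∀ r' ≤ r, 0 < r' → IrrDenseQ Q Rel (phiO (algebraMap L ℂ)) r') :
    IsDenseRep L (TG Rel C) := by
  have : NumberField L := { to_charZero := inferInstance, to_finiteDimensional := hL }
  obtain ⟨φ, hφ⟩ : ∃ φ, φ = phiO (algebraMap L ℂ) := ⟨_, rfl⟩
  rw [← hφ] at hc hirr
  have hφi : Function.Injective φ := hc.inj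
  obtain ⟨C', hC'⟩ : ∃ C' : ι → (Mat r ℂ)ˣ,
      C' = fun p => SpecialLinearGroup.toGL (C p) := ⟨_, rfl⟩
  intro F hF X hX
  rw [← evalG_toU]
  -- integral representations
  have key : ∀ y : FreeGroup (κ ⊕ ι) →* SpecialLinearGroup (Fin r) (𝓞 L),
      (∀ w ∈ Rel, y w = 1) →
      (∀ p, IsConj (C' p) (slU φ (y (FreeGroup.of (Sum.inr p))))) →
      SS ((slU φ).comp y) → evalG ((slU φ).comp y) F = 0 := by
    intro y hy hyC hyS
    obtain ⟨Z, hZ⟩ : ∃ Z : κ ⊕ ι → SpecialLinearGroup (Fin r) (𝓞 L),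
        ∀ p, Z p = y (FreeGroup.of p) := ⟨_, fun _ => rfl⟩
    obtain ⟨X', hX'⟩ : ∃ X' : κ ⊕ ι → SpecialLinearGroup (Fin r) ℂ,
        X' = fun p => SpecialLinearGroup.map (phiO (algebraMap L ℂ)) (Z p) := ⟨_, rfl⟩
    have h0 : FreeGroup.lift X' = (SpecialLinearGroup.map (phiO (algebraMap L ℂ))).comp y := by
      apply FreeGroup.ext_hom
      intro p
      rw [FreeGroup.lift_apply_of, hX', MonoidHom.comp_apply, ← hZ]
    have h1 : (slU φ).comp y = toU X' := by
      rw [toU, h0, hφ]; rfl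
    rw [h1, evalG_toU]
    refine hF _ ⟨fun w hw => ?_, fun j => Statement.isConj_toGL _ _ ?_, ?_⟩ ?_
    · rw [h0, MonoidHom.comp_apply, hy w hw, map_one]
    · have := hyC j
      rw [hC', ← MonoidHom.comp_apply, h1, toU_of] at this
      exact this
    · rw [← SS_toU, ← h1]; exact hyS
    · rw [hX']; exact isIntegralRep_map Z
  rcases Nat.eq_zero_or_pos r with hr | hr
  · subst hr
    have h1 : toU X = (slU φ).comp 1 := by
      ext w i
      exact i.elim0
    rw [h1]
    refine key 1 (fun w _ => rfl) (fun p => ?_) ?_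
    · have : C' p = slU φ ((1 : FreeGroup (κ ⊕ ι) →* SpecialLinearGroup (Fin 0) (𝓞 L))
          (FreeGroup.of (Sum.inr p))) := Units.ext (Subsingleton.elim _ _)
      rw [← this]
    · rw [← h1]; exact (SS_toU X).2 hX.2.2
  · have hEig : ∀ p : ι, Q p r (C' p : Mat r ℂ) := by
      intro p
      rw [hC']
      exact hC p
    have hYG : toU X ∈ YG Rel C' := by
      refine ⟨fun w hw => ?_, fun p => ?_, (SS_toU X).2 hX.2.2⟩
      · rw [toU, MonoidHom.comp_apply, hX.1 w hw, map_one]
      · rw [hC', toU_of]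
        exact Statement.toGL_isConj _ _ (hX.2.1 p)
    obtain ⟨ζ, hζ⟩ := hc.root r hr le_rfl
      (Units.mk0 (Complex.exp (2 * Real.pi * Complex.I / r)) (Complex.exp_ne_zero _)) (by
        have h1 : (Units.mk0 (Complex.exp (2 * Real.pi * Complex.I / r))
            (Complex.exp_ne_zero _)) ^ r = 1 := by
          ext1
          rw [Units.val_pow_eq_pow_val, Units.val_mk0, Units.val_one,
            (Complex.isPrimitiveRoot_exp r hr.ne').pow_eq_one]
        rw [h1]
        exact one_mem _)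
    rw [Units.val_mk0] at hζ
    have hζp : IsPrimitiveRoot (φ ζ) r := by
      rw [hζ]
      exact Complex.isPrimitiveRoot_exp r hr.ne'
    refine unscaleG φ hφi ζ (hφi ?_) hζp hr Rel hchar C' ?_ F key (toU X) ?_
      fun f' hf' => partIVQ φ E hQ hc.weak Rel hchar hirr C' hEig (toU X) hYG f' hf'
    · rw [map_pow, map_one]
      exact hζp.pow_eq_one
    · intro p
      rw [hC']
      exact (C p).2
    · intro w
      rw [toU_coe]
      exact (FreeGroup.lift X w).2

/-! ### Change of generators -/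

theorem exists_pullback {ι' : Type} (a : ι → FreeGroup ι')
    (F : MvPolynomial (ι × Fin r × Fin r) ℂ) :
    ∃ f : MvPolynomial (ι' × Fin r × Fin r) ℂ,
      ∀ X : ι' → SpecialLinearGroup (Fin r) ℂ,
        value f X = value F fun p => FreeGroup.lift X (a p) := by
  choose M hM using fun p : ι => Product.exists_word_matrix r (a p)
  refine ⟨MvPolynomial.aeval (fun p => M p.1 p.2.1 p.2.2) F, fun X => ?_⟩
  rw [← evalG_toU]
  have h : (evalG (toU X)).comp
      (MvPolynomial.aeval (R := ℂ) (fun p : ι × Fin r × Fin r => M p.1 p.2.1 p.2.2)) =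
      MvPolynomial.aeval (fun p : ι × Fin r × Fin r =>
        (FreeGroup.lift X (a p.1)).1 p.2.1 p.2.2) := by
    apply MvPolynomial.algHom_ext
    intro p
    rw [AlgHom.comp_apply, MvPolynomial.aeval_X, MvPolynomial.aeval_X, ← hM p.1 (FreeGroup.lift X)]
    rfl
  exact DFunLike.congr_fun h F

/-- Invariant subspaces are stable under words. -/
theorem IsInv.lift {ι' : Type} {X : ι → SpecialLinearGroup (Fin r) ℂ}
    {W : Submodule ℂ (Fin r → ℂ)} (h : IsInv X W) (a : ι' → FreeGroup ι) :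
    IsInv (fun p => FreeGroup.lift X (a p)) W :=
  fun p v hv => (stable_iff X W).2 h (a p) v hv

/-- Tietze transformations: the generators of the second presentation are a part of the generators
of the first one. -/
theorem tietze {ι' : Type} {L : IntermediateField ℚ ℂ}
    (T : Set (ι → SpecialLinearGroup (Fin r) ℂ)) (T' : Set (ι' → SpecialLinearGroup (Fin r) ℂ))
    (a : ι → FreeGroup ι') (β : ι' → ι)
    (h1 : ∀ X ∈ T, X ∘ β ∈ T' ∧ ∀ p, FreeGroup.lift (X ∘ β) (a p) = X p)
    (h2 : ∀ X ∈ T', (fun p => FreeGroup.lift X (a p)) ∈ T)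
    (h : IsDenseRep L T') : IsDenseRep L T := by
  intro F hF X hX
  obtain ⟨f, hf⟩ := exists_pullback a F
  obtain ⟨h3, h4⟩ := h1 X hX
  have h5 : X = fun p => FreeGroup.lift (X ∘ β) (a p) := funext fun p => (h4 p).symm
  rw [h5, ← hf]
  refine h f (fun Y hY hY' => ?_) _ h3
  rw [hf]
  exact hF _ (h2 Y hY) (hY'.lift a)

end Vale.Agent.P002R.Orb
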