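import Vale.Agent.P002R.YOrb4
import Vale.Agent.P002R.YOrbDefs

/-!
# Potential density of integral points for products of orbifold curves
-/

namespace Vale.Agent.P002R.Orbifold

open Matrix NumberField Vale.Agent.P002L

variable {k r : ℕ} {g n : Fin k → ℕ}

theorem isRep_iff (m : ∀ i, Fin (n i) → ℕ) {A : Type*} [CommRing A]
    (X : Gens g n → SpecialLinearGroup (Fin r) A) :
    IsRep m X ↔ Product.IsRep X ∧ ∀ i j, X (Sum.inr ⟨i, j⟩) ^ m i j = 1 :=
  ⟨fun h => ⟨⟨h.1, h.2.2⟩, h.2.1⟩, fun h => ⟨h.1.1, h.2, h.1.2⟩⟩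

theorem mem_YNone (m : ∀ i, Fin (n i) → ℕ) (X : Tup g n r) :
    X ∈ YNone g n m r ↔ X ∈ Product.YNone g n r ∧ ∀ i j, X (Sum.inr ⟨i, j⟩) ^ m i j = 1 := by
  constructor
  · rintro ⟨h1, h2⟩
    have h3 := (isRep_iff m X).1 h1
    exact ⟨⟨h3.1, h2⟩, h3.2⟩
  · rintro ⟨⟨h1, h2⟩, h3⟩
    exact ⟨(isRep_iff m X).2 ⟨h1, h3⟩, h2⟩

theorem IsIntegralRep.isIntegralPoint {m : ∀ i, Fin (n i) → ℕ} {L : IntermediateField ℚ ℂ}
    {X : Tup g n r} (h : IsIntegralRep L X) : IsIntegralPoint m L X := by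
  obtain ⟨Z, hZ⟩ := Product.IsIntegralRep.exists_lift (X := X) h
  intro F _
  refine ⟨Product.value F Z, ?_⟩
  have h1 : (phiO (algebraMap L ℂ)).comp (algebraMap ℤ (𝓞 L)) = algebraMap ℤ ℂ :=
    RingHom.ext_int _ _
  rw [value, Product.value, ← h1]
  change _ = phiO (algebraMap L ℂ) _
  rw [MvPolynomial.hom_eval₂]
  congr 1
  funext p
  rw [hZ]
  rfl

theorem IsZariskiDenseRep.isZariskiDense {m : ∀ i, Fin (n i) → ℕ} {L : IntermediateField ℚ ℂ}
    {T : Set (Tup g n r)} (h : IsZariskiDenseRep (IsIntegralRep L) T) :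
    IsZariskiDense m (IsIntegralPoint m L) T :=
  fun F _ hF X hX => h F (fun X' hX' hI => hF X' hX' hI.isIntegralPoint) X hX

/-- The eigenvalues of a matrix of finite order. -/
theorem eig_pow {M : SpecialLinearGroup (Fin r) ℂ} {N : ℕ} (hM : M ^ N = 1) {z : ℂ}
    (hz : M.1.charpoly.IsRoot z) : z ^ N = 1 := by
  obtain ⟨v, hv, hv0⟩ : ∃ v : Fin r → ℂ, M.1 *ᵥ v = z • v ∧ v ≠ 0 := by
    have h1 : (z • (1 : Mat r ℂ) - M.1).det = 0 := by
      have h2 : M.1.charpoly.eval z = 0 := hz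
      rw [Matrix.eval_charpoly] at h2
      rw [← h2]
      congr 2
      ext i j
      simp [Matrix.scalar_apply, Matrix.diagonal_apply, Matrix.one_apply]
    obtain ⟨v, hv0, hv⟩ := Matrix.exists_mulVec_eq_zero_iff.2 h1
    refine ⟨v, ?_, hv0⟩
    rw [Matrix.sub_mulVec, Matrix.smul_mulVec, Matrix.one_mulVec, sub_eq_zero] at hv
    exact hv.symm
  have h2 : ∀ N : ℕ, (M.1 ^ N) *ᵥ v = z ^ N • v := by
    intro N
    induction N with
    | zero => rw [pow_zero, pow_zero, Matrix.one_mulVec, one_smul]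
    | succ N ih =>
      rw [pow_succ', ← Matrix.mulVec_mulVec, ih, Matrix.mulVec_smul, hv, smul_smul, pow_succ]
  have h3 : (M.1 ^ N) = 1 := by
    rw [← Matrix.SpecialLinearGroup.coe_pow, hM, Matrix.SpecialLinearGroup.coe_one]
  have h4 := h2 N
  rw [h3, Matrix.one_mulVec] at h4
  have h5 : (z ^ N - 1) • v = 0 := by
    rw [sub_smul, one_smul, ← h4, sub_self]
  rcases smul_eq_zero.1 h5 with h6 | h6
  · exact sub_eq_zero.1 h6
  · exact absurd h6 hv0

theorem pow_eq_one_of_isConj {M M' : SpecialLinearGroup (Fin r) ℂ} (h : IsConj M M') {N : ℕ}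
    (hM : M ^ N = 1) : M' ^ N = 1 := by
  obtain ⟨c, hc⟩ := isConj_iff.1 h
  rw [← hc, conj_pow, hM, mul_one, mul_inv_cancel]

/-- The field: the eigenvalues of the classes of the punctures, and roots of unity. -/
theorem exists_field (m : ∀ i, Fin (n i) → ℕ) (C : ∀ i, Fin (n i) → SpecialLinearGroup (Fin r) ℂ)
    (hC : ∀ i j, m i j = 0 → ∀ z, IsEigenvalue (C i j) z → IsIntegral ℤ z ∧ IsIntegral ℤ z⁻¹) :
    ∃ (E : Subgroup ℂˣ) (L : IntermediateField ℚ ℂ), FiniteDimensional ℚ L ∧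
      CoefOK (phiO (algebraMap L ℂ)) E r ∧ TorOK (phiO (algebraMap L ℂ)) E r ∧
      (∀ i j, m i j = 0 → EigIn E (C i j).1) ∧
      ∀ i j, m i j ≠ 0 → ∀ z : ℂˣ, z ^ m i j = 1 → z ∈ E := by
  have h0 : ∀ i j z, IsEigenvalue (C i j) z → z ≠ 0 := by
    rintro i j z hz rfl
    have h1 : (C i j).1.charpoly.eval 0 = 0 := hz
    rw [Matrix.eval_charpoly, map_zero, zero_sub, Matrix.det_neg, (C i j).2, mul_one] at h1
    exact pow_ne_zero _ (by norm_num) h1
  obtain ⟨S, hS⟩ : ∃ S : Set ℂˣ, S = {z : ℂˣ | ∃ i j, m i j = 0 ∧ IsEigenvalue (C i j) (z : ℂ)} ∪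
      {z : ℂˣ | ∃ i j, m i j ≠ 0 ∧ z ^ m i j = 1} := ⟨_, rfl⟩
  have hSf : S.Finite := by
    rw [hS]
    refine Set.Finite.union ?_ ?_
    · have h1 : (⋃ p : (i : Fin k) × Fin (n i),
          {z : ℂ | (C p.1 p.2).1.charpoly.IsRoot z}).Finite :=
        Set.finite_iUnion fun p => Polynomial.finite_setOfPred_isRoot
          (Matrix.charpoly_monic _).ne_zero
      refine Set.Finite.of_injOn (f := fun z : ℂˣ => (z : ℂ)) ?_ (Units.val_injective.injOn) h1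
      rintro z ⟨i, j, -, hz⟩
      exact Set.mem_iUnion.2 ⟨⟨i, j⟩, hz⟩
    · have h1 : (⋃ p : (i : Fin k) × Fin (n i),
          {z : ℂˣ | m p.1 p.2 ≠ 0 ∧ z ^ m p.1 p.2 = 1}).Finite := by
        refine Set.finite_iUnion fun p => ?_
        by_cases h2 : m p.1 p.2 = 0
        · refine Set.finite_empty.subset ?_
          rintro z ⟨h3, -⟩
          exact absurd h2 h3
        · have : NeZero (m p.1 p.2) := ⟨h2⟩
          have h4 : Finite {z : ℂˣ // z ∈ rootsOfUnity (m p.1 p.2) ℂ} := inferInstance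
          have h5 : {z : ℂˣ | z ∈ rootsOfUnity (m p.1 p.2) ℂ}.Finite := Set.finite_coe_iff.1 h4
          refine h5.subset ?_
          rintro z ⟨-, h3⟩
          exact (mem_rootsOfUnity _ _).2 h3
      refine h1.subset ?_
      rintro z ⟨i, j, hm, hz⟩
      exact Set.mem_iUnion.2 ⟨⟨i, j⟩, hm, hz⟩
  obtain ⟨L, hL, hc, hT⟩ := exists_tor_field S hSf (fun z hz => by
    rw [hS] at hz
    rw [Units.val_inv_eq_inv_val]
    rcases hz with ⟨i, j, hm, hz⟩ | ⟨i, j, hm, hz⟩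
    · exact hC i j hm z hz
    · have h1 : (z : ℂ) ^ m i j = 1 := by
        rw [← Units.val_pow_eq_pow_val, hz, Units.val_one]
      refine ⟨IsIntegral.of_pow (Nat.pos_of_ne_zero hm) (by rw [h1]; exact isIntegral_one),
        IsIntegral.of_pow (Nat.pos_of_ne_zero hm) (by rw [inv_pow, h1, inv_one];
                                                       exact isIntegral_one)⟩) r
  refine ⟨_, L, hL, hc, hT, fun i j hm z hz => ?_, fun i j hm z hz => ?_⟩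
  · refine ⟨Units.mk0 z (h0 i j z hz), Subgroup.subset_closure (Set.mem_insert_of_mem _ ?_), rfl⟩
    rw [hS]
    exact Or.inl ⟨i, j, hm, hz⟩
  · refine Subgroup.subset_closure (Set.mem_insert_of_mem _ ?_)
    rw [hS]
    exact Or.inr ⟨i, j, hm, hz⟩

theorem eigIn_of_pow {E : Subgroup ℂˣ} {M : SpecialLinearGroup (Fin r) ℂ} {N : ℕ} (hN : N ≠ 0)
    (hM : M ^ N = 1) (hE : ∀ z : ℂˣ, z ^ N = 1 → z ∈ E) : EigIn E M.1 := by
  intro z hz
  have h1 := eig_pow hM hz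
  have h0 : z ≠ 0 := by
    rintro rfl
    rw [zero_pow hN] at h1
    exact zero_ne_one h1
  refine ⟨Units.mk0 z h0, hE _ ?_, rfl⟩
  ext1
  rw [Units.val_pow_eq_pow_val, Units.val_mk0, Units.val_one, h1]

theorem IsNonderogatory.hasCyc {M : SpecialLinearGroup (Fin r) ℂ} (h : IsNonderogatory M) :
    HasCyc r M.1 := Product.IsNonderogatory.hasCyc h

/-- Density of the integral representations, with boundary classes. -/
theorem density_Y (h01 : G01Irr) (hR : G0R) (m : ∀ i, Fin (n i) → ℕ)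
    (C : ∀ i, Fin (n i) → SpecialLinearGroup (Fin r) ℂ) (E : Subgroup ℂˣ)
    (hC : ∀ i j, m i j = 0 → EigIn E (C i j).1)
    (hm : ∀ i j, m i j ≠ 0 → ∀ z : ℂˣ, z ^ m i j = 1 → z ∈ E)
    (hg : ∀ i, 1 ≤ g i ∨ n i ≤ 2 ∨ r ≤ 3 ∨ (∃ j, m i j = 0 ∧ IsNonderogatory (C i j)) ∨
      ∃ j₀, ∀ j, j ≠ j₀ → m i j = 0 ∧ ∃ z : ℂ, ((C i j).1 - z • 1).rank ≤ 1)
    (L : IntermediateField ℚ ℂ) (hL : FiniteDimensional ℚ L)
    (hc : CoefOK (phiO (algebraMap L ℂ)) E r)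
    (hT : (∀ i, g i = 1 → n i = 0) ∨ TorOK (phiO (algebraMap L ℂ)) E r) :
    IsZariskiDenseRep (IsIntegralRep L) (Y g m C) := by
  intro F hF X hX
  obtain ⟨hX1, hX2⟩ := hX
  obtain ⟨hX3, hX4⟩ := (mem_YNone m X).1 hX1
  obtain ⟨C', hC'⟩ : ∃ C' : ∀ i, Fin (n i) → SpecialLinearGroup (Fin r) ℂ,
      (∀ i j, m i j = 0 → C' i j = C i j) ∧ ∀ i j, m i j ≠ 0 → C' i j = X (Sum.inr ⟨i, j⟩) :=
    ⟨fun i j => if m i j = 0 then C i j else X (Sum.inr ⟨i, j⟩), fun i j h => if_pos h,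
      fun i j h => if_neg h⟩
  have hpow : ∀ i j, m i j ≠ 0 → C' i j ^ m i j = 1 := by
    intro i j h
    rw [hC'.2 i j h]
    exact hX4 i j
  have hEig : ∀ i j, EigIn E (C' i j).1 := by
    intro i j
    by_cases h : m i j = 0
    · rw [hC'.1 i j h]
      exact hC i j h
    · exact eigIn_of_pow h (hpow i j h) (hm i j h)
  have hok : ∀ i, Product.OKCurve3 (g i) (n i) r (C' i) := by
    intro i
    refine (hg i).imp_right (Or.imp_right (Or.imp_right (Or.imp ?_ ?_)))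
    · rintro ⟨j, hj, h⟩
      refine ⟨j, ?_⟩
      rw [hC'.1 i j hj]
      exact h.hasCyc
    · rintro ⟨j₀, h⟩
      refine ⟨j₀, fun j hj => ?_⟩
      rw [hC'.1 i j (h j hj).1]
      exact (h j hj).2
  have key := Product.density_E4 h01 hR C' E hEig hok L hL hc hT
  refine key.2 F (fun X' hX' => ?_) X ⟨hX3, fun i j => ?_⟩
  · obtain ⟨⟨h1, h2⟩, h3⟩ := hX'
    refine hF X' ⟨(mem_YNone m X').2 ⟨h1, fun i j => ?_⟩, fun i j h => ?_⟩ h3
    · by_cases h : m i j = 0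
      · rw [h, pow_zero]
      · exact pow_eq_one_of_isConj (h2 i j) (hpow i j h)
    · rw [← hC'.1 i j h]
      exact h2 i j
  · by_cases h : m i j = 0
    · rw [hC'.1 i j h]
      exact hX2 i j h
    · rw [hC'.2 i j h]

/-- Density of the integral representations, without boundary classes. -/
theorem density_YNone (h01 : G01Irr) (hR : G0R) (m : ∀ i, Fin (n i) → ℕ) (E : Subgroup ℂˣ)
    (hm : ∀ i j, m i j ≠ 0 → ∀ z : ℂˣ, z ^ m i j = 1 → z ∈ E)
    (hg : ∀ i, 1 ≤ g i ∨ n i ≤ 2 ∨ r ≤ 3 ∨ ∃ j, m i j = 0)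
    (L : IntermediateField ℚ ℂ) (hL : FiniteDimensional ℚ L)
    (hc : CoefOK (phiO (algebraMap L ℂ)) E r) (hT : TorOK (phiO (algebraMap L ℂ)) E r) :
    IsZariskiDenseRep (IsIntegralRep L) (YNone g n m r) := by
  intro F hF X hX
  obtain ⟨hX3, hX4⟩ := (mem_YNone m X).1 hX
  obtain ⟨C', hC'⟩ : ∃ C' : ∀ i, Fin (n i) → SpecialLinearGroup (Fin r) ℂ,
      ∀ i j, C' i j = X (Sum.inr ⟨i, j⟩) := ⟨fun i j => X (Sum.inr ⟨i, j⟩), fun i j => rfl⟩
  have hpow : ∀ i j, C' i j ^ m i j = 1 := by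
    intro i j
    rw [hC']
    exact hX4 i j
  refine Orb.density_mixed C' (fun i j => m i j ≠ 0) E
    (fun i j => QD E (HasCyc r (C' i j).1) (RO r (C' i j).1)) (fun i j => classOK_QD E _ _)
    (fun i j h => ⟨eigIn_of_pow h (hpow i j) (hm i j h), id, id⟩) L hL hc (fun i hi => ?_) F
    (fun X' hX' hX'C hX'I => ?_) X hX3 fun i j _ => by rw [hC']
  · intro r' hr' hr'0
    by_cases h : 2 ≤ g i ∨ n i = 0
    · exact (surface_irrDense _ E hc h r' hr' hr'0).toQ fun j M hM => hM.1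
    by_cases h1 : g i = 0 ∧ n i ≤ 2
    · exact (abel_irrDense _ E _ (fun r'' x hx => surface_comm (Or.inl h1) r'' x hx)
        r' hr'0).toQ fun j M hM => hM.1
    · have h2 : ¬ Product.OKCurve (g i) (n i) := by
        unfold Product.OKCurve
        omega
      refine Product.low_irrDenseQ3 h01 hR _ E hc (Product.hUP_field L hL) (C' i) ?_ h2
        (fun _ => hT) r' hr' hr'0
      refine (hg i).imp_right (Or.imp_right (Or.imp_right ?_))
      rintro ⟨j, hj⟩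
      exact absurd hj (hi j)
  · refine hF X' ((mem_YNone m X').2 ⟨hX', fun i j => ?_⟩) hX'I
    by_cases h : m i j = 0
    · rw [h, pow_zero]
    · exact pow_eq_one_of_isConj (hX'C i j h) (hpow i j)

/-- The main theorem for products of orbifold curves. -/
theorem main4 (h01 : G01Irr) (hR : G0R) (k : ℕ) (g n : Fin k → ℕ) (m : ∀ i, Fin (n i) → ℕ)
    (r : ℕ) :
    ((∀ i, 1 ≤ g i ∨ n i ≤ 2 ∨ r ≤ 3 ∨ ∃ j, m i j = 0) →
      ∃ L : IntermediateField ℚ ℂ, FiniteDimensional ℚ L ∧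
        IsZariskiDense m (IsIntegralPoint m L) (YNone g n m r) ∧
        IsZariskiDenseRep (IsIntegralRep L) (YNone g n m r)) ∧
    ∀ C : (i : Fin k) → Fin (n i) → SpecialLinearGroup (Fin r) ℂ,
      (∀ i, 1 ≤ g i ∨ n i ≤ 2 ∨ r ≤ 3 ∨ (∃ j, m i j = 0 ∧ IsNonderogatory (C i j)) ∨
        ∃ j₀, ∀ j, j ≠ j₀ → m i j = 0 ∧ ∃ z : ℂ, ((C i j).1 - z • 1).rank ≤ 1) →
      ((∀ i j, m i j = 0 → ∀ z, IsEigenvalue (C i j) z → IsIntegral ℤ z ∧ IsIntegral ℤ z⁻¹) →
        ∃ L : IntermediateField ℚ ℂ, FiniteDimensional ℚ L ∧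
          IsZariskiDense m (IsIntegralPoint m L) (Y g m C) ∧
          IsZariskiDenseRep (IsIntegralRep L) (Y g m C)) ∧
      ((∀ i, g i = 1 → n i = 0) →
        ∀ N : ℕ, 0 < N → (∀ i j, m i j = 0 → ∀ z, IsEigenvalue (C i j) z → z ^ N = 1) →
        (∀ i j, m i j ≠ 0 → m i j ∣ N) → ∀ L : IntermediateField ℚ ℂ, FiniteDimensional ℚ L →
          (∀ z : ℂ, z ^ (2 * N * r.factorial) = 1 → z ∈ L) → Infinite (𝓞 L)ˣ →
          IsZariskiDenseRep (IsIntegralRep L) (Y g m C)) := by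
  refine ⟨fun hg => ?_, fun C hg => ⟨fun hC => ?_, fun hg1 N hN hC hmN L hL hμ hu => ?_⟩⟩
  · obtain ⟨E, L, hL, hc, hT, -, hE⟩ := exists_field (r := r) m (fun _ _ => 1) fun i j _ z hz => by
      have h1 : z ^ 1 = 1 := eig_pow (M := 1) (N := 1) (one_pow 1) hz
      rw [pow_one] at h1
      rw [h1, inv_one]
      exact ⟨isIntegral_one, isIntegral_one⟩
    have h := density_YNone h01 hR m E hE hg L hL hc hT
    exact ⟨L, hL, h.isZariskiDense, h⟩
  · obtain ⟨E, L, hL, hc, hT, hE1, hE2⟩ := exists_field m C hC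
    have h := density_Y h01 hR m C E hE1 hE2 hg L hL hc (Or.inr hT)
    exact ⟨L, hL, h.isZariskiDense, h⟩
  · refine density_Y h01 hR m C _ (fun i j h => Product.eigIn_roots (C i j) N hN (hC i j h))
      (fun i j h z hz => ?_) hg L hL (Product.coefOK_roots N hN r L hL hμ hu) (Or.inl hg1)
    obtain ⟨d, rfl⟩ := hmN i j h
    change z ^ (2 * (m i j * d)) = 1
    rw [mul_left_comm, pow_mul, hz, one_pow]

end Vale.Agent.P002R.Orbifold
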