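import Vale.Agent.P002R.YOrbDens

/-!
# Potential density of integral points for products of orbifold curves
-/

namespace Vale.Agent.P002R.Orb

open Matrix NumberField Vale.Agent.P002L commutatorElement

variable {k r : ℕ} {g n : Fin k → ℕ}

theorem dense_of_cover {ι : Type} {L : IntermediateField ℚ ℂ}
    (T : Set (ι → SpecialLinearGroup (Fin r) ℂ))
    (h : ∀ X ∈ T, ∃ T' ⊆ T, X ∈ T' ∧ IsDenseRep L T') : IsDenseRep L T := by
  intro F hF X hX
  obtain ⟨T', h1, h2, h3⟩ := h X hX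
  exact h3 F (fun Z hZ hZ' => hF Z (h1 hZ) hZ') X h2

theorem IsNonderogatory.conj {M N : SpecialLinearGroup (Fin r) ℂ} (h : IsConj M N)
    (hM : IsNonderogatory M) : IsNonderogatory N := by
  obtain ⟨U, rfl⟩ := isConj_iff.1 h
  obtain ⟨v, hv⟩ := hM
  have hU : U.1⁻¹ * U.1 = 1 := Matrix.nonsing_inv_mul _ (by rw [U.2]; exact isUnit_one)
  have hU' : (U⁻¹).1 = U.1⁻¹ := by
    rw [Matrix.inv_def, U.2, Ring.inverse_one, one_smul]
    exact Matrix.SpecialLinearGroup.coe_inv U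
  refine ⟨U.1 *ᵥ v, ?_⟩
  have h1 : ∀ i : ℕ, (U * M * U⁻¹).1 ^ i = U.1 * M.1 ^ i * U.1⁻¹ := by
    intro i
    have h2 : (U * M * U⁻¹).1 = U.1 * M.1 * U.1⁻¹ := by
      rw [← hU']
      rfl
    rw [h2]
    induction i with
    | zero =>
      rw [pow_zero, pow_zero, Matrix.mul_one]
      exact (Matrix.mul_nonsing_inv _ (by rw [U.2]; exact isUnit_one)).symm
    | succ i ih =>
      rw [pow_succ, ih, pow_succ]
      simp only [Matrix.mul_assoc]
      rw [← Matrix.mul_assoc U.1⁻¹ U.1, hU, Matrix.one_mul]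
  have h3 : (fun i : Fin r => ((U * M * U⁻¹).1 ^ (i : ℕ)) *ᵥ (U.1 *ᵥ v)) =
      fun i : Fin r => U.1.mulVecLin ((M.1 ^ (i : ℕ)) *ᵥ v) := by
    funext i
    rw [h1, Matrix.mulVec_mulVec, Matrix.mul_assoc, hU, Matrix.mul_one, ← Matrix.mulVec_mulVec]
    rfl
  rw [h3]
  refine hv.map' _ (LinearMap.ker_eq_bot.2 fun a b hab => ?_)
  have h4 := congrArg (fun w => U.1⁻¹ *ᵥ w) hab
  simpa only [Matrix.mulVecLin_apply, Matrix.mulVec_mulVec, hU, Matrix.one_mulVec] using h4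

theorem rank_conj {M N : SpecialLinearGroup (Fin r) ℂ} (h : IsConj M N) (z : ℂ) :
    (N.1 - z • (1 : Mat r ℂ)).rank = (M.1 - z • (1 : Mat r ℂ)).rank := by
  obtain ⟨U, rfl⟩ := isConj_iff.1 h
  have h1 : (U * M * U⁻¹).1 - z • (1 : Mat r ℂ) = U.1 * (M.1 - z • (1 : Mat r ℂ)) * (U⁻¹).1 := by
    have h2 : U.1 * (U⁻¹).1 = 1 := by
      have := congrArg Subtype.val (mul_inv_cancel U)
      exact this
    rw [Matrix.mul_sub, Matrix.sub_mul, Matrix.mul_smul, Matrix.mul_one, Matrix.smul_mul, h2]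
    rfl
  rw [h1, Matrix.rank_mul_eq_left_of_isUnit_det _ _ (by rw [(U⁻¹).2]; exact isUnit_one),
    Matrix.rank_mul_eq_right_of_isUnit_det _ _ (by rw [U.2]; exact isUnit_one)]

theorem eigenvalue_conj {M N : SpecialLinearGroup (Fin r) ℂ} (h : IsConj M N) {z : ℂ}
    (hz : IsEigenvalue N z) : IsEigenvalue M z := by
  have h1 := Statement.toGL_isConj _ _ h
  obtain ⟨U, hU⟩ := isConj_iff.1 h1
  have h2 : N.1 = (U : Mat r ℂ) * M.1 * ((U⁻¹ : (Mat r ℂ)ˣ) : Mat r ℂ) := by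
    have := congrArg (fun V : (Mat r ℂ)ˣ => (V : Mat r ℂ)) hU
    exact this.symm
  have h3 : N.1.charpoly = M.1.charpoly := by
    rw [h2, Matrix.coe_units_inv]
    exact Matrix.charpoly_units_conj U M.1
  unfold IsEigenvalue at hz ⊢
  rwa [h3] at hz

theorem eigenvalue_pow {M : SpecialLinearGroup (Fin r) ℂ} {m : ℕ} (h : M ^ m = 1) {z : ℂ}
    (hz : IsEigenvalue M z) : z ^ m = 1 := by
  refine nilpotent_eigen M.1 m ?_ z hz
  have h1 : M.1 ^ m = 1 := by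
    have := congrArg Subtype.val h
    exact (Matrix.SpecialLinearGroup.coe_pow M m).symm.trans this
  rw [h1, sub_self]
  exact IsNilpotent.zero

/-! ### The group of the product of orbifold curves -/

theorem isRep_iff (m : ∀ i, Fin (n i) → ℕ) (X : Gens g n → SpecialLinearGroup (Fin r) ℂ) :
    IsRep (Rels g n m) X ↔ (∀ i, SRel fun p => X (Product.incG i p)) ∧
      (∀ p q : Gens g n, Product.factor p ≠ Product.factor q → X p * X q = X q * X p) ∧
      ∀ i j, X (Sum.inr ⟨i, j⟩) ^ m i j = 1 := by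
  have h1 : ∀ i, FreeGroup.lift X ((List.ofFn fun l : Fin (g i) =>
      ⁅(FreeGroup.of (Sum.inl ⟨i, l, false⟩) : FreeGroup (Gens g n)),
        (FreeGroup.of (Sum.inl ⟨i, l, true⟩) : FreeGroup (Gens g n))⁆).prod *
      (List.ofFn fun j : Fin (n i) =>
        (FreeGroup.of (Sum.inr ⟨i, j⟩) : FreeGroup (Gens g n))).prod) =
      (List.ofFn fun l : Fin (g i) => X (Sum.inl ⟨i, l, false⟩) * X (Sum.inl ⟨i, l, true⟩) *
        (X (Sum.inl ⟨i, l, false⟩))⁻¹ * (X (Sum.inl ⟨i, l, true⟩))⁻¹).prod *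
      (List.ofFn fun j : Fin (n i) => X (Sum.inr ⟨i, j⟩)).prod := by
    intro i
    rw [map_mul, map_list_prod, map_list_prod, List.map_ofFn, List.map_ofFn]
    congr 3
    · funext l
      simp only [Function.comp, commutatorElement_def, map_mul, map_inv, FreeGroup.lift_apply_of]
    · funext j
      simp only [Function.comp, FreeGroup.lift_apply_of]
  constructor
  · intro h
    refine ⟨fun i => ?_, fun p q hpq => ?_, fun i j => ?_⟩
    · have := h _ (Or.inl ⟨i, rfl⟩)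
      rw [h1] at this
      exact this
    · have := h _ (Or.inr (Or.inl ⟨p, q, hpq, rfl⟩))
      rw [commutatorElement_def, map_mul, map_mul, map_mul, map_inv, map_inv, mul_inv_eq_one,
        mul_inv_eq_iff_eq_mul, FreeGroup.lift_apply_of, FreeGroup.lift_apply_of] at this
      exact this
    · have := h _ (Or.inr (Or.inr ⟨i, j, rfl⟩))
      rwa [map_pow, FreeGroup.lift_apply_of] at this
  · rintro ⟨h2, h3, h4⟩ w (⟨i, rfl⟩ | ⟨p, q, hpq, rfl⟩ | ⟨i, j, rfl⟩)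
    · rw [h1]
      exact h2 i
    · rw [commutatorElement_def, map_mul, map_mul, map_mul, map_inv, map_inv, mul_inv_eq_one,
        mul_inv_eq_iff_eq_mul, FreeGroup.lift_apply_of, FreeGroup.lift_apply_of]
      exact h3 p q hpq
    · rw [map_pow, FreeGroup.lift_apply_of]
      exact h4 i j

variable (m : ∀ i, Fin (n i) → ℕ) (S : ∀ i, Set (Fin (n i)))
  (C : ∀ i, Fin (n i) → SpecialLinearGroup (Fin r) ℂ)

/-- The piece of `Y` that contains a given representation. -/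
theorem cover (X : Gens g n → SpecialLinearGroup (Fin r) ℂ)
    (hX : X ∈ Z m S C) :
    TP g (fun i j => j ∈ S i ∨ m i j ≠ 0) (fun i j => X (Sum.inr ⟨i, j⟩)) ⊆ Z m S C ∧
    X ∈ TP g (fun i j => j ∈ S i ∨ m i j ≠ 0) (fun i j => X (Sum.inr ⟨i, j⟩)) := by
  obtain ⟨⟨⟨h1, h2⟩, h3⟩, h4⟩ := hX
  rw [isRep_iff] at h1
  constructor
  · rintro Z ⟨z1, z2, z3, z4⟩
    refine ⟨⟨⟨(isRep_iff m Z).2 ⟨z1, z2, fun i j => ?_⟩, z4⟩, fun i j hj =>
      (h3 i j hj).trans (z3 i j (Or.inl hj))⟩, fun i => ?_⟩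
    · by_cases hm : m i j = 0
      · rw [hm, pow_zero]
      · obtain ⟨U, hU⟩ := isConj_iff.1 (z3 i j (Or.inr hm))
        rw [← hU, conj_pow, h1.2.2 i j, mul_one, mul_inv_cancel]
    · by_cases hf : ∃ j, m i j = 0 ∧ j ∉ S i
      · exact Or.inr (Or.inr (Or.inr (Or.inl hf)))
      have hc : ∀ j, IsConj (X (Sum.inr ⟨i, j⟩)) (Z (Sum.inr ⟨i, j⟩)) := by
        intro j
        refine z3 i j ?_
        by_contra hcon
        push Not at hcon
        exact hf ⟨j, hcon.2, hcon.1⟩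
      rcases h4 i with h | h | h | h | ⟨j, h⟩ | ⟨j₀, h⟩
      · exact Or.inl h
      · exact Or.inr (Or.inl h)
      · exact Or.inr (Or.inr (Or.inl h))
      · exact absurd h hf
      · exact Or.inr (Or.inr (Or.inr (Or.inr (Or.inl ⟨j, h.conj (hc j)⟩))))
      · refine Or.inr (Or.inr (Or.inr (Or.inr (Or.inr ⟨j₀, fun j hj => ?_⟩))))
        obtain ⟨z, hz⟩ := h j hj
        exact ⟨z, by rw [rank_conj (hc j)]; exact hz⟩
  · exact ⟨h1.1, h1.2.1, fun i j _ => IsConj.refl _, h2⟩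

theorem good_curve (X : Gens g n → SpecialLinearGroup (Fin r) ℂ) (hX : X ∈ Z m S C) (i : Fin k)
    (h : ∀ j, j ∈ S i ∨ m i j ≠ 0) :
    Product.OKCurve3 (g i) (n i) r fun j => X (Sum.inr ⟨i, j⟩) := by
  apply Product.okCurve3_of
  rcases hX.2 i with h' | h' | h' | ⟨j, h1, h2⟩ | ⟨j, h'⟩ | ⟨j₀, h'⟩
  · exact Or.inl h'
  · exact Or.inr (Or.inl h')
  · exact Or.inr (Or.inr (Or.inl h'))
  · exact ((h j).elim h2 fun h3 => h3 h1).elim
  · exact Or.inr (Or.inr (Or.inr (Or.inl ⟨j, h'⟩)))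
  · exact Or.inr (Or.inr (Or.inr (Or.inr ⟨j₀, h'⟩)))

/-- Existence of the field. -/
theorem exists_density_orb (h01 : G01Irr) (hR : G0R)
    (hC : ∀ i, ∀ j ∈ S i, ∀ z, IsEigenvalue (C i j) z → IsIntegral ℤ z ∧ IsIntegral ℤ z⁻¹) :
    ∃ L : IntermediateField ℚ ℂ, FiniteDimensional ℚ L ∧ IsDenseRep L (Z (g := g) m S C) := by
  obtain ⟨V, hV⟩ : ∃ V : Set ℂˣ, V = {z : ℂˣ | (∃ i, ∃ j ∈ S i, IsEigenvalue (C i j) (z : ℂ)) ∨
      ∃ i j, m i j ≠ 0 ∧ (z : ℂ) ^ m i j = 1} := ⟨_, rfl⟩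
  have hVf : V.Finite := by
    have h1 : (⋃ p : (i : Fin k) × Fin (n i), {z : ℂ | (C p.1 p.2).1.charpoly.IsRoot z}).Finite :=
      Set.finite_iUnion fun p => Polynomial.finite_setOfPred_isRoot
        (Matrix.charpoly_monic _).ne_zero
    have h2 : (⋃ p : (i : Fin k) × Fin (n i),
        {z : ℂ | m p.1 p.2 ≠ 0 ∧ z ^ m p.1 p.2 = 1}).Finite := by
      refine Set.finite_iUnion fun p => ?_
      by_cases hm : m p.1 p.2 = 0
      · refine Set.Finite.subset Set.finite_empty fun z hz => ?_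
        exact (hz.1 hm).elim
      · refine Set.Finite.subset (Polynomial.finite_setOfPred_isRoot
          (Polynomial.X_pow_sub_C_ne_zero (Nat.pos_of_ne_zero hm) (1 : ℂ))) fun z hz => ?_
        change Polynomial.eval z _ = 0
        rw [Polynomial.eval_sub, Polynomial.eval_pow, Polynomial.eval_X, Polynomial.eval_C, hz.2,
          sub_self]
    refine Set.Finite.of_injOn (f := fun z : ℂˣ => (z : ℂ)) ?_ (Units.val_injective.injOn)
      (h1.union h2)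
    intro z hz
    rw [hV] at hz
    rcases hz with ⟨i, j, -, hz⟩ | ⟨i, j, hz⟩
    · exact Or.inl (Set.mem_iUnion.2 ⟨⟨i, j⟩, hz⟩)
    · exact Or.inr (Set.mem_iUnion.2 ⟨⟨i, j⟩, hz⟩)
  obtain ⟨L, hL, hc, hT⟩ := exists_tor_field V hVf (fun z hz => by
    rw [hV] at hz
    rw [Units.val_inv_eq_inv_val]
    rcases hz with ⟨i, j, hj, hz⟩ | ⟨i, j, hm, hz⟩
    · exact hC i j hj z hz
    · refine ⟨IsIntegral.of_pow (Nat.pos_of_ne_zero hm) (by rw [hz]; exact isIntegral_one),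
        IsIntegral.of_pow (Nat.pos_of_ne_zero hm) ?_⟩
      rw [inv_pow, hz, inv_one]
      exact isIntegral_one) r
  refine ⟨L, hL, dense_of_cover _ fun X hX => ?_⟩
  obtain ⟨h1, h2⟩ := cover m S C X hX
  refine ⟨_, h1, h2, density_mixed h01 hR _ _ _ (fun i j hj z hz => ?_)
    (fun i h => good_curve m S C X hX i h) L hL hc (Or.inr hT)⟩
  have hz0 : z ≠ 0 := by
    rintro rfl
    have h3 : (X (Sum.inr ⟨i, j⟩)).1.charpoly.eval 0 = 0 := hz
    rw [Matrix.eval_charpoly, map_zero, zero_sub, Matrix.det_neg, (X (Sum.inr ⟨i, j⟩)).2,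
      mul_one] at h3
    exact pow_ne_zero _ (by norm_num) h3
  refine ⟨Units.mk0 z hz0, Subgroup.subset_closure (Set.mem_insert_of_mem _ ?_), rfl⟩
  rw [hV]
  rcases hj with hj | hj
  · exact Or.inl ⟨i, j, hj, eigenvalue_conj (hX.1.2 i j hj) hz⟩
  · exact Or.inr ⟨i, j, hj, eigenvalue_pow (((isRep_iff m X).1 hX.1.1.1).2.2 i j) hz⟩

/-- Quasi-unipotent classes: explicit fields. -/
theorem density_roots_orb (h01 : G01Irr) (hR : G0R)
    (hg1 : ∀ i, g i = 1 → n i = 0 ∨ ∃ j, m i j = 0 ∧ j ∉ S i) (N : ℕ) (hN : 0 < N)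
    (hm : ∀ i j, m i j ≠ 0 → m i j ∣ N)
    (hC : ∀ i, ∀ j ∈ S i, ∀ z, IsEigenvalue (C i j) z → z ^ N = 1)
    (L : IntermediateField ℚ ℂ) (hL : FiniteDimensional ℚ L)
    (hμ : ∀ z : ℂ, z ^ (2 * N * r.factorial) = 1 → z ∈ L) (hu : Infinite (𝓞 L)ˣ) :
    IsDenseRep L (Z (g := g) m S C) := by
  refine dense_of_cover _ fun X hX => ?_
  obtain ⟨h1, h2⟩ := cover m S C X hX
  refine ⟨_, h1, h2, density_mixed h01 hR _ _ _ (fun i j hj => ?_)
    (fun i h => good_curve m S C X hX i h) L hL (Product.coefOK_roots N hN r L hL hμ hu)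
    (Or.inl fun i hi hj => ?_)⟩
  · refine Product.eigIn_roots (X (Sum.inr ⟨i, j⟩)) N hN fun z hz => ?_
    rcases hj with hj | hj
    · exact hC i j hj z (eigenvalue_conj (hX.1.2 i j hj) hz)
    · obtain ⟨c, hc⟩ := hm i j hj
      rw [hc, pow_mul, eigenvalue_pow (((isRep_iff m X).1 hX.1.1.1).2.2 i j) hz, one_pow]
  · refine (hg1 i hi).resolve_right ?_
    rintro ⟨j, h3, h4⟩
    exact (hj j).elim h4 fun h5 => h5 h3

/-- The main theorem for products of orbifold curves. -/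
theorem main4 (h01 : G01Irr) (hR : G0R) (k : ℕ) (g n : Fin k → ℕ) (m : ∀ i, Fin (n i) → ℕ)
    (r : ℕ) (S : ∀ i, Set (Fin (n i))) (C : ∀ i, Fin (n i) → SpecialLinearGroup (Fin r) ℂ) :
    ((∀ i, ∀ j ∈ S i, ∀ z, IsEigenvalue (C i j) z → IsIntegral ℤ z ∧ IsIntegral ℤ z⁻¹) →
      ∃ L : IntermediateField ℚ ℂ, FiniteDimensional ℚ L ∧
        IsDense (Rels g n m) L (Z m S C) ∧ IsDenseRep L (Z (g := g) m S C)) ∧
    ((∀ i, g i = 1 → n i = 0 ∨ ∃ j, m i j = 0 ∧ j ∉ S i) →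
      ∀ N : ℕ, 0 < N → (∀ i j, m i j ≠ 0 → m i j ∣ N) →
      (∀ i, ∀ j ∈ S i, ∀ z, IsEigenvalue (C i j) z → z ^ N = 1) →
      ∀ L : IntermediateField ℚ ℂ, FiniteDimensional ℚ L →
        (∀ z : ℂ, z ^ (2 * N * r.factorial) = 1 → z ∈ L) → Infinite (𝓞 L)ˣ →
        IsDenseRep L (Z (g := g) m S C)) := by
  refine ⟨fun hC => ?_, fun hg1 N hN hm hC L hL hμ hu =>
    density_roots_orb m S C h01 hR hg1 N hN hm hC L hL hμ hu⟩
  obtain ⟨L, hL, h⟩ := exists_density_orb m S C h01 hR hC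
  exact ⟨L, hL, h.isDense, h⟩

end Vale.Agent.P002R.Orb
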