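import Vale.Agent.P002R.YOrbGen

/-!
# Curve groups with free punctures and prescribed classes: elimination of one free generator
-/

namespace Vale.Agent.P002R.Orb

open Matrix NumberField

/-! ### One curve -/

section curve

variable {g n : ℕ} {P : Fin n → Prop} {o : Option (Fin n)}

/-- The free generators: the handles and the free punctures other than `o`. -/
abbrev KO (g : ℕ) {n : ℕ} (P : Fin n → Prop) (o : Option (Fin n)) :=
  (Fin g × Bool) ⊕ {j : Fin n // ¬ P j ∧ o ≠ some j}

/-- The generators with prescribed classes. -/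
abbrev IO {n : ℕ} (P : Fin n → Prop) := {j : Fin n // P j}

open Classical in
/-- The generator of a puncture. -/
noncomputable def gO (g : ℕ) {n : ℕ} (P : Fin n → Prop) (o : Option (Fin n)) (j : Fin n) :
    FreeGroup (KO g P o ⊕ IO P) :=
  if h : P j then FreeGroup.of (Sum.inr ⟨j, h⟩) else
    if h' : o ≠ some j then FreeGroup.of (Sum.inl (Sum.inr ⟨j, h, h'⟩)) else 1

/-- The product of the commutators. -/
def hO (g : ℕ) {n : ℕ} (P : Fin n → Prop) (o : Option (Fin n)) : FreeGroup (KO g P o ⊕ IO P) :=
  (List.ofFn fun l : Fin g => (FreeGroup.of (Sum.inl (Sum.inl (l, false))) *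
    FreeGroup.of (Sum.inl (Sum.inl (l, true))) *
    (FreeGroup.of (Sum.inl (Sum.inl (l, false))))⁻¹ *
    (FreeGroup.of (Sum.inl (Sum.inl (l, true))))⁻¹ : FreeGroup (KO g P o ⊕ IO P))).prod

/-- The surface word. -/
noncomputable def tO (g : ℕ) {n : ℕ} (P : Fin n → Prop) (o : Option (Fin n)) :
    FreeGroup (KO g P o ⊕ IO P) :=
  hO g P o * (List.ofFn fun j => gO g P o j).prod

/-- The relator, if there is no free puncture. -/
def RelO (g : ℕ) {n : ℕ} (P : Fin n → Prop) (o : Option (Fin n)) :
    Set (FreeGroup (KO g P o ⊕ IO P)) := {w | o = none ∧ w = tO g P o}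

open Classical in
/-- The generators as words. -/
noncomputable def wO (g : ℕ) {n : ℕ} (P : Fin n → Prop) (o : Option (Fin n)) :
    (Fin g × Bool) ⊕ Fin n → FreeGroup (KO g P o ⊕ IO P)
  | Sum.inl p => FreeGroup.of (Sum.inl (Sum.inl p))
  | Sum.inr j => if o = some j then
      ((List.ofFn fun j => gO g P o j).take j).prod⁻¹ * (hO g P o)⁻¹ *
        ((List.ofFn fun j => gO g P o j).drop (j + 1)).prod⁻¹
      else gO g P o j

/-- The generators are a part of the given generators. -/
def bO (g : ℕ) {n : ℕ} (P : Fin n → Prop) (o : Option (Fin n)) :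
    KO g P o ⊕ IO P → (Fin g × Bool) ⊕ Fin n
  | Sum.inl (Sum.inl p) => Sum.inl p
  | Sum.inl (Sum.inr j) => Sum.inr j.1
  | Sum.inr j => Sum.inr j.1

/-- The surface relation. -/
def SRel {H : Type*} [Group H] (c : (Fin g × Bool) ⊕ Fin n → H) : Prop :=
  (List.ofFn fun l : Fin g => c (Sum.inl (l, false)) * c (Sum.inl (l, true)) *
    (c (Sum.inl (l, false)))⁻¹ * (c (Sum.inl (l, true)))⁻¹).prod *
      (List.ofFn fun j : Fin n => c (Sum.inr j)).prod = 1

theorem prod_split {H : Type*} [Group H] (c c' : Fin n → H) (j₀ : Fin n)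
    (h : ∀ j, j ≠ j₀ → c j = c' j) : (List.ofFn c).prod =
      ((List.ofFn c').take j₀).prod * (c j₀ * ((List.ofFn c').drop (j₀ + 1)).prod) := by
  have h1 : (List.ofFn c').take j₀ = (List.ofFn c).take j₀ := by
    apply List.ext_getElem
    · simp
    · intro i hi hi'
      simp only [List.getElem_take, List.getElem_ofFn]
      refine (h _ fun h0 => ?_).symm
      have h2 := congrArg Fin.val h0
      simp only [List.length_take, List.length_ofFn] at hi h2
      omega
  have h2 : (List.ofFn c').drop (j₀ + 1) = (List.ofFn c).drop (j₀ + 1) := by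
    apply List.ext_getElem
    · simp
    · intro i hi hi'
      simp only [List.getElem_drop, List.getElem_ofFn]
      refine (h _ fun h0 => ?_).symm
      have h2 := congrArg Fin.val h0
      simp only at h2
      omega
  rw [h1, h2]
  have h3 : (j₀ : ℕ) < (List.ofFn c).length := by
    rw [List.length_ofFn]
    exact j₀.2
  have h4 := List.take_append_drop (j₀ : ℕ) (List.ofFn c)
  rw [List.drop_eq_getElem_cons h3] at h4
  have h5 := congrArg List.prod h4
  rw [List.prod_append, List.prod_cons, List.getElem_ofFn] at h5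
  exact h5.symm

theorem map_hO {H : Type*} [Group H] (y : FreeGroup (KO g P o ⊕ IO P) →* H) :
    y (hO g P o) = (List.ofFn fun l : Fin g => y (wO g P o (Sum.inl (l, false))) *
      y (wO g P o (Sum.inl (l, true))) * (y (wO g P o (Sum.inl (l, false))))⁻¹ *
        (y (wO g P o (Sum.inl (l, true))))⁻¹).prod := by
  unfold hO wO
  rw [map_list_prod, List.map_ofFn]
  congr 2
  funext l
  simp only [Function.comp, map_mul, map_inv]

theorem wO_inr_of_ne {j : Fin n} (h : o ≠ some j) : wO g P o (Sum.inr j) = gO g P o j := by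
  simp only [wO]
  rw [if_neg h]

theorem wO_inr_self (j : Fin n) : wO g P (some j) (Sum.inr j) =
    ((List.ofFn fun j' => gO g P (some j) j').take j).prod⁻¹ * (hO g P (some j))⁻¹ *
      ((List.ofFn fun j' => gO g P (some j) j').drop (j + 1)).prod⁻¹ := by
  simp only [wO, if_true]

/-- The words satisfy the surface relation. -/
theorem srel_word {H : Type*} [Group H] (y : FreeGroup (KO g P o ⊕ IO P) →* H)
    (hy : ∀ w ∈ RelO g P o, y w = 1) : SRel fun p => y (wO g P o p) := by
  unfold SRel
  rw [← map_hO]
  rcases o with _ | j₀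
  · have h1 := hy _ ⟨rfl, rfl⟩
    rw [tO, map_mul, map_list_prod, List.map_ofFn] at h1
    have h2 : (fun j : Fin n => y (wO g P none (Sum.inr j))) = y ∘ fun j => gO g P none j := by
      funext j
      rw [wO_inr_of_ne (by simp)]
      rfl
    rw [h2]
    exact h1
  · rw [prod_split _ (y ∘ fun j => gO g P (some j₀) j) j₀ fun j hj => by
      simp only [Function.comp]
      rw [wO_inr_of_ne fun h => hj (Option.some.inj h).symm]]
    dsimp only
    rw [wO_inr_self, ← List.map_ofFn, ← List.map_take, ← List.map_drop, ← map_list_prod, ← map_list_prod,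
      ← map_mul, ← map_mul, ← map_mul]
    have h3 : hO g P (some j₀) * (((List.ofFn fun j => gO g P (some j₀) j).take j₀).prod *
        (((List.ofFn fun j => gO g P (some j₀) j).take j₀).prod⁻¹ * (hO g P (some j₀))⁻¹ *
        ((List.ofFn fun j => gO g P (some j₀) j).drop (j₀ + 1)).prod⁻¹ *
        ((List.ofFn fun j => gO g P (some j₀) j).drop (j₀ + 1)).prod)) = 1 := by
      group
    rw [h3, map_one]

/-- The given tuple in terms of words. -/
theorem gO_comp {H : Type*} [Group H] (c : (Fin g × Bool) ⊕ Fin n → H)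
    (y : FreeGroup (KO g P o ⊕ IO P) →* H) (hy : ∀ p, y (FreeGroup.of p) = c (bO g P o p))
    {j : Fin n} (h : o ≠ some j) : y (gO g P o j) = c (Sum.inr j) := by
  unfold gO
  split_ifs with h1
  · rw [hy]; rfl
  · rw [hy]; rfl

theorem word_comp {H : Type*} [Group H] (c : (Fin g × Bool) ⊕ Fin n → H) (hc : SRel c)
    (y : FreeGroup (KO g P o ⊕ IO P) →* H) (hy : ∀ p, y (FreeGroup.of p) = c (bO g P o p)) :
    (∀ w ∈ RelO g P o, y w = 1) ∧ ∀ p, y (wO g P o p) = c p := by
  have hh : y (hO g P o) = (List.ofFn fun l : Fin g => c (Sum.inl (l, false)) *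
      c (Sum.inl (l, true)) * (c (Sum.inl (l, false)))⁻¹ * (c (Sum.inl (l, true)))⁻¹).prod := by
    rw [map_hO]
    simp only [wO, hy]
    rfl
  unfold SRel at hc
  rw [← hh] at hc
  constructor
  · rintro w ⟨rfl, rfl⟩
    rw [tO, map_mul, map_list_prod, List.map_ofFn]
    have h2 : (y ∘ fun j => gO g P none j) = fun j : Fin n => c (Sum.inr j) := by
      funext j
      exact gO_comp c y hy (by simp)
    rw [h2]
    exact hc
  · rintro (p | j)
    · exact hy _
    · by_cases h : o = some j
      · subst h
        rw [prod_split _ (y ∘ fun j' => gO g P (some j) j') j fun j' hj' => by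
          simp only [Function.comp]
          rw [gO_comp c y hy fun h => hj' (Option.some.inj h).symm]] at hc
        rw [← List.map_ofFn, ← List.map_take, ← List.map_drop, ← map_list_prod,
          ← map_list_prod] at hc
        rw [wO_inr_self, map_mul, map_mul, map_inv, map_inv, map_inv]
        have h3 : ∀ a b d e : H, a * (b * (d * e)) = 1 → b⁻¹ * a⁻¹ * e⁻¹ = d := by
          intro a b d e h
          have : a = (b * (d * e))⁻¹ := eq_inv_of_mul_eq_one_left h
          rw [this]
          group
        exact h3 _ _ _ _ hc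
      · rw [wO_inr_of_ne h]
        exact gO_comp c y hy h

theorem wO_bO (ho : ∀ j, o = some j → ¬ P j) (p : KO g P o ⊕ IO P) :
    wO g P o (bO g P o p) = FreeGroup.of p := by
  rcases p with (p | j) | j
  · rfl
  · simp only [bO]
    rw [wO_inr_of_ne j.2.2, gO, dif_neg j.2.1, dif_pos j.2.2]
  · simp only [bO]
    rw [wO_inr_of_ne fun h => ho _ h j.2, gO, dif_pos j.2]

theorem RelO_charOK (hn : o = none → ∀ j, P j) : CharOK (RelO g P o) := by
  rintro w ⟨ho, rfl⟩ A _ χ hχ
  rw [tO, map_mul, map_hO]
  have h1 : χ (List.ofFn fun j => gO g P o j).prod = 1 := by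
    rw [map_list_prod, List.map_ofFn]
    have : (χ ∘ fun j => gO g P o j) = fun _ : Fin n => (1 : A) := by
      funext j
      simp only [Function.comp, gO]
      rw [dif_pos (hn ho j)]
      exact hχ _
    rw [this]
    simp
  rw [h1, mul_one]
  simp

end curve

end Vale.Agent.P002R.Orb
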