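import Vale.Agent.P002R.ZBridge2

/-!
# Ideals become principal in a finite extension
-/

namespace Vale.Agent.P002R

open NumberField nonZeroDivisors

/-- Every nonzero vector over `R₁` is, over `R₂`, a multiple of a unimodular vector. -/
def Prin {R₁ R₂ : Type} [CommRing R₁] [CommRing R₂] (ι : R₁ →+* R₂) : Prop :=
  ∀ (r : ℕ) (v : Fin r → R₁), v ≠ 0 → ∃ (t : R₂) (w y : Fin r → R₂),
    (∀ i, ι (v i) = t * w i) ∧ ∑ i, y i * w i = 1

theorem map_eq_span_of_class {R₁ R₂ : Type} [CommRing R₁] [CommRing R₂] [IsDedekindDomain R₂] (ι : R₁ →+* R₂) (hinj : Function.Injective ι) {m : ℕ}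
    (hm0 : m ≠ 0) (J K : Ideal R₁) (x y α : R₁) (hx : x ≠ 0)
    (hxy : Ideal.span {x} * J = Ideal.span {y} * K) (hα : K ^ m = Ideal.span {α}) (b : R₂)
    (hb : b ^ m = ι α) : ∃ t, J.map ι = Ideal.span {t} := by
  have h1 : Ideal.span {ι x} * J.map ι = Ideal.span {ι y * b} := by
    have h2 : (Ideal.span {ι x} * J.map ι) ^ m = (Ideal.span {ι y * b}) ^ m := by
      have h3 := congrArg (fun K => (Ideal.map ι K) ^ m) hxy
      simp only [Ideal.map_mul, Ideal.map_span, Set.image_singleton] at h3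
      rw [h3, mul_pow, ← Ideal.map_pow, hα, Ideal.map_span, Set.image_singleton,
        Ideal.span_singleton_pow, Ideal.span_singleton_pow, Ideal.span_singleton_mul_span_singleton,
        mul_pow, hb]
    exact dvd_antisymm ((UniqueFactorizationMonoid.pow_dvd_pow_iff_dvd hm0).1 h2.dvd)
      ((UniqueFactorizationMonoid.pow_dvd_pow_iff_dvd hm0).1 h2.symm.dvd)
  have hx' : ι x ≠ 0 := by
    rw [Ne, ← map_zero ι]
    exact fun h => hx (hinj h)
  have h2 : ι x ∣ ι y * b := by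
    have h3 : Ideal.span {ι y * b} ≤ Ideal.span {ι x} := by
      rw [← h1]
      exact Ideal.mul_le_left
    exact Ideal.span_singleton_le_span_singleton.1 h3
  obtain ⟨t, ht⟩ := h2
  rw [ht, ← Ideal.span_singleton_mul_span_singleton] at h1
  have h4 : Ideal.span {ι x} ≠ 0 := by
    rw [Ne, Ideal.zero_eq_bot, Ideal.span_singleton_eq_bot]
    exact hx'
  exact ⟨t, mul_left_cancel₀ h4 h1⟩

theorem unimodular_of_map {R₁ R₂ : Type} [CommRing R₁] [CommRing R₂] [IsDomain R₂]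
    (ι : R₁ →+* R₂) (hinj : Function.Injective ι) {r : ℕ} (v : Fin r → R₁) (hv : v ≠ 0) (t : R₂)
    (h : (Ideal.span (Set.range v)).map ι = Ideal.span {t}) : ∃ (w y : Fin r → R₂),
    (∀ i, ι (v i) = t * w i) ∧ ∑ i, y i * w i = 1 := by
  have h3 : ∀ i, ∃ w, ι (v i) = t * w := by
    intro i
    have h4 : ι (v i) ∈ Ideal.span {t} := by
      rw [← h]
      exact Ideal.mem_map_of_mem _ (Ideal.subset_span ⟨i, rfl⟩)
    exact Ideal.mem_span_singleton.1 h4
  choose w hw using h3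
  have ht0 : t ≠ 0 := by
    rintro rfl
    apply hv
    funext i
    apply hinj
    rw [hw, zero_mul, Pi.zero_apply, map_zero]
  have h4 : t ∈ Ideal.span (Set.range fun i => ι (v i)) := by
    have h5 : t ∈ (Ideal.span (Set.range v)).map ι := by
      rw [h]; exact Ideal.mem_span_singleton_self _
    rw [Ideal.map_span, ← Set.range_comp] at h5
    exact h5
  obtain ⟨y', hy'⟩ := (Ideal.mem_span_range_iff_exists_fun).1 h4
  refine ⟨w, y', hw, ?_⟩
  apply mul_left_cancel₀ ht0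
  rw [Finset.mul_sum, mul_one]
  conv_rhs => rw [← hy']
  refine Finset.sum_congr rfl fun i _ => ?_
  rw [hw]
  ring

theorem prin_of_pow {R₁ R₂ : Type} [CommRing R₁] [CommRing R₂]
    [IsDedekindDomain R₁] [IsDedekindDomain R₂] (ι : R₁ →+* R₂) (hinj : Function.Injective ι)
    (m : ℕ) (hm0 : m ≠ 0) (I : ClassGroup R₁ → (Ideal R₁)⁰) (hI : ∀ c, ClassGroup.mk0 (I c) = c)
    (α : ClassGroup R₁ → R₁) (hα : ∀ c, (I c : Ideal R₁) ^ m = Ideal.span {α c})
    (b : ClassGroup R₁ → R₂) (hb : ∀ c, b c ^ m = ι (α c)) : Prin ι := by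
  intro r v hv
  obtain ⟨J, hJ⟩ : ∃ J : Ideal R₁, J = Ideal.span (Set.range v) := ⟨_, rfl⟩
  have hJ0 : J ≠ 0 := by
    intro h0
    apply hv
    funext i
    have h1 : v i ∈ J := by rw [hJ]; exact Ideal.subset_span ⟨i, rfl⟩
    rw [h0] at h1
    exact h1
  obtain ⟨c, hc⟩ : ∃ c, c = ClassGroup.mk0 ⟨J, mem_nonZeroDivisors_of_ne_zero hJ0⟩ := ⟨_, rfl⟩
  obtain ⟨x, y, hx, hy, hxy⟩ := ClassGroup.mk0_eq_mk0_iff.1 (hc.symm.trans (hI c).symm)
  obtain ⟨t, ht⟩ := map_eq_span_of_class ι hinj hm0 J (I c) x y (α c) hx hxy (hα c) (b c) (hb c)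
  rw [hJ] at ht
  obtain ⟨w, y', h1, h2⟩ := unimodular_of_map ι hinj v hv t ht
  exact ⟨t, w, y', h1, h2⟩

/-- Roots of integral elements. -/
theorem exists_root_O {L₁ L₂ : IntermediateField ℚ ℂ} (h : L₁ ≤ L₂) {m : ℕ} (hm : 0 < m)
    (α : 𝓞 L₁) (β : ℂ) (hβ : β ^ m = phiO (algebraMap L₁ ℂ) α) (hβ2 : β ∈ L₂) :
    ∃ b : 𝓞 L₂, b ^ m = iotaO h α := by
  have hint : IsIntegral ℤ β := by
    refine IsIntegral.of_pow hm ?_
    rw [hβ]
    exact α.isIntegral_coe.map (algebraMap L₁ ℂ).toIntAlgHom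
  have hint' : IsIntegral ℤ (⟨β, hβ2⟩ : L₂) := by
    rw [← isIntegral_algebraMap_iff (A := L₂) (B := ℂ) (algebraMap L₂ ℂ).injective]
    exact hint
  obtain ⟨w, hw⟩ : ∃ w : 𝓞 L₂, w = ⟨⟨β, hβ2⟩, hint'⟩ := ⟨_, rfl⟩
  refine ⟨w, ?_⟩
  apply phiO_injective (algebraMap L₂ ℂ)
  rw [map_pow, phiO_iotaO, ← hβ, hw]
  rfl

theorem iotaO_injective {L₁ L₂ : IntermediateField ℚ ℂ} (h : L₁ ≤ L₂) :
    Function.Injective (iotaO h) := by
  intro x y hxy
  apply phiO_injective (algebraMap L₁ ℂ)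
  rw [← phiO_iotaO h, ← phiO_iotaO h, hxy]

/-- A finite extension in which the ideals of the ring of integers become principal. -/
theorem exists_prin_field (L₁ : IntermediateField ℚ ℂ) (hL₁ : FiniteDimensional ℚ L₁) :
    ∃ L₂ : IntermediateField ℚ ℂ, FiniteDimensional ℚ L₂ ∧ ∃ h : L₁ ≤ L₂, Prin (iotaO h) := by
  classical
  have : NumberField L₁ := { to_charZero := inferInstance, to_finiteDimensional := hL₁ }
  obtain ⟨m, hm⟩ : ∃ m, m = Fintype.card (ClassGroup (𝓞 L₁)) := ⟨_, rfl⟩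
  have hm0 : 0 < m := hm ▸ Fintype.card_pos
  choose I hI using (ClassGroup.mk0_surjective : Function.Surjective
    (ClassGroup.mk0 : (Ideal (𝓞 L₁))⁰ → ClassGroup (𝓞 L₁)))
  have hprin : ∀ c, ∃ α : 𝓞 L₁, ((I c : Ideal (𝓞 L₁)) ^ m) = Ideal.span {α} := by
    intro c
    have h1 : ClassGroup.mk0 ((I c) ^ m) = 1 := by
      rw [map_pow, hI, hm, pow_card_eq_one]
    have h2 : (((I c) ^ m : (Ideal (𝓞 L₁))⁰) : Ideal (𝓞 L₁)).IsPrincipal :=
      (ClassGroup.mk0_eq_one_iff ((I c) ^ m).2).1 h1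
    obtain ⟨α, hα⟩ := h2.principal
    refine ⟨α, ?_⟩
    rw [← SubmonoidClass.coe_pow]
    exact hα
  choose α hα using hprin
  have hroot : ∀ c, ∃ β : ℂ, β ^ m = phiO (algebraMap L₁ ℂ) (α c) := fun c =>
    IsAlgClosed.exists_pow_nat_eq _ hm0
  choose β hβ using hroot
  have hβint : ∀ c, IsIntegral ℤ (β c) := by
    intro c
    refine IsIntegral.of_pow hm0 ?_
    rw [hβ]
    exact (α c).isIntegral_coe.map (algebraMap L₁ ℂ).toIntAlgHom
  have hfd : FiniteDimensional ℚ (IntermediateField.adjoin ℚ (Set.range β)) :=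
    IntermediateField.finiteDimensional_adjoin fun x hx => by
      obtain ⟨c, rfl⟩ := hx
      exact (hβint c).tower_top
  obtain ⟨L₂, hL₂⟩ : ∃ L₂, L₂ = L₁ ⊔ IntermediateField.adjoin ℚ (Set.range β) := ⟨_, rfl⟩
  have hle : L₁ ≤ L₂ := hL₂ ▸ le_sup_left
  have hfd2 : FiniteDimensional ℚ L₂ := hL₂ ▸ inferInstance
  have hβ2 : ∀ c, β c ∈ L₂ := by
    intro c
    rw [hL₂]
    exact (le_sup_right : IntermediateField.adjoin ℚ (Set.range β) ≤ _)
      (IntermediateField.subset_adjoin ℚ _ ⟨c, rfl⟩)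
  have : NumberField L₂ := { to_charZero := inferInstance, to_finiteDimensional := hfd2 }
  have hb : ∀ c, ∃ b : 𝓞 L₂, b ^ m = iotaO hle (α c) := fun c =>
    exists_root_O hle hm0 (α c) (β c) (hβ c) (hβ2 c)
  choose b hb using hb
  exact ⟨L₂, hfd2, hle, prin_of_pow (iotaO hle) (iotaO_injective hle) m hm0.ne' I hI α hα b hb⟩

end Vale.Agent.P002R
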