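import Vale.Agent.P002R.RFieldE

/-!
# Units of the ring of integers modulo a nonzero element
-/

namespace Vale.Agent.P002R

open NumberField

/-- Powers of a unit are congruent to one modulo any nonzero element. -/
theorem exists_dvd_pow_sub_one (L : Type) [Field L] [NumberField L] (u : (𝓞 L)ˣ) (D : 𝓞 L)
    (hD : D ≠ 0) : ∃ M : ℕ, 0 < M ∧ D ∣ (u : 𝓞 L) ^ M - 1 := by
  have hI : (Ideal.span {D} : Ideal (𝓞 L)) ≠ ⊥ := by
    rwa [Ne, Ideal.span_singleton_eq_bot]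
  have : Finite (𝓞 L ⧸ (Ideal.span {D} : Ideal (𝓞 L))) := Ideal.finiteQuotientOfFreeOfNeBot _ hI
  obtain ⟨v, hv⟩ : ∃ v : (𝓞 L ⧸ (Ideal.span {D} : Ideal (𝓞 L)))ˣ,
      v = Units.map (Ideal.Quotient.mk (Ideal.span {D})).toMonoidHom u := ⟨_, rfl⟩
  refine ⟨orderOf v, orderOf_pos v, ?_⟩
  rw [← Ideal.mem_span_singleton, ← Ideal.Quotient.eq_zero_iff_mem, map_sub, map_one, map_pow,
    sub_eq_zero]
  have h1 := congrArg Units.val (pow_orderOf_eq_one v)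
  rw [Units.val_pow_eq_pow_val, Units.val_one] at h1
  have h2 : (v : 𝓞 L ⧸ (Ideal.span {D} : Ideal (𝓞 L))) = Ideal.Quotient.mk _ (u : 𝓞 L) := by
    rw [hv]
    rfl
  rw [← h2]
  exact h1

end Vale.Agent.P002R
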