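import Vale.Agent.P002R.RBridgeP
import Vale.Agent.P002R.ZPerm
import Vale.Agent.P002R.ZUnitP

/-!
# Density for products of curves with at least `3 - 2g` regular classes
-/

namespace Vale.Agent.P002R

open Matrix

/-- The main theorem in genus zero: irreducible representations of a sphere with `m + 3`
punctures, the classes of the punctures `0`, `m + 1` and `m + 2` have cyclic vectors. -/
def G0Irr : Prop :=
  ∀ {m r : ℕ}, 0 < r → ∀ {R : Type} [CommRing R] (φ : R →+* ℂ) (E : Subgroup ℂˣ),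
    CoefOK φ E r → (∀ (u : Rˣ) (D : R), D ≠ 0 → ∃ M : ℕ, 0 < M ∧ D ∣ (u : R) ^ M - 1) →
    ∀ C : Fin (m + 3) → (Mat r ℂ)ˣ, (∀ j, EigIn E (C j : Mat r ℂ)) →
    HasCyc r (C 0 : Mat r ℂ) → HasCyc r (C ⟨m + 1, by omega⟩ : Mat r ℂ) →
    HasCyc r (C (Fin.last (m + 2)) : Mat r ℂ) →
    ∀ x ∈ YG ({relatorU 0 (m + 3)} : Set (FreeGroup ((Fin 0 × Bool) ⊕ Fin (m + 3)))) C,
    (∀ M : Mat r ℂ, (∀ w, Commute M (x w : Mat r ℂ)) → ∃ c : ℂ, M = c • (1 : Mat r ℂ)) →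
    ∀ f : MvPolynomial (((Fin 0 × Bool) ⊕ Fin (m + 3)) × Fin r × Fin r) ℂ,
    (∀ y ∈ DGT ({relatorU 0 (m + 3)} : Set (FreeGroup ((Fin 0 × Bool) ⊕ Fin (m + 3)))) φ C,
      evalG y f = 0) → evalG x f = 0

/-- The main theorem in genus one: irreducible representations of a torus with `n + 1`
punctures, the class of the puncture `0` has a cyclic vector. -/
def G1Irr : Prop :=
  ∀ {n r : ℕ}, 0 < r → ∀ {R : Type} [CommRing R] (φ : R →+* ℂ) (E : Subgroup ℂˣ),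
    CoefOK φ E r → (∀ (u : Rˣ) (D : R), D ≠ 0 → ∃ M : ℕ, 0 < M ∧ D ∣ (u : R) ^ M - 1) →
    ∀ C : Fin (n + 1) → (Mat r ℂ)ˣ, (∀ j, EigIn E (C j : Mat r ℂ)) →
    HasCyc r (C 0 : Mat r ℂ) →
    ∀ x ∈ YG ({relatorU 1 (n + 1)} : Set (FreeGroup ((Fin 1 × Bool) ⊕ Fin (n + 1)))) C,
    (∀ M : Mat r ℂ, (∀ w, Commute M (x w : Mat r ℂ)) → ∃ c : ℂ, M = c • (1 : Mat r ℂ)) →
    ∀ f : MvPolynomial (((Fin 1 × Bool) ⊕ Fin (n + 1)) × Fin r × Fin r) ℂ,
    (∀ y ∈ DGT ({relatorU 1 (n + 1)} : Set (FreeGroup ((Fin 1 × Bool) ⊕ Fin (n + 1)))) φ C,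
      evalG y f = 0) → evalG x f = 0

/-- Tori with at least one regular class. -/
theorem g1_irrDenseQ (hG : G1Irr) {n r : ℕ} {R : Type} [CommRing R] (φ : R →+* ℂ)
    (E : Subgroup ℂˣ) (hc : CoefOK φ E r)
    (hUP : ∀ (u : Rˣ) (D : R), D ≠ 0 → ∃ M : ℕ, 0 < M ∧ D ∣ (u : R) ^ M - 1)
    {T : Finset (Fin n)} (hT : T.Nonempty) {Q : Fin n → ∀ r : ℕ, Mat r ℂ → Prop}
    (hE : ∀ j r M, Q j r M → EigIn E M) (hQ : ∀ j ∈ T, ∀ r M, Q j r M → HasCyc r M) :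
    ∀ r' ≤ r, 0 < r' →
      IrrDenseQ Q ({relatorU 1 n} : Set (FreeGroup ((Fin 1 × Bool) ⊕ Fin n))) φ r' := by
  intro r' hr' hr'0
  obtain ⟨j, hj⟩ := hT
  obtain ⟨m, rfl⟩ : ∃ m, n = m + 1 := ⟨n - 1, by
    have := j.2
    omega⟩
  have hc' : CoefOK φ E r' :=
    ⟨hc.inj, hc.neg, fun k hk hk' => hc.root k hk (hk'.trans hr'), hc.unit⟩
  refine irrDenseQ_reorder (Equiv.swap 0 j) fun C hC x hx hirr f hf => ?_
  refine hG hr'0 φ E hc' hUP C (fun j => hE _ _ _ (hC j)) (hQ j hj _ _ ?_) x hx hirr f hf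
  have h1 : Q (Equiv.swap 0 j 0) r' (C 0 : Mat r' ℂ) := hC 0
  rwa [Equiv.swap_apply_left] at h1

/-- Spheres with at least three regular classes. -/
theorem g0_irrDenseQ (hG : G0Irr) {n r : ℕ} {R : Type} [CommRing R] (φ : R →+* ℂ)
    (E : Subgroup ℂˣ) (hc : CoefOK φ E r)
    (hUP : ∀ (u : Rˣ) (D : R), D ≠ 0 → ∃ M : ℕ, 0 < M ∧ D ∣ (u : R) ^ M - 1)
    {T : Finset (Fin n)} (hT : 3 ≤ T.card) {Q : Fin n → ∀ r : ℕ, Mat r ℂ → Prop}
    (hE : ∀ j r M, Q j r M → EigIn E M) (hQ : ∀ j ∈ T, ∀ r M, Q j r M → HasCyc r M) :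
    ∀ r' ≤ r, 0 < r' →
      IrrDenseQ Q ({relatorU 0 n} : Set (FreeGroup ((Fin 0 × Bool) ⊕ Fin n))) φ r' := by
  intro r' hr' hr'0
  obtain ⟨m, rfl⟩ : ∃ m, n = m + 3 := ⟨n - 3, by
    have := hT.trans (Finset.card_le_univ T)
    rw [Fintype.card_fin] at this
    omega⟩
  have hc' : CoefOK φ E r' :=
    ⟨hc.inj, hc.neg, fun k hk hk' => hc.root k hk (hk'.trans hr'), hc.unit⟩
  obtain ⟨e, ha, hb, hl⟩ := exists_perm_three hT (0 : Fin (m + 3)) ⟨m + 1, by omega⟩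
    (Fin.last (m + 2)) (by rw [Ne, Fin.ext_iff]; simp) (by rw [Ne, Fin.ext_iff]; simp)
    (by rw [Ne, Fin.ext_iff]; simp)
  refine irrDenseQ_reorder e fun C hC x hx hirr f hf => ?_
  exact hG hr'0 φ E hc' hUP C (fun j => hE _ _ _ (hC j)) (hQ _ ha _ _ (hC 0))
    (hQ _ hb _ _ (hC _)) (hQ _ hl _ _ (hC _)) x hx hirr f hf

end Vale.Agent.P002R

namespace Vale.Agent.P002R.Product

open Matrix NumberField

variable {k r : ℕ} {g n : Fin k → ℕ}

/-- The allowed curves with boundary classes. -/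
def OKCurveQ (g n r : ℕ) (C : Fin n → SpecialLinearGroup (Fin r) ℂ) : Prop :=
  OKCurve g n ∨ ∃ T : Finset (Fin n), 3 ≤ 2 * g + T.card ∧ ∀ j ∈ T, HasCyc r (C j).1

/-- The condition on the classes. -/
def QC (E : Subgroup ℂˣ) (g n : ℕ) (T : Finset (Fin n)) (j : Fin n) (r : ℕ) (M : Mat r ℂ) : Prop :=
  EigIn E M ∧ (¬ OKCurve g n → j ∈ T → HasCyc r M)

theorem classOK_QC (E : Subgroup ℂˣ) (g n : ℕ) (T : Finset (Fin n)) (j : Fin n) :
    ClassOK E (QC E g n T j) where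
  eig := fun h => h.1
  conj := fun h hX => ⟨(classOK_eig E).conj h hX.1, fun h1 h2 =>
    ((classOK_cyc E).conj h ⟨hX.1, hX.2 h1 h2⟩).2⟩
  blk := fun h => ⟨⟨((classOK_eig E).blk h.1).1, fun h1 h2 =>
      ((classOK_cyc E).blk ⟨h.1, h.2 h1 h2⟩).1.2⟩,
    ⟨((classOK_eig E).blk h.1).2, fun h1 h2 => ((classOK_cyc E).blk ⟨h.1, h.2 h1 h2⟩).2.2⟩⟩
  kr₁ := fun hr h => ⟨(classOK_eig E).kr₁ hr h.1, fun h1 h2 =>
    ((classOK_cyc E).kr₁ hr ⟨h.1, h.2 h1 h2⟩).2⟩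
  kr₂ := fun hr h => ⟨(classOK_eig E).kr₂ hr h.1, fun h1 h2 =>
    ((classOK_cyc E).kr₂ hr ⟨h.1, h.2 h1 h2⟩).2⟩

theorem FRel_irrDenseQ (hG : G0Irr) (hG1 : G1Irr) {R : Type} [CommRing R] (φ : R →+* ℂ) (E : Subgroup ℂˣ)
    (hc : CoefOK φ E r)
    (hUP : ∀ (u : Rˣ) (D : R), D ≠ 0 → ∃ M : ℕ, 0 < M ∧ D ∣ (u : R) ^ M - 1)
    (T : ∀ i, Finset (Fin (n i)))
    (hg : ∀ i, OKCurve (g i) (n i) ∨ 3 ≤ 2 * g i + (T i).card) :
    ∀ r' ≤ r, 0 < r' → IrrDenseQ (fun p : Σ i, Fin (n i) => QC E (g p.1) (n p.1) (T p.1) p.2)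
      (FRel g n) φ r' := by
  refine fam_irrDenseQ φ E r k _ _ (fun i j => QC E (g i) (n i) (T i) j)
    (fun i j => classOK_QC E (g i) (n i) (T i) j) _ fun i r' hr' hr'0 => ?_
  by_cases h : 2 ≤ g i ∨ n i = 0
  · exact (surface_irrDense φ E hc h r' hr' hr'0).toQ fun j M hM => hM.1
  by_cases h1 : g i = 0 ∧ n i ≤ 2
  · exact (abel_irrDense φ E _ (fun r'' x hx => surface_comm (Or.inl h1) r'' x hx) r' hr'0).toQ
      fun j M hM => hM.1
  · have h2 : ¬ OKCurve (g i) (n i) := by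
      unfold OKCurve
      omega
    have h3 := (hg i).resolve_left h2
    have h4 : g i = 0 ∨ g i = 1 := by omega
    have key : ∀ g' : ℕ, g' = g i → IrrDenseQ (fun j => QC E (g i) (n i) (T i) j)
        ({relatorU g' (n i)} : Set (FreeGroup ((Fin g' × Bool) ⊕ Fin (n i)))) φ r' := by
      intro g' hg'
      have h5 : g' = 0 ∨ g' = 1 := by omega
      rcases h5 with rfl | rfl
      · exact g0_irrDenseQ hG φ E hc hUP (by omega) (fun j r M hM => hM.1)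
          (fun j hj r M hM => hM.2 h2 hj) r' hr' hr'0
      · exact g1_irrDenseQ hG1 φ E hc hUP (T := T i) (Finset.card_pos.1 (by omega))
          (fun j r M hM => hM.1) (fun j hj r M hM => hM.2 h2 hj) r' hr' hr'0
    exact key (g i) rfl

theorem density_EQ (hG : G0Irr) (hG1 : G1Irr) (C : ∀ i, Fin (n i) → SpecialLinearGroup (Fin r) ℂ) (E : Subgroup ℂˣ)
    (hC : ∀ i j, EigIn E ((C i j).1)) (hg : ∀ i, OKCurveQ (g i) (n i) r (C i))
    (L : IntermediateField ℚ ℂ) (hL : FiniteDimensional ℚ L)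
    (hc : CoefOK (phiO (algebraMap L ℂ)) E r) :
    IsZariskiDenseRep {X ∈ Y g C | IsIntegralRep L X} (Y g C) := by
  have : NumberField L := { to_charZero := inferInstance, to_finiteDimensional := hL }
  obtain ⟨φ, hφ⟩ : ∃ φ, φ = phiO (algebraMap L ℂ) := ⟨_, rfl⟩
  rw [← hφ] at hc
  have hφi : Function.Injective φ := hc.inj
  obtain ⟨T, hT⟩ : ∃ T : ∀ i, Finset (Fin (n i)), ∀ i, (¬ OKCurve (g i) (n i) →
      3 ≤ 2 * g i + (T i).card) ∧ (¬ OKCurve (g i) (n i) → ∀ j ∈ T i, HasCyc r (C i j).1) := by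
    have h1 : ∀ i, ∃ T : Finset (Fin (n i)), (¬ OKCurve (g i) (n i) →
      3 ≤ 2 * g i + T.card) ∧ (¬ OKCurve (g i) (n i) → ∀ j ∈ T, HasCyc r (C i j).1) := by
      intro i
      rcases hg i with h | ⟨T, hT, hT'⟩
      · exact ⟨∅, fun h' => absurd h h', fun h' => absurd h h'⟩
      · exact ⟨T, fun _ => hT, fun _ => hT'⟩
    choose T hT using h1
    exact ⟨T, hT⟩
  have hg' : ∀ i, OKCurve (g i) (n i) ∨ 3 ≤ 2 * g i + (T i).card := fun i =>
    or_iff_not_imp_left.2 (hT i).1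
  obtain ⟨C', hC'⟩ : ∃ C' : ((i : Fin k) × Fin (n i)) → (Mat r ℂ)ˣ,
      C' = fun p => SpecialLinearGroup.toGL (C p.1 p.2) := ⟨_, rfl⟩
  refine ⟨fun _ hX => hX.1, fun F hF X hX => ?_⟩
  rw [← evalG_toU]
  -- integral representations
  have key : ∀ y : FreeGroup (Gens g n) →* SpecialLinearGroup (Fin r) (𝓞 L),
      (∀ w ∈ FRel g n, y w = 1) →
      (∀ p, IsConj (C' p) (slU φ (y (FreeGroup.of (Sum.inr p))))) →
      SS ((slU φ).comp y) → evalG ((slU φ).comp y) F = 0 := by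
    intro y hy hyC hyS
    obtain ⟨Z, hZ⟩ : ∃ Z : Gens g n → SpecialLinearGroup (Fin r) (𝓞 L),
        ∀ p, Z p = y (FreeGroup.of p) := ⟨_, fun _ => rfl⟩
    obtain ⟨X', hX'⟩ : ∃ X' : Gens g n → SpecialLinearGroup (Fin r) ℂ,
        X' = fun p => SpecialLinearGroup.map (phiO (algebraMap L ℂ)) (Z p) := ⟨_, rfl⟩
    have h0 : FreeGroup.lift X' = (SpecialLinearGroup.map (phiO (algebraMap L ℂ))).comp y := by
      apply FreeGroup.ext_hom
      intro p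
      rw [FreeGroup.lift_apply_of, hX', MonoidHom.comp_apply, ← hZ]
    have h1 : (slU φ).comp y = toU X' := by
      rw [toU, h0, hφ]; rfl
    rw [h1, evalG_toU]
    refine hF _ ⟨⟨⟨?_, ?_⟩, fun i j => Statement.isConj_toGL _ _ ?_⟩, ?_⟩
    · rw [isRep_iff]
      intro w hw
      rw [h0, MonoidHom.comp_apply, hy w hw, map_one]
    · rw [← SS_toU, ← h1]; exact hyS
    · have := hyC ⟨i, j⟩
      rw [hC', ← MonoidHom.comp_apply, h1, toU_of] at this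
      exact this
    · rw [hX']; exact isIntegralRep_map Z
  rcases Nat.eq_zero_or_pos r with hr | hr
  · subst hr
    have h1 : toU X = (slU φ).comp 1 := by
      ext w i
      exact i.elim0
    rw [h1]
    refine key 1 (fun w _ => rfl) (fun p => ?_) ?_
    · have : C' p = slU φ ((1 : FreeGroup (Gens g n) →* SpecialLinearGroup (Fin 0) (𝓞 L))
          (FreeGroup.of (Sum.inr p))) := Units.ext (Subsingleton.elim _ _)
      rw [← this]
    · rw [← h1]; exact (SS_toU X).2 hX.1.2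
  · have hEig : ∀ p : Σ i, Fin (n i), QC E (g p.1) (n p.1) (T p.1) p.2 r (C' p : Mat r ℂ) := by
      intro p
      rw [hC']
      exact ⟨hC p.1 p.2, fun h1 h2 => (hT p.1).2 h1 p.2 h2⟩
    have hUP : ∀ (u : (𝓞 L)ˣ) (D : 𝓞 L), D ≠ 0 → ∃ M : ℕ, 0 < M ∧ D ∣ (u : 𝓞 L) ^ M - 1 :=
      fun u D hD => exists_dvd_pow_sub_one L u D hD
    have hYG : toU X ∈ YG (FRel g n) C' := by
      refine ⟨fun w hw => ?_, fun p => ?_, (SS_toU X).2 hX.1.2⟩
      · rw [toU, MonoidHom.comp_apply, (isRep_iff X).1 hX.1.1 w hw, map_one]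
      · rw [hC', toU_of]
        exact Statement.toGL_isConj _ _ (hX.2 p.1 p.2)
    obtain ⟨ζ, hζ⟩ := hc.root r hr le_rfl
      (Units.mk0 (Complex.exp (2 * Real.pi * Complex.I / r)) (Complex.exp_ne_zero _)) (by
        have h1 : (Units.mk0 (Complex.exp (2 * Real.pi * Complex.I / r))
            (Complex.exp_ne_zero _)) ^ r = 1 := by
          ext1
          rw [Units.val_pow_eq_pow_val, Units.val_mk0, Units.val_one,
            (Complex.isPrimitiveRoot_exp r hr.ne').pow_eq_one]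
        rw [h1]
        exact one_mem _)
    rw [Units.val_mk0] at hζ
    have hζp : IsPrimitiveRoot (φ ζ) r := by
      rw [hζ]
      exact Complex.isPrimitiveRoot_exp r hr.ne'
    refine unscaleG φ hφi ζ (hφi ?_) hζp hr (FRel g n) (FRel_charOK g n) C' ?_ F key (toU X) ?_
      fun f' hf' => partIVQ φ E (Q := fun p : Σ i, Fin (n i) => QC E (g p.1) (n p.1) (T p.1) p.2)
        (fun p => classOK_QC E (g p.1) (n p.1) (T p.1) p.2) hc.weak (FRel g n) (FRel_charOK g n)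
        (FRel_irrDenseQ hG hG1 φ E hc hUP T hg') C' hEig (toU X) hYG f' hf'
    · rw [map_pow, map_one]
      exact hζp.pow_eq_one
    · intro p
      rw [hC']
      exact (C p.1 p.2).2
    · intro w
      rw [toU_coe]
      exact (FreeGroup.lift X w).2

theorem density_rootsQ (hG : G0Irr) (hG1 : G1Irr) (C : ∀ i, Fin (n i) → SpecialLinearGroup (Fin r) ℂ) (N : ℕ) (hN : 0 < N)
    (hC : ∀ i j z, IsEigenvalue (C i j) z → z ^ N = 1) (hg : ∀ i, OKCurveQ (g i) (n i) r (C i))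
    (L : IntermediateField ℚ ℂ) (hL : FiniteDimensional ℚ L)
    (hμ : ∀ z : ℂ, z ^ (2 * N * r.factorial) = 1 → z ∈ L) (hu : Infinite (𝓞 L)ˣ) :
    IsZariskiDenseRep {X ∈ Y g C | IsIntegralRep L X} (Y g C) := by
  have : NumberField L := { to_charZero := inferInstance, to_finiteDimensional := hL }
  obtain ⟨u, hu⟩ := exists_unit_infinite_order (L := L) (algebraMap L ℂ)
  obtain ⟨E, hE⟩ : ∃ E : Subgroup ℂˣ, ∀ z, z ∈ E ↔ z ^ (2 * N) = 1 :=
    ⟨(powMonoidHom (2 * N)).ker, fun z => Iff.rfl⟩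
  refine density_EQ hG hG1 C E ?_ hg L hL (coefOK_of_field E ?_ ?_ r L ?_ ⟨u, ?_⟩)
  · intro i j z hz
    have h1 : z ^ N = 1 := hC i j z hz
    have h0 : z ≠ 0 := by
      rintro rfl
      rw [zero_pow hN.ne'] at h1
      exact zero_ne_one h1
    refine ⟨Units.mk0 z h0, ?_, rfl⟩
    rw [hE]
    ext1
    rw [Units.val_pow_eq_pow_val, Units.val_mk0, Units.val_one, mul_comm, pow_mul, h1, one_pow]
  · intro z hz
    rw [hE] at hz
    refine IsIntegral.of_pow (n := 2 * N) (by positivity) ?_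
    rw [← Units.val_pow_eq_pow_val, hz, Units.val_one]
    exact isIntegral_one
  · rw [hE, pow_mul, neg_one_sq, one_pow]
  · intro m hm hmr z hz
    rw [hE] at hz
    apply hμ
    obtain ⟨c, hc⟩ := mul_dvd_mul_left (2 * N) (Nat.dvd_factorial hm hmr)
    have h1 : (z : ℂ) ^ (2 * N * m) = 1 := by
      rw [mul_comm (2 * N) m, pow_mul, ← Units.val_pow_eq_pow_val, ← Units.val_pow_eq_pow_val, hz,
        Units.val_one]
    rw [hc, pow_mul, h1, one_pow]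
  · intro m hm e he h
    rw [hE] at he
    refine hu (m * (2 * N)) (by positivity) ?_
    rw [pow_mul, h, ← Units.val_pow_eq_pow_val, he, Units.val_one]

theorem exists_densityQ (hG : G0Irr) (hG1 : G1Irr) (C : ∀ i, Fin (n i) → SpecialLinearGroup (Fin r) ℂ)
    (hC : ∀ i j z, IsEigenvalue (C i j) z → IsIntegral ℤ z ∧ IsIntegral ℤ z⁻¹)
    (hg : ∀ i, OKCurveQ (g i) (n i) r (C i)) :
    ∃ L : IntermediateField ℚ ℂ, FiniteDimensional ℚ L ∧
      IsZariskiDenseRep {X ∈ Y g C | IsIntegralRep L X} (Y g C) := by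
  have h0 : ∀ i j z, IsEigenvalue (C i j) z → z ≠ 0 := by
    rintro i j z hz rfl
    have h1 : (C i j).1.charpoly.eval 0 = 0 := hz
    rw [Matrix.eval_charpoly, map_zero, zero_sub, Matrix.det_neg, (C i j).2, mul_one] at h1
    exact pow_ne_zero _ (by norm_num) h1
  obtain ⟨S, hS⟩ : ∃ S : Set ℂˣ, S = {z : ℂˣ | ∃ i j, IsEigenvalue (C i j) (z : ℂ)} :=
    ⟨_, rfl⟩
  have hSf : S.Finite := by
    have h1 : (⋃ p : (i : Fin k) × Fin (n i), {z : ℂ | (C p.1 p.2).1.charpoly.IsRoot z}).Finite :=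
      Set.finite_iUnion fun p => Polynomial.finite_setOfPred_isRoot
        (Matrix.charpoly_monic _).ne_zero
    refine Set.Finite.of_injOn (f := fun z : ℂˣ => (z : ℂ)) ?_ (Units.val_injective.injOn) h1
    intro z hz
    rw [hS] at hz
    obtain ⟨i, j, hz⟩ := hz
    exact Set.mem_iUnion.2 ⟨⟨i, j⟩, hz⟩
  obtain ⟨L, hL, hc⟩ := exists_field_E S hSf (fun z hz => by
    rw [hS] at hz
    obtain ⟨i, j, hz⟩ := hz
    rw [Units.val_inv_eq_inv_val]
    exact hC i j z hz) r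
  refine ⟨L, hL, density_EQ hG hG1 C _ ?_ hg L hL hc⟩
  intro i j z hz
  refine ⟨Units.mk0 z (h0 i j z hz), Subgroup.subset_closure (Set.mem_insert_of_mem _ ?_), rfl⟩
  rw [hS]
  exact ⟨i, j, hz⟩

end Vale.Agent.P002R.Product
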