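import Vale.Agent.P002R.ZGlue
import Vale.Agent.P002R.ZBridge
import Vale.Agent.P002G.LemmaB

/-!
# P002, genus 0: from the chart to all irreducible representations
-/

namespace Vale.Agent.P002R

open Matrix

/-- The sequence of the boundary matrices. -/
def cseqB {N r : ℕ} (x : FU 0 N →* (Mat r ℂ)ˣ) (j : ℕ) : Mat r ℂ :=
  if h : j < N then (x (FreeGroup.of (Sum.inr ⟨j, h⟩)) : Mat r ℂ) else 1

theorem cseqB_lt {N r : ℕ} (x : FU 0 N →* (Mat r ℂ)ˣ) (j : ℕ) (h : j < N) :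
    cseqB x j = bt x ⟨j, h⟩ := by
  rw [cseqB, dif_pos h]
  rfl

/-- Density of the integral points in the chart. -/
def ChartDens {R : Type} [CommRing R] (φ : R →+* ℂ) (n : ℕ) : Prop :=
  ∀ {m : ℕ} (C : Fin (m + 3) → (Mat (n + 1) ℂ)ˣ) (x : FU 0 (m + 3) →* (Mat (n + 1) ℂ)ˣ),
    (∃ v, P002G.Cyc (C 0 : Mat (n + 1) ℂ) v) →
    (∃ v, P002G.Cyc (C (Fin.last (m + 2)) : Mat (n + 1) ℂ) v) →
    x (relatorU 0 (m + 3)) = 1 → (∀ j, IsConj (C j) (x (FreeGroup.of (Sum.inr j)))) →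
    UpT (cseqB x 0) → LoT (cseqB x (m + 2)) →
    (∀ k ≤ m + 1, ∃ X : Mat (n + 1) ℂ,
      (List.ofFn fun j : Fin k => cseqB x (j + 1)).prod = zZ X ∧ ∀ i, X i i ≠ 0) →
    P002G.Cyc (cseqB x (m + 1))
      (((List.ofFn fun j : Fin m => cseqB x (j + 1)).prod)⁻¹ *ᵥ P002G.e0 n ℂ) →
    ∀ f : MvPolynomial (GenU 0 (m + 3) × Fin (n + 1) × Fin (n + 1)) ℂ,
    (∀ y : FU 0 (m + 3) →* (Mat (n + 1) ℂ)ˣ, y (relatorU 0 (m + 3)) = 1 →
      (∀ j, IsConj (C j) (y (FreeGroup.of (Sum.inr j)))) →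
      (∀ k, y (FreeGroup.of k) ∈ GR (n + 1) φ) → evalG y f = 0) → evalG x f = 0

theorem e0_eq_single (n : ℕ) : P002G.e0 n ℂ = Pi.single (0 : Fin (n + 1)) 1 := by
  ext i
  refine Fin.cases ?_ (fun i => ?_) i
  · rw [Pi.single_eq_same]
    rfl
  · rw [Pi.single_eq_of_ne (Fin.succ_ne_zero i)]
    rfl

theorem irr_of_chartDens {R : Type} [CommRing R] (φ : R →+* ℂ) {n m : ℕ}
    (C : Fin (m + 3) → (Mat (n + 1) ℂ)ˣ)
    (H : ∀ x : FU 0 (m + 3) →* (Mat (n + 1) ℂ)ˣ,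
      x (relatorU 0 (m + 3)) = 1 → (∀ j, IsConj (C j) (x (FreeGroup.of (Sum.inr j)))) →
      UpT (cseqB x 0) → LoT (cseqB x (m + 2)) →
      (∀ k ≤ m + 1, ∃ X : Mat (n + 1) ℂ,
        (List.ofFn fun j : Fin k => cseqB x (j + 1)).prod = zZ X ∧ ∀ i, X i i ≠ 0) →
      P002G.Cyc (cseqB x (m + 1))
        (((List.ofFn fun j : Fin m => cseqB x (j + 1)).prod)⁻¹ *ᵥ P002G.e0 n ℂ) →
      ∀ f : MvPolynomial (GenU 0 (m + 3) × Fin (n + 1) × Fin (n + 1)) ℂ,
      (∀ y : FU 0 (m + 3) →* (Mat (n + 1) ℂ)ˣ, y (relatorU 0 (m + 3)) = 1 →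
        (∀ j, IsConj (C j) (y (FreeGroup.of (Sum.inr j)))) →
        (∀ k, y (FreeGroup.of k) ∈ GR (n + 1) φ) → evalG y f = 0) → evalG x f = 0)
    (hm : HasCyc (n + 1) (C ⟨m + 1, by omega⟩ : Mat (n + 1) ℂ))
    (x : FU 0 (m + 3) →* (Mat (n + 1) ℂ)ˣ)
    (hx : x ∈ YG ({relatorU 0 (m + 3)} : Set (FreeGroup ((Fin 0 × Bool) ⊕ Fin (m + 3)))) C)
    (hirr : ∀ M : Mat (n + 1) ℂ, (∀ w, Commute M (x w : Mat (n + 1) ℂ)) →
      ∃ c : ℂ, M = c • (1 : Mat (n + 1) ℂ))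
    (f : MvPolynomial (((Fin 0 × Bool) ⊕ Fin (m + 3)) × Fin (n + 1) × Fin (n + 1)) ℂ)
    (hf : ∀ y ∈ DGT ({relatorU 0 (m + 3)} : Set (FreeGroup ((Fin 0 × Bool) ⊕ Fin (m + 3)))) φ C,
      evalG y f = 0) : evalG x f = 0 := by
  obtain ⟨hx1, hx2, hx3⟩ := hx
  have hadj := adjoin_top_of_irr x hx3 hirr
  have hxrel : x (relatorU 0 (m + 3)) = 1 := hx1 _ rfl
  refine upgrade x hadj {y | y (relatorU 0 (m + 3)) = 1 ∧
    (∀ j, IsConj (C j) (y (FreeGroup.of (Sum.inr j)))) ∧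
    ∀ k, y (FreeGroup.of k) ∈ GR (n + 1) φ} ?_ f ?_
  · intro f' hf'
    by_contra hne
    have hL := finRange_split m 0 (Nat.zero_le _)
    rw [List.ofFn_zero, List.nil_append] at hL
    obtain ⟨x', g, h1, h2, h3, h4, h5⟩ := exists_chartForm (Nat.succ_pos n) 0 (Fin.last (m + 2)) _
      hL C x hxrel hx2 hadj f' hne
    obtain ⟨f'', hf''⟩ := exists_conjP g f'
    apply h1
    rw [← hf'']
    have hprod : ∀ k (hk : k ≤ m + 1), (List.ofFn fun j : Fin k => cseqB x' (j + 1)).prod =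
        ((List.ofFn fun j : Fin k => (⟨j + 1, by omega⟩ : Fin (m + 3))).map (bt x')).prod := by
      intro k hk
      rw [List.map_ofFn]
      congr 1
      refine congrArg List.ofFn (funext fun j => ?_)
      rw [cseqB_lt x' _ (by omega)]
      rfl
    refine H x' h2 h3 ?_ ?_ ?_ ?_ f'' ?_
    · rw [cseqB_lt x' 0 (by omega)]
      exact h5.up
    · rw [cseqB_lt x' (m + 2) (by omega)]
      exact h5.lo
    · intro k hk
      obtain ⟨X, hX, hXd⟩ := h5.cell _ _ (finRange_split m k hk)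
      exact ⟨X, by rw [hprod k hk]; exact hX, hXd⟩
    · have hcyc : HasCyc (n + 1) (bt x' ⟨m + 1, by omega⟩) := by
        obtain ⟨u, hu⟩ := isConj_iff.1 (h3 ⟨m + 1, by omega⟩)
        refine hasCyc_conj (g := (u : Mat (n + 1) ℂ)) ?_ u.isUnit hm
        rw [bt_eqn, ← hu, ← Units.val_mul, ← Units.val_mul]
        congr 1
        group
      have hl : List.finRange (m + 3) = 0 :: ((List.ofFn fun j : Fin m =>
          (⟨j + 1, by omega⟩ : Fin (m + 3))) ++ ⟨m + 1, by omega⟩ :: [Fin.last (m + 2)]) := by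
        have h6 := finRange_split m m (by omega)
        have h7 : m + 1 - m = 1 := by omega
        rw [h6]
        congr 2
        have h8 : (List.ofFn fun j : Fin (m + 1 - m) => (⟨m + 1 + j, by omega⟩ : Fin (m + 3))) =
            [⟨m + 1, by omega⟩] := by
          apply List.ext_getElem
          · simp
          · intro i h9 h10
            rw [List.getElem_ofFn]
            simp only [List.length_cons, List.length_nil, zero_add] at h10
            ext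
            simp only [List.getElem_singleton]
            omega
        rw [h8]
        rfl
      have h6 := h5.cyc ⟨m + 1, by omega⟩ _ _ hl hcyc 0 rfl
      rw [← hprod m (by omega)] at h6
      rw [P002G.cyc_iff, cseqB_lt x' (m + 1) (by omega), e0_eq_single,
        Matrix.isUnit_iff_isUnit_det, isUnit_iff_ne_zero]
      exact h6
    · intro y hy1 hy2 hy3
      rw [hf'']
      refine conj_vanish_gen {y | y (relatorU 0 (m + 3)) = 1 ∧
        (∀ j, IsConj (C j) (y (FreeGroup.of (Sum.inr j)))) ∧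
        ∀ k, y (FreeGroup.of k) ∈ GR (n + 1) φ} ?_ f' hf' y ⟨hy1, hy2, hy3⟩ g
      rintro z ⟨hz1, hz2, hz3⟩ X
      refine ⟨?_, fun j => ?_, fun k => ?_⟩
      · rw [conjH_apply, hz1, mul_one, mul_inv_cancel]
      · refine (hz2 j).trans ?_
        rw [isConj_iff]
        exact ⟨slU (Int.castRingHom ℂ) X, (conjH_apply _ _ _).symm⟩
      · rw [conjH_apply]
        exact (GR (n + 1) φ).mul_mem ((GR (n + 1) φ).mul_mem (slU_int_mem_GR φ X) (hz3 k))
          ((GR (n + 1) φ).inv_mem (slU_int_mem_GR φ X))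
  · rintro y ⟨hy1, hy2, hy3⟩ hy4
    refine hf y ⟨⟨⟨?_, hy2, ss_of_adjoin y hy4⟩, hy3⟩, hy4⟩
    rintro w rfl
    exact hy1

end Vale.Agent.P002R
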