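import Vale.Agent.P002R.Z1Flags
import Vale.Agent.P002R.ZGlue2

/-!
# P002, genus 1: every irreducible representation is a limit of representations in chart form
-/

namespace Vale.Agent.P002R

open Matrix

variable {n m r : ℕ}

/-- The images of the generators. -/
def mt (x : FU 1 n →* (Mat r ℂ)ˣ) : Fin n ⊕ Bool → Mat r ℂ :=
  Sum.elim (fun j => (x (FreeGroup.of (Sum.inr j)) : Mat r ℂ))
    fun s => (x (FreeGroup.of (Sum.inl (0, s))) : Mat r ℂ)

theorem mt_inl (x : FU 1 n →* (Mat r ℂ)ˣ) (j : Fin n) :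
    mt x (Sum.inl j) = (x (FreeGroup.of (Sum.inr j)) : Mat r ℂ) := rfl

theorem mt_inr (x : FU 1 n →* (Mat r ℂ)ˣ) (s : Bool) :
    mt x (Sum.inr s) = (x (FreeGroup.of (Sum.inl (0, s))) : Mat r ℂ) := rfl

/-- The representation with given generators. -/
def mkR1 (q : Fin n ⊕ Bool → (Mat r ℂ)ˣ) : FU 1 n →* (Mat r ℂ)ˣ :=
  FreeGroup.lift (Sum.elim (fun k => q (Sum.inr k.2)) fun j => q (Sum.inl j))

theorem mkR1_inr (q : Fin n ⊕ Bool → (Mat r ℂ)ˣ) (j : Fin n) :
    mkR1 q (FreeGroup.of (Sum.inr j)) = q (Sum.inl j) := by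
  rw [mkR1, FreeGroup.lift_apply_of]
  rfl

theorem mkR1_inl (q : Fin n ⊕ Bool → (Mat r ℂ)ˣ) (i : Fin 1) (s : Bool) :
    mkR1 q (FreeGroup.of (Sum.inl (i, s))) = q (Sum.inr s) := by
  rw [mkR1, FreeGroup.lift_apply_of]
  rfl

theorem relU1_iff (x : FU 1 n →* (Mat r ℂ)ˣ) :
    x (relatorU 1 n) = 1 ↔ ((List.finRange n).map fun j => mt x (Sum.inl j)).prod *
      (mt x (Sum.inr false) * mt x (Sum.inr true) * (mt x (Sum.inr false))⁻¹ *
        (mt x (Sum.inr true))⁻¹) = 1 := by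
  have h1 : ((x (relatorU 1 n) : (Mat r ℂ)ˣ) : Mat r ℂ) =
      ((List.finRange n).map fun j => mt x (Sum.inl j)).prod *
      (mt x (Sum.inr false) * mt x (Sum.inr true) * (mt x (Sum.inr false))⁻¹ *
        (mt x (Sum.inr true))⁻¹) := by
    rw [relatorU_eqn, map_mul, Units.val_mul, map_list_prod, List.ofFn_eq_map, List.map_map,
      ← Units.coeHom_apply, map_list_prod, List.map_map]
    congr 1
    simp only [List.ofFn_succ (n := 0), List.ofFn_zero, List.prod_nil, List.prod_cons, mul_one,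
      map_mul, map_inv, Units.val_mul, Matrix.coe_units_inv]
    rfl
  rw [← h1, Units.val_eq_one]

/-- Evaluation at a tuple. -/
noncomputable def evT1 (f : MvPolynomial (GenU 1 n × Fin r × Fin r) ℂ)
    (c : Fin n ⊕ Bool → Mat r ℂ) : ℂ :=
  MvPolynomial.eval (fun p => (Sum.elim (fun k : Fin 1 × Bool => c (Sum.inr k.2))
    (fun j => c (Sum.inl j)) p.1) p.2.1 p.2.2) f

theorem evalG_eq_evT1 (x : FU 1 n →* (Mat r ℂ)ˣ)
    (f : MvPolynomial (GenU 1 n × Fin r × Fin r) ℂ) : evalG x f = evT1 f (mt x) := by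
  rw [evalG_eq_eval, evT1]
  have h1 : (fun p : GenU 1 n × Fin r × Fin r =>
      (x (FreeGroup.of p.1) : Mat r ℂ) p.2.1 p.2.2) =
      fun p => (Sum.elim (fun k : Fin 1 × Bool => mt x (Sum.inr k.2))
        (fun j => mt x (Sum.inl j)) p.1) p.2.1 p.2.2 := by
    funext p
    obtain ⟨⟨k, s⟩ | j, a, b⟩ := p
    · have hk : k = 0 := Subsingleton.elim _ _
      subst hk
      rfl
    · rfl
  rw [h1]

theorem evT1_continuous (f : MvPolynomial (GenU 1 n × Fin r × Fin r) ℂ) :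
    Continuous (evT1 f) := by
  have h1 : Continuous fun c : Fin n ⊕ Bool → Mat r ℂ => fun p : GenU 1 n × Fin r × Fin r =>
      (Sum.elim (fun k : Fin 1 × Bool => c (Sum.inr k.2)) (fun j => c (Sum.inl j)) p.1)
        p.2.1 p.2.2 := by
    refine continuous_pi fun p => ?_
    obtain ⟨k | j, a, b⟩ := p
    · exact (continuous_apply b).comp ((continuous_apply a).comp (continuous_apply (Sum.inr k.2)))
    · exact (continuous_apply b).comp ((continuous_apply a).comp (continuous_apply (Sum.inl j)))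
  exact (MvPolynomial.continuous_eval f).comp h1

section normed

open scoped Matrix.Norms.Operator

theorem continuousAt_allI_norm (J : Fin n → Mat r ℂ) {Y : Fin n ⊕ Bool → Mat r ℂ}
    (hY : ∀ j, IsUnit (Y j)) : ContinuousAt (fun Y : Fin n ⊕ Bool → Mat r ℂ => allI J Y) Y :=
  continuousAt_allI J hY

end normed

theorem continuousAt_allI' (J : Fin n → Mat r ℂ) {Y : Fin n ⊕ Bool → Mat r ℂ}
    (hY : ∀ j, IsUnit (Y j)) : ContinuousAt (fun Y : Fin n ⊕ Bool → Mat r ℂ => allI J Y) Y :=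
  continuousAt_allI_norm J hY

/-- generation by the tuple -/
theorem adjoin_iff1 (z : FU 1 n →* (Mat r ℂ)ˣ) :
    Algebra.adjoin ℂ (Set.range fun w => (z w : Mat r ℂ)) = ⊤ ↔
      Algebra.adjoin ℂ (Set.range (mt z)) = ⊤ := by
  constructor
  · intro h
    have h1 := adjoin_gen_eq_top z h
    rw [eq_top_iff, ← h1, Algebra.adjoin_le_iff]
    rintro _ ⟨⟨k, s⟩ | j, rfl⟩
    · have hk : k = 0 := Subsingleton.elim _ _
      subst hk
      exact Algebra.subset_adjoin ⟨Sum.inr s, rfl⟩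
    · exact Algebra.subset_adjoin ⟨Sum.inl j, rfl⟩
  · intro h
    rw [eq_top_iff, ← h, Algebra.adjoin_le_iff]
    rintro _ ⟨j | s, rfl⟩
    · exact Algebra.subset_adjoin ⟨FreeGroup.of (Sum.inr j), rfl⟩
    · exact Algebra.subset_adjoin ⟨FreeGroup.of (Sum.inl (0, s)), rfl⟩

/-- the indices `1, ..., k` -/
def idx (m k : ℕ) (hk : k ≤ m) : List (Fin (m + 1)) :=
  List.ofFn fun j : Fin k => (⟨j + 1, by omega⟩ : Fin (m + 1))

theorem idx_split (m k : ℕ) (hk : k ≤ m) :
    ∃ l₂, idx m m le_rfl = idx m k hk ++ l₂ := by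
  refine ⟨List.ofFn fun j : Fin (m - k) => (⟨k + 1 + j, by omega⟩ : Fin (m + 1)), ?_⟩
  apply List.ext_getElem
  · simp only [idx, List.length_ofFn, List.length_append]
    omega
  · intro i h1 h2
    simp only [idx] at h1 h2 ⊢
    rw [List.getElem_ofFn, List.getElem_append]
    simp only [List.length_ofFn, List.length_append] at h1 h2
    split_ifs with h
    · rw [List.getElem_ofFn]
    · rw [List.getElem_ofFn]
      rw [List.length_ofFn] at h
      ext
      simp only [List.length_ofFn]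
      omega

theorem finRange_idx (m : ℕ) : List.finRange (m + 1) = 0 :: idx m m le_rfl := by
  apply List.ext_getElem
  · simp [idx]
  · intro i h1 h2
    rw [List.getElem_finRange]
    rcases i with _ | i
    · rfl
    · rw [List.getElem_cons_succ]
      simp only [idx]
      rw [List.getElem_ofFn]
      ext
      rfl

/-- Representations in chart form. -/
structure ChartFormM (x : FU 1 (m + 1) →* (Mat r ℂ)ˣ) : Prop where
  up : UpT (mt x (Sum.inl 0))
  lo : LoT (mt x (Sum.inr true) * (mt x (Sum.inr false))⁻¹ * (mt x (Sum.inr true))⁻¹)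
  cell : ∀ (k : ℕ) (hk : k ≤ m), ∃ X : Mat r ℂ,
    ((idx m k hk).map fun j => mt x (Sum.inl j)).prod = zZ X ∧ ∀ i, X i i ≠ 0
  cell' : ∃ X : Mat r ℂ,
    ((idx m m le_rfl).map fun j => mt x (Sum.inl j)).prod * mt x (Sum.inr false) = zZ X ∧
      ∀ i, X i i ≠ 0
  cyc : ∀ i₀ : Fin r, (i₀ : ℕ) = 0 → (P002.kry (mt x (Sum.inr false))
    ((((idx m m le_rfl).map fun j => mt x (Sum.inl j)).prod)⁻¹ *ᵥ
      (Pi.single i₀ 1 : Fin r → ℂ))).det ≠ 0

/-- the coordinates in the cell -/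
theorem exists_cell {U L : Mat r ℂ} (hU : UpT U) (hU0 : ∀ i, U i i ≠ 0) (hL : LoT L)
    (hL0 : ∀ i, L i i ≠ 0) : ∃ X : Mat r ℂ, U * L = zZ X ∧ ∀ i, X i i ≠ 0 := by
  obtain ⟨D, hD⟩ : ∃ D : Mat r ℂ, D = diagonal fun i => U i i := ⟨_, rfl⟩
  obtain ⟨D', hD'⟩ : ∃ D' : Mat r ℂ, D' = diagonal fun i => (U i i)⁻¹ := ⟨_, rfl⟩
  have h1 : D' * D = 1 := by
    rw [hD, hD', Matrix.diagonal_mul_diagonal, ← Matrix.diagonal_one]
    congr 1
    funext i
    exact inv_mul_cancel₀ (hU0 i)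
  have hUD : UpT (U * D') := by
    intro i j hij
    rw [hD', Matrix.mul_diagonal, hU i j hij, zero_mul]
  have hDL : LoT (D * L) := by
    intro i j hij
    rw [hD, Matrix.diagonal_mul, hL i j hij, mul_zero]
  obtain ⟨X, h2, h3, h4⟩ := exists_coord (U * D') (D * L) hUD (fun i => by
    rw [hD', Matrix.mul_diagonal, mul_inv_cancel₀ (hU0 i)]) hDL
  refine ⟨X, ?_, fun i => ?_⟩
  · rw [zZ_eqn, h2, h3]
    calc U * L = U * (D' * D) * L := by rw [h1, Matrix.mul_one]
      _ = _ := by simp only [Matrix.mul_assoc]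
  · rw [h4, hD, Matrix.diagonal_mul]
    exact mul_ne_zero (hU0 i) (hL0 i)

end Vale.Agent.P002R
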