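import Vale.Agent.P002R.ZGeneric

/-!
# P002, genus 1: linear algebra
-/

namespace Vale.Agent.P002R

open Matrix

theorem dot_mulVec_left {r : ℕ} {M : Mat r ℂ} {lam : ℂ} {y : Fin r → ℂ} (h : y ᵥ* M = lam • y)
    (w : Fin r → ℂ) : y ⬝ᵥ (M *ᵥ w) = lam * (y ⬝ᵥ w) := by
  rw [Matrix.dotProduct_mulVec, h, smul_dotProduct, smul_eq_mul]

/-- Data attached to a vector which is not cyclic. -/
theorem noncyc_data {r : ℕ} {M : Mat r ℂ} (hM : IsUnit M) {v : Fin r → ℂ} (hv : v ≠ 0)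
    (h : (P002.kry M v).det = 0) : ∃ (lam kap : ℂ) (y w : Fin r → ℂ), lam ≠ 0 ∧ y ≠ 0 ∧ w ≠ 0 ∧
      y ᵥ* M = lam • y ∧ y ⬝ᵥ v = 0 ∧ y ⬝ᵥ w = 0 ∧ M *ᵥ w = lam • w - kap • v := by
  have h1 : ∃ (lam : ℂ) (y : Fin r → ℂ), y ≠ 0 ∧ y ᵥ* M = lam • y ∧ y ⬝ᵥ v = 0 := by
    by_contra hc
    exact kry_det_ne M v (fun lam y hy hyM h0 => hc ⟨lam, y, hy, hyM, h0⟩) h
  obtain ⟨lam, y, hy, hyM, hyv⟩ := h1
  have hlam : lam ≠ 0 := by
    rintro rfl
    rw [zero_smul] at hyM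
    obtain ⟨N, rfl⟩ := hM
    apply hy
    calc y = y ᵥ* ((N : Mat r ℂ) * ((N⁻¹ : (Mat r ℂ)ˣ) : Mat r ℂ)) := by
          rw [N.mul_inv, Matrix.vecMul_one]
      _ = 0 := by rw [← Matrix.vecMul_vecMul, hyM, Matrix.zero_vecMul]
  -- the functional
  obtain ⟨f, hf⟩ : ∃ f : (Fin r → ℂ) →ₗ[ℂ] ℂ, ∀ w, f w = y ⬝ᵥ w :=
    ⟨{ toFun := fun w => y ⬝ᵥ w
       map_add' := fun a b => dotProduct_add y a b
       map_smul' := fun c a => by simp [dotProduct_smul] }, fun _ => rfl⟩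
  have hf0 : f ≠ 0 := by
    intro h0
    apply hy
    ext i
    have h2 := hf (Pi.single i 1)
    rw [h0, LinearMap.zero_apply, dotProduct_single, mul_one] at h2
    rw [← h2]
    rfl
  have hK := Module.Dual.finrank_ker_add_one_of_ne_zero (f := f) hf0
  have hr : Module.finrank ℂ (Fin r → ℂ) = r := by simp
  rw [hr] at hK
  obtain ⟨T, hT⟩ : ∃ T : (Fin r → ℂ) × ℂ →ₗ[ℂ] (Fin r → ℂ),
      ∀ p, T p = M *ᵥ p.1 - lam • p.1 + p.2 • v :=
    ⟨{ toFun := fun p => M *ᵥ p.1 - lam • p.1 + p.2 • v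
       map_add' := fun a b => by
        simp only [Prod.fst_add, Prod.snd_add, Matrix.mulVec_add, smul_add, add_smul]
        abel
       map_smul' := fun c a => by
        simp only [Prod.smul_fst, Prod.smul_snd, Matrix.mulVec_smul, RingHom.id_apply, smul_add,
          smul_sub, smul_eq_mul, mul_smul, smul_comm lam c] }, fun _ => rfl⟩
  have hTK : ∀ p, T p ∈ LinearMap.ker f := by
    intro p
    rw [LinearMap.mem_ker, hf, hT, dotProduct_add, dotProduct_sub, dot_mulVec_left hyM,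
      dotProduct_smul, dotProduct_smul, hyv]
    simp
  obtain ⟨g, hg⟩ : ∃ g : (Fin r → ℂ) × ℂ →ₗ[ℂ] (LinearMap.ker f × ℂ),
      g = (T.codRestrict (LinearMap.ker f) hTK).prod (f.comp (LinearMap.fst ℂ _ ℂ)) := ⟨_, rfl⟩
  have hker : LinearMap.ker g ≠ ⊥ := by
    apply LinearMap.ker_ne_bot_of_finrank_lt
    rw [Module.finrank_prod, Module.finrank_prod, hr, Module.finrank_self]
    omega
  obtain ⟨⟨w, kap⟩, hp, hp0⟩ := Submodule.exists_mem_ne_zero_of_ne_bot hker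
  rw [LinearMap.mem_ker, hg] at hp
  have hp1 : T (w, kap) = 0 := by
    have := congrArg (fun q : LinearMap.ker f × ℂ => (q.1 : Fin r → ℂ)) hp
    exact this
  have hp2 : y ⬝ᵥ w = 0 := by
    have := congrArg (fun q : LinearMap.ker f × ℂ => q.2) hp
    rw [← hf]
    exact this
  rw [hT] at hp1
  refine ⟨lam, kap, y, w, hlam, hy, ?_, hyM, hyv, hp2, ?_⟩
  · rintro rfl
    simp only [Matrix.mulVec_zero, smul_zero, sub_zero, zero_add] at hp1
    rcases smul_eq_zero.1 hp1 with h2 | h2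
    · exact hp0 (by rw [h2]; rfl)
    · exact hv h2
  · have h3 : M *ᵥ w = (M *ᵥ w - lam • w + kap • v) + (lam • w - kap • v) := by abel
    rw [h3, hp1, zero_add]

/-- A matrix whose left and right eigenvectors pair nontrivially has distinct eigenvalues. -/
theorem exists_eigenbasis {r : ℕ} {M : Mat r ℂ} (h : ∀ (lam : ℂ) (y w : Fin r → ℂ), y ≠ 0 →
    w ≠ 0 → y ᵥ* M = lam • y → M *ᵥ w = lam • w → y ⬝ᵥ w ≠ 0) :
    ∃ (A : Mat r ℂ) (nu : Fin r → ℂ), IsUnit A ∧ Function.Injective nu ∧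
      M * A = A * diagonal nu := by
  classical
  obtain ⟨f, hf⟩ : ∃ f : Module.End ℂ (Fin r → ℂ), ∀ w, f w = M *ᵥ w :=
    ⟨Matrix.mulVecLin M, fun w => rfl⟩
  -- left eigenvectors
  have hleft : ∀ (lam : ℂ) (w : Fin r → ℂ), w ≠ 0 → M *ᵥ w = lam • w →
      ∃ y : Fin r → ℂ, y ≠ 0 ∧ y ᵥ* M = lam • y := by
    intro lam w hw hMw
    have h1 : (M - lam • (1 : Mat r ℂ)).det = 0 := by
      rw [← Matrix.exists_mulVec_eq_zero_iff]
      exact ⟨w, hw, by rw [Matrix.sub_mulVec, hMw, Matrix.smul_mulVec, Matrix.one_mulVec,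
        sub_self]⟩
    obtain ⟨y, hy, hy0⟩ := Matrix.exists_vecMul_eq_zero_iff.2 h1
    refine ⟨y, hy, ?_⟩
    rw [Matrix.vecMul_sub, Matrix.vecMul_smul, Matrix.vecMul_one, sub_eq_zero] at hy0
    exact hy0
  have hmem : ∀ (lam : ℂ) (w : Fin r → ℂ), w ∈ f.eigenspace lam ↔ M *ᵥ w = lam • w := by
    intro lam w
    rw [Module.End.mem_eigenspace_iff, hf]
  -- semisimplicity
  have hss : ∀ (lam : ℂ) (u : Fin r → ℂ), (f - lam • (1 : Module.End ℂ (Fin r → ℂ)))
      ((f - lam • (1 : Module.End ℂ (Fin r → ℂ))) u) = 0 →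
      (f - lam • (1 : Module.End ℂ (Fin r → ℂ))) u = 0 := by
    intro lam u hu
    by_contra hne
    obtain ⟨w, hw⟩ : ∃ w, w = (f - lam • (1 : Module.End ℂ (Fin r → ℂ))) u := ⟨_, rfl⟩
    rw [← hw] at hu hne
    have h1 : M *ᵥ w = lam • w := by
      have : (f - lam • (1 : Module.End ℂ (Fin r → ℂ))) w = M *ᵥ w - lam • w := by
        rw [LinearMap.sub_apply, hf]; rfl
      rw [this, sub_eq_zero] at hu
      exact hu
    obtain ⟨y, hy, hyM⟩ := hleft lam w hne h1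
    apply h lam y w hy hne hyM h1
    have h2 : w = M *ᵥ u - lam • u := by
      rw [hw, LinearMap.sub_apply, hf]; rfl
    rw [h2, dotProduct_sub, dot_mulVec_left hyM, dotProduct_smul, smul_eq_mul, sub_self]
  have hgen : ∀ (lam : ℂ) (k : ℕ) (u : Fin r → ℂ),
      ((f - lam • (1 : Module.End ℂ (Fin r → ℂ))) ^ k) u = 0 → u ∈ f.eigenspace lam := by
    intro lam k
    induction k with
    | zero =>
      intro u hu
      rw [pow_zero] at hu
      have : u = 0 := hu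
      rw [this]
      exact Submodule.zero_mem _
    | succ k ih =>
      intro u hu
      rw [pow_succ, Module.End.mul_apply] at hu
      have h1 := ih _ hu
      rw [hmem] at h1
      have h2 : (f - lam • (1 : Module.End ℂ (Fin r → ℂ))) u = 0 := by
        apply hss
        rw [LinearMap.sub_apply, hf, h1]
        exact sub_self _
      rw [hmem]
      have : (f - lam • (1 : Module.End ℂ (Fin r → ℂ))) u = M *ᵥ u - lam • u := by
        rw [LinearMap.sub_apply, hf]; rfl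
      rw [this, sub_eq_zero] at h2
      exact h2
  -- eigenvectors
  have hev : ∀ μ : f.Eigenvalues, ∃ w : Fin r → ℂ, w ≠ 0 ∧ M *ᵥ w = (μ : ℂ) • w := by
    intro μ
    obtain ⟨w, hw⟩ := Module.End.HasEigenvalue.exists_hasEigenvector (f := f) (μ := (μ : ℂ)) μ.2
    exact ⟨w, hw.2, (hmem _ _).1 hw.1⟩
  choose w hw0 hw using hev
  have hspan : ∀ (μ : f.Eigenvalues) (u : Fin r → ℂ), M *ᵥ u = (μ : ℂ) • u →
      u ∈ Submodule.span ℂ (Set.range w) := by
    intro μ u hu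
    obtain ⟨y, hy, hyM⟩ := hleft μ (w μ) (hw0 μ) (hw μ)
    have h1 := h μ y (w μ) hy (hw0 μ) hyM (hw μ)
    obtain ⟨z, hz⟩ : ∃ z, z = (y ⬝ᵥ w μ) • u - (y ⬝ᵥ u) • w μ := ⟨_, rfl⟩
    have hz1 : M *ᵥ z = (μ : ℂ) • z := by
      rw [hz, Matrix.mulVec_sub, Matrix.mulVec_smul, Matrix.mulVec_smul, hu, hw, smul_sub,
        smul_comm, smul_comm (y ⬝ᵥ u)]
    have hz2 : y ⬝ᵥ z = 0 := by
      rw [hz, dotProduct_sub, dotProduct_smul, dotProduct_smul, smul_eq_mul, smul_eq_mul]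
      ring
    have hz0 : z = 0 := by
      by_contra hne
      exact h μ y z hy hne hyM hz1 hz2
    have h2 : u = ((y ⬝ᵥ w μ)⁻¹ * (y ⬝ᵥ u)) • w μ := by
      rw [hz0] at hz
      have h3 : (y ⬝ᵥ w μ) • u = (y ⬝ᵥ u) • w μ := (sub_eq_zero.1 hz.symm)
      rw [mul_smul, ← h3, smul_smul, inv_mul_cancel₀ h1, one_smul]
    rw [h2]
    exact Submodule.smul_mem _ _ (Submodule.subset_span ⟨μ, rfl⟩)
  have htop : ⊤ ≤ Submodule.span ℂ (Set.range w) := by
    rw [← Module.End.iSup_maxGenEigenspace_eq_top f]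
    refine iSup_le fun lam => ?_
    intro u hu
    rw [Module.End.mem_maxGenEigenspace] at hu
    obtain ⟨k, hk⟩ := hu
    have h1 := hgen lam k u hk
    by_cases hu0 : u = 0
    · rw [hu0]
      exact Submodule.zero_mem _
    · have h2 : f.HasEigenvalue lam := Module.End.hasEigenvalue_of_hasEigenvector ⟨h1, hu0⟩
      exact hspan ⟨lam, h2⟩ u ((hmem _ _).1 h1)
  have hli : LinearIndependent ℂ w :=
    Module.End.eigenvectors_linearIndependent' f (fun μ : f.Eigenvalues => (μ : ℂ))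
      Subtype.val_injective w fun μ => ⟨(hmem _ _).2 (hw μ), hw0 μ⟩
  obtain ⟨b, hb⟩ : ∃ b : Module.Basis f.Eigenvalues ℂ (Fin r → ℂ), ∀ μ, b μ = w μ :=
    ⟨Module.Basis.mk hli htop, fun μ => Module.Basis.mk_apply hli htop μ⟩
  have hcard : Fintype.card f.Eigenvalues = r := by
    rw [← Module.finrank_eq_card_basis b]
    simp
  obtain ⟨e⟩ : Nonempty (Fin r ≃ f.Eigenvalues) :=
    ⟨(Fintype.equivFinOfCardEq hcard).symm⟩
  have hbe := (b.reindex e.symm)
  obtain ⟨A, hA⟩ : ∃ A : Mat r ℂ, A = Matrix.of fun i j => w (e j) i := ⟨_, rfl⟩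
  refine ⟨A, fun j => (e j : ℂ), ?_, ?_, ?_⟩
  · have h1 : LinearIndependent ℂ fun j => w (e j) := hli.comp _ e.injective
    have h2 : LinearIndependent ℂ A.col := by
      have : A.col = fun j => w (e j) := by
        funext j i
        rw [hA]
        rfl
      rw [this]
      exact h1
    exact Matrix.linearIndependent_cols_iff_isUnit.1 h2
  · intro i j hij
    exact e.injective (Subtype.ext hij)
  · ext i j
    rw [Matrix.mul_diagonal, Matrix.mul_apply]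
    have h1 := congrFun (hw (e j)) i
    rw [Matrix.mulVec, dotProduct, Pi.smul_apply, smul_eq_mul] at h1
    rw [hA]
    simp only [Matrix.of_apply]
    rw [h1, mul_comm]

end Vale.Agent.P002R
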