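import Vale.Agent.P002R.Z1Minor
import Vale.Agent.P002R.Z1Lin

/-!
# P002, genus 1: tuples with all flags in general position
-/

namespace Vale.Agent.P002R

open Matrix Module Vale.Agent.P002

variable {r : ℕ} {ι : Type}

/-- Near every irreducible tuple there is one all of whose flags are in general position and
which satisfies the cyclicity condition. -/
theorem exists_generic_one [Fintype ι] [DecidableEq ι] (hr : 1 ≤ r) (i₀ : ι) (l : List ι)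
    (hnd : (i₀ :: l).Nodup) (hmem : ∀ j, j ∈ i₀ :: l) (J : ι → P002R.Mat r ℂ)
    (hJ : ∀ j, IsUnit (J j)) (hcyc : ∃ v, (kry (J i₀) v).det ≠ 0)
    (Y₀ : ι ⊕ Bool → P002R.Mat r ℂ) (hY₀ : ∀ j, IsUnit (Y₀ j)) (hrel : PhiI J (i₀ :: l) Y₀ = 1)
    (hadj : Algebra.adjoin ℂ (Set.range (allI J Y₀)) = ⊤) (U : Set (ι ⊕ Bool → P002R.Mat r ℂ))
    (hU : U ∈ nhds Y₀) :
    ∃ Y ∈ U, (∀ j, IsUnit (Y j)) ∧ PhiI J (i₀ :: l) Y = 1 ∧
      Algebra.adjoin ℂ (Set.range (allI J Y)) = ⊤ ∧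
      (∀ a : Fin r, (kry (Y (Sum.inr false)) ((((l.map (cI J Y)).prod)⁻¹ * Y (Sum.inl i₀)) *ᵥ
        (Pi.single a 1 : Fin r → ℂ))).det ≠ 0) ∧
      ∃ (A : P002R.Mat r ℂ) (ν : Fin r → ℂ), IsUnit A ∧ Function.Injective ν ∧
        Y (Sum.inr false) * A = A * diagonal ν ∧
        ∀ (l₁ l₂ : List ι), l = l₁ ++ l₂ → ∀ (k : ℕ) (f g : Fin k → Fin r),
          Function.Injective f → Function.Injective g →
          (((Y (Sum.inl i₀))⁻¹ * (l₁.map (cI J Y)).prod *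
            (Y (Sum.inr true) * A)).submatrix f g).det ≠ 0 := by
  obtain ⟨K₀, hK₀, hJK', hE⟩ := exists_eigen_field (Sum.elim J fun j => (J j)ᵀ : ι ⊕ ι → _)
  have hJK : ∀ j a b, J j a b ∈ K₀ := fun j => hJK' (Sum.inl j)
  have hER : ∀ (lam : ℂ) (u : Fin r → ℂ), u ≠ 0 → J i₀ *ᵥ u = lam • u →
      ∃ z : Fin r → ℂ, z ≠ 0 ∧ J i₀ *ᵥ z = lam • z ∧ ∀ i, z i ∈ K₀ := by
    intro lam u hu0 hu
    obtain ⟨z, hz0, hz, hzK⟩ := hE (Sum.inr i₀) lam u hu0 (by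
      rw [Sum.elim_inr, Matrix.vecMul_transpose]
      exact hu)
    rw [Sum.elim_inr, Matrix.vecMul_transpose] at hz
    exact ⟨z, hz0, hz, hzK⟩
  obtain ⟨Y, hYU, hYu, hYrel, hYadj, hgen⟩ := generic_point1 hr (i₀ :: l) hnd hmem K₀ hK₀ J hJK Y₀
    hY₀ hrel hadj U hU
  have hPd : IsUnit ((l.map (cI J Y)).prod).det :=
    (Matrix.isUnit_iff_isUnit_det _).1 (isUnit_cI_prod hJ hYu l)
  have h0d : IsUnit (Y (Sum.inl i₀)).det := (Matrix.isUnit_iff_isUnit_det _).1 (hYu _)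
  have hk : ∀ e : Fin r → ℂ, (∀ i, e i ∈ K₀) → e ≠ 0 → (kry (Y (Sum.inr false))
      ((((l.map (cI J Y)).prod)⁻¹ * Y (Sum.inl i₀)) *ᵥ e)).det ≠ 0 := by
    intro e heK he0 hdet
    obtain ⟨v, hv⟩ : ∃ v, v = (((l.map (cI J Y)).prod)⁻¹ * Y (Sum.inl i₀)) *ᵥ e := ⟨_, rfl⟩
    rw [← hv] at hdet
    have hv0 : v ≠ 0 := by
      intro h
      apply he0
      have hud : IsUnit (((l.map (cI J Y)).prod)⁻¹ * Y (Sum.inl i₀)).det :=
        (Matrix.isUnit_iff_isUnit_det _).1 ((Matrix.isUnit_nonsing_inv_iff.2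
          (isUnit_cI_prod hJ hYu l)).mul (hYu _))
      calc e = ((((l.map (cI J Y)).prod)⁻¹ * Y (Sum.inl i₀))⁻¹ *
            (((l.map (cI J Y)).prod)⁻¹ * Y (Sum.inl i₀))) *ᵥ e := by
            rw [Matrix.nonsing_inv_mul _ hud, Matrix.one_mulVec]
        _ = 0 := by rw [← Matrix.mulVec_mulVec, ← hv, h, Matrix.mulVec_zero]
    obtain ⟨lam, κ, y, w, hlam, hy, hw, hya, hyv, hyw, haw⟩ := noncyc_data (hYu _) hv0 hdet
    exact gen_cyc hJK hJ hYu i₀ l hnd hmem hYrel hYadj hgen e heK lam κ y w v hv hlam hy hw hya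
      hyv hyw haw
  have hirr : ∀ W : Submodule ℂ (Fin r → ℂ), (∀ j, ∀ w ∈ W, cI J Y j *ᵥ w ∈ W) →
      (∀ w ∈ W, Y (Sum.inr false) *ᵥ w ∈ W) → W = ⊥ ∨ W = ⊤ :=
    gen_irr hJ hYu i₀ l hcyc hER hk
  obtain ⟨A, ν, hA, hν, haA⟩ := exists_eigenbasis (M := Y (Sum.inr false))
    (fun lam y w hy hw hya haw => gen_pair hJ hYu i₀ l hnd hmem hYrel hYadj hgen lam y w hy hw hya
      haw)
  refine ⟨Y, hYU, hYu, hYrel, hYadj, fun a => hk _ (fun i => ?_) fun h => ?_, A, ν, hA, hν, haA,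
    ?_⟩
  · by_cases hi : i = a
    · subst hi
      rw [Pi.single_eq_same]
      exact K₀.one_mem
    · rw [Pi.single_eq_of_ne hi]
      exact K₀.zero_mem
  · have := congrFun h a
    rw [Pi.single_eq_same, Pi.zero_apply] at this
    exact one_ne_zero this
  · rintro l₁ l₂ rfl k f g hf hg
    exact gen_minor hJK hJ hYu i₀ l₁ l₂ hnd hmem hYrel hirr hgen hA hν haA f g hf hg

end Vale.Agent.P002R
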