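import Vale.Agent.P002R.Z1Rank

/-!
# P002, genus 1: the rank one lemma with one frozen factor
-/

namespace Vale.Agent.P002R

open Matrix Module

variable {r : ℕ} {ι : Type*}

/-- the functional with one frozen coordinate -/
theorem exists_FF [DecidableEq ι] (c : ι → Mat r ℂ) (A P : Mat r ℂ) (b t s : ι) (l₁ : List ι) :
    ∃ F : (ι → Mat r ℂ) →ₗ[ℂ] ℂ, ∀ x, F x =
      trace (A * (DL c (Function.update x s 0) l₁ + P * (Function.update x s 0) t -
        (Function.update x s 0) b * P)) := by
  have hadd : ∀ x x' : ι → Mat r ℂ, Function.update (x + x') s 0 =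
      Function.update x s 0 + Function.update x' s 0 := by
    intro x x'
    funext j
    rw [Pi.add_apply]
    by_cases hj : j = s
    · subst hj
      rw [Function.update_self, Function.update_self, Function.update_self, add_zero]
    · rw [Function.update_of_ne hj, Function.update_of_ne hj, Function.update_of_ne hj,
        Pi.add_apply]
  have hsmul : ∀ (a : ℂ) (x : ι → Mat r ℂ), Function.update (a • x) s 0 =
      a • Function.update x s 0 := by
    intro a x
    funext j
    rw [Pi.smul_apply]
    by_cases hj : j = s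
    · subst hj
      rw [Function.update_self, Function.update_self, smul_zero]
    · rw [Function.update_of_ne hj, Function.update_of_ne hj, Pi.smul_apply]
  refine ⟨LinearMap.mk (AddHom.mk (fun x => trace (A * (DL c (Function.update x s 0) l₁ +
    P * (Function.update x s 0) t - (Function.update x s 0) b * P))) ?_) ?_, fun x => rfl⟩
  · intro x x'
    rw [hadd, DL_add, ← trace_add, Pi.add_apply, Pi.add_apply]
    congr 1
    noncomm_ring
  · intro a x
    show trace (A * (DL c (Function.update (a • x) s 0) l₁ +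
      P * (Function.update (a • x) s 0) t - (Function.update (a • x) s 0) b * P)) =
      a • trace (A * (DL c (Function.update x s 0) l₁ +
        P * (Function.update x s 0) t - (Function.update x s 0) b * P))
    rw [hsmul, DL_smul, Pi.smul_apply, Pi.smul_apply, ← trace_smul]
    congr 1
    simp only [Matrix.smul_mul, Matrix.mul_smul, smul_sub, smul_add, Matrix.mul_sub,
      Matrix.mul_add]

/-- the derivative with one frozen coordinate -/
theorem exists_DF [DecidableEq ι] (c : ι → Mat r ℂ) (s : ι) (L : List ι) :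
    ∃ D : (ι → Mat r ℂ) →ₗ[ℂ] Mat r ℂ, ∀ x, D x = DL c (Function.update x s 0) L := by
  have hadd : ∀ x x' : ι → Mat r ℂ, Function.update (x + x') s 0 =
      Function.update x s 0 + Function.update x' s 0 := by
    intro x x'
    funext j
    rw [Pi.add_apply]
    by_cases hj : j = s
    · subst hj
      rw [Function.update_self, Function.update_self, Function.update_self, add_zero]
    · rw [Function.update_of_ne hj, Function.update_of_ne hj, Function.update_of_ne hj,
        Pi.add_apply]
  have hsmul : ∀ (a : ℂ) (x : ι → Mat r ℂ), Function.update (a • x) s 0 =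
      a • Function.update x s 0 := by
    intro a x
    funext j
    rw [Pi.smul_apply]
    by_cases hj : j = s
    · subst hj
      rw [Function.update_self, Function.update_self, smul_zero]
    · rw [Function.update_of_ne hj, Function.update_of_ne hj, Pi.smul_apply]
  refine ⟨LinearMap.mk (AddHom.mk (fun x => DL c (Function.update x s 0) L) ?_) ?_, fun x => rfl⟩
  · intro x x'
    rw [hadd, DL_add]
  · intro a x
    show DL c (Function.update (a • x) s 0) L = a • DL c (Function.update x s 0) L
    rw [hsmul, DL_smul]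

theorem frozen_b {cb P A N R : Mat r ℂ} (hrel : cb * R = 1)
    (h : ∀ H, trace (A * (-(H * P))) = trace ((cb * (R * N * 1) - (R * N * 1) * cb) * H)) :
    N * cb = cb * (N + P * A) := by
  have h1 : ∀ H, trace (-(P * A) * H) = trace ((cb * (R * N) - (R * N) * cb) * H) := by
    intro H
    have h2 := h H
    rw [Matrix.mul_one] at h2
    rw [← h2, Matrix.neg_mul, trace_neg, Matrix.mul_neg, trace_neg,
      show A * (H * P) = (A * H) * P by rw [Matrix.mul_assoc], Matrix.trace_mul_comm (A * H) P,
      Matrix.mul_assoc]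
  have h2 := Vale.Agent.P002.eq_of_trace_eq h1
  rw [← Matrix.mul_assoc cb R N, hrel, Matrix.one_mul] at h2
  have h3 : cb * (N - R * N * cb) = cb * (-(P * A)) := by rw [h2]
  rw [Matrix.mul_sub, show cb * (R * N * cb) = (cb * R) * (N * cb) by
    simp only [Matrix.mul_assoc], hrel, Matrix.one_mul] at h3
  rw [Matrix.mul_add]
  have h4 : cb * N - cb * (-(P * A)) = N * cb := by rw [← h3]; abel
  rw [← h4]
  noncomm_ring

theorem frozen_l₁ {cb cj X Z Q A N P : Mat r ℂ} (hPX : P = X * (cj * Z))
    (hrel : cb * (P * Q) = 1) (E1 : N * cb = cb * (N + P * A)) (hcom : Commute N X)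
    (h : ∀ H, trace (A * (X * (H * cj - cj * H) * Z)) =
      trace ((cj * ((Z * Q) * N * (cb * X)) - ((Z * Q) * N * (cb * X)) * cj) * H)) :
    Commute N cj := by
  have h2 : cj * (Z * A * X) - (Z * A * X) * cj =
      cj * ((Z * Q) * N * (cb * X)) - ((Z * Q) * N * (cb * X)) * cj := by
    refine Vale.Agent.P002.eq_of_trace_eq fun H => ?_
    rw [← h H, tr_comm]
  have hcyc := cyc_one (X := cb * X) (a := cj) (Y := Z * Q) (by
    rw [← hrel, hPX]; simp only [Matrix.mul_assoc])
  have h3 : (Z * Q) * N * (cb * X) = ((Z * Q) * (cb * X)) * N + Z * A * X := by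
    calc (Z * Q) * N * (cb * X) = (Z * Q) * (N * cb) * X := by simp only [Matrix.mul_assoc]
      _ = (Z * Q) * cb * (N * X) + ((Z * Q) * (cb * X) * cj) * (Z * A * X) := by
        rw [E1, hPX]; simp only [Matrix.mul_add, Matrix.add_mul, Matrix.mul_assoc]
      _ = _ := by rw [hcyc.2, hcom.eq, Matrix.one_mul]; simp only [Matrix.mul_assoc]
  refine comm_of_inv hcyc.1 ?_
  rw [h3] at h2
  have h4 : cj * ((Z * Q) * (cb * X) * N + Z * A * X) - ((Z * Q) * (cb * X) * N + Z * A * X) * cj -
      (cj * (Z * A * X) - Z * A * X * cj) = 0 := by rw [← h2, sub_self]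
  rw [← h4]
  simp only [Matrix.mul_add, Matrix.add_mul]
  abel

theorem frozen_l₂ {cb cj X Z Q B₂ N P : Mat r ℂ}
    (hrel : cb * (P * (X * (cj * (Z * Q)))) = 1) (E2 : N * (cb * P) = cb * P * B₂)
    (hcom : Commute B₂ X)
    (h : ∀ H, trace ((cj * ((Z * Q) * N * (cb * (P * X))) -
      ((Z * Q) * N * (cb * (P * X))) * cj) * H) = 0) :
    Commute B₂ cj := by
  have h2 : (0 : Mat r ℂ) =
      cj * ((Z * Q) * N * (cb * (P * X))) - ((Z * Q) * N * (cb * (P * X))) * cj := by
    refine Vale.Agent.P002.eq_of_trace_eq fun H => ?_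
    rw [h H, Matrix.zero_mul, trace_zero]
  have hcyc := cyc_one (X := cb * (P * X)) (a := cj) (Y := Z * Q) (by
    rw [← hrel]; simp only [Matrix.mul_assoc])
  have h3 : (Z * Q) * N * (cb * (P * X)) = ((Z * Q) * (cb * (P * X))) * B₂ := by
    calc (Z * Q) * N * (cb * (P * X)) = (Z * Q) * (N * (cb * P)) * X := by
          simp only [Matrix.mul_assoc]
      _ = (Z * Q) * cb * P * (B₂ * X) := by rw [E2]; simp only [Matrix.mul_assoc]
      _ = _ := by rw [hcom.eq]; simp only [Matrix.mul_assoc]
  refine comm_of_inv hcyc.1 ?_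
  rw [← h3, ← h2]

/-- The rank one lemma with one frozen factor. -/
theorem rank_one_frozen [DecidableEq ι] (c : ι → Mat r ℂ) (hc : ∀ j, IsUnit (c j)) (b t s : ι)
    (l₁ l₂ : List ι) (hnd : (b :: (l₁ ++ (l₂ ++ [s, t]))).Nodup)
    (hrel : ((b :: (l₁ ++ (l₂ ++ [s, t]))).map c).prod = 1)
    (hmem : ∀ j, j ∈ b :: (l₁ ++ (l₂ ++ [s, t])))
    (hirr : ∀ W : Submodule ℂ (Fin r → ℂ), (∀ j, ∀ w ∈ W, c j *ᵥ w ∈ W) → W = ⊥ ∨ W = ⊤)
    (u y : Fin r → ℂ) (hu0 : u ≠ 0) (hy0 : y ≠ 0) :
    ∃ x : ι → Mat r ℂ, x s = 0 ∧ DL c x (b :: (l₁ ++ (l₂ ++ [s, t]))) = 0 ∧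
      y ⬝ᵥ ((DL c x l₁ + (l₁.map c).prod * x t - x b * (l₁.map c).prod) *ᵥ u) ≠ 0 := by
  by_contra hcon
  push Not at hcon
  obtain ⟨P, hPdef⟩ : ∃ P, P = (l₁.map c).prod := ⟨_, rfl⟩
  obtain ⟨P₂, hP₂def⟩ : ∃ P₂, P₂ = (l₂.map c).prod := ⟨_, rfl⟩
  obtain ⟨A, hA⟩ : ∃ A, A = vecMulVec u y := ⟨_, rfl⟩
  have hprodunit : ∀ l : List ι, IsUnit (l.map c).prod := by
    intro l
    induction l with
    | nil => simp
    | cons j l ih => rw [List.map_cons, List.prod_cons]; exact (hc j).mul ih
  rw [← hPdef] at hcon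
  obtain ⟨L, hL⟩ : ∃ L, L = b :: (l₁ ++ (l₂ ++ [s, t])) := ⟨_, rfl⟩
  obtain ⟨F, hF⟩ := exists_FF c A P b t s l₁
  obtain ⟨D, hD⟩ := exists_DF c s L
  obtain ⟨N, hN⟩ := exists_factor D F (by
    intro x hx
    rw [hF, hA, trace_vecMulVec_mul]
    refine hcon (Function.update x s 0) (Function.update_self _ _ _) ?_
    rw [← hL, ← hD]
    exact hx)
  have hN' : ∀ x : ι → Mat r ℂ, x s = 0 →
      trace (A * (DL c x l₁ + P * x t - x b * P)) = trace (N * DL c x L) := by
    intro x hx
    have h1 := hN x
    have h2 : Function.update x s 0 = x := by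
      rw [← hx]
      exact Function.update_eq_self s x
    rw [hF, hD, h2] at h1
    exact h1
  -- variation of one generator
  have hvar : ∀ (j : ι) (l' l'' : List ι), L = l' ++ j :: l'' → j ≠ s →
      ∀ H : Mat r ℂ, trace (A * (DL c (Function.update 0 j H) l₁ +
        P * (Function.update (0 : ι → Mat r ℂ) j H) t -
        (Function.update (0 : ι → Mat r ℂ) j H) b * P)) =
      trace ((c j * ((l''.map c).prod * N * (l'.map c).prod) -
        ((l''.map c).prod * N * (l'.map c).prod) * c j) * H) := by
    intro j l' l'' hl hjs H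
    rw [hN' _ (by rw [Function.update_of_ne hjs.symm, Pi.zero_apply]), hl, ← tr_comm]
    have hnd' : (l' ++ j :: l'').Nodup := hl ▸ hL ▸ hnd
    rw [List.nodup_append, List.nodup_cons] at hnd'
    rw [DL_split c _ l' l'' j (fun k hk => ?_) (fun k hk => ?_), Function.update_self]
    · rw [Function.update_of_ne, Pi.zero_apply]
      exact hnd'.2.2 k hk j List.mem_cons_self
    · rw [Function.update_of_ne, Pi.zero_apply]
      rintro rfl
      exact hnd'.2.1.1 hk
  have hvar0 : ∀ (j : ι) (l : List ι), j ∉ l → ∀ H : Mat r ℂ,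
      DL c (Function.update 0 j H) l = 0 := by
    intro j l hj H
    refine DL_zero_of c _ l fun k hk => ?_
    rw [Function.update_of_ne, Pi.zero_apply]
    rintro rfl
    exact hj hk
  have hnd2 := hnd
  rw [List.nodup_cons, List.nodup_append, List.nodup_append] at hnd2
  obtain ⟨hb, hn1, ⟨hn2, hst, hn23⟩, hn123⟩ := hnd2
  have hst' : s ≠ t := by
    intro h
    rw [h] at hst
    simp at hst
  have hb1 : b ∉ l₁ := fun h => hb (List.mem_append_left _ h)
  have hbs : b ≠ s := fun h => hb (List.mem_append_right _ (List.mem_append_right _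
    (by rw [h]; simp)))
  have hbt : b ≠ t := fun h => hb (List.mem_append_right _ (List.mem_append_right _
    (by rw [h]; simp)))
  have ht1 : t ∉ l₁ := fun h => hn123 t h t (List.mem_append_right _ (by simp)) rfl
  have hs1 : s ∉ l₁ := fun h => hn123 s h s (List.mem_append_right _ (by simp)) rfl
  have hrel' : c b * (P * (P₂ * (c s * c t))) = 1 := by
    rw [← hrel, hPdef, hP₂def]
    simp only [List.map_cons, List.map_append, List.prod_cons, List.prod_append, List.map_nil,
      List.prod_nil, Matrix.mul_one]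
  have E1 : N * c b = c b * (N + P * A) := by
    refine frozen_b hrel' fun H => ?_
    have h2 := hvar b [] (l₁ ++ (l₂ ++ [s, t])) hL hbs H
    rw [hvar0 b l₁ hb1, Function.update_of_ne (Ne.symm hbt), Pi.zero_apply,
      Function.update_self] at h2
    simp only [List.map_nil, List.prod_nil, Matrix.mul_one, List.map_append, List.map_cons,
      List.prod_append, List.prod_cons, Matrix.mul_zero, zero_add, zero_sub, ← hPdef,
      ← hP₂def] at h2
    rw [h2, Matrix.mul_one]
  have hc1 := pre_ind c N l₁ (by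
    intro l' j l'' hl hcom
    have hjl : j ∈ l₁ := by rw [hl]; simp
    have hjb : b ≠ j := fun h => hb1 (h ▸ hjl)
    have hjt : t ≠ j := fun h => ht1 (h ▸ hjl)
    have hjs : j ≠ s := fun h => hs1 (h ▸ hjl)
    have hn1' : (l' ++ j :: l'').Nodup := hl ▸ hn1
    rw [List.nodup_append, List.nodup_cons] at hn1'
    refine frozen_l₁ (X := (l'.map c).prod) (Z := (l''.map c).prod) (P := P)
      (Q := P₂ * (c s * c t)) (A := A) (by
        rw [hPdef, hl]
        simp only [List.map_append, List.map_cons, List.prod_append, List.prod_cons]) hrel' E1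
      hcom fun H => ?_
    have h2 := hvar j (b :: l') (l'' ++ (l₂ ++ [s, t])) (by rw [hL, hl]; simp) hjs H
    rw [Function.update_of_ne hjb, Function.update_of_ne hjt, Pi.zero_apply, Pi.zero_apply,
      Matrix.mul_zero, Matrix.zero_mul, add_zero, sub_zero] at h2
    simp only [List.map_append, List.map_cons, List.prod_append, List.prod_cons, List.map_nil,
      List.prod_nil, Matrix.mul_one, ← hP₂def] at h2
    rw [← h2, hl, DL_split c _ l' l'' j (fun k hk => ?_) (fun k hk => ?_), Function.update_self]
    · rw [Function.update_of_ne, Pi.zero_apply]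
      exact hn1'.2.2 k hk j List.mem_cons_self
    · rw [Function.update_of_ne, Pi.zero_apply]
      rintro rfl
      exact hn1'.2.1.1 hk)
  obtain ⟨hNP, hNl₁⟩ := hc1
  rw [← hPdef] at hNP
  obtain ⟨B₂, hB₂⟩ : ∃ B₂, B₂ = N + A * P := ⟨_, rfl⟩
  have E2 : N * (c b * P) = c b * P * B₂ := by
    calc N * (c b * P) = (N * c b) * P := by rw [Matrix.mul_assoc]
      _ = c b * (N * P + P * (A * P)) := by
        rw [E1]; simp only [Matrix.mul_add, Matrix.add_mul, Matrix.mul_assoc]
      _ = c b * P * B₂ := by
        rw [hNP.eq, hB₂]; simp only [Matrix.mul_add, Matrix.mul_assoc]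
  have hc2 := pre_ind c B₂ l₂ (by
    intro l' j l'' hl hcom
    have hjl : j ∈ l₂ := by rw [hl]; simp
    have hjb : b ≠ j := fun h => hb (List.mem_append_right _ (List.mem_append_left _ (h ▸ hjl)))
    have hjt : t ≠ j := fun h => hn23 j hjl t (by simp) h.symm
    have hjs : j ≠ s := fun h => hn23 j hjl s (by simp) h
    have hj1 : j ∉ l₁ := fun h => hn123 j h j (List.mem_append_left _ hjl) rfl
    refine frozen_l₂ (X := (l'.map c).prod) (Z := (l''.map c).prod) (Q := c s * c t) ?_ E2 hcom
      fun H => ?_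
    · rw [← hrel', hP₂def, hl]
      simp only [List.map_append, List.map_cons, List.prod_append, List.prod_cons,
        Matrix.mul_assoc]
    · have h2 := hvar j (b :: (l₁ ++ l')) (l'' ++ [s, t]) (by rw [hL, hl]; simp) hjs H
      rw [Function.update_of_ne hjb, Function.update_of_ne hjt, Pi.zero_apply, Pi.zero_apply,
        Matrix.mul_zero, Matrix.zero_mul, add_zero, sub_zero, hvar0 j l₁ hj1,
        Matrix.mul_zero, trace_zero] at h2
      simp only [List.map_append, List.map_cons, List.prod_append, List.prod_cons, List.map_nil,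
        List.prod_nil, Matrix.mul_one, ← hPdef] at h2
      exact h2.symm)
  obtain ⟨hBP₂, hBl₂⟩ := hc2
  rw [← hP₂def] at hBP₂
  have E3 : N * (c b * (P * P₂)) = c b * (P * P₂) * B₂ := by
    calc N * (c b * (P * P₂)) = (N * (c b * P)) * P₂ := by simp only [Matrix.mul_assoc]
      _ = c b * P * (B₂ * P₂) := by rw [E2]; simp only [Matrix.mul_assoc]
      _ = _ := by rw [hBP₂.eq]; simp only [Matrix.mul_assoc]
  -- the last factor
  have hcyct : c b * (P * (P₂ * c s)) * c t = 1 := by
    rw [← hrel']; simp only [Matrix.mul_assoc]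
  have hcyct' : c t * (c b * (P * (P₂ * c s))) = 1 := mul_eq_one_comm.1 hcyct
  have E4 : B₂ * c t = c t * N := by
    have h1 : A * P = c t * (N * (c b * (P * (P₂ * c s)))) -
        (N * (c b * (P * (P₂ * c s)))) * c t := by
      refine Vale.Agent.P002.eq_of_trace_eq fun H => ?_
      have h2 := hvar t (b :: (l₁ ++ (l₂ ++ [s]))) [] (by rw [hL]; simp) hst'.symm H
      rw [Function.update_self, Function.update_of_ne hbt, Pi.zero_apply,
        Matrix.zero_mul, sub_zero, hvar0 t l₁ ht1, zero_add] at h2
      simp only [List.map_append, List.map_cons, List.prod_append, List.prod_cons, List.map_nil,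
        List.prod_nil, Matrix.mul_one, Matrix.one_mul,
        ← hPdef, ← hP₂def] at h2
      rw [← h2, Matrix.mul_assoc]
    rw [Matrix.mul_assoc N, hcyct, Matrix.mul_one] at h1
    have h3 : B₂ = c t * (N * (c b * (P * (P₂ * c s)))) := by
      rw [hB₂, h1]; abel
    rw [h3]
    calc c t * (N * (c b * (P * (P₂ * c s)))) * c t
        = c t * (N * (c b * (P * (P₂ * c s)) * c t)) := by simp only [Matrix.mul_assoc]
      _ = _ := by rw [hcyct, Matrix.mul_one]
  have E5 : Commute B₂ (c s) := by
    have hz1 : c s * (c t * (c b * (P * P₂))) = 1 := by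
      have h1 : (c b * (P * P₂)) * (c s * c t) = 1 := by
        rw [← hrel']; simp only [Matrix.mul_assoc]
      have h2 := mul_eq_one_comm.1 h1
      rw [← h2, Matrix.mul_assoc]
    have hz2 : (c b * (P * P₂)) * (c s * c t) = 1 := by
      rw [← hrel']; simp only [Matrix.mul_assoc]
    have h3 : c s * (c t * N) = B₂ * (c s * c t) := by
      calc c s * (c t * N) = c s * (c t * (N * ((c b * (P * P₂)) * (c s * c t)))) := by
            rw [hz2, Matrix.mul_one]
        _ = c s * (c t * ((N * (c b * (P * P₂))) * (c s * c t))) := by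
            simp only [Matrix.mul_assoc]
        _ = (c s * (c t * (c b * (P * P₂)))) * (B₂ * (c s * c t)) := by
            rw [E3]; simp only [Matrix.mul_assoc]
        _ = _ := by rw [hz1, Matrix.one_mul]
    rw [← E4, ← Matrix.mul_assoc, ← Matrix.mul_assoc] at h3
    exact ((hc t).mul_right_cancel h3).symm
  refine rank_one_end c b t N B₂ P A u y hA hu0 hy0 (hc b) (hc t) (hPdef ▸ hprodunit l₁) hNP hB₂ E1
    E4 ?_ hirr
  intro j hjb hjt
  have hj := hmem j
  rw [List.mem_cons, List.mem_append, List.mem_append] at hj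
  rcases hj with h | h | h | h
  · exact absurd h hjb
  · exact Or.inl (hNl₁ j h)
  · exact Or.inr (hBl₂ j h)
  · rw [List.mem_cons, List.mem_singleton] at h
    rcases h with h | h
    · rw [h]
      exact Or.inr E5
    · exact absurd h hjt

end Vale.Agent.P002R
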