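import Vale.Agent.P002R.Z1Point

/-!
# P002, genus 1: consequences of genericity
-/

namespace Vale.Agent.P002R

open Matrix Module Vale.Agent.P002

variable {r : ℕ} {ι : Type} [Fintype ι]

omit [Fintype ι] in
theorem allI_inl (J : ι → P002R.Mat r ℂ) (Y : ι ⊕ Bool → P002R.Mat r ℂ) (j : ι) :
    allI J Y (Sum.inl j) = cI J Y j := rfl

omit [Fintype ι] in
theorem allI_inr (J : ι → P002R.Mat r ℂ) (Y : ι ⊕ Bool → P002R.Mat r ℂ) (s : Bool) :
    allI J Y (Sum.inr s) = Y (Sum.inr s) := rfl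

omit [Fintype ι] in
theorem isUnit_cI {J : ι → P002R.Mat r ℂ} {Y : ι ⊕ Bool → P002R.Mat r ℂ} (hJ : ∀ j, IsUnit (J j))
    (hY : ∀ j, IsUnit (Y j)) (j : ι) : IsUnit (cI J Y j) := isUnit_cj hJ (fun _ => hY _) j

omit [Fintype ι] in
theorem isUnit_cI_prod {J : ι → P002R.Mat r ℂ} {Y : ι ⊕ Bool → P002R.Mat r ℂ}
    (hJ : ∀ j, IsUnit (J j)) (hY : ∀ j, IsUnit (Y j)) (l : List ι) :
    IsUnit (l.map (cI J Y)).prod := isUnit_cj_prod hJ (fun _ => hY _) l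

/-- derivation of a matrix-vector product -/
theorem der_mulVec (δ : Derivation ℤ ℂ ℂ) (M : P002R.Mat r ℂ) (v : Fin r → ℂ) :
    (fun i => δ ((M *ᵥ v) i)) = M.map δ *ᵥ v + M *ᵥ fun i => δ (v i) := by
  funext i
  simp only [Matrix.mulVec, dotProduct, map_sum, Derivation.leibniz, smul_eq_mul, Pi.add_apply,
    Matrix.map_apply, ← Finset.sum_add_distrib]
  refine Finset.sum_congr rfl fun j _ => ?_
  ring

omit [Fintype ι] in
/-- the generic point and rank one lemma together -/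
theorem gen_B [DecidableEq ι] {K₀ : Subfield ℂ} {J : ι → P002R.Mat r ℂ}
    {Y : ι ⊕ Bool → P002R.Mat r ℂ} (hJ : ∀ j, IsUnit (J j)) (hY : ∀ j, IsUnit (Y j)) (i₀ : ι)
    (l₁ : List ι) (hnd : (i₀ :: l₁).Nodup) (hmem : ∀ j, j ∈ i₀ :: l₁)
    (hrel : PhiI J (i₀ :: l₁) Y = 1)
    (hadj : Algebra.adjoin ℂ (Set.range (allI J Y)) = ⊤) (hgen : GenPt1 K₀ J (i₀ :: l₁) Y)
    (y w v : Fin r → ℂ) (hy : y ≠ 0) (hw : w ≠ 0) (lam κ : ℂ) (hlam : lam ≠ 0)
    (haw : Y (Sum.inr false) *ᵥ w = lam • w - κ • v) :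
    ∃ (δ : Derivation ℤ ℂ ℂ) (x : ι ⊕ Bool → P002R.Mat r ℂ), (∀ a ∈ K₀, δ a = 0) ∧
      (∀ k, (Y k).map δ = x k * Y k) ∧
      y ⬝ᵥ ((x (Sum.inr false) * Y (Sum.inr false)) *ᵥ w) +
        κ * (y ⬝ᵥ ((((l₁.map (cI J Y)).prod)⁻¹ * x (Sum.inl i₀) * (l₁.map (cI J Y)).prod -
          ((l₁.map (cI J Y)).prod)⁻¹ * DL (cI J Y) (fun j => x (Sum.inl j)) l₁) *ᵥ v)) ≠ 0 := by
  obtain ⟨x, hx1, hx2⟩ := rank_B (cI J Y) (isUnit_cI hJ hY) _ _ (hY (Sum.inr false))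
    (hY (Sum.inr true)) i₀ l₁ hnd hmem hrel (fun W h1 h2 h3 => by
      refine eq_bot_or_top_of_adjoin (allI J Y) hadj W fun k => ?_
      rcases k with j | s
      · exact h1 j
      · cases s
        · exact h2
        · exact h3) y w v hy hw lam κ hlam haw
  obtain ⟨δ, h1, h2⟩ := hgen x hx1
  exact ⟨δ, x, h1, h2, hx2⟩

omit [Fintype ι] in
/-- left and right eigenvectors pair nontrivially -/
theorem gen_pair [DecidableEq ι] {K₀ : Subfield ℂ} {J : ι → P002R.Mat r ℂ}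
    {Y : ι ⊕ Bool → P002R.Mat r ℂ} (hJ : ∀ j, IsUnit (J j)) (hY : ∀ j, IsUnit (Y j)) (i₀ : ι)
    (l₁ : List ι) (hnd : (i₀ :: l₁).Nodup) (hmem : ∀ j, j ∈ i₀ :: l₁)
    (hrel : PhiI J (i₀ :: l₁) Y = 1)
    (hadj : Algebra.adjoin ℂ (Set.range (allI J Y)) = ⊤) (hgen : GenPt1 K₀ J (i₀ :: l₁) Y)
    (lam : ℂ) (y w : Fin r → ℂ) (hy : y ≠ 0) (hw : w ≠ 0)
    (hya : y ᵥ* Y (Sum.inr false) = lam • y) (haw : Y (Sum.inr false) *ᵥ w = lam • w) :
    y ⬝ᵥ w ≠ 0 := by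
  intro h0
  have had : IsUnit (Y (Sum.inr false)).det := (Matrix.isUnit_iff_isUnit_det _).1 (hY _)
  have hlam : lam ≠ 0 := by
    rintro rfl
    apply hw
    rw [zero_smul] at haw
    calc w = ((Y (Sum.inr false))⁻¹ * Y (Sum.inr false)) *ᵥ w := by
          rw [Matrix.nonsing_inv_mul _ had, Matrix.one_mulVec]
      _ = 0 := by rw [← Matrix.mulVec_mulVec, haw, Matrix.mulVec_zero]
  obtain ⟨δ, x, -, hx, hne⟩ := gen_B hJ hY i₀ l₁ hnd hmem hrel hadj hgen y w 0 hy hw lam 0 hlam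
    (by rw [haw, zero_smul, sub_zero])
  apply hne
  rw [zero_mul, add_zero, ← hx]
  have h1 := der_mulVec δ (Y (Sum.inr false)) w
  rw [haw] at h1
  have h2 := congrArg (fun q => y ⬝ᵥ q) h1
  simp only [Pi.smul_apply, smul_eq_mul, Derivation.leibniz, dotProduct_add] at h2
  have h3 : y ⬝ᵥ (Y (Sum.inr false) *ᵥ fun i => δ (w i)) = lam * (y ⬝ᵥ fun i => δ (w i)) := by
    rw [Matrix.dotProduct_mulVec, hya, smul_dotProduct, smul_eq_mul]
  have h4 : (y ⬝ᵥ fun i => lam * δ (w i) + w i * δ lam) =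
      lam * (y ⬝ᵥ fun i => δ (w i)) + δ lam * (y ⬝ᵥ w) := by
    simp only [dotProduct, Finset.mul_sum, ← Finset.sum_add_distrib]
    refine Finset.sum_congr rfl fun i _ => ?_
    ring
  rw [h3, h4, h0, mul_zero, add_zero] at h2
  linear_combination -h2

/-- no degenerate data -/
theorem gen_cyc [DecidableEq ι] {K₀ : Subfield ℂ} {J : ι → P002R.Mat r ℂ}
    (hJK : ∀ j a b, J j a b ∈ K₀)
    {Y : ι ⊕ Bool → P002R.Mat r ℂ} (hJ : ∀ j, IsUnit (J j)) (hY : ∀ j, IsUnit (Y j)) (i₀ : ι)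
    (l₁ : List ι) (hnd : (i₀ :: l₁).Nodup) (hmem : ∀ j, j ∈ i₀ :: l₁)
    (hrel : PhiI J (i₀ :: l₁) Y = 1)
    (hadj : Algebra.adjoin ℂ (Set.range (allI J Y)) = ⊤) (hgen : GenPt1 K₀ J (i₀ :: l₁) Y)
    (e : Fin r → ℂ) (he : ∀ i, e i ∈ K₀) (lam κ : ℂ) (y w v : Fin r → ℂ)
    (hv : v = (((l₁.map (cI J Y)).prod)⁻¹ * Y (Sum.inl i₀)) *ᵥ e)
    (hlam : lam ≠ 0) (hy : y ≠ 0) (hw : w ≠ 0)
    (hya : y ᵥ* Y (Sum.inr false) = lam • y) (hyv : y ⬝ᵥ v = 0) (hyw : y ⬝ᵥ w = 0)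
    (haw : Y (Sum.inr false) *ᵥ w = lam • w - κ • v) : False := by
  obtain ⟨δ, x, hδ, hx, hne⟩ := gen_B hJ hY i₀ l₁ hnd hmem hrel hadj hgen y w v hy hw lam κ hlam haw
  obtain ⟨P, hP⟩ : ∃ P, P = (l₁.map (cI J Y)).prod := ⟨_, rfl⟩
  have hPu : IsUnit P := hP ▸ isUnit_cI_prod hJ hY l₁
  have hPd : IsUnit P.det := (Matrix.isUnit_iff_isUnit_det _).1 hPu
  have a2 : P * P⁻¹ = 1 := Matrix.mul_nonsing_inv _ hPd
  rw [← hP] at hv hne
  apply hne
  rw [← hx]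
  have hPδ : P.map δ = DL (cI J Y) (fun j => x (Sum.inl j)) l₁ := by
    rw [hP, map_der_listI hJK hY δ hδ x hx]
  -- the derivative of `v`
  have hvδ : (fun i => δ (v i)) = (P⁻¹ * x (Sum.inl i₀) * P -
      P⁻¹ * DL (cI J Y) (fun j => x (Sum.inl j)) l₁) *ᵥ v := by
    have h1 := der_mulVec δ (P⁻¹ * Y (Sum.inl i₀)) e
    rw [← hv] at h1
    have h2 : (fun i => δ (e i)) = 0 := funext fun i => hδ _ (he i)
    rw [h1, h2, Matrix.mulVec_zero, add_zero, hv, Matrix.mulVec_mulVec]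
    congr 1
    rw [map_der_mul, map_der_inv hPu, hx, hPδ, Matrix.sub_mul]
    have e1 : P⁻¹ * x (Sum.inl i₀) * P * (P⁻¹ * Y (Sum.inl i₀)) =
        P⁻¹ * (x (Sum.inl i₀) * Y (Sum.inl i₀)) := by
      simp only [Matrix.mul_assoc, mulL a2]
    rw [e1, Matrix.neg_mul, neg_add_eq_sub]
    simp only [Matrix.mul_assoc]
  rw [← hvδ]
  have h1 := der_mulVec δ (Y (Sum.inr false)) w
  rw [haw] at h1
  have h2 := congrArg (fun q => y ⬝ᵥ q) h1
  simp only [Pi.sub_apply, Pi.smul_apply, smul_eq_mul, map_sub, Derivation.leibniz,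
    dotProduct_add] at h2
  have h3 : y ⬝ᵥ (Y (Sum.inr false) *ᵥ fun i => δ (w i)) = lam * (y ⬝ᵥ fun i => δ (w i)) := by
    rw [Matrix.dotProduct_mulVec, hya, smul_dotProduct, smul_eq_mul]
  have h4 : (y ⬝ᵥ fun i => lam * δ (w i) + w i * δ lam - (κ * δ (v i) + v i * δ κ)) =
      lam * (y ⬝ᵥ fun i => δ (w i)) + δ lam * (y ⬝ᵥ w) - κ * (y ⬝ᵥ fun i => δ (v i)) -
        δ κ * (y ⬝ᵥ v) := by
    simp only [dotProduct, Finset.mul_sum, ← Finset.sum_add_distrib, ← Finset.sum_sub_distrib]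
    refine Finset.sum_congr rfl fun i _ => ?_
    ring
  rw [h3, h4, hyv, hyw] at h2
  linear_combination -h2

omit [Fintype ι] in
/-- derivation of eigenvector matrices -/
theorem der_eigenbasis {a A Z : P002R.Mat r ℂ} {ν : Fin r → ℂ} (δ : Derivation ℤ ℂ ℂ)
    (ha : a.map δ = 0) (hA : IsUnit A) (hν : Function.Injective ν) (haA : a * A = A * diagonal ν)
    (hZ : A.map δ = A * Z) : ∀ i j, i ≠ j → Z i j = 0 := by
  have hud : IsUnit A.det := (Matrix.isUnit_iff_isUnit_det _).1 hA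
  have a2 : A⁻¹ * A = 1 := Matrix.nonsing_inv_mul _ hud
  have h1 := congrArg (fun M : P002R.Mat r ℂ => M.map δ) haA
  simp only [map_der_mul] at h1
  rw [ha, Matrix.zero_mul, zero_add, hZ] at h1
  have h2 : diagonal ν * Z = Z * diagonal ν + (diagonal ν).map δ := by
    calc diagonal ν * Z = A⁻¹ * (A * diagonal ν) * Z := by rw [mulL a2]
      _ = A⁻¹ * (a * (A * Z)) := by rw [← haA]; simp only [Matrix.mul_assoc]
      _ = _ := by
        rw [h1, Matrix.mul_add, mulL a2, Matrix.mul_assoc, mulL a2]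
  intro i j hij
  have h3 := congrFun (congrFun h2 i) j
  rw [Matrix.diagonal_mul, Matrix.add_apply, Matrix.mul_diagonal, Matrix.map_apply,
    Matrix.diagonal_apply_ne _ hij, map_zero, add_zero] at h3
  have h4 : (ν i - ν j) * Z i j = 0 := by
    linear_combination h3
  rcases mul_eq_zero.1 h4 with h | h
  · exact absurd (hν (sub_eq_zero.1 h)) hij
  · exact h

omit [Fintype ι] in
/-- the derivative of the relation with frozen `a` -/
theorem D1_frozen {c : ι → P002R.Mat r ℂ} {a b : P002R.Mat r ℂ} (L : List ι)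
    (q : ι ⊕ Bool → P002R.Mat r ℂ) (hq1 : ∀ j, q (Sum.inl j) = c j) (hq2 : q (Sum.inr false) = a)
    (hq3 : q (Sum.inr true) = b * a⁻¹ * b⁻¹) (x : ι ⊕ Bool → P002R.Mat r ℂ)
    (hx : x (Sum.inr false) = 0) :
    D1 c a b L x = DL q x (L.map Sum.inl ++ [Sum.inr false, Sum.inr true]) := by
  have h1 : ∀ l : List ι, DL q x (l.map Sum.inl) = DL c (fun j => x (Sum.inl j)) l := by
    intro l
    induction l with
    | nil => rfl
    | cons j l ih =>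
      rw [List.map_cons, DL_cons, DL_cons, ih, hq1, List.map_map]
      congr 3
      refine List.map_congr_left fun k _ => ?_
      exact hq1 k
  have h2 : ((L.map Sum.inl).map q).prod = (L.map c).prod := by
    rw [List.map_map]
    congr 1
    exact List.map_congr_left fun k _ => hq1 k
  rw [D1, DL_append, h1, h2, hx, DL_cons, DL_cons, DL_nil, hq2, hq3, hx]
  simp only [List.map_cons, List.map_nil, List.prod_cons, List.prod_nil, hq3, hq2]
  have h3 : a * (b * a⁻¹ * b⁻¹) = a * b * a⁻¹ * b⁻¹ := by simp only [Matrix.mul_assoc]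
  rw [Matrix.mul_one, h3]
  noncomm_ring

end Vale.Agent.P002R
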