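import Vale.Agent.P002R.Z1Gen

/-!
# P002, genus 1: irreducibility of the frozen tuple and minors
-/

namespace Vale.Agent.P002R

open Matrix Module Vale.Agent.P002

variable {r : ℕ}

/-- A right eigenvector is unique up to scalars if there is a cyclic vector. -/
theorem right_eigen_unique {J : P002R.Mat r ℂ} {v : Fin r → ℂ} (hv : (kry J v).det ≠ 0) {lam : ℂ}
    {u z : Fin r → ℂ} (hu : J *ᵥ u = lam • u) (hz : J *ᵥ z = lam • z) (hz0 : z ≠ 0) :
    ∃ a : ℂ, u = a • z := by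
  obtain ⟨M, hM⟩ : ∃ M : P002R.Mat r ℂ, M = J - lam • (1 : P002R.Mat r ℂ) := ⟨_, rfl⟩
  have hMv : ∀ w : Fin r → ℂ, M *ᵥ w = 0 ↔ J *ᵥ w = lam • w := by
    intro w
    rw [hM, Matrix.sub_mulVec, Matrix.smul_mulVec, Matrix.one_mulVec, sub_eq_zero]
  have hMt : ∀ w : Fin r → ℂ, Mᵀ *ᵥ w = 0 ↔ w ᵥ* J = lam • w := by
    intro w
    rw [hM, Matrix.mulVec_transpose, Matrix.vecMul_sub, Matrix.vecMul_smul, Matrix.vecMul_one,
      sub_eq_zero]
  -- the left kernel has dimension at most one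
  have h1 : finrank ℂ (LinearMap.ker Mᵀ.mulVecLin) ≤ 1 := by
    by_cases h0 : ∃ w : Fin r → ℂ, w ≠ 0 ∧ Mᵀ *ᵥ w = 0
    · obtain ⟨w, hw0, hw⟩ := h0
      refine finrank_le_one (⟨w, by rw [LinearMap.mem_ker]; exact hw⟩ :
        LinearMap.ker Mᵀ.mulVecLin) ?_
      rintro ⟨y, hy⟩
      rw [LinearMap.mem_ker, Matrix.mulVecLin_apply, hMt] at hy
      obtain ⟨c, hc⟩ := left_eigen_unique hv hy ((hMt w).1 hw) hw0
      exact ⟨c, Subtype.ext hc.symm⟩
    · push Not at h0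
      have h2 : LinearMap.ker Mᵀ.mulVecLin = ⊥ := by
        rw [eq_bot_iff]
        intro w hw
        rw [Submodule.mem_bot]
        by_contra hw0
        exact h0 w hw0 hw
      rw [h2, finrank_bot]
      exact Nat.zero_le _
  have h2 := LinearMap.finrank_range_add_finrank_ker Mᵀ.mulVecLin
  have h3 := LinearMap.finrank_range_add_finrank_ker M.mulVecLin
  have h4 : finrank ℂ (LinearMap.range Mᵀ.mulVecLin) = finrank ℂ (LinearMap.range M.mulVecLin) :=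
    Matrix.rank_transpose M
  have h5 : finrank ℂ (LinearMap.ker M.mulVecLin) ≤ 1 := by omega
  have hzk : z ∈ LinearMap.ker M.mulVecLin := by
    rw [LinearMap.mem_ker]
    exact (hMv z).2 hz
  have huk : u ∈ LinearMap.ker M.mulVecLin := by
    rw [LinearMap.mem_ker]
    exact (hMv u).2 hu
  have h6 : finrank ℂ (LinearMap.ker M.mulVecLin) = 1 := by
    refine le_antisymm h5 (Nat.one_le_iff_ne_zero.2 fun h => ?_)
    rw [Submodule.finrank_eq_zero] at h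
    rw [h, Submodule.mem_bot] at hzk
    exact hz0 hzk
  obtain ⟨c, hc⟩ := exists_smul_eq_of_finrank_eq_one h6
    (x := (⟨z, hzk⟩ : LinearMap.ker M.mulVecLin)) (fun h => hz0 (congrArg Subtype.val h)) ⟨u, huk⟩
  exact ⟨c, (congrArg Subtype.val hc).symm⟩

/-- A subspace invariant under `M` which contains a cyclic vector is everything. -/
theorem top_of_cyc {M : P002R.Mat r ℂ} {v : Fin r → ℂ} (hv : (kry M v).det ≠ 0)
    (W : Submodule ℂ (Fin r → ℂ)) (hW : ∀ w ∈ W, M *ᵥ w ∈ W) (hvW : v ∈ W) : W = ⊤ := by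
  have hpow : ∀ n : ℕ, (M ^ n) *ᵥ v ∈ W := by
    intro n
    induction n with
    | zero => rwa [pow_zero, Matrix.one_mulVec]
    | succ n ih =>
      rw [pow_succ', ← Matrix.mulVec_mulVec]
      exact hW _ ih
  rw [eq_top_iff]
  intro w _
  have hu : IsUnit (kry M v) := by
    rw [Matrix.isUnit_iff_isUnit_det, isUnit_iff_ne_zero]
    exact hv
  have hud : IsUnit (kry M v).det := (Matrix.isUnit_iff_isUnit_det _).1 hu
  have h1 : w = kry M v *ᵥ ((kry M v)⁻¹ *ᵥ w) := by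
    rw [Matrix.mulVec_mulVec, Matrix.mul_nonsing_inv _ hud, Matrix.one_mulVec]
  have h2 : ∀ c : Fin r → ℂ, kry M v *ᵥ c = ∑ j : Fin r, c j • ((M ^ (j : ℕ)) *ᵥ v) := by
    intro c
    ext i
    rw [Finset.sum_apply]
    simp only [Matrix.mulVec, dotProduct, Pi.smul_apply, smul_eq_mul]
    refine Finset.sum_congr rfl fun j _ => ?_
    rw [mul_comm]
    rfl
  rw [h1, h2]
  exact Submodule.sum_mem _ fun j _ => Submodule.smul_mem _ _ (hpow j)

variable {ι : Type}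

/-- The matrices `c_j` and `a` generate an irreducible group. -/
theorem gen_irr [DecidableEq ι] {K₀ : Subfield ℂ} {J : ι → P002R.Mat r ℂ}
    {Y : ι ⊕ Bool → P002R.Mat r ℂ} (hJ : ∀ j, IsUnit (J j)) (hY : ∀ j, IsUnit (Y j)) (i₀ : ι)
    (l : List ι) (hcyc : ∃ v, (kry (J i₀) v).det ≠ 0)
    (hE : ∀ (lam : ℂ) (u : Fin r → ℂ), u ≠ 0 → J i₀ *ᵥ u = lam • u →
      ∃ z : Fin r → ℂ, z ≠ 0 ∧ J i₀ *ᵥ z = lam • z ∧ ∀ i, z i ∈ K₀)
    (hk : ∀ e : Fin r → ℂ, (∀ i, e i ∈ K₀) → e ≠ 0 → (kry (Y (Sum.inr false))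
      ((((l.map (cI J Y)).prod)⁻¹ * Y (Sum.inl i₀)) *ᵥ e)).det ≠ 0)
    (W : Submodule ℂ (Fin r → ℂ)) (hW : ∀ j, ∀ w ∈ W, cI J Y j *ᵥ w ∈ W)
    (hWa : ∀ w ∈ W, Y (Sum.inr false) *ᵥ w ∈ W) : W = ⊥ ∨ W = ⊤ := by
  rcases eq_or_ne W ⊥ with h0 | h0
  · exact Or.inl h0
  right
  obtain ⟨v, hv⟩ := hcyc
  have hnt : Nontrivial W := Submodule.nontrivial_iff_ne_bot.2 h0
  have hinv : ∀ z ∈ W, Matrix.toLin' (cI J Y i₀) z ∈ W := by
    intro z hz
    rw [Matrix.toLin'_apply]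
    exact hW i₀ z hz
  obtain ⟨lam, hlam⟩ := Module.End.exists_eigenvalue ((Matrix.toLin' (cI J Y i₀)).restrict hinv)
  obtain ⟨⟨u, huW⟩, hu⟩ := hlam.exists_hasEigenvector
  have hu2 : Matrix.toLin' (cI J Y i₀) u = lam • u := congrArg Subtype.val hu.apply_eq_smul
  have hu3 : u ≠ 0 := fun h0 => hu.2 (Subtype.ext h0)
  rw [Matrix.toLin'_apply] at hu2
  have hud : IsUnit (Y (Sum.inl i₀)).det := (Matrix.isUnit_iff_isUnit_det _).1 (hY _)
  have a1 : Y (Sum.inl i₀) * (Y (Sum.inl i₀))⁻¹ = 1 := Matrix.mul_nonsing_inv _ hud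
  have a2 : (Y (Sum.inl i₀))⁻¹ * Y (Sum.inl i₀) = 1 := Matrix.nonsing_inv_mul _ hud
  obtain ⟨e', he'⟩ : ∃ e', e' = (Y (Sum.inl i₀))⁻¹ *ᵥ u := ⟨_, rfl⟩
  have hue : u = Y (Sum.inl i₀) *ᵥ e' := by
    rw [he', Matrix.mulVec_mulVec, a1, Matrix.one_mulVec]
  have he'0 : e' ≠ 0 := by
    rintro h
    apply hu3
    rw [hue, h, Matrix.mulVec_zero]
  have hJe' : J i₀ *ᵥ e' = lam • e' := by
    have h1 : (Y (Sum.inl i₀))⁻¹ *ᵥ (cI J Y i₀ *ᵥ u) = lam • e' := by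
      rw [hu2, Matrix.mulVec_smul, he']
    rw [← h1, Matrix.mulVec_mulVec, hue, Matrix.mulVec_mulVec]
    congr 1
    show J i₀ = (Y (Sum.inl i₀))⁻¹ * (Y (Sum.inl i₀) * J i₀ * (Y (Sum.inl i₀))⁻¹) * Y (Sum.inl i₀)
    simp only [Matrix.mul_assoc, mulL a2, a2, Matrix.mul_one]
  obtain ⟨z, hz0, hz, hzK⟩ := hE lam e' he'0 hJe'
  obtain ⟨t, ht⟩ := right_eigen_unique hv hJe' hz hz0
  have ht0 : t ≠ 0 := by
    rintro rfl
    apply he'0
    rw [ht, zero_smul]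
  have hYz : Y (Sum.inl i₀) *ᵥ z ∈ W := by
    have h1 : Y (Sum.inl i₀) *ᵥ z = t⁻¹ • u := by
      rw [hue, ht, Matrix.mulVec_smul, smul_smul, inv_mul_cancel₀ ht0, one_smul]
    rw [h1]
    exact Submodule.smul_mem _ _ huW
  have hPd : IsUnit ((l.map (cI J Y)).prod).det :=
    (Matrix.isUnit_iff_isUnit_det _).1 (isUnit_cI_prod hJ hY l)
  refine top_of_cyc (hk z hzK hz0) W hWa ?_
  rw [← Matrix.mulVec_mulVec]
  exact inv_stab (Matrix.nonsing_inv_mul _ hPd) W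
    (fun w hw => prod_stab (cI J Y) W l (fun j _ => hW j) w hw) _ hYz

/-- the matrices of the sphere with the cut handle -/
noncomputable def qI (J : ι → P002R.Mat r ℂ) (Y : ι ⊕ Bool → P002R.Mat r ℂ) :
    ι ⊕ Bool → P002R.Mat r ℂ := Sum.elim (cI J Y) fun s => if s then
      Y (Sum.inr true) * (Y (Sum.inr false))⁻¹ * (Y (Sum.inr true))⁻¹ else Y (Sum.inr false)

theorem qI_inl (J : ι → P002R.Mat r ℂ) (Y : ι ⊕ Bool → P002R.Mat r ℂ) (j : ι) :
    qI J Y (Sum.inl j) = cI J Y j := rfl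

theorem qI_false (J : ι → P002R.Mat r ℂ) (Y : ι ⊕ Bool → P002R.Mat r ℂ) :
    qI J Y (Sum.inr false) = Y (Sum.inr false) := rfl

theorem qI_true (J : ι → P002R.Mat r ℂ) (Y : ι ⊕ Bool → P002R.Mat r ℂ) :
    qI J Y (Sum.inr true) =
      Y (Sum.inr true) * (Y (Sum.inr false))⁻¹ * (Y (Sum.inr true))⁻¹ := rfl

theorem qI_prod (J : ι → P002R.Mat r ℂ) (Y : ι ⊕ Bool → P002R.Mat r ℂ) (l : List ι) :
    ((l.map Sum.inl).map (qI J Y)).prod = (l.map (cI J Y)).prod := by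
  rw [List.map_map]
  rfl

/-- the functional equation with frozen `a` -/
theorem gen_F [DecidableEq ι] {K₀ : Subfield ℂ} {J : ι → P002R.Mat r ℂ}
    {Y : ι ⊕ Bool → P002R.Mat r ℂ} (hJ : ∀ j, IsUnit (J j)) (hY : ∀ j, IsUnit (Y j)) (i₀ : ι)
    (l₁ l₂ : List ι) (hnd : (i₀ :: (l₁ ++ l₂)).Nodup) (hmem : ∀ j, j ∈ i₀ :: (l₁ ++ l₂))
    (hrel : PhiI J (i₀ :: (l₁ ++ l₂)) Y = 1)
    (hirr : ∀ W : Submodule ℂ (Fin r → ℂ), (∀ j, ∀ w ∈ W, cI J Y j *ᵥ w ∈ W) →
      (∀ w ∈ W, Y (Sum.inr false) *ᵥ w ∈ W) → W = ⊥ ∨ W = ⊤)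
    (hgen : GenPt1 K₀ J (i₀ :: (l₁ ++ l₂)) Y)
    (u y : Fin r → ℂ) (hu : u ≠ 0) (hy : y ≠ 0) :
    ∃ (δ : Derivation ℤ ℂ ℂ) (x : ι ⊕ Bool → P002R.Mat r ℂ), (∀ a ∈ K₀, δ a = 0) ∧
      (∀ k, (Y k).map δ = x k * Y k) ∧ x (Sum.inr false) = 0 ∧
      y ⬝ᵥ ((DL (cI J Y) (fun j => x (Sum.inl j)) l₁ + (l₁.map (cI J Y)).prod * x (Sum.inr true) -
        x (Sum.inl i₀) * (l₁.map (cI J Y)).prod) *ᵥ u) ≠ 0 := by
  have had : IsUnit (Y (Sum.inr false)).det := (Matrix.isUnit_iff_isUnit_det _).1 (hY _)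
  have hL : ((i₀ :: (l₁ ++ l₂)).map Sum.inl ++ [Sum.inr false, Sum.inr true] : List (ι ⊕ Bool)) =
      Sum.inl i₀ :: (l₁.map Sum.inl ++ (l₂.map Sum.inl ++ [Sum.inr false, Sum.inr true])) := by
    simp
  have hqu : ∀ k, IsUnit (qI J Y k) := by
    rintro (j | s)
    · exact isUnit_cI hJ hY j
    · cases s
      · exact hY _
      · rw [qI_true]
        exact ((hY _).mul (Matrix.isUnit_nonsing_inv_iff.2 (hY _))).mul
          (Matrix.isUnit_nonsing_inv_iff.2 (hY _))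
  obtain ⟨x, hx1, hx2, hx3⟩ := rank_one_frozen (qI J Y) hqu (Sum.inl i₀) (Sum.inr true)
    (Sum.inr false) (l₁.map Sum.inl) (l₂.map Sum.inl) (by
      rw [← hL, List.nodup_append]
      refine ⟨(List.nodup_map_iff Sum.inl_injective).2 hnd, by simp, ?_⟩
      intro k hk k' hk'
      rw [List.mem_map] at hk
      obtain ⟨j, -, rfl⟩ := hk
      simp only [List.mem_cons, List.not_mem_nil, or_false] at hk'
      rcases hk' with rfl | rfl <;> simp) (by
      rw [← hL, List.map_append, List.prod_append, qI_prod]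
      simp only [List.map_cons, List.map_nil, List.prod_cons, List.prod_nil, Matrix.mul_one,
        qI_false, qI_true]
      rw [← hrel, PhiI, hI]
      simp only [List.map_cons, List.prod_cons, Matrix.mul_assoc]) (by
      intro k
      rw [← hL, List.mem_append]
      rcases k with j | s
      · left
        exact List.mem_map_of_mem (hmem j)
      · right
        cases s <;> simp) (fun W hW => hirr W (fun j => hW (Sum.inl j)) (hW (Sum.inr false)))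
    u y hu hy
  rw [← hL] at hx2
  have hD := D1_frozen (i₀ :: (l₁ ++ l₂)) (qI J Y) (fun j => qI_inl J Y j) (qI_false J Y)
    (qI_true J Y) x hx1
  rw [hx2] at hD
  obtain ⟨δ, h1, h2⟩ := hgen x hD
  refine ⟨δ, x, h1, h2, hx1, ?_⟩
  have h3 : ∀ l : List ι, DL (qI J Y) x (l.map Sum.inl) =
      DL (cI J Y) (fun j => x (Sum.inl j)) l := by
    intro l
    induction l with
    | nil => rfl
    | cons j l ih =>
      rw [List.map_cons, DL_cons, DL_cons, ih, qI_prod, qI_inl]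
  rw [h3, qI_prod] at hx3
  exact hx3

/-- Pairing with a singular submatrix: the derivative of the matrix pairs to zero. -/
theorem exists_pair_minor {κ : Type*} [Fintype κ] [DecidableEq κ] (G : P002R.Mat r ℂ)
    (f g : κ → Fin r) (hf : Function.Injective f) (hg : Function.Injective g)
    (hdet : (G.submatrix f g).det = 0) :
    ∃ w s : Fin r → ℂ, w ≠ 0 ∧ s ≠ 0 ∧ (∀ δ : Derivation ℤ ℂ ℂ, s ⬝ᵥ (G.map δ *ᵥ w) = 0) ∧
      ∀ Z : P002R.Mat r ℂ, (∀ i j, i ≠ j → Z i j = 0) → s ⬝ᵥ ((G * Z) *ᵥ w) = 0 := by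
  obtain ⟨v, hv0, hv⟩ := Matrix.exists_mulVec_eq_zero_iff.2 hdet
  obtain ⟨z, hz0, hz⟩ := Matrix.exists_vecMul_eq_zero_iff.2 hdet
  -- extension by zero
  obtain ⟨w, hw⟩ : ∃ w : Fin r → ℂ, ∀ M : P002R.Mat r ℂ, ∀ a, (M *ᵥ w) a =
      ∑ c, M a (g c) * v c := by
    refine ⟨∑ c, v c • Pi.single (g c) 1, fun M a => ?_⟩
    rw [Matrix.mulVec_sum, Finset.sum_apply]
    refine Finset.sum_congr rfl fun c _ => ?_
    rw [Matrix.mulVec_smul, Matrix.mulVec_single_one, Pi.smul_apply, smul_eq_mul, mul_comm]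
    rfl
  obtain ⟨s, hs⟩ : ∃ s : Fin r → ℂ, ∀ q : Fin r → ℂ, s ⬝ᵥ q = ∑ c, z c * q (f c) := by
    refine ⟨∑ c, z c • Pi.single (f c) 1, fun q => ?_⟩
    rw [sum_dotProduct]
    refine Finset.sum_congr rfl fun c _ => ?_
    rw [smul_dotProduct, single_dotProduct, one_mul, smul_eq_mul]
  refine ⟨w, s, ?_, ?_, fun δ => ?_, fun Z hZ => ?_⟩
  · intro h0
    obtain ⟨c₀, hc₀⟩ := Function.ne_iff.1 hv0
    apply hc₀
    have h1 := hw 1 (g c₀)
    rw [h0, Matrix.mulVec_zero, Pi.zero_apply, Finset.sum_eq_single c₀] at h1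
    · rw [Matrix.one_apply_eq, one_mul] at h1
      exact h1.symm
    · intro c _ hc
      rw [Matrix.one_apply_ne, zero_mul]
      intro h
      exact hc (hg h.symm)
    · intro h
      exact absurd (Finset.mem_univ _) h
  · intro h0
    obtain ⟨c₀, hc₀⟩ := Function.ne_iff.1 hz0
    apply hc₀
    have h1 := hs (Pi.single (f c₀) 1)
    rw [h0, zero_dotProduct, Finset.sum_eq_single c₀] at h1
    · rw [Pi.single_eq_same, mul_one] at h1
      exact h1.symm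
    · intro c _ hc
      rw [Pi.single_eq_of_ne, mul_zero]
      intro h
      exact hc (hf h)
    · intro h
      exact absurd (Finset.mem_univ _) h
  · rw [hs]
    -- `z δ(G') v = 0`
    have h2 : ∀ c, ∑ d, (G.map δ) (f c) (g d) * v d = - ∑ d, G (f c) (g d) * δ (v d) := by
      intro c
      have h3 := congrArg δ (congrFun hv c)
      rw [Pi.zero_apply, map_zero] at h3
      simp only [Matrix.mulVec, dotProduct, Matrix.submatrix_apply, map_sum, Derivation.leibniz,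
        smul_eq_mul, Finset.sum_add_distrib] at h3
      rw [eq_neg_iff_add_eq_zero, add_comm, ← h3]
      congr 1
      refine Finset.sum_congr rfl fun d _ => ?_
      rw [Matrix.map_apply, mul_comm]
    have h4 : ∑ c, z c * (G.map δ *ᵥ w) (f c) = - ∑ d, (∑ c, z c * G (f c) (g d)) * δ (v d) := by
      calc ∑ c, z c * (G.map δ *ᵥ w) (f c)
          = ∑ c, z c * -∑ d, G (f c) (g d) * δ (v d) := by
            refine Finset.sum_congr rfl fun c _ => ?_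
            rw [hw, h2]
        _ = - ∑ c, ∑ d, z c * (G (f c) (g d) * δ (v d)) := by
            rw [← Finset.sum_neg_distrib]
            refine Finset.sum_congr rfl fun c _ => ?_
            rw [mul_neg, Finset.mul_sum]
        _ = _ := by
            rw [Finset.sum_comm]
            congr 1
            refine Finset.sum_congr rfl fun d _ => ?_
            rw [Finset.sum_mul]
            refine Finset.sum_congr rfl fun c _ => by ring
    rw [h4, neg_eq_zero]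
    refine Finset.sum_eq_zero fun d _ => ?_
    have h5 := congrFun hz d
    have h6 : ∑ c, z c * G (f c) (g d) = 0 := h5
    rw [h6, zero_mul]
  · rw [hs]
    have h2 : ∀ c, ((G * Z) *ᵥ w) (f c) = ∑ d, G (f c) (g d) * (Z (g d) (g d) * v d) := by
      intro c
      rw [hw]
      refine Finset.sum_congr rfl fun d _ => ?_
      rw [Matrix.mul_apply, Finset.sum_eq_single (g d), mul_assoc]
      · intro k _ hk
        rw [hZ k (g d) hk, mul_zero]
      · intro h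
        exact absurd (Finset.mem_univ _) h
    calc ∑ c, z c * ((G * Z) *ᵥ w) (f c)
        = ∑ c, ∑ d, z c * (G (f c) (g d) * (Z (g d) (g d) * v d)) := by
          refine Finset.sum_congr rfl fun c _ => ?_
          rw [h2, Finset.mul_sum]
      _ = ∑ d, (∑ c, z c * G (f c) (g d)) * (Z (g d) (g d) * v d) := by
          rw [Finset.sum_comm]
          refine Finset.sum_congr rfl fun d _ => ?_
          rw [Finset.sum_mul]
          refine Finset.sum_congr rfl fun c _ => by ring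
      _ = 0 := by
          refine Finset.sum_eq_zero fun d _ => ?_
          have h5 := congrFun hz d
          have h6 : ∑ c, z c * G (f c) (g d) = 0 := h5
          rw [h6, zero_mul]

/-- minors at a generic point -/
theorem gen_minor [Fintype ι] [DecidableEq ι] {K₀ : Subfield ℂ} {J : ι → P002R.Mat r ℂ}
    (hJK : ∀ j a b, J j a b ∈ K₀)
    {Y : ι ⊕ Bool → P002R.Mat r ℂ} (hJ : ∀ j, IsUnit (J j)) (hY : ∀ j, IsUnit (Y j)) (i₀ : ι)
    (l₁ l₂ : List ι) (hnd : (i₀ :: (l₁ ++ l₂)).Nodup) (hmem : ∀ j, j ∈ i₀ :: (l₁ ++ l₂))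
    (hrel : PhiI J (i₀ :: (l₁ ++ l₂)) Y = 1)
    (hirr : ∀ W : Submodule ℂ (Fin r → ℂ), (∀ j, ∀ w ∈ W, cI J Y j *ᵥ w ∈ W) →
      (∀ w ∈ W, Y (Sum.inr false) *ᵥ w ∈ W) → W = ⊥ ∨ W = ⊤)
    (hgen : GenPt1 K₀ J (i₀ :: (l₁ ++ l₂)) Y)
    {A : P002R.Mat r ℂ} {ν : Fin r → ℂ} (hA : IsUnit A) (hν : Function.Injective ν)
    (haA : Y (Sum.inr false) * A = A * diagonal ν) {κ : Type*} [Fintype κ] [DecidableEq κ]
    (f g : κ → Fin r) (hf : Function.Injective f) (hg : Function.Injective g) :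
    (((Y (Sum.inl i₀))⁻¹ * (l₁.map (cI J Y)).prod * (Y (Sum.inr true) * A)).submatrix f g).det
      ≠ 0 := by
  intro hdet
  obtain ⟨P, hP⟩ : ∃ P, P = (l₁.map (cI J Y)).prod := ⟨_, rfl⟩
  obtain ⟨G, hG⟩ : ∃ G, G = (Y (Sum.inl i₀))⁻¹ * P * (Y (Sum.inr true) * A) := ⟨_, rfl⟩
  rw [← hP, ← hG] at hdet
  obtain ⟨w, s, hw0, hs0, hδs, hZs⟩ := exists_pair_minor G f g hf hg hdet
  have hAd : IsUnit A.det := (Matrix.isUnit_iff_isUnit_det _).1 hA
  have h0d : IsUnit (Y (Sum.inl i₀)).det := (Matrix.isUnit_iff_isUnit_det _).1 (hY _)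
  have hu : (Y (Sum.inr true) * A) *ᵥ w ≠ 0 := by
    intro h
    apply hw0
    have hud : IsUnit (Y (Sum.inr true) * A).det :=
      (Matrix.isUnit_iff_isUnit_det _).1 ((hY _).mul hA)
    calc w = ((Y (Sum.inr true) * A)⁻¹ * (Y (Sum.inr true) * A)) *ᵥ w := by
          rw [Matrix.nonsing_inv_mul _ hud, Matrix.one_mulVec]
      _ = 0 := by rw [← Matrix.mulVec_mulVec, h, Matrix.mulVec_zero]
  have hy : s ᵥ* (Y (Sum.inl i₀))⁻¹ ≠ 0 := by
    intro h
    apply hs0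
    calc s = s ᵥ* ((Y (Sum.inl i₀))⁻¹ * Y (Sum.inl i₀)) := by
          rw [Matrix.nonsing_inv_mul _ h0d, Matrix.vecMul_one]
      _ = 0 := by rw [← Matrix.vecMul_vecMul, h, Matrix.zero_vecMul]
  obtain ⟨δ, x, hδ, hx, hx0, hne⟩ := gen_F hJ hY i₀ l₁ l₂ hnd hmem hrel hirr hgen _ _ hu hy
  apply hne
  rw [← hP]
  obtain ⟨Z, hZ⟩ : ∃ Z, Z = A⁻¹ * A.map δ := ⟨_, rfl⟩
  have hAZ : A.map δ = A * Z := by
    rw [hZ, ← Matrix.mul_assoc, Matrix.mul_nonsing_inv _ hAd, Matrix.one_mul]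
  have hZ0 := der_eigenbasis δ (by rw [hx, hx0, Matrix.zero_mul]) hA hν haA hAZ
  have hGδ : G.map δ = (Y (Sum.inl i₀))⁻¹ * (DL (cI J Y) (fun j => x (Sum.inl j)) l₁ +
      P * x (Sum.inr true) - x (Sum.inl i₀) * P) * (Y (Sum.inr true) * A) + G * Z := by
    have a1 : Y (Sum.inl i₀) * (Y (Sum.inl i₀))⁻¹ = 1 := Matrix.mul_nonsing_inv _ h0d
    have hPδ : P.map δ = DL (cI J Y) (fun j => x (Sum.inl j)) l₁ := by
      rw [hP, map_der_listI hJK hY δ hδ x hx]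
    rw [hG, map_der_mul, map_der_mul, map_der_mul, map_der_inv (hY (Sum.inl i₀)), hx, hx, hPδ, hAZ]
    have e : -((Y (Sum.inl i₀))⁻¹ * (x (Sum.inl i₀) * Y (Sum.inl i₀)) * (Y (Sum.inl i₀))⁻¹) =
        -((Y (Sum.inl i₀))⁻¹ * x (Sum.inl i₀)) := by
      simp only [Matrix.mul_assoc, a1, Matrix.mul_one]
    rw [e]
    noncomm_ring
  have h1 := hδs δ
  rw [hGδ, Matrix.add_mulVec, dotProduct_add, hZs Z hZ0, add_zero] at h1
  have e1 : ∀ A B C : P002R.Mat r ℂ, (s ᵥ* A) ⬝ᵥ (B *ᵥ (C *ᵥ w)) =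
      s ⬝ᵥ ((A * B * C) *ᵥ w) := fun A B C => by
    rw [← Matrix.mulVec_mulVec, ← Matrix.mulVec_mulVec, Matrix.dotProduct_mulVec s]
  rw [e1]
  exact h1

end Vale.Agent.P002R
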