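import Vale.Agent.P002R.Z1Frozen

/-!
# P002, genus 1: generic points
-/

namespace Vale.Agent.P002R

open Matrix Module Vale.Agent.P002

variable {r : ℕ} {ι : Type}

/-- the tuple of the conjugates -/
noncomputable def cI (J : ι → P002R.Mat r ℂ) (Y : ι ⊕ Bool → P002R.Mat r ℂ) : ι → P002R.Mat r ℂ :=
  cj J fun j => Y (Sum.inl j)

theorem cI_eqn (J : ι → P002R.Mat r ℂ) (Y : ι ⊕ Bool → P002R.Mat r ℂ) :
    cI J Y = cj J fun j => Y (Sum.inl j) := rfl

/-- the handle -/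
noncomputable def hI (Y : ι ⊕ Bool → P002R.Mat r ℂ) : P002R.Mat r ℂ :=
  Y (Sum.inr false) * Y (Sum.inr true) * (Y (Sum.inr false))⁻¹ * (Y (Sum.inr true))⁻¹

/-- the relation -/
noncomputable def PhiI (J : ι → P002R.Mat r ℂ) (L : List ι) (Y : ι ⊕ Bool → P002R.Mat r ℂ) :
    P002R.Mat r ℂ := (L.map (cI J Y)).prod * hI Y

/-- all matrices -/
noncomputable def allI (J : ι → P002R.Mat r ℂ) (Y : ι ⊕ Bool → P002R.Mat r ℂ) :
    ι ⊕ Bool → P002R.Mat r ℂ := Sum.elim (cI J Y) fun s => Y (Sum.inr s)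

theorem orth_comm1 [DecidableEq ι] {c : ι → P002R.Mat r ℂ} {a b : P002R.Mat r ℂ}
    (ha : IsUnit a) (hb : IsUnit b) (L : List ι) (hnd : L.Nodup)
    (hrel : (L.map c).prod * (a * b * a⁻¹ * b⁻¹) = 1)
    (N : P002R.Mat r ℂ) (hN : ∀ x, trace (N * D1 c a b L x) = 0) :
    (∀ j ∈ L, Commute N (c j)) ∧ Commute N a ∧ Commute N b := by
  have had : IsUnit a.det := (Matrix.isUnit_iff_isUnit_det _).1 ha
  have hbd : IsUnit b.det := (Matrix.isUnit_iff_isUnit_det _).1 hb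
  obtain ⟨cP, hcP⟩ : ∃ cP, cP = (L.map c).prod := ⟨_, rfl⟩
  obtain ⟨h, hh⟩ : ∃ h, h = a * b * a⁻¹ * b⁻¹ := ⟨_, rfl⟩
  have H : HInv a a⁻¹ b b⁻¹ h cP :=
    ⟨Matrix.mul_nonsing_inv _ had, Matrix.nonsing_inv_mul _ had, Matrix.mul_nonsing_inv _ hbd,
      Matrix.nonsing_inv_mul _ hbd, hh, by rw [← hrel, hcP, hh]⟩
  have hN' : ∀ x : ι ⊕ Bool → P002R.Mat r ℂ,
      0 = trace (N * (DL c (fun j => x (Sum.inl j)) L * h +
      cP * (x (Sum.inr false) * h + a * x (Sum.inr true) * (b * a⁻¹ * b⁻¹) -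
        a * b * a⁻¹ * x (Sum.inr false) * b⁻¹ - h * x (Sum.inr true)))) := by
    intro x
    have h1 := hN x
    rw [D1, ← hh, ← hcP] at h1
    exact h1.symm
  have hu1 : ∀ (s : Bool) (X : P002R.Mat r ℂ) (j : ι),
      (Function.update (0 : ι ⊕ Bool → P002R.Mat r ℂ) (Sum.inr s) X) (Sum.inl j) = 0 := by
    intro s X j
    rw [Function.update_of_ne (by simp), Pi.zero_apply]
  have hu2 : ∀ (s : Bool) (X : P002R.Mat r ℂ) (j : ι),
      (Function.update (0 : ι ⊕ Bool → P002R.Mat r ℂ) (Sum.inl j) X) (Sum.inr s) = 0 := by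
    intro s X j
    rw [Function.update_of_ne (by simp), Pi.zero_apply]
  have hu3 : ∀ (X : P002R.Mat r ℂ) (j k : ι), k ≠ j →
      (Function.update (0 : ι ⊕ Bool → P002R.Mat r ℂ) (Sum.inl j) X) (Sum.inl k) = 0 := by
    intro X j k hk
    rw [Function.update_of_ne (by simpa using hk), Pi.zero_apply]
  have hu4 : ∀ X : P002R.Mat r ℂ,
      (Function.update (0 : ι ⊕ Bool → P002R.Mat r ℂ) (Sum.inr false) X) (Sum.inr true) = 0 := by
    intro X
    rw [Function.update_of_ne (by simp), Pi.zero_apply]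
  have hu5 : ∀ X : P002R.Mat r ℂ,
      (Function.update (0 : ι ⊕ Bool → P002R.Mat r ℂ) (Sum.inr true) X) (Sum.inr false) = 0 := by
    intro X
    rw [Function.update_of_ne (by simp), Pi.zero_apply]
  have hc1 := pre_ind c N L (by
    intro l' j l'' hl hcom
    obtain ⟨X, hX⟩ : ∃ X, X = (l'.map c).prod := ⟨_, rfl⟩
    obtain ⟨Z, hZ⟩ : ∃ Z, Z = (l''.map c).prod := ⟨_, rfl⟩
    rw [← hX] at hcom
    have hnd' : (l' ++ j :: l'').Nodup := hl ▸ hnd
    rw [List.nodup_append, List.nodup_cons] at hnd'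
    have h1 : ∀ K, trace ((0 : P002R.Mat r ℂ) * K) =
        trace ((c j * (Z * h * N * X) - (Z * h * N * X) * c j) * K) := by
      intro K
      have h2 := hN' (Function.update 0 (Sum.inl j) K)
      have e0 : DL c (fun k => (Function.update (0 : ι ⊕ Bool → P002R.Mat r ℂ) (Sum.inl j) K)
          (Sum.inl k)) L = X * (K * c j - c j * K) * Z := by
        rw [hl, DL_split c _ l' l'' j (fun k hk => ?_) (fun k hk => ?_), Function.update_self,
          hX, hZ]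
        · exact hu3 K j k (hnd'.2.2 k hk j List.mem_cons_self)
        · refine hu3 K j k ?_
          rintro rfl
          exact hnd'.2.1.1 hk
      rw [e0, hu2, hu2] at h2
      simp only [Matrix.zero_mul, Matrix.mul_zero, add_zero,
        sub_self] at h2
      rw [← tr_comm, Matrix.zero_mul, trace_zero, h2]
      simp only [Matrix.mul_assoc]
    have h2 := eq_of_trace_eq h1
    have hcyc := cyc_one (X := X) (a := c j) (Y := Z * h) (by
      rw [← H.rel, hcP, hl, hX, hZ]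
      simp only [List.map_append, List.map_cons, List.prod_append, List.prod_cons,
        Matrix.mul_assoc])
    refine comm_of_inv hcyc.1 ?_
    rw [show Z * h * X * N = Z * h * N * X by rw [Matrix.mul_assoc, ← hcom.eq, Matrix.mul_assoc,
      Matrix.mul_assoc, Matrix.mul_assoc], ← h2])
  rw [← hcP] at hc1
  have Eb := rankB_Eb (N := N) H (fun X => by
    have h2 := hN' (Function.update 0 (Sum.inr true) X)
    rw [Function.update_self, hu5,
      DL_zero_fun c L _ (fun j => hu1 true X j)] at h2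
    simp only [Matrix.zero_mul, Matrix.mul_zero, sub_zero, zero_add] at h2
    exact h2.symm)
  have Ea := rankB_Ea (N := N) (Wm := 0) H (fun X => by
    have h2 := hN' (Function.update 0 (Sum.inr false) X)
    rw [Function.update_self, hu4,
      DL_zero_fun c L _ (fun j => hu1 false X j)] at h2
    simp only [Matrix.zero_mul, Matrix.mul_zero, sub_zero, zero_add, trace_zero,
      add_zero] at h2 ⊢
    exact h2)
  have h1 : h * N * cP = N := by
    rw [Matrix.mul_assoc, hc1.1.eq, ← Matrix.mul_assoc, H.rel', Matrix.one_mul]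
  rw [h1, Matrix.mul_zero, sub_eq_zero] at Ea
  have hNb : Commute N b := by
    show N * b = b * N
    conv_rhs => rw [Ea]
    simp only [Matrix.mul_assoc, mulL H.b1]
  have hNbi : Commute N b⁻¹ := by
    show N * b⁻¹ = b⁻¹ * N
    calc N * b⁻¹ = b⁻¹ * (b * N) * b⁻¹ := by rw [mulL H.b2]
      _ = b⁻¹ * N := by rw [← hNb.eq]; simp only [Matrix.mul_assoc, H.b1, Matrix.mul_one]
  have hNa : Commute N a⁻¹ := by
    have e1 : b * (a⁻¹ * (N * b⁻¹)) = b * (N * (a⁻¹ * b⁻¹)) := by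
      rw [hNbi.eq, Eb, ← Matrix.mul_assoc, hNb.eq, Matrix.mul_assoc]
    have e2 : b⁻¹ * (b * (a⁻¹ * (N * b⁻¹))) * b = b⁻¹ * (b * (N * (a⁻¹ * b⁻¹))) * b := by rw [e1]
    simp only [mulL H.b2] at e2
    simp only [Matrix.mul_assoc, H.b2, Matrix.mul_one] at e2
    exact e2.symm
  refine ⟨hc1.2, ?_, hNb⟩
  show N * a = a * N
  calc N * a = a * (a⁻¹ * N) * a := by rw [mulL H.a1]
    _ = a * N := by rw [← hNa.eq]; simp only [Matrix.mul_assoc, H.a2, Matrix.mul_one]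

/-- a matrix orthogonal to the image of `D1` is a scalar -/
theorem scalar_of_orth1 [DecidableEq ι] {c : ι → P002R.Mat r ℂ} {a b : P002R.Mat r ℂ}
    (ha : IsUnit a) (hb : IsUnit b) (L : List ι) (hnd : L.Nodup) (hmem : ∀ j, j ∈ L)
    (hrel : (L.map c).prod * (a * b * a⁻¹ * b⁻¹) = 1) (q : ι ⊕ Bool → P002R.Mat r ℂ)
    (hq1 : ∀ j, q (Sum.inl j) = c j) (hq2 : q (Sum.inr false) = a) (hq3 : q (Sum.inr true) = b)
    (hadj : Algebra.adjoin ℂ (Set.range q) = ⊤)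
    (N : P002R.Mat r ℂ) (hN : ∀ x, trace (N * D1 c a b L x) = 0) :
    ∃ t : ℂ, N = t • (1 : P002R.Mat r ℂ) := by
  obtain ⟨h1, h2, h3⟩ := orth_comm1 ha hb L hnd hrel N hN
  have h4 : ∀ M : P002R.Mat r ℂ, Commute N M := by
    intro M
    have h5 : M ∈ Algebra.adjoin ℂ (Set.range q) := hadj ▸ Algebra.mem_top
    induction h5 using Algebra.adjoin_induction with
    | mem x hx =>
      obtain ⟨k, rfl⟩ := hx
      rcases k with j | s
      · rw [hq1]
        exact h1 j (hmem j)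
      · cases s
        · rw [hq2]
          exact h2
        · rw [hq3]
          exact h3
    | algebraMap a => exact (Algebra.commutes a N).symm
    | add x y _ _ hx hy => exact hx.add_right hy
    | mul x y _ _ hx hy => exact hx.mul_right hy
  obtain ⟨t, ht⟩ := Matrix.mem_range_scalar_iff_commute_single'.2 fun i j => (h4 (single i j 1)).symm
  refine ⟨t, ?_⟩
  rw [← ht, Matrix.scalar_apply, Matrix.smul_one_eq_diagonal]

/-- Generic points. -/
def GenPt1 (K₀ : Subfield ℂ) (J : ι → P002R.Mat r ℂ) (L : List ι)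
    (Y : ι ⊕ Bool → P002R.Mat r ℂ) : Prop :=
  ∀ x : ι ⊕ Bool → P002R.Mat r ℂ,
    D1 (cI J Y) (Y (Sum.inr false)) (Y (Sum.inr true)) L x = 0 →
    ∃ δ : Derivation ℤ ℂ ℂ, (∀ a ∈ K₀, δ a = 0) ∧ ∀ k, (Y k).map δ = x k * Y k

section normed

open scoped Matrix.Norms.Operator

/-- generating the matrix algebra is an open condition -/
theorem adjoin_nhds_gen_norm {E κ : Type*} [TopologicalSpace E] (c : E → κ → P002R.Mat r ℂ) (p : E)
    (hc : ContinuousAt c p) (hadj : Algebra.adjoin ℂ (Set.range (c p)) = ⊤) :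
    {q | Algebra.adjoin ℂ (Set.range (c q)) = ⊤} ∈ nhds p := by
  classical
  have h1 : Submodule.span ℂ (Submonoid.closure (Set.range (c p)) : Set (P002R.Mat r ℂ)) = ⊤ := by
    rw [← Algebra.adjoin_eq_span, hadj]
    rfl
  obtain ⟨f, hf, hspan, hind⟩ := Submodule.exists_fun_fin_finrank_span_eq ℂ
    (Submonoid.closure (Set.range (c p)) : Set (P002R.Mat r ℂ))
  have hword : ∀ x ∈ Submonoid.closure (Set.range (c p)),
      ∃ l : List κ, (l.map (c p)).prod = x := by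
    intro x hx
    induction hx using Submonoid.closure_induction with
    | mem x hx =>
      obtain ⟨j, rfl⟩ := hx
      exact ⟨[j], by simp⟩
    | one => exact ⟨[], rfl⟩
    | mul x y _ _ hx hy =>
      obtain ⟨l, rfl⟩ := hx
      obtain ⟨l', rfl⟩ := hy
      exact ⟨l ++ l', by rw [List.map_append, List.prod_append]⟩
  choose w hw using fun i => hword (f i) (hf i)
  obtain ⟨d, hd⟩ : ∃ d, d = finrank ℂ (Submodule.span ℂ
    (Submonoid.closure (Set.range (c p)) : Set (P002R.Mat r ℂ))) := ⟨_, rfl⟩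
  have hlist : ∀ l : List κ, ContinuousAt (fun q : E => (l.map (c q)).prod) p := by
    intro l
    induction l with
    | nil =>
      simp only [List.map_nil, List.prod_nil]
      exact continuousAt_const
    | cons j l ih =>
      simp only [List.map_cons, List.prod_cons]
      exact ContinuousAt.mul (continuousAt_pi.1 hc j) ih
  have hcont : ContinuousAt (fun (q : E) i => ((w i).map (c q)).prod) p :=
    continuousAt_pi.2 fun i => hlist (w i)
  have hfw : (fun i => ((w i).map (c p)).prod) = f := funext hw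
  have h3 : {g | LinearIndependent ℂ g} ∈ nhds (fun i => ((w i).map (c p)).prod) := by
    rw [hfw]
    exact hind.eventually
  have h4 := hcont h3
  refine Filter.mem_of_superset h4 ?_
  intro q hq
  have h5 : LinearIndependent ℂ (fun i => ((w i).map (c q)).prod) := hq
  show Algebra.adjoin ℂ (Set.range (c q)) = ⊤
  have h6 : Submodule.span ℂ (Set.range fun i => ((w i).map (c q)).prod) = ⊤ := by
    apply Submodule.eq_top_of_finrank_eq
    rw [finrank_span_eq_card h5, Fintype.card_fin, h1, finrank_top]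
  have h7 : Submodule.span ℂ (Set.range fun i => ((w i).map (c q)).prod) ≤
      Subalgebra.toSubmodule (Algebra.adjoin ℂ (Set.range (c q))) := by
    rw [Submodule.span_le]
    rintro _ ⟨i, rfl⟩
    show ((w i).map (c q)).prod ∈ Algebra.adjoin ℂ (Set.range (c q))
    refine list_prod_mem fun x hx => ?_
    rw [List.mem_map] at hx
    obtain ⟨j, -, rfl⟩ := hx
    exact Algebra.subset_adjoin ⟨j, rfl⟩
  rw [h6, top_le_iff] at h7
  exact Algebra.toSubmodule_eq_top.1 h7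

variable [Fintype ι]

theorem deriv_listI (J : ι → P002R.Mat r ℂ) {Y : ι ⊕ Bool → P002R.Mat r ℂ}
    (hY : ∀ j, IsUnit (Y j)) (l : List ι) :
    ∃ D : (ι ⊕ Bool → P002R.Mat r ℂ) →L[ℂ] P002R.Mat r ℂ,
      HasStrictFDerivAt (fun Y : ι ⊕ Bool → P002R.Mat r ℂ => (l.map (cI J Y)).prod) D Y ∧
      ∀ x : ι ⊕ Bool → P002R.Mat r ℂ, D (fun k => x k * Y k) =
        DL (cI J Y) (fun j => x (Sum.inl j)) l := by
  obtain ⟨D, hD, he⟩ := deriv_list J (Y := fun j => Y (Sum.inl j)) (fun j => hY _) l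
  obtain ⟨R, hR⟩ : ∃ R : (ι ⊕ Bool → P002R.Mat r ℂ) →L[ℂ] (ι → P002R.Mat r ℂ),
      ∀ Y, R Y = fun j => Y (Sum.inl j) :=
    ⟨ContinuousLinearMap.pi fun j => ContinuousLinearMap.proj (Sum.inl j), fun Y => rfl⟩
  refine ⟨D.comp R, ?_, fun x => ?_⟩
  · have h1 : HasStrictFDerivAt (fun Y => R Y) R Y := R.hasStrictFDerivAt
    have h2 : HasStrictFDerivAt (fun Y : ι → P002R.Mat r ℂ => (l.map (cj J Y)).prod) D (R Y) := by
      rw [hR]
      exact hD
    have h3 := HasStrictFDerivAt.comp Y h2 h1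
    have h4 : (fun Y : ι ⊕ Bool → P002R.Mat r ℂ => (l.map (cI J Y)).prod) =
        (fun Y : ι → P002R.Mat r ℂ => (l.map (cj J Y)).prod) ∘ fun Y => R Y := by
      funext Y'
      rw [Function.comp_apply, hR]
      rfl
    rw [h4]
    exact h3
  · rw [ContinuousLinearMap.comp_apply, hR]
    exact he fun j => x (Sum.inl j)

theorem deriv_PhiI (J : ι → P002R.Mat r ℂ) {Y : ι ⊕ Bool → P002R.Mat r ℂ}
    (hY : ∀ j, IsUnit (Y j)) (L : List ι) :
    ∃ D : (ι ⊕ Bool → P002R.Mat r ℂ) →L[ℂ] P002R.Mat r ℂ,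
      HasStrictFDerivAt (PhiI J L) D Y ∧
      ∀ x : ι ⊕ Bool → P002R.Mat r ℂ, D (fun k => x k * Y k) =
        D1 (cI J Y) (Y (Sum.inr false)) (Y (Sum.inr true)) L x := by
  obtain ⟨D₁, h1, e1⟩ := deriv_listI J hY L
  have hp : ∀ s : Bool, HasStrictFDerivAt (fun Y : ι ⊕ Bool → P002R.Mat r ℂ => Y (Sum.inr s))
      (ContinuousLinearMap.proj (Sum.inr s) : (ι ⊕ Bool → P002R.Mat r ℂ) →L[ℂ] P002R.Mat r ℂ) Y :=
    fun s => (ContinuousLinearMap.proj (Sum.inr s) :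
      (ι ⊕ Bool → P002R.Mat r ℂ) →L[ℂ] P002R.Mat r ℂ).hasStrictFDerivAt
  obtain ⟨D₂, h2, e2⟩ := exists_deriv_cm (hp false) (hp true) (hY _) (hY _)
  obtain ⟨D, h, e⟩ := exists_deriv_mul h1 h2
  refine ⟨D, h, fun x => ?_⟩
  have had : IsUnit (Y (Sum.inr false)).det := (Matrix.isUnit_iff_isUnit_det _).1 (hY _)
  have hbd : IsUnit (Y (Sum.inr true)).det := (Matrix.isUnit_iff_isUnit_det _).1 (hY _)
  have a1 := Matrix.mul_nonsing_inv _ had
  have b1 := Matrix.mul_nonsing_inv _ hbd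
  obtain ⟨a, ha⟩ : ∃ a, a = Y (Sum.inr false) := ⟨_, rfl⟩
  obtain ⟨b, hb⟩ : ∃ b, b = Y (Sum.inr true) := ⟨_, rfl⟩
  have h3 : D₂ (fun k => x k * Y k) = x (Sum.inr false) * (a * b * a⁻¹ * b⁻¹) +
      a * x (Sum.inr true) * (b * a⁻¹ * b⁻¹) - a * b * a⁻¹ * x (Sum.inr false) * b⁻¹ -
      a * b * a⁻¹ * b⁻¹ * x (Sum.inr true) := by
    refine (e2 _).trans ?_
    show (x (Sum.inr false) * Y (Sum.inr false)) * Y (Sum.inr true) * (Y (Sum.inr false))⁻¹ *
      (Y (Sum.inr true))⁻¹ + Y (Sum.inr false) * (x (Sum.inr true) * Y (Sum.inr true)) *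
      (Y (Sum.inr false))⁻¹ * (Y (Sum.inr true))⁻¹ - Y (Sum.inr false) * Y (Sum.inr true) *
      (Y (Sum.inr false))⁻¹ * (x (Sum.inr false) * Y (Sum.inr false)) * (Y (Sum.inr false))⁻¹ *
      (Y (Sum.inr true))⁻¹ - Y (Sum.inr false) * Y (Sum.inr true) * (Y (Sum.inr false))⁻¹ *
      (Y (Sum.inr true))⁻¹ * (x (Sum.inr true) * Y (Sum.inr true)) * (Y (Sum.inr true))⁻¹ = _
    rw [← ha] at a1
    rw [← hb] at b1
    rw [← ha, ← hb]
    simp only [Matrix.mul_assoc, mulL a1, b1, Matrix.mul_one]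
  refine (e _).trans ?_
  rw [D1, ← ha, ← hb, ← h3, ← e1]
  have h4 : a * b * a⁻¹ * b⁻¹ = cm (Y (Sum.inr false)) (Y (Sum.inr true)) := by
    rw [ha, hb]
    rfl
  rw [h4, ha, hb]
  rfl

theorem good_cI (K₀ : Subfield ℂ) {J : ι → P002R.Mat r ℂ} (hJK : ∀ j a b, J j a b ∈ K₀)
    {Y : ι ⊕ Bool → P002R.Mat r ℂ} (hY : ∀ j, IsUnit (Y j)) (l : List ι) :
    GoodG K₀ (fun Y : ι ⊕ Bool → P002R.Mat r ℂ => (l.map (cI J Y)).prod) Y := by
  refine GoodG.list_prod (fun j Y => cI J Y j) l fun j _ => ?_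
  exact ((GoodG.proj _).mul (GoodG.const (hJK j))).mul (GoodG.inv (GoodG.proj _) (hY _))

theorem good_PhiI (K₀ : Subfield ℂ) {J : ι → P002R.Mat r ℂ} (hJK : ∀ j a b, J j a b ∈ K₀)
    {Y : ι ⊕ Bool → P002R.Mat r ℂ} (hY : ∀ j, IsUnit (Y j)) (l : List ι) :
    GoodG K₀ (PhiI J l) Y :=
  (good_cI K₀ hJK hY l).mul ((((GoodG.proj _).mul (GoodG.proj _)).mul
    (GoodG.inv (GoodG.proj _) (hY _))).mul (GoodG.inv (GoodG.proj _) (hY _)))

omit [Fintype ι] in
theorem det_PhiI {J : ι → P002R.Mat r ℂ} {Y : ι ⊕ Bool → P002R.Mat r ℂ}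
    (hY : ∀ j, IsUnit (Y j)) (l : List ι) :
    (PhiI J l Y).det = (l.map fun j => (J j).det).prod := by
  have had : IsUnit (Y (Sum.inr false)).det := (Matrix.isUnit_iff_isUnit_det _).1 (hY _)
  have hbd : IsUnit (Y (Sum.inr true)).det := (Matrix.isUnit_iff_isUnit_det _).1 (hY _)
  have h1 : (hI Y).det = 1 := by
    rw [hI, det_mul, det_mul, det_mul, det_nonsing_inv, det_nonsing_inv,
      mul_right_comm (Y (Sum.inr false)).det, Ring.mul_inverse_cancel _ had, one_mul,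
      Ring.mul_inverse_cancel _ hbd]
  rw [PhiI, det_mul, h1, mul_one, cI_eqn, det_cj_prod fun j => hY _]

theorem continuousAt_allI (J : ι → P002R.Mat r ℂ) {Y : ι ⊕ Bool → P002R.Mat r ℂ}
    (hY : ∀ j, IsUnit (Y j)) :
    ContinuousAt (fun Y : ι ⊕ Bool → P002R.Mat r ℂ => allI J Y) Y := by
  refine continuousAt_pi.2 fun k => ?_
  rcases k with j | s
  · obtain ⟨D, hD, -⟩ := deriv_listI J hY [j]
    have h1 := hD.hasFDerivAt.continuousAt
    simp only [List.map_cons, List.map_nil, List.prod_cons, List.prod_nil, mul_one] at h1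
    exact h1
  · exact continuousAt_apply (Sum.inr s) Y

/-- Existence of generic points. -/
theorem generic_point1_norm [DecidableEq ι] (hr : 1 ≤ r) (L : List ι) (hnd : L.Nodup)
    (hmem : ∀ j, j ∈ L) (K₀ : Subfield ℂ) (hK₀ : Countable K₀) (J : ι → P002R.Mat r ℂ)
    (hJK : ∀ j a b, J j a b ∈ K₀)
    (Y₀ : ι ⊕ Bool → P002R.Mat r ℂ) (hY₀ : ∀ j, IsUnit (Y₀ j)) (hrel : PhiI J L Y₀ = 1)
    (hadj : Algebra.adjoin ℂ (Set.range (allI J Y₀)) = ⊤) (U : Set (ι ⊕ Bool → P002R.Mat r ℂ))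
    (hU : U ∈ nhds Y₀) :
    ∃ Y ∈ U, (∀ j, IsUnit (Y j)) ∧ PhiI J L Y = 1 ∧
      Algebra.adjoin ℂ (Set.range (allI J Y)) = ⊤ ∧ GenPt1 K₀ J L Y := by
  have hdet : ∀ Y : ι ⊕ Bool → P002R.Mat r ℂ, (∀ k, IsUnit (Y k)) → (PhiI J L Y).det = 1 := by
    intro Y hY
    rw [det_PhiI hY, ← det_PhiI hY₀, hrel, det_one]
  obtain ⟨Y, ⟨hYU, hYadj⟩, hYu, hYrel, c, hgen⟩ := exists_generic_point_K hr K₀ hK₀
    (PhiI J L) (fun Y hY => good_PhiI K₀ hJK hY L) hdet Y₀ hY₀ hrel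
    (fun D hD N hN => by
      obtain ⟨D', hD', hDe⟩ := deriv_PhiI J hY₀ L
      have hDD : D' = D := hD'.hasFDerivAt.unique hD.hasFDerivAt
      refine scalar_of_orth1 (hY₀ _) (hY₀ _) L hnd hmem hrel (allI J Y₀) (fun j => rfl) rfl rfl
        hadj N fun x => ?_
      rw [← hDe, hDD]
      exact hN _)
    _ (Filter.inter_mem hU (adjoin_nhds_gen_norm (fun Y => allI J Y) Y₀ (continuousAt_allI J hY₀)
      hadj))
  refine ⟨Y, hYU, hYu, hYrel, hYadj, fun x hx => ?_⟩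
  obtain ⟨D, hD, hDe⟩ := deriv_PhiI J hYu L
  obtain ⟨δ, hδ0, hδ1, -⟩ := hgen D hD (fun k => x k * Y k) (by rw [hDe]; exact hx) 0
  refine ⟨δ, hδ0, fun k => ?_⟩
  ext i j
  exact hδ1 k i j

theorem map_der_listI_norm {K₀ : Subfield ℂ} {J : ι → P002R.Mat r ℂ} {Y : ι ⊕ Bool → P002R.Mat r ℂ}
    (hJK : ∀ j a b, J j a b ∈ K₀) (hY : ∀ j, IsUnit (Y j)) (δ : Derivation ℤ ℂ ℂ)
    (hδ : ∀ a ∈ K₀, δ a = 0) (x : ι ⊕ Bool → P002R.Mat r ℂ) (hx : ∀ k, (Y k).map δ = x k * Y k)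
    (l : List ι) :
    ((l.map (cI J Y)).prod).map δ = DL (cI J Y) (fun j => x (Sum.inl j)) l :=
  map_der_list_norm hJK (fun j => hY (Sum.inl j)) δ hδ (fun j => x (Sum.inl j))
    (fun j => hx (Sum.inl j)) l

end normed

variable [Fintype ι]

theorem adjoin_nhds_gen {E κ : Type*} [TopologicalSpace E] (c : E → κ → P002R.Mat r ℂ) (p : E)
    (hc : ContinuousAt c p) (hadj : Algebra.adjoin ℂ (Set.range (c p)) = ⊤) :
    {q | Algebra.adjoin ℂ (Set.range (c q)) = ⊤} ∈ nhds p := adjoin_nhds_gen_norm c p hc hadj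

theorem generic_point1 [DecidableEq ι] (hr : 1 ≤ r) (L : List ι) (hnd : L.Nodup)
    (hmem : ∀ j, j ∈ L) (K₀ : Subfield ℂ) (hK₀ : Countable K₀) (J : ι → P002R.Mat r ℂ)
    (hJK : ∀ j a b, J j a b ∈ K₀)
    (Y₀ : ι ⊕ Bool → P002R.Mat r ℂ) (hY₀ : ∀ j, IsUnit (Y₀ j)) (hrel : PhiI J L Y₀ = 1)
    (hadj : Algebra.adjoin ℂ (Set.range (allI J Y₀)) = ⊤) (U : Set (ι ⊕ Bool → P002R.Mat r ℂ))
    (hU : U ∈ nhds Y₀) :
    ∃ Y ∈ U, (∀ j, IsUnit (Y j)) ∧ PhiI J L Y = 1 ∧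
      Algebra.adjoin ℂ (Set.range (allI J Y)) = ⊤ ∧ GenPt1 K₀ J L Y :=
  generic_point1_norm hr L hnd hmem K₀ hK₀ J hJK Y₀ hY₀ hrel hadj U hU

theorem map_der_listI {K₀ : Subfield ℂ} {J : ι → P002R.Mat r ℂ} {Y : ι ⊕ Bool → P002R.Mat r ℂ}
    (hJK : ∀ j a b, J j a b ∈ K₀) (hY : ∀ j, IsUnit (Y j)) (δ : Derivation ℤ ℂ ℂ)
    (hδ : ∀ a ∈ K₀, δ a = 0) (x : ι ⊕ Bool → P002R.Mat r ℂ) (hx : ∀ k, (Y k).map δ = x k * Y k)
    (l : List ι) :
    ((l.map (cI J Y)).prod).map δ = DL (cI J Y) (fun j => x (Sum.inl j)) l :=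
  map_der_listI_norm hJK hY δ hδ x hx l

end Vale.Agent.P002R
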