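import Vale.Agent.P002R.ZGeneric

/-!
# P002, genus 1: rank one lemmas
-/

namespace Vale.Agent.P002R

open Matrix Module

variable {r : ℕ}

theorem vecMulVec_ne_zero {u y : Fin r → ℂ} (hu : u ≠ 0) (hy : y ≠ 0) :
    (vecMulVec u y : Mat r ℂ) ≠ 0 := by
  intro h0
  obtain ⟨i, hi⟩ := Function.ne_iff.1 hu
  obtain ⟨j, hj⟩ := Function.ne_iff.1 hy
  have h1 := congrFun (congrFun h0 i) j
  rw [vecMulVec_apply] at h1
  rcases mul_eq_zero.1 h1 with h | h
  · exact hi h
  · exact hj h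

theorem vmv_mulVec (u y v : Fin r → ℂ) : (vecMulVec u y : Mat r ℂ) *ᵥ v = (y ⬝ᵥ v) • u := by
  rw [Matrix.vecMulVec_mulVec]
  ext i
  simp [mul_comm]

/-- the final contradiction -/
theorem end_lemma {S : Type*} (g : S → Mat r ℂ) (hg : ∀ s, IsUnit (g s)) (N : Mat r ℂ)
    (y : Fin r → ℂ) (hy : y ≠ 0) (p : S → Fin r → ℂ)
    (h : ∀ s, N * g s = g s * (N + vecMulVec (p s) y) ∨ (N + vecMulVec (p s) y) * g s = g s * N)
    (hne : ∃ s, p s ≠ 0)
    (hirr : ∀ W : Submodule ℂ (Fin r → ℂ), (∀ s, ∀ w ∈ W, g s *ᵥ w ∈ W) → W = ⊥ ∨ W = ⊤) :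
    False := by
  have hnonempty : Nonempty (Fin r) := by
    by_contra h
    rw [not_nonempty_iff] at h
    exact hy (funext fun i => (h.false i).elim)
  -- not scalar
  have hns : ∀ a : ℂ, N ≠ a • (1 : Mat r ℂ) := by
    intro a ha
    obtain ⟨s, hs⟩ := hne
    have hcomm : a • (1 : Mat r ℂ) * g s = g s * (a • (1 : Mat r ℂ)) := by
      rw [Matrix.smul_mul, Matrix.mul_smul, Matrix.one_mul, Matrix.mul_one]
    have h2 : (vecMulVec (p s) y : Mat r ℂ) = 0 := by
      rcases h s with h1 | h1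
      · rw [ha, hcomm, Matrix.mul_add, left_eq_add] at h1
        exact (hg s).mul_left_cancel (by rw [h1, Matrix.mul_zero])
      · rw [ha, Matrix.add_mul, hcomm, add_eq_left] at h1
        exact (hg s).mul_right_cancel (by rw [h1, Matrix.zero_mul])
    exact vecMulVec_ne_zero hs hy h2
  obtain ⟨lam, hlam⟩ := Module.End.exists_eigenvalue (Matrix.toLin' N)
  obtain ⟨w₀, hw₀⟩ := hlam.exists_hasEigenvector
  have hw₀1 : N *ᵥ w₀ = lam • w₀ := by
    have := hw₀.apply_eq_smul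
    rwa [Matrix.toLin'_apply] at this
  have hw₀2 : w₀ ≠ 0 := hw₀.2
  let Kr : Mat r ℂ → Submodule ℂ (Fin r → ℂ) := fun M => LinearMap.ker (Matrix.toLin' (M - lam • 1))
  let Rg : Mat r ℂ → Submodule ℂ (Fin r → ℂ) := fun M => LinearMap.range (Matrix.toLin' (M - lam • 1))
  have hKr : ∀ M w, w ∈ Kr M ↔ M *ᵥ w = lam • w := by
    intro M w
    simp only [Kr, LinearMap.mem_ker, Matrix.toLin'_apply, Matrix.sub_mulVec, Matrix.smul_mulVec,
      Matrix.one_mulVec, sub_eq_zero]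
  have hRg : ∀ M w, w ∈ Rg M ↔ ∃ v, M *ᵥ v - lam • v = w := by
    intro M w
    simp only [Rg, LinearMap.mem_range, Matrix.toLin'_apply, Matrix.sub_mulVec, Matrix.smul_mulVec,
      Matrix.one_mulVec]
  -- intertwiners
  have hmapK : ∀ (A B G : Mat r ℂ), A * G = G * B → ∀ w ∈ Kr B, G *ᵥ w ∈ Kr A := by
    intro A B G hG w hw
    rw [hKr] at hw ⊢
    rw [Matrix.mulVec_mulVec, hG, ← Matrix.mulVec_mulVec, hw, Matrix.mulVec_smul]
  have hmapR : ∀ (A B G : Mat r ℂ), A * G = G * B → ∀ w ∈ Rg B, G *ᵥ w ∈ Rg A := by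
    intro A B G hG w hw
    rw [hRg] at hw ⊢
    obtain ⟨v, hv⟩ := hw
    refine ⟨G *ᵥ v, ?_⟩
    rw [Matrix.mulVec_mulVec, hG, ← Matrix.mulVec_mulVec, ← Matrix.mulVec_smul,
      ← Matrix.mulVec_sub, hv]
  have hdimK : ∀ (A B G : Mat r ℂ), IsUnit G → A * G = G * B →
      finrank ℂ (Kr B) ≤ finrank ℂ (Kr A) := by
    intro A B G hGu hG
    obtain ⟨G', hG'⟩ : ∃ G' : Mat r ℂ, G' * G = 1 := by
      obtain ⟨q, hq⟩ := hGu
      exact ⟨(q⁻¹ : (Mat r ℂ)ˣ), by rw [← hq]; simp⟩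
    refine LinearMap.finrank_le_finrank_of_injective
      (f := (Matrix.toLin' G).restrict (p := Kr B) (q := Kr A) (fun w hw => by
        rw [Matrix.toLin'_apply]; exact hmapK A B G hG w hw)) ?_
    rintro ⟨w, hw⟩ ⟨w', hw'⟩ h
    have h1 : G *ᵥ w = G *ᵥ w' := congrArg Subtype.val h
    have h2 : G' *ᵥ (G *ᵥ w) = G' *ᵥ (G *ᵥ w') := by rw [h1]
    rw [Matrix.mulVec_mulVec, Matrix.mulVec_mulVec, hG', Matrix.one_mulVec,
      Matrix.one_mulVec] at h2
    exact Subtype.ext h2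
  have hdimR : ∀ (A B G : Mat r ℂ), IsUnit G → A * G = G * B →
      finrank ℂ (Rg B) ≤ finrank ℂ (Rg A) := by
    intro A B G hGu hG
    obtain ⟨G', hG'⟩ : ∃ G' : Mat r ℂ, G' * G = 1 := by
      obtain ⟨q, hq⟩ := hGu
      exact ⟨(q⁻¹ : (Mat r ℂ)ˣ), by rw [← hq]; simp⟩
    refine LinearMap.finrank_le_finrank_of_injective
      (f := (Matrix.toLin' G).restrict (p := Rg B) (q := Rg A) (fun w hw => by
        rw [Matrix.toLin'_apply]; exact hmapR A B G hG w hw)) ?_
    rintro ⟨w, hw⟩ ⟨w', hw'⟩ h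
    have h1 : G *ᵥ w = G *ᵥ w' := congrArg Subtype.val h
    have h2 : G' *ᵥ (G *ᵥ w) = G' *ᵥ (G *ᵥ w') := by rw [h1]
    rw [Matrix.mulVec_mulVec, Matrix.mulVec_mulVec, hG', Matrix.one_mulVec,
      Matrix.one_mulVec] at h2
    exact Subtype.ext h2
  -- similar matrices have kernels and images of the same dimension
  have hswap : ∀ (A B G : Mat r ℂ), IsUnit G → A * G = G * B →
      ∃ G' : Mat r ℂ, IsUnit G' ∧ B * G' = G' * A := by
    intro A B G hGu hG
    obtain ⟨q, hq⟩ := hGu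
    refine ⟨((q⁻¹ : (Mat r ℂ)ˣ) : Mat r ℂ), Units.isUnit _, ?_⟩
    have h1 : (q : Mat r ℂ) * ((q⁻¹ : (Mat r ℂ)ˣ) : Mat r ℂ) = 1 := by simp
    have h2 : ((q⁻¹ : (Mat r ℂ)ˣ) : Mat r ℂ) * (q : Mat r ℂ) = 1 := by simp
    rw [← hq] at hG
    calc B * ((q⁻¹ : (Mat r ℂ)ˣ) : Mat r ℂ)
        = ((q⁻¹ : (Mat r ℂ)ˣ) : Mat r ℂ) * (q * B) * ((q⁻¹ : (Mat r ℂ)ˣ) : Mat r ℂ) := by
          rw [← Matrix.mul_assoc, h2, Matrix.one_mul]
      _ = _ := by rw [← hG, Matrix.mul_assoc, Matrix.mul_assoc, h1, Matrix.mul_one]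
  have hdimK' : ∀ s, finrank ℂ (Kr (N + vecMulVec (p s) y)) ≤ finrank ℂ (Kr N) := by
    intro s
    rcases h s with h1 | h1
    · exact hdimK _ _ _ (hg s) h1
    · obtain ⟨G', hG'u, hG'⟩ := hswap _ _ _ (hg s) h1
      exact hdimK _ _ _ hG'u hG'
  have hdimR' : ∀ s, finrank ℂ (Rg (N + vecMulVec (p s) y)) ≤ finrank ℂ (Rg N) := by
    intro s
    rcases h s with h1 | h1
    · exact hdimR _ _ _ (hg s) h1
    · obtain ⟨G', hG'u, hG'⟩ := hswap _ _ _ (hg s) h1
      exact hdimR _ _ _ hG'u hG'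
  by_cases hcase : ∀ w ∈ Kr N, y ⬝ᵥ w = 0
  · -- case 1: the kernel is invariant
    have hK : ∀ s, Kr N = Kr (N + vecMulVec (p s) y) := by
      intro s
      refine Submodule.eq_of_le_of_finrank_le ?_ (hdimK' s)
      intro w hw
      have h1 := hcase w hw
      rw [hKr] at hw ⊢
      rw [Matrix.add_mulVec, hw, vmv_mulVec, h1, zero_smul, add_zero]
    have hinv : ∀ s, ∀ w ∈ Kr N, g s *ᵥ w ∈ Kr N := by
      intro s w hw
      rcases h s with h1 | h1
      · exact hmapK _ _ _ h1 w (hK s ▸ hw)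
      · rw [hK s]
        exact hmapK _ _ _ h1 w hw
    rcases hirr (Kr N) hinv with h | h
    · have h1 : w₀ ∈ Kr N := (hKr N w₀).2 hw₀1
      rw [h, Submodule.mem_bot] at h1
      exact hw₀2 h1
    · apply hns lam
      refine Matrix.toLin'.injective (LinearMap.ext fun w => ?_)
      have h1 : w ∈ Kr N := h ▸ Submodule.mem_top
      rw [hKr] at h1
      rw [Matrix.toLin'_apply, Matrix.toLin'_apply, h1, Matrix.smul_mulVec, Matrix.one_mulVec]
  · -- case 2: the range is invariant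
    push Not at hcase
    obtain ⟨w₁, hw₁, hw₁y⟩ := hcase
    rw [hKr] at hw₁
    have hR : ∀ s, Rg N = Rg (N + vecMulVec (p s) y) := by
      intro s
      refine Submodule.eq_of_le_of_finrank_le ?_ (hdimR' s)
      have hp : p s ∈ Rg (N + vecMulVec (p s) y) := by
        rw [hRg]
        refine ⟨(y ⬝ᵥ w₁)⁻¹ • w₁, ?_⟩
        rw [Matrix.mulVec_smul, Matrix.add_mulVec, hw₁, vmv_mulVec, smul_add,
          smul_smul (y ⬝ᵥ w₁)⁻¹ (y ⬝ᵥ w₁), inv_mul_cancel₀ hw₁y,
          one_smul, smul_comm lam, add_sub_cancel_left]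
      intro w hw
      obtain ⟨v, hv⟩ := (hRg _ _).1 hw
      have h1 : w = ((N + vecMulVec (p s) y) *ᵥ v - lam • v) - (y ⬝ᵥ v) • p s := by
        rw [Matrix.add_mulVec, vmv_mulVec, ← hv]
        abel
      rw [h1]
      exact Submodule.sub_mem _ ((hRg _ _).2 ⟨v, rfl⟩) (Submodule.smul_mem _ _ hp)
    have hinv : ∀ s, ∀ w ∈ Rg N, g s *ᵥ w ∈ Rg N := by
      intro s w hw
      rcases h s with h1 | h1
      · exact hmapR _ _ _ h1 w (hR s ▸ hw)
      · rw [hR s]
        exact hmapR _ _ _ h1 w hw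
    rcases hirr (Rg N) hinv with h | h
    · apply hns lam
      refine Matrix.toLin'.injective (LinearMap.ext fun w => ?_)
      have h1 : N *ᵥ w - lam • w ∈ Rg N := (hRg _ _).2 ⟨w, rfl⟩
      rw [h, Submodule.mem_bot, sub_eq_zero] at h1
      rw [Matrix.toLin'_apply, Matrix.toLin'_apply, h1, Matrix.smul_mulVec, Matrix.one_mulVec]
    · have h1 : Function.Surjective (Matrix.toLin' (N - lam • 1)) := LinearMap.range_eq_top.1 h
      have h2 := LinearMap.injective_iff_surjective.2 h1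
      apply hw₀2
      apply h2
      rw [map_zero, Matrix.toLin'_apply, Matrix.sub_mulVec, Matrix.smul_mulVec, Matrix.one_mulVec,
        hw₀1, sub_self]

/-- The derivative of the relation in genus one. -/
noncomputable def D1 {ι : Type*} (c : ι → Mat r ℂ) (a b : Mat r ℂ) (L : List ι)
    (x : ι ⊕ Bool → Mat r ℂ) : Mat r ℂ :=
  DL c (fun j => x (Sum.inl j)) L * (a * b * a⁻¹ * b⁻¹) +
    (L.map c).prod * (x (Sum.inr false) * (a * b * a⁻¹ * b⁻¹) +
      a * x (Sum.inr true) * (b * a⁻¹ * b⁻¹) - a * b * a⁻¹ * x (Sum.inr false) * b⁻¹ -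
      a * b * a⁻¹ * b⁻¹ * x (Sum.inr true))

theorem exists_D1lin {ι : Type*} (c : ι → Mat r ℂ) (a b : Mat r ℂ) (L : List ι) :
    ∃ D : (ι ⊕ Bool → Mat r ℂ) →ₗ[ℂ] Mat r ℂ, ∀ x, D x = D1 c a b L x := by
  refine ⟨LinearMap.mk (AddHom.mk (D1 c a b L) ?_) ?_, fun x => rfl⟩
  · intro x y
    have h1 : (fun j => (x + y) (Sum.inl j)) = (fun j => x (Sum.inl j)) + fun j => y (Sum.inl j) :=
      rfl
    rw [D1, D1, D1, h1, DL_add, Pi.add_apply, Pi.add_apply]
    noncomm_ring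
  · intro t x
    show D1 c a b L (t • x) = t • D1 c a b L x
    have h1 : (fun j => (t • x) (Sum.inl j)) = t • fun j => x (Sum.inl j) := rfl
    rw [D1, D1, h1, DL_smul, Pi.smul_apply, Pi.smul_apply]
    simp only [smul_add, Matrix.smul_mul, Matrix.mul_smul, smul_sub, Matrix.mul_add,
      Matrix.mul_sub]

theorem DL_zero_fun {ι : Type*} (c : ι → Mat r ℂ) (l : List ι) (x : ι → Mat r ℂ)
    (hx : ∀ j, x j = 0) : DL c x l = 0 := DL_zero_of c x l fun j _ => hx j

/-- the functional of the rank one lemma for the handle -/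
theorem exists_FB {ι : Type*} (c : ι → Mat r ℂ) (a P Pi' V Wm : Mat r ℂ) (i₀ : ι) (l₁ : List ι)
    (κ : ℂ) : ∃ F : (ι ⊕ Bool → Mat r ℂ) →ₗ[ℂ] ℂ, ∀ x, F x =
      trace (Wm * (x (Sum.inr false) * a)) + κ * trace (V * (Pi' * x (Sum.inl i₀) * P -
        Pi' * DL c (fun j => x (Sum.inl j)) l₁)) := by
  refine ⟨LinearMap.mk (AddHom.mk (fun x => trace (Wm * (x (Sum.inr false) * a)) +
    κ * trace (V * (Pi' * x (Sum.inl i₀) * P -
      Pi' * DL c (fun j => x (Sum.inl j)) l₁))) ?_) ?_, fun x => rfl⟩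
  · intro x x'
    have h1 : (fun j => (x + x') (Sum.inl j)) =
      (fun j => x (Sum.inl j)) + fun j => x' (Sum.inl j) := rfl
    rw [h1, DL_add, Pi.add_apply, Pi.add_apply]
    have e1 : Wm * ((x (Sum.inr false) + x' (Sum.inr false)) * a) =
      Wm * (x (Sum.inr false) * a) + Wm * (x' (Sum.inr false) * a) := by
      rw [Matrix.add_mul, Matrix.mul_add]
    have e2 : V * (Pi' * (x (Sum.inl i₀) + x' (Sum.inl i₀)) * P -
        Pi' * (DL c (fun j => x (Sum.inl j)) l₁ + DL c (fun j => x' (Sum.inl j)) l₁)) =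
        V * (Pi' * x (Sum.inl i₀) * P - Pi' * DL c (fun j => x (Sum.inl j)) l₁) +
        V * (Pi' * x' (Sum.inl i₀) * P - Pi' * DL c (fun j => x' (Sum.inl j)) l₁) := by
      noncomm_ring
    rw [e1, e2, trace_add, trace_add]
    ring
  · intro t x
    show trace (Wm * ((t • x) (Sum.inr false) * a)) + κ * trace (V * (Pi' * (t • x) (Sum.inl i₀) *
      P - Pi' * DL c (fun j => (t • x) (Sum.inl j)) l₁)) = t • (trace (Wm * (x (Sum.inr false) *
      a)) + κ * trace (V * (Pi' * x (Sum.inl i₀) * P - Pi' * DL c (fun j => x (Sum.inl j)) l₁)))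
    have h1 : (fun j => (t • x) (Sum.inl j)) = t • fun j => x (Sum.inl j) := rfl
    rw [h1, DL_smul, Pi.smul_apply, Pi.smul_apply]
    have e1 : Wm * (t • x (Sum.inr false) * a) = t • (Wm * (x (Sum.inr false) * a)) := by
      simp only [Matrix.smul_mul, Matrix.mul_smul]
    have e2 : V * (Pi' * (t • x (Sum.inl i₀)) * P -
        Pi' * (t • DL c (fun j => x (Sum.inl j)) l₁)) =
        t • (V * (Pi' * x (Sum.inl i₀) * P - Pi' * DL c (fun j => x (Sum.inl j)) l₁)) := by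
      simp only [Matrix.smul_mul, Matrix.mul_smul, smul_sub, Matrix.mul_sub]
    rw [e1, e2, trace_smul, trace_smul]
    simp only [smul_eq_mul]
    ring

/-- data of a handle -/
structure HInv (a ai b bi h cP : Mat r ℂ) : Prop where
  a1 : a * ai = 1
  a2 : ai * a = 1
  b1 : b * bi = 1
  b2 : bi * b = 1
  hh : h = a * b * ai * bi
  rel : cP * h = 1

theorem mulL {x y z : Mat r ℂ} (h : x * y = 1) : x * (y * z) = z := by
  rw [← Matrix.mul_assoc, h, Matrix.one_mul]

theorem HInv.cP_eq {a ai b bi h cP : Mat r ℂ} (H : HInv a ai b bi h cP) :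
    cP = b * (a * (bi * ai)) := by
  have h1 : h * (b * (a * (bi * ai))) = 1 := by
    rw [H.hh]
    simp only [Matrix.mul_assoc, mulL H.b2, mulL H.a2, mulL H.b1, H.a1]
  calc cP = cP * (h * (b * (a * (bi * ai)))) := by rw [h1, Matrix.mul_one]
    _ = (cP * h) * (b * (a * (bi * ai))) := by rw [Matrix.mul_assoc]
    _ = _ := by rw [H.rel, Matrix.one_mul]

theorem HInv.rel' {a ai b bi h cP : Mat r ℂ} (H : HInv a ai b bi h cP) : h * cP = 1 :=
  mul_eq_one_comm.1 H.rel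

theorem rankB_Eb {a ai b bi h cP N : Mat r ℂ} (H : HInv a ai b bi h cP)
    (hN : ∀ X, trace (N * (cP * (a * X * (b * ai * bi) - h * X))) = 0) :
    b * (ai * (bi * N)) = N * (b * (ai * bi)) := by
  have h1 : ∀ X, trace ((0 : Mat r ℂ) * X) =
      trace ((b * ai * bi * N * (b * a * bi) - N) * X) := by
    intro X
    have e1 : cP * (a * X * (b * ai * bi) - h * X) =
        b * a * bi * X * (b * ai * bi) - X := by
      rw [Matrix.mul_sub, ← Matrix.mul_assoc cP h, H.rel, Matrix.one_mul, H.cP_eq]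
      simp only [Matrix.mul_assoc, mulL H.a2]
    rw [Matrix.zero_mul, trace_zero, ← hN X, e1, Matrix.mul_sub, Matrix.sub_mul, trace_sub,
      trace_sub]
    congr 1
    rw [show N * (b * a * bi * X * (b * ai * bi)) = (N * (b * a * bi) * X) * (b * ai * bi) by
        simp only [Matrix.mul_assoc], Matrix.trace_mul_comm (N * (b * a * bi) * X)]
    simp only [Matrix.mul_assoc]
  have h2 := Vale.Agent.P002.eq_of_trace_eq h1
  have h3 : b * ai * bi * N * (b * a * bi) = N := (sub_eq_zero.1 h2.symm)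
  have e2 : b * a * bi * (b * ai * bi) = 1 := by
    simp only [Matrix.mul_assoc, mulL H.b2, mulL H.a1, H.b1]
  calc b * (ai * (bi * N)) = b * ai * bi * N * (b * a * bi * (b * ai * bi)) := by
        rw [e2, Matrix.mul_one]
        simp only [Matrix.mul_assoc]
    _ = (b * ai * bi * N * (b * a * bi)) * (b * ai * bi) := by simp only [Matrix.mul_assoc]
    _ = _ := by rw [h3]; simp only [Matrix.mul_assoc]

theorem rankB_Ea {a ai b bi h cP N Wm : Mat r ℂ} (H : HInv a ai b bi h cP)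
    (hN : ∀ X, trace (Wm * (X * a)) = trace (N * (cP * (X * h - a * b * ai * X * bi)))) :
    h * N * cP - bi * N * b = a * Wm := by
  refine Vale.Agent.P002.eq_of_trace_eq fun X => ?_
  have e1 : cP * (X * h - a * b * ai * X * bi) = cP * X * h - b * X * bi := by
    rw [Matrix.mul_sub]
    congr 1
    · rw [Matrix.mul_assoc]
    · rw [H.cP_eq]
      simp only [Matrix.mul_assoc, mulL H.a2, mulL H.b2, mulL H.a1]
  have h2 := hN X
  rw [e1] at h2
  rw [Matrix.sub_mul, trace_sub]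
  have e2 : trace (h * N * cP * X) = trace (N * (cP * X * h)) := by
    rw [show N * (cP * X * h) = (N * cP * X) * h by simp only [Matrix.mul_assoc],
      Matrix.trace_mul_comm (N * cP * X)]
    simp only [Matrix.mul_assoc]
  have e3 : trace (bi * N * b * X) = trace (N * (b * X * bi)) := by
    rw [show N * (b * X * bi) = (N * b * X) * bi by simp only [Matrix.mul_assoc],
      Matrix.trace_mul_comm (N * b * X)]
    simp only [Matrix.mul_assoc]
  rw [e2, e3, ← trace_sub, ← Matrix.mul_sub, ← h2, Matrix.mul_assoc, Matrix.trace_mul_comm a,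
    Matrix.mul_assoc]

theorem rankB_E0 {h c₀ P Pi' N V : Mat r ℂ} {κ : ℂ} (hrel : c₀ * P * h = 1)
    (hN : ∀ X, κ * trace (V * (Pi' * X * P)) = trace (N * ((X * c₀ - c₀ * X) * P * h))) :
    N * c₀ = c₀ * (N - κ • (P * V * Pi')) := by
  have h1 : ∀ X, trace ((κ • (P * V * Pi')) * X) =
      trace ((c₀ * (P * h * N) - (P * h * N) * c₀) * X) := by
    intro X
    have e2 := tr_comm N 1 (P * h) c₀ X
    rw [Matrix.one_mul, Matrix.mul_one, ← Matrix.mul_assoc (X * c₀ - c₀ * X)] at e2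
    rw [← e2, ← hN X, Matrix.smul_mul, trace_smul, smul_eq_mul]
    congr 1
    rw [show V * (Pi' * X * P) = (V * Pi' * X) * P by simp only [Matrix.mul_assoc],
      Matrix.trace_mul_comm (V * Pi' * X)]
    simp only [Matrix.mul_assoc]
  have h2 := Vale.Agent.P002.eq_of_trace_eq h1
  have hrel' : c₀ * (P * h) = 1 := by rw [← Matrix.mul_assoc]; exact hrel
  have e1 : c₀ * (P * h * N) = N := by
    rw [← Matrix.mul_assoc, hrel', Matrix.one_mul]
  rw [e1] at h2
  rw [h2, sub_sub_cancel]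
  simp only [← Matrix.mul_assoc]
  rw [hrel, Matrix.one_mul]

theorem rankB_step {h c₀ cj X Z V Pi' N P : Mat r ℂ} {κ : ℂ} (hPX : P = X * (cj * Z))
    (hrel : c₀ * P * h = 1) (E0 : N * c₀ = c₀ * (N - κ • (P * V * Pi'))) (hcom : Commute N X)
    (hN : ∀ H, -(κ * trace (V * (Pi' * (X * (H * cj - cj * H) * Z)))) =
      trace (N * (c₀ * (X * (H * cj - cj * H) * Z) * h))) : Commute N cj := by
  have h1 : ∀ H, trace (-(κ • (cj * (Z * (V * Pi') * X) - (Z * (V * Pi') * X) * cj)) * H) =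
      trace ((cj * ((Z * h) * N * (c₀ * X)) - ((Z * h) * N * (c₀ * X)) * cj) * H) := by
    intro H
    rw [← tr_comm, Matrix.neg_mul, trace_neg, Matrix.smul_mul, trace_smul, ← tr_comm, smul_eq_mul]
    have e1 : V * Pi' * (X * (H * cj - cj * H) * Z) = V * (Pi' * (X * (H * cj - cj * H) * Z)) :=
      Matrix.mul_assoc _ _ _
    rw [e1, hN H]
    simp only [Matrix.mul_assoc]
  have h2 := Vale.Agent.P002.eq_of_trace_eq h1
  have hcyc := cyc_one (X := c₀ * X) (a := cj) (Y := Z * h) (by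
    rw [← hrel, hPX]; simp only [Matrix.mul_assoc])
  have hrel2 : h * (c₀ * P) = 1 := mul_eq_one_comm.1 hrel
  have h3 : (Z * h) * N * (c₀ * X) = ((Z * h) * (c₀ * X)) * N - κ • (Z * (V * Pi') * X) := by
    calc (Z * h) * N * (c₀ * X) = (Z * h) * (N * c₀) * X := by simp only [Matrix.mul_assoc]
      _ = (Z * h) * c₀ * (N * X) - κ • (Z * (h * (c₀ * P)) * V * Pi' * X) := by
        rw [E0]
        simp only [Matrix.mul_sub, Matrix.sub_mul, Matrix.mul_smul, Matrix.smul_mul,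
          Matrix.mul_assoc]
      _ = _ := by
        rw [hrel2, hcom.eq, Matrix.mul_one]
        simp only [Matrix.mul_assoc]
  refine comm_of_inv hcyc.1 ?_
  rw [h3] at h2
  have h4 : cj * ((Z * h) * (c₀ * X) * N - κ • (Z * (V * Pi') * X)) -
      ((Z * h) * (c₀ * X) * N - κ • (Z * (V * Pi') * X)) * cj -
      -(κ • (cj * (Z * (V * Pi') * X) - (Z * (V * Pi') * X) * cj)) = 0 := by
    rw [← h2, sub_self]
  rw [← h4]
  simp only [Matrix.mul_sub, Matrix.sub_mul, Matrix.mul_smul, Matrix.smul_mul, smul_sub]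
  abel

/-- Stability under the inverse. -/
theorem inv_stab {P Pi' : Mat r ℂ} (hP2 : Pi' * P = 1) (W : Submodule ℂ (Fin r → ℂ))
    (hW : ∀ w ∈ W, P *ᵥ w ∈ W) : ∀ w ∈ W, Pi' *ᵥ w ∈ W := by
  obtain ⟨T, hT⟩ : ∃ T : W →ₗ[ℂ] W, ∀ z : W, ((T z : W) : Fin r → ℂ) = P *ᵥ (z : Fin r → ℂ) :=
    ⟨(Matrix.toLin' P).restrict (fun z hz => by rw [Matrix.toLin'_apply]; exact hW z hz),
      fun z => rfl⟩
  have hinj : Function.Injective T := by
    intro z z' hzz
    have h1 := congrArg (fun q : W => Pi' *ᵥ (q : Fin r → ℂ)) hzz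
    simp only [hT, Matrix.mulVec_mulVec, hP2, Matrix.one_mulVec] at h1
    exact Subtype.ext h1
  intro w hw
  obtain ⟨z, hz⟩ := (LinearMap.injective_iff_surjective.1 hinj) ⟨w, hw⟩
  have h1 : P *ᵥ (z : Fin r → ℂ) = w := by rw [← hT, hz]
  rw [← h1, Matrix.mulVec_mulVec, hP2, Matrix.one_mulVec]
  exact z.2

theorem prod_stab {ι : Type*} (c : ι → Mat r ℂ) (W : Submodule ℂ (Fin r → ℂ)) (l : List ι)
    (hl : ∀ j ∈ l, ∀ z ∈ W, c j *ᵥ z ∈ W) : ∀ z ∈ W, (l.map c).prod *ᵥ z ∈ W := by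
  induction l with
  | nil => intro z hz; simpa using hz
  | cons j l ih =>
    intro z hz
    rw [List.map_cons, List.prod_cons, ← Matrix.mulVec_mulVec]
    exact hl j List.mem_cons_self _ (ih (fun k hk => hl k (List.mem_cons_of_mem _ hk)) z hz)

/-- the algebraic end of the rank one lemma for the handle -/
theorem rankB_end {ι : Type*} [DecidableEq ι] (c : ι → Mat r ℂ) (hc : ∀ j, IsUnit (c j))
    {a ai b bi h P Pi' N V Wm : Mat r ℂ} (i₀ : ι) (l₁ : List ι) (hi₀ : i₀ ∉ l₁)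
    (hmem : ∀ j, j ∈ i₀ :: l₁) (hPdef : P = (l₁.map c).prod)
    (H : HInv a ai b bi h (c i₀ * P)) (hP1 : P * Pi' = 1) (hP2 : Pi' * P = 1)
    (hirr : ∀ W : Submodule ℂ (Fin r → ℂ), (∀ j, ∀ w ∈ W, c j *ᵥ w ∈ W) →
      (∀ w ∈ W, a *ᵥ w ∈ W) → (∀ w ∈ W, b *ᵥ w ∈ W) → W = ⊥ ∨ W = ⊤)
    (y w v : Fin r → ℂ) (hy : y ≠ 0) (hw : w ≠ 0) (lam κ : ℂ) (hlam : lam ≠ 0)
    (haw : a *ᵥ w = lam • w - κ • v) (hV : V = vecMulVec v y) (hWm : Wm = vecMulVec w y)
    (Eb : b * (ai * (bi * N)) = N * (b * (ai * bi)))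
    (Ea : h * N * (c i₀ * P) - bi * N * b = a * Wm)
    (E0 : N * c i₀ = c i₀ * (N - κ • (P * V * Pi')))
    (hNP : Commute N P) (hNl₁ : ∀ j ∈ l₁, Commute N (c j)) : False := by
  have hNPi : N * Pi' = Pi' * N := by
    calc N * Pi' = Pi' * (P * N) * Pi' := by rw [← Matrix.mul_assoc, hP2, Matrix.one_mul]
      _ = Pi' * N := by rw [← hNP.eq, Matrix.mul_assoc, Matrix.mul_assoc, hP1, Matrix.mul_one]
  have EcP : N * (c i₀ * P) = (c i₀ * P) * (N - κ • V) := by
    calc N * (c i₀ * P) = (N * c i₀) * P := by rw [Matrix.mul_assoc]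
      _ = c i₀ * (N * P) - κ • (c i₀ * P * V * (Pi' * P)) := by
        rw [E0]
        simp only [Matrix.mul_sub, Matrix.sub_mul, Matrix.mul_smul, Matrix.smul_mul,
          Matrix.mul_assoc]
      _ = _ := by
        rw [hP2, hNP.eq, Matrix.mul_one, Matrix.mul_sub, Matrix.mul_smul]
        simp only [Matrix.mul_assoc]
  have hhN : h * N * (c i₀ * P) = N - κ • V := by
    rw [Matrix.mul_assoc, EcP, ← Matrix.mul_assoc, H.rel', Matrix.one_mul]
  have haN : a * N = (N - κ • V) * a := by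
    have e1 : h * N * (c i₀ * P) = a * N * ai := by
      rw [H.cP_eq, H.hh]
      simp only [Matrix.mul_assoc]
      have e2 : b * (ai * (bi * (N * (b * (a * (bi * ai)))))) =
          (b * (ai * (bi * N))) * (b * (a * (bi * ai))) := by simp only [Matrix.mul_assoc]
      rw [e2, Eb]
      simp only [Matrix.mul_assoc, mulL H.b2, mulL H.a2, mulL H.b1]
    rw [← hhN, e1, Matrix.mul_assoc, H.a2, Matrix.mul_one]
  have hbN : N * b = b * (N - lam • Wm) := by
    have e1 : lam • Wm = κ • V + a * Wm := by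
      rw [hWm, hV, Matrix.mul_vecMulVec, haw]
      ext i j
      simp only [Matrix.add_apply, Matrix.smul_apply, vecMulVec_apply, Pi.sub_apply,
        Pi.smul_apply, smul_eq_mul]
      ring
    have e2 : N - lam • Wm = bi * N * b := by
      rw [e1, ← Ea, hhN]
      abel
    rw [e2]
    simp only [Matrix.mul_assoc, mulL H.b1]
  refine end_lemma (S := ι ⊕ Bool) (fun s => Sum.elim (fun j => if j = i₀ then Pi' * c i₀ * P
    else c j) (fun s => if s then b else a) s) ?_ N y hy (fun s => Sum.elim (fun j =>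
    if j = i₀ then (-κ) • v else 0) (fun s => if s then (-lam) • w else (-κ) • v) s) ?_ ?_ ?_
  · rintro (j | s)
    · show IsUnit (if j = i₀ then Pi' * c i₀ * P else c j)
      split_ifs
      · exact ((IsUnit.of_mul_eq_one _ hP2).mul (hc i₀)).mul (IsUnit.of_mul_eq_one _ hP1)
      · exact hc j
    · cases s
      · exact IsUnit.of_mul_eq_one _ H.a1
      · exact IsUnit.of_mul_eq_one _ H.b1
  · rintro (j | s)
    · left
      show N * (if j = i₀ then Pi' * c i₀ * P else c j) = (if j = i₀ then Pi' * c i₀ * P else c j) *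
        (N + vecMulVec (if j = i₀ then (-κ) • v else 0) y)
      by_cases hj : j = i₀
      · rw [if_pos hj, if_pos hj, smul_vecMulVec, ← hV, neg_smul, ← sub_eq_add_neg]
        calc N * (Pi' * c i₀ * P) = (N * Pi') * (c i₀ * P) := by simp only [Matrix.mul_assoc]
          _ = Pi' * (N * (c i₀ * P)) := by rw [hNPi, Matrix.mul_assoc]
          _ = _ := by rw [EcP]; simp only [Matrix.mul_assoc]
      · rw [if_neg hj, if_neg hj, zero_vecMulVec, add_zero]
        have hj' := hmem j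
        rw [List.mem_cons] at hj'
        exact (hNl₁ j (hj'.resolve_left hj)).eq
    · cases s
      · right
        show (N + vecMulVec ((-κ) • v) y) * a = a * N
        rw [smul_vecMulVec, ← hV, neg_smul, ← sub_eq_add_neg, haN]
      · left
        show N * b = b * (N + vecMulVec ((-lam) • w) y)
        rw [smul_vecMulVec, ← hWm, neg_smul, ← sub_eq_add_neg, hbN]
  · refine ⟨Sum.inr true, ?_⟩
    show (-lam) • w ≠ 0
    rw [neg_smul, neg_ne_zero, smul_ne_zero_iff]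
    exact ⟨hlam, hw⟩
  · intro W hW
    have hl₁ : ∀ j ∈ l₁, ∀ z ∈ W, c j *ᵥ z ∈ W := by
      intro j hj z hz
      have h1 := hW (Sum.inl j) z hz
      have hj0 : j ≠ i₀ := by rintro rfl; exact hi₀ hj
      simp only [Sum.elim_inl, if_neg hj0] at h1
      exact h1
    have hP' : ∀ z ∈ W, P *ᵥ z ∈ W := fun z hz => hPdef ▸ prod_stab c W l₁ hl₁ z hz
    refine hirr W (fun j z hz => ?_) (fun z hz => hW (Sum.inr false) z hz)
      (fun z hz => hW (Sum.inr true) z hz)
    by_cases hj : j = i₀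
    · rw [hj]
      have h1 := hW (Sum.inl i₀) _ (inv_stab hP2 W hP' z hz)
      simp only [Sum.elim_inl, if_true] at h1
      have h2 := hP' _ h1
      rw [Matrix.mulVec_mulVec, Matrix.mulVec_mulVec] at h2
      have e1 : P * (Pi' * c i₀ * P) * Pi' = c i₀ := by
        simp only [Matrix.mul_assoc, mulL hP1, hP1, Matrix.mul_one]
      rwa [e1] at h2
    · have hj' := hmem j
      rw [List.mem_cons] at hj'
      exact hl₁ j (hj'.resolve_left hj) z hz

/-- The rank one lemma for the handle. -/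
theorem rank_B {ι : Type*} [DecidableEq ι] (c : ι → Mat r ℂ) (hc : ∀ j, IsUnit (c j))
    (a b : Mat r ℂ) (ha : IsUnit a) (hb : IsUnit b) (i₀ : ι) (l₁ : List ι)
    (hnd : (i₀ :: l₁).Nodup) (hmem : ∀ j, j ∈ i₀ :: l₁)
    (hrel : ((i₀ :: l₁).map c).prod * (a * b * a⁻¹ * b⁻¹) = 1)
    (hirr : ∀ W : Submodule ℂ (Fin r → ℂ), (∀ j, ∀ w ∈ W, c j *ᵥ w ∈ W) →
      (∀ w ∈ W, a *ᵥ w ∈ W) → (∀ w ∈ W, b *ᵥ w ∈ W) → W = ⊥ ∨ W = ⊤)
    (y w v : Fin r → ℂ) (hy : y ≠ 0) (hw : w ≠ 0) (lam κ : ℂ) (hlam : lam ≠ 0)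
    (haw : a *ᵥ w = lam • w - κ • v) :
    ∃ x : ι ⊕ Bool → Mat r ℂ, D1 c a b (i₀ :: l₁) x = 0 ∧
      y ⬝ᵥ ((x (Sum.inr false) * a) *ᵥ w) +
        κ * (y ⬝ᵥ ((((l₁.map c).prod)⁻¹ * x (Sum.inl i₀) * (l₁.map c).prod -
          ((l₁.map c).prod)⁻¹ * DL c (fun j => x (Sum.inl j)) l₁) *ᵥ v)) ≠ 0 := by
  by_contra hcon
  push Not at hcon
  obtain ⟨P, hPdef⟩ : ∃ P, P = (l₁.map c).prod := ⟨_, rfl⟩
  have hprodunit : ∀ l : List ι, IsUnit (l.map c).prod := by
    intro l
    induction l with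
    | nil => simp
    | cons j l ih => rw [List.map_cons, List.prod_cons]; exact (hc j).mul ih
  have hPu : IsUnit P := hPdef ▸ hprodunit l₁
  have hPd : IsUnit P.det := (Matrix.isUnit_iff_isUnit_det _).1 hPu
  have had : IsUnit a.det := (Matrix.isUnit_iff_isUnit_det _).1 ha
  have hbd : IsUnit b.det := (Matrix.isUnit_iff_isUnit_det _).1 hb
  obtain ⟨Pi', hPi'⟩ : ∃ Pi', Pi' = P⁻¹ := ⟨_, rfl⟩
  have hP1 : P * Pi' = 1 := by rw [hPi']; exact Matrix.mul_nonsing_inv _ hPd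
  have hP2 : Pi' * P = 1 := by rw [hPi']; exact Matrix.nonsing_inv_mul _ hPd
  have hi₀ : i₀ ∉ l₁ := (List.nodup_cons.1 hnd).1
  have hnd1 : l₁.Nodup := (List.nodup_cons.1 hnd).2
  obtain ⟨h, hh⟩ : ∃ h, h = a * b * a⁻¹ * b⁻¹ := ⟨_, rfl⟩
  have H : HInv a a⁻¹ b b⁻¹ h (c i₀ * P) :=
    ⟨Matrix.mul_nonsing_inv _ had, Matrix.nonsing_inv_mul _ had, Matrix.mul_nonsing_inv _ hbd,
      Matrix.nonsing_inv_mul _ hbd, hh, by
        rw [← hrel, List.map_cons, List.prod_cons, hPdef, hh]⟩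
  rw [← hPdef, ← hPi'] at hcon
  obtain ⟨F, hF⟩ := exists_FB c a P Pi' (vecMulVec v y) (vecMulVec w y) i₀ l₁ κ
  obtain ⟨D, hD⟩ := exists_D1lin c a b (i₀ :: l₁)
  obtain ⟨N, hN⟩ := exists_factor D F (by
    intro x hx
    rw [hF, trace_vecMulVec_mul, trace_vecMulVec_mul]
    exact hcon x (by rw [← hD]; exact hx))
  have hN' : ∀ x : ι ⊕ Bool → Mat r ℂ,
      trace (vecMulVec w y * (x (Sum.inr false) * a)) + κ * trace (vecMulVec v y *
      (Pi' * x (Sum.inl i₀) * P - Pi' * DL c (fun j => x (Sum.inl j)) l₁)) =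
      trace (N * (DL c (fun j => x (Sum.inl j)) (i₀ :: l₁) * h +
      c i₀ * P * (x (Sum.inr false) * h + a * x (Sum.inr true) * (b * a⁻¹ * b⁻¹) -
        a * b * a⁻¹ * x (Sum.inr false) * b⁻¹ - h * x (Sum.inr true)))) := by
    intro x
    rw [← hF, hN, hD, D1, ← hh, List.map_cons, List.prod_cons, hPdef]
  have hu1 : ∀ (s : Bool) (X : Mat r ℂ) (j : ι),
      (Function.update (0 : ι ⊕ Bool → Mat r ℂ) (Sum.inr s) X) (Sum.inl j) = 0 := by
    intro s X j
    rw [Function.update_of_ne (by simp), Pi.zero_apply]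
  have hu2 : ∀ (s : Bool) (X : Mat r ℂ) (j : ι),
      (Function.update (0 : ι ⊕ Bool → Mat r ℂ) (Sum.inl j) X) (Sum.inr s) = 0 := by
    intro s X j
    rw [Function.update_of_ne (by simp), Pi.zero_apply]
  have hu3 : ∀ (X : Mat r ℂ) (j k : ι), k ≠ j →
      (Function.update (0 : ι ⊕ Bool → Mat r ℂ) (Sum.inl j) X) (Sum.inl k) = 0 := by
    intro X j k hk
    rw [Function.update_of_ne (by simpa using hk), Pi.zero_apply]
  have hu4 : ∀ X : Mat r ℂ,
      (Function.update (0 : ι ⊕ Bool → Mat r ℂ) (Sum.inr false) X) (Sum.inr true) = 0 := by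
    intro X
    rw [Function.update_of_ne (by simp), Pi.zero_apply]
  have hu5 : ∀ X : Mat r ℂ,
      (Function.update (0 : ι ⊕ Bool → Mat r ℂ) (Sum.inr true) X) (Sum.inr false) = 0 := by
    intro X
    rw [Function.update_of_ne (by simp), Pi.zero_apply]
  have Eb := rankB_Eb (N := N) H (fun X => by
    have h2 := hN' (Function.update 0 (Sum.inr true) X)
    rw [Function.update_self, hu5, hu1,
      DL_zero_fun c l₁ _ (fun j => hu1 true X j),
      DL_zero_fun c (i₀ :: l₁) _ (fun j => hu1 true X j)] at h2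
    simp only [Matrix.zero_mul, Matrix.mul_zero, sub_zero, zero_add, trace_zero, mul_zero] at h2
    exact h2.symm)
  have Ea := rankB_Ea (N := N) (Wm := vecMulVec w y) H (fun X => by
    have h2 := hN' (Function.update 0 (Sum.inr false) X)
    rw [Function.update_self, hu4, hu1,
      DL_zero_fun c l₁ _ (fun j => hu1 false X j),
      DL_zero_fun c (i₀ :: l₁) _ (fun j => hu1 false X j)] at h2
    simp only [Matrix.zero_mul, Matrix.mul_zero, sub_zero, zero_add, trace_zero, mul_zero,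
      add_zero] at h2
    exact h2)
  have E0 := rankB_E0 (N := N) (V := vecMulVec v y) (κ := κ) (Pi' := Pi') H.rel (fun X => by
    have h2 := hN' (Function.update 0 (Sum.inl i₀) X)
    have e0 : DL c (fun j => (Function.update (0 : ι ⊕ Bool → Mat r ℂ) (Sum.inl i₀) X)
        (Sum.inl j)) l₁ = 0 := DL_zero_of _ _ _ fun j hj => hu3 X i₀ j (by
          rintro rfl; exact hi₀ hj)
    rw [DL_cons, e0, Function.update_self, hu2, hu2, ← hPdef] at h2
    simp only [Matrix.zero_mul, Matrix.mul_zero, sub_zero, zero_add, trace_zero, mul_zero,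
      add_zero] at h2
    exact h2)
  have hc1 := pre_ind c N l₁ (by
    intro l' j l'' hl hcom
    have hjl : j ∈ l₁ := by rw [hl]; simp
    have hj0 : i₀ ≠ j := fun h => hi₀ (h ▸ hjl)
    have hn1' : (l' ++ j :: l'').Nodup := hl ▸ hnd1
    rw [List.nodup_append, List.nodup_cons] at hn1'
    refine rankB_step (X := (l'.map c).prod) (Z := (l''.map c).prod) (by
      rw [hPdef, hl]
      simp only [List.map_append, List.map_cons, List.prod_append, List.prod_cons]) H.rel E0 hcom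
      (fun X => ?_)
    have h2 := hN' (Function.update 0 (Sum.inl j) X)
    have e0 : DL c (fun k => (Function.update (0 : ι ⊕ Bool → Mat r ℂ) (Sum.inl j) X)
        (Sum.inl k)) l₁ = (l'.map c).prod * (X * c j - c j * X) * (l''.map c).prod := by
      rw [hl, DL_split c _ l' l'' j (fun k hk => ?_) (fun k hk => ?_), Function.update_self]
      · exact hu3 X j k (hn1'.2.2 k hk j List.mem_cons_self)
      · refine hu3 X j k ?_
        rintro rfl
        exact hn1'.2.1.1 hk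
    rw [DL_cons, e0, hu3 X j i₀ hj0, hu2, hu2] at h2
    simp only [Matrix.zero_mul, Matrix.mul_zero, zero_add, trace_zero,
      add_zero, sub_self, zero_sub, Matrix.mul_neg, trace_neg, mul_neg] at h2
    exact h2)
  exact rankB_end c hc i₀ l₁ hi₀ hmem hPdef H hP1 hP2 hirr y w v hy hw lam κ hlam haw rfl rfl
    Eb Ea E0 (hPdef ▸ hc1.1) hc1.2

end Vale.Agent.P002R
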