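import Vale.Agent.P002R.Z2Irr

/-!
# P002, genus 1, arbitrary classes: determinants on invariant subspaces
-/

namespace Vale.Agent.P002R

open Matrix Module Vale.Agent.P002

variable {r : ℕ}

open scoped Classical in
/-- determinant of the restriction to a subspace -/
noncomputable def dSub (W : Submodule ℂ (Fin r → ℂ)) (M : P002R.Mat r ℂ) : ℂ :=
  if h : ∀ w ∈ W, M *ᵥ w ∈ W then
    LinearMap.det ((Matrix.toLin' M).restrict (p := W) (q := W)
      (fun w hw => by rw [Matrix.toLin'_apply]; exact h w hw))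
  else 0

theorem exists_dSub (W : Submodule ℂ (Fin r → ℂ)) (M : P002R.Mat r ℂ)
    (h : ∀ w ∈ W, M *ᵥ w ∈ W) : ∃ f : W →ₗ[ℂ] W, (∀ w : W, ((f w : W) : Fin r → ℂ) =
      M *ᵥ (w : Fin r → ℂ)) ∧ dSub W M = LinearMap.det f := by
  refine ⟨(Matrix.toLin' M).restrict (p := W) (q := W)
      (fun w hw => by rw [Matrix.toLin'_apply]; exact h w hw), fun w => rfl, ?_⟩
  rw [dSub, dif_pos h]

theorem dSub_mul (W : Submodule ℂ (Fin r → ℂ)) (M N : P002R.Mat r ℂ)
    (hM : ∀ w ∈ W, M *ᵥ w ∈ W) (hN : ∀ w ∈ W, N *ᵥ w ∈ W) :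
    dSub W (M * N) = dSub W M * dSub W N := by
  have hMN : ∀ w ∈ W, (M * N) *ᵥ w ∈ W := fun w hw => by
    rw [← Matrix.mulVec_mulVec]
    exact hM _ (hN _ hw)
  obtain ⟨f, hf, h1⟩ := exists_dSub W M hM
  obtain ⟨g, hg, h2⟩ := exists_dSub W N hN
  obtain ⟨k, hk, h3⟩ := exists_dSub W (M * N) hMN
  rw [h1, h2, h3, ← LinearMap.det_comp]
  congr 1
  ext1 w
  apply Subtype.ext
  rw [hk, LinearMap.comp_apply, hf, hg, Matrix.mulVec_mulVec]

theorem dSub_one (W : Submodule ℂ (Fin r → ℂ)) : dSub W (1 : P002R.Mat r ℂ) = 1 := by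
  obtain ⟨f, hf, h1⟩ := exists_dSub W (1 : P002R.Mat r ℂ) (fun w hw => by rwa [Matrix.one_mulVec])
  rw [h1]
  have h2 : f = LinearMap.id := by
    ext1 w
    apply Subtype.ext
    rw [hf, Matrix.one_mulVec]
    rfl
  rw [h2, LinearMap.det_id]

theorem aeval_eigen {M A : P002R.Mat r ℂ} {ν : Fin r → ℂ} (hMA : M * A = A * diagonal ν)
    (p : Polynomial ℂ) :
    Polynomial.aeval M p * A = A * diagonal fun i => p.eval (ν i) := by
  have hpow : ∀ k : ℕ, M ^ k * A = A * diagonal fun i => ν i ^ k := by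
    intro k
    induction k with
    | zero =>
      simp only [pow_zero, Matrix.one_mul]
      rw [show (diagonal fun _ : Fin r => (1 : ℂ)) = (1 : P002R.Mat r ℂ) from Matrix.diagonal_one,
        Matrix.mul_one]
    | succ k ih =>
      rw [pow_succ, Matrix.mul_assoc, hMA, ← Matrix.mul_assoc, ih, Matrix.mul_assoc,
        Matrix.diagonal_mul_diagonal]
      rfl
  induction p using Polynomial.induction_on' with
  | add p q hp hq =>
    rw [map_add, Matrix.add_mul, hp, hq, ← Matrix.mul_add, Matrix.diagonal_add]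
    simp only [Polynomial.eval_add]
  | monomial k a =>
    rw [Polynomial.aeval_monomial, Matrix.mul_assoc, hpow]
    simp only [Polynomial.eval_monomial]
    rw [Algebra.algebraMap_eq_smul_one, Matrix.smul_mul, Matrix.one_mul, ← Matrix.mul_smul]
    congr 1
    ext i j
    by_cases hij : i = j
    · subst hij
      simp
    · simp [Matrix.diagonal_apply_ne _ hij]

theorem aeval_stab {M : P002R.Mat r ℂ} (W : Submodule ℂ (Fin r → ℂ))
    (hM : ∀ w ∈ W, M *ᵥ w ∈ W) (p : Polynomial ℂ) :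
    ∀ w ∈ W, Polynomial.aeval M p *ᵥ w ∈ W := by
  have hpow : ∀ k : ℕ, ∀ w ∈ W, M ^ k *ᵥ w ∈ W := by
    intro k
    induction k with
    | zero => intro w hw; rwa [pow_zero, Matrix.one_mulVec]
    | succ k ih =>
      intro w hw
      rw [pow_succ, ← Matrix.mulVec_mulVec]
      exact ih _ (hM _ hw)
  induction p using Polynomial.induction_on' with
  | add p q hp hq =>
    intro w hw
    rw [map_add, Matrix.add_mulVec]
    exact W.add_mem (hp w hw) (hq w hw)
  | monomial k a =>
    intro w hw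
    rw [Polynomial.aeval_monomial, Algebra.algebraMap_eq_smul_one, Matrix.smul_mul,
      Matrix.one_mul, Matrix.smul_mulVec]
    exact W.smul_mem _ (hpow k w hw)

/-- An invariant subspace contains the eigenvectors which occur in its elements. -/
theorem col_mem {M A : P002R.Mat r ℂ} {ν : Fin r → ℂ} (hMA : M * A = A * diagonal ν)
    (hν : Function.Injective ν) (W : Submodule ℂ (Fin r → ℂ)) (hM : ∀ w ∈ W, M *ᵥ w ∈ W)
    (c : Fin r → ℂ) (hc : A *ᵥ c ∈ W) (i : Fin r) (hi : c i ≠ 0) :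
    A *ᵥ Pi.single i 1 ∈ W := by
  have h1 := aeval_stab W hM (Lagrange.basis Finset.univ ν i) _ hc
  rw [Matrix.mulVec_mulVec, aeval_eigen hMA, ← Matrix.mulVec_mulVec] at h1
  have h2 : (diagonal fun k => (Lagrange.basis Finset.univ ν i).eval (ν k)) *ᵥ c =
      c i • (Pi.single i 1 : Fin r → ℂ) := by
    funext k
    rw [Matrix.mulVec_diagonal, Pi.smul_apply, smul_eq_mul]
    by_cases hk : k = i
    · subst hk
      rw [Lagrange.eval_basis_self hν.injOn (Finset.mem_univ _), Pi.single_eq_same, one_mul,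
        mul_one]
    · rw [Lagrange.eval_basis_of_ne (Ne.symm hk) (Finset.mem_univ _), Pi.single_eq_of_ne hk,
        zero_mul, mul_zero]
  rw [h2, Matrix.mulVec_smul] at h1
  have h3 := W.smul_mem (c i)⁻¹ h1
  rwa [smul_smul, inv_mul_cancel₀ hi, one_smul] at h3

/-- The restriction of a matrix with distinct eigenvalues. -/
theorem dSub_eigen {M A : P002R.Mat r ℂ} {ν : Fin r → ℂ} (hA : IsUnit A)
    (hMA : M * A = A * diagonal ν)
    (hν : Function.Injective ν) (W : Submodule ℂ (Fin r → ℂ)) (hM : ∀ w ∈ W, M *ᵥ w ∈ W)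
    (I : Finset (Fin r)) (hI : ∀ i, i ∈ I ↔ A *ᵥ Pi.single i 1 ∈ W) :
    dSub W M = ∏ i ∈ I, ν i := by
  classical
  obtain ⟨f, hf, h1⟩ := exists_dSub W M hM
  have hud : IsUnit A.det := (Matrix.isUnit_iff_isUnit_det _).1 hA
  have a1 : A * A⁻¹ = 1 := Matrix.mul_nonsing_inv _ hud
  obtain ⟨v, hv⟩ : ∃ v : {i // i ∈ I} → W, ∀ i, ((v i : W) : Fin r → ℂ) =
      A *ᵥ Pi.single (i : Fin r) 1 :=
    ⟨fun i => ⟨A *ᵥ Pi.single (i : Fin r) 1, (hI i).1 i.2⟩, fun i => rfl⟩
  have hli : LinearIndependent ℂ v := by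
    apply LinearIndependent.of_comp W.subtype
    have h2 : LinearIndependent ℂ A.col := Matrix.linearIndependent_cols_iff_isUnit.2 hA
    have h3 := h2.comp (fun i : {i // i ∈ I} => (i : Fin r)) Subtype.val_injective
    have h4 : W.subtype ∘ v = A.col ∘ fun i : {i // i ∈ I} => (i : Fin r) := by
      funext i
      rw [Function.comp_apply, Submodule.subtype_apply, hv, Matrix.mulVec_single_one]
      rfl
    rw [h4]
    exact h3
  have hsp : ⊤ ≤ Submodule.span ℂ (Set.range v) := by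
    rintro ⟨w, hw⟩ -
    obtain ⟨c, hc⟩ : ∃ c, c = A⁻¹ *ᵥ w := ⟨_, rfl⟩
    have hwc : w = A *ᵥ c := by rw [hc, Matrix.mulVec_mulVec, a1, Matrix.one_mulVec]
    have hwm : A *ᵥ c ∈ W := hwc ▸ hw
    have h2 : (⟨w, hw⟩ : W) = ∑ i : {i // i ∈ I}, c i • v i := by
      apply Subtype.ext
      rw [Submodule.coe_sum]
      simp only [Submodule.coe_smul, hv]
      have h3 : w = ∑ i, c i • (A *ᵥ Pi.single i 1) := by
        have h4 : c = ∑ i, c i • (Pi.single i 1 : Fin r → ℂ) := by
          funext k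
          rw [Finset.sum_apply, Finset.sum_eq_single k]
          · rw [Pi.smul_apply, Pi.single_eq_same, smul_eq_mul, mul_one]
          · intro b _ hb
            rw [Pi.smul_apply, Pi.single_eq_of_ne hb.symm, smul_zero]
          · intro h
            exact absurd (Finset.mem_univ _) h
        rw [hwc]
        conv_lhs => rw [h4]
        rw [Matrix.mulVec_sum]
        refine Finset.sum_congr rfl fun i _ => ?_
        rw [Matrix.mulVec_smul]
      conv_lhs => rw [h3]
      rw [Finset.sum_coe_sort I (fun i => c i • (A *ᵥ Pi.single i 1))]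
      refine (Finset.sum_subset (Finset.subset_univ I) fun i _ hi => ?_).symm
      by_cases hci : c i = 0
      · rw [hci, zero_smul]
      · exact absurd ((hI i).2 (col_mem hMA hν W hM c hwm i hci)) hi
    rw [h2]
    exact Submodule.sum_mem _ fun i _ => Submodule.smul_mem _ _ (Submodule.subset_span ⟨i, rfl⟩)
  obtain ⟨B, hB⟩ : ∃ B : Basis {i // i ∈ I} ℂ W, ∀ i, B i = v i :=
    ⟨Basis.mk hli hsp, fun i => Basis.mk_apply hli hsp i⟩
  have h5 : ∀ i, f (B i) = ν i • B i := by
    intro i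
    apply Subtype.ext
    rw [hf, hB, Submodule.coe_smul, hv, Matrix.mulVec_mulVec, hMA, ← Matrix.mulVec_mulVec]
    have h6 : (diagonal ν : P002R.Mat r ℂ) *ᵥ (Pi.single (i : Fin r) 1 : Fin r → ℂ) =
        ν i • (Pi.single (i : Fin r) 1 : Fin r → ℂ) := by
      funext k
      rw [Matrix.mulVec_diagonal, Pi.smul_apply, smul_eq_mul]
      by_cases hk : k = (i : Fin r)
      · rw [hk]
      · rw [Pi.single_eq_of_ne hk, mul_zero, mul_zero]
    rw [h6, Matrix.mulVec_smul]
  have h7 : LinearMap.toMatrix B B f = diagonal fun i : {i // i ∈ I} => ν i := by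
    ext i j
    rw [LinearMap.toMatrix_apply, h5, map_smul, Finsupp.smul_apply, Basis.repr_self,
      Finsupp.single_apply, smul_eq_mul, Matrix.diagonal_apply]
    by_cases hij : i = j
    · rw [if_pos hij.symm, if_pos hij, mul_one, hij]
    · rw [if_neg (Ne.symm hij), if_neg hij, mul_zero]
  rw [h1, ← LinearMap.det_toMatrix B, h7, Matrix.det_diagonal]
  exact Finset.prod_coe_sort I ν

/-- The determinant of a restriction lies in every field which contains the eigenvalues. -/
theorem dSub_mem {K₀ : Subfield ℂ} {M : P002R.Mat r ℂ} (hK : ∀ lam, M.charpoly.IsRoot lam → lam ∈ K₀)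
    (W : Submodule ℂ (Fin r → ℂ)) (hM : ∀ w ∈ W, M *ᵥ w ∈ W) : dSub W M ∈ K₀ := by
  classical
  obtain ⟨f, hf, h1⟩ := exists_dSub W M hM
  rw [h1, ← LinearMap.det_toMatrix (Module.finBasis ℂ W), Matrix.det_eq_prod_roots_charpoly]
  refine Subfield.multiset_prod_mem K₀ _ fun lam hlam => ?_
  rw [LinearMap.charpoly_toMatrix] at hlam
  have h2 : f.charpoly.IsRoot lam := Polynomial.isRoot_of_mem_roots hlam
  have h3 : Module.End.HasEigenvalue f lam :=
    (Module.End.hasEigenvalue_iff_isRoot_charpoly f lam).2 h2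
  obtain ⟨w, hw⟩ := h3.exists_hasEigenvector
  apply hK
  rw [Polynomial.IsRoot.def, Matrix.eval_charpoly]
  apply Matrix.exists_mulVec_eq_zero_iff.1
  refine ⟨w, fun h => hw.2 (Subtype.ext h), ?_⟩
  have h4 : M *ᵥ (w : Fin r → ℂ) = lam • (w : Fin r → ℂ) := by
    rw [← hf, hw.apply_eq_smul]
    rfl
  rw [Matrix.sub_mulVec, h4, Matrix.scalar_apply, ← Matrix.smul_one_eq_diagonal,
    Matrix.smul_mulVec, Matrix.one_mulVec, sub_self]

end Vale.Agent.P002R
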