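import Vale.Agent.P002R.Z2Idem

/-!
# P002, genus 1, arbitrary classes: the eigenvalues of `a` at a generic point
-/

namespace Vale.Agent.P002R

open Matrix Module Vale.Agent.P002

variable {r : ℕ}

/-- commuting with the complement of an idempotent -/
theorem scalar_of_block {c e : P002R.Mat r ℂ} (hec : Commute e c) (he0 : e ≠ 0)
    (he1 : e ≠ 1) (hK : ∀ Θ : P002R.Mat r ℂ, c * ((1 - e) * Θ * e) = (1 - e) * Θ * e * c) :
    ∃ μ : ℂ, c = μ • (1 : P002R.Mat r ℂ) := by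
  have hv : ∀ p q : Fin r → ℂ, (1 - e) * vecMulVec p q * e =
      vecMulVec ((1 - e) *ᵥ p) (q ᵥ* e) := by
    intro p q
    rw [Matrix.mul_vecMulVec, Matrix.vecMulVec_mul]
  have hv2 : ∀ p q : Fin r → ℂ, vecMulVec (c *ᵥ ((1 - e) *ᵥ p)) (q ᵥ* e) =
      vecMulVec ((1 - e) *ᵥ p) ((q ᵥ* e) ᵥ* c) := by
    intro p q
    have h1 := hK (vecMulVec p q)
    rwa [hv, Matrix.mul_vecMulVec, Matrix.vecMulVec_mul] at h1
  -- a nonzero row
  obtain ⟨q₀, hq₀⟩ : ∃ q₀ : Fin r → ℂ, q₀ ᵥ* e ≠ 0 := by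
    by_contra hcon
    push Not at hcon
    apply he0
    ext i j
    have h1 := congrFun (hcon (Pi.single i 1)) j
    rwa [Matrix.single_one_vecMul] at h1
  obtain ⟨p₀, hp₀⟩ : ∃ p₀ : Fin r → ℂ, (1 - e) *ᵥ p₀ ≠ 0 := by
    by_contra hcon
    push Not at hcon
    apply he1
    have h2 : (1 - e) = 0 := by
      ext i j
      have h1 := congrFun (hcon (Pi.single j 1)) i
      rwa [Matrix.mulVec_single_one] at h1
    exact (sub_eq_zero.1 h2).symm
  obtain ⟨k, hk⟩ := Function.ne_iff.1 hq₀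
  obtain ⟨i, hi⟩ := Function.ne_iff.1 hp₀
  rw [Pi.zero_apply] at hk hi
  obtain ⟨μ, hμ⟩ : ∃ μ, μ = ((q₀ ᵥ* e) ᵥ* c) k / (q₀ ᵥ* e) k := ⟨_, rfl⟩
  have h1 : ∀ p : Fin r → ℂ, c *ᵥ ((1 - e) *ᵥ p) = μ • ((1 - e) *ᵥ p) := by
    intro p
    funext l
    have h2 := congrFun (congrFun (hv2 p q₀) l) k
    rw [vecMulVec_apply, vecMulVec_apply] at h2
    rw [Pi.smul_apply, smul_eq_mul, hμ]
    field_simp
    rw [h2]
    ring
  have h2 : ∀ q : Fin r → ℂ, (q ᵥ* e) ᵥ* c = μ • (q ᵥ* e) := by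
    intro q
    funext l
    have h3 := congrFun (congrFun (hv2 p₀ q) i) l
    rw [vecMulVec_apply, vecMulVec_apply, h1, Pi.smul_apply, smul_eq_mul] at h3
    rw [Pi.smul_apply, smul_eq_mul]
    apply mul_left_cancel₀ hi
    rw [← h3]
    ring
  have h3 : c * (1 - e) = μ • (1 - e) := by
    ext l m
    have h4 := congrFun (h1 (Pi.single m 1)) l
    rw [Matrix.mulVec_mulVec, Matrix.mulVec_single_one, Matrix.mulVec_single_one] at h4
    exact h4
  have h4 : e * c = μ • e := by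
    ext l m
    have h5 := congrFun (h2 (Pi.single l 1)) m
    rw [Matrix.vecMul_vecMul, Matrix.single_one_vecMul, Matrix.single_one_vecMul] at h5
    exact h5
  refine ⟨μ, ?_⟩
  calc c = c * (1 - e) + c * e := by rw [← Matrix.mul_add, sub_add_cancel, Matrix.mul_one]
    _ = μ • (1 - e) + μ • e := by rw [h3, ← hec.eq, h4]
    _ = μ • 1 := by rw [← smul_add, sub_add_cancel]

/-- `a'` in the eigenbasis -/
theorem eigen_a' {a b A : P002R.Mat r ℂ} {ν : Fin r → ℂ} (ha : IsUnit a) (hb : IsUnit b)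
    (hA : IsUnit A) (haA : a * A = A * diagonal ν) :
    (∀ i, ν i ≠ 0) ∧ (b * a⁻¹ * b⁻¹) * (b * A) = (b * A) * diagonal fun i => (ν i)⁻¹ := by
  have had : IsUnit a.det := (Matrix.isUnit_iff_isUnit_det _).1 ha
  have hbd : IsUnit b.det := (Matrix.isUnit_iff_isUnit_det _).1 hb
  have hAd : IsUnit A.det := (Matrix.isUnit_iff_isUnit_det _).1 hA
  have a2 := Matrix.nonsing_inv_mul _ had
  have b2 := Matrix.nonsing_inv_mul _ hbd
  have A2 := Matrix.nonsing_inv_mul _ hAd
  have hν : ∀ i, ν i ≠ 0 := by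
    have h1 : IsUnit (diagonal ν : P002R.Mat r ℂ) := by
      have h2 : (diagonal ν : P002R.Mat r ℂ) = A⁻¹ * (a * A) := by
        rw [haA, mulL A2]
      rw [h2]
      exact (Matrix.isUnit_nonsing_inv_iff.2 hA).mul (ha.mul hA)
    rw [Matrix.isUnit_iff_isUnit_det, det_diagonal, isUnit_iff_ne_zero,
      Finset.prod_ne_zero_iff] at h1
    exact fun i => h1 i (Finset.mem_univ i)
  refine ⟨hν, ?_⟩
  have h2 : (diagonal ν : P002R.Mat r ℂ) * diagonal (fun i => (ν i)⁻¹) = 1 := by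
    rw [Matrix.diagonal_mul_diagonal, ← Matrix.diagonal_one]
    congr 1
    funext i
    exact mul_inv_cancel₀ (hν i)
  have h3 : a⁻¹ * A = A * diagonal fun i => (ν i)⁻¹ := by
    calc a⁻¹ * A = a⁻¹ * (A * diagonal ν * diagonal fun i => (ν i)⁻¹) := by
          rw [Matrix.mul_assoc, h2, Matrix.mul_one]
      _ = a⁻¹ * (a * A) * diagonal fun i => (ν i)⁻¹ := by
          rw [haA]; simp only [Matrix.mul_assoc]
      _ = _ := by rw [mulL a2]
  calc (b * a⁻¹ * b⁻¹) * (b * A) = b * (a⁻¹ * A) := by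
        simp only [Matrix.mul_assoc, mulL b2]
    _ = _ := by rw [h3, Matrix.mul_assoc]

/-- commuting with a one sided inverse -/
theorem commute_of_mul_one {e M M' : P002R.Mat r ℂ} (h : M * M' = 1) (he : Commute e M) :
    Commute e M' := by
  have h' : M' * M = 1 := mul_eq_one_comm.1 h
  show e * M' = M' * e
  calc e * M' = (M' * M) * e * M' := by rw [h', Matrix.one_mul]
    _ = M' * (e * M) * M' := by rw [he.eq]; simp only [Matrix.mul_assoc]
    _ = M' * e := by simp only [Matrix.mul_assoc, h, Matrix.mul_one]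

variable {ι : Type}

theorem map_der_cI [Fintype ι] {K₀ : Subfield ℂ} {J : ι → P002R.Mat r ℂ}
    {Y : ι ⊕ Bool → P002R.Mat r ℂ} (hJK : ∀ j a b, J j a b ∈ K₀) (hY : ∀ j, IsUnit (Y j))
    (δ : Derivation ℤ ℂ ℂ) (hδ : ∀ a ∈ K₀, δ a = 0) (x : ι ⊕ Bool → P002R.Mat r ℂ)
    (hx : ∀ k, (Y k).map δ = x k * Y k) (j : ι) :
    (cI J Y j).map δ = x (Sum.inl j) * cI J Y j - cI J Y j * x (Sum.inl j) := by
  have h1 := map_der_listI hJK hY δ hδ x hx [j]
  rw [DL_cons, DL_nil, List.map_cons, List.map_nil, List.prod_cons, List.prod_nil, Matrix.mul_one,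
    Matrix.mul_one, Matrix.mul_zero, add_zero] at h1
  exact h1

/-- the derivative of an idempotent commuting with `c` -/
theorem der_idem {c e dc : P002R.Mat r ℂ} (he : e * e = e) (hec : Commute e c)
    (δ : Derivation ℤ ℂ ℂ) (hc : c.map δ = dc) :
    e * dc * (1 - e) = c * (e * e.map δ * (1 - e)) - (e * e.map δ * (1 - e)) * c := by
  have h1 := congrArg (fun M : P002R.Mat r ℂ => M.map δ) hec.eq
  simp only [map_der_mul] at h1
  rw [hc] at h1
  have h2 : e * (e.map δ * c + e * dc) * (1 - e) = e * (dc * e + c * e.map δ) * (1 - e) := by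
    rw [h1]
  have h3 : e * (e.map δ * c + e * dc) * (1 - e) =
      (e * e.map δ * (1 - e)) * c + e * dc * (1 - e) := by
    have e1 : c * (1 - e) = (1 - e) * c := by
      rw [Matrix.mul_sub, Matrix.sub_mul, hec.eq, Matrix.mul_one, Matrix.one_mul]
    calc e * (e.map δ * c + e * dc) * (1 - e)
        = e * e.map δ * (c * (1 - e)) + (e * e) * dc * (1 - e) := by
          simp only [Matrix.mul_add, Matrix.add_mul, Matrix.mul_assoc]
      _ = _ := by rw [e1, he]; simp only [Matrix.mul_assoc]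
  have h4 : e * (dc * e + c * e.map δ) * (1 - e) = c * (e * e.map δ * (1 - e)) := by
    have e2 : e * (1 - e) = 0 := by rw [Matrix.mul_sub, he, Matrix.mul_one, sub_self]
    calc e * (dc * e + c * e.map δ) * (1 - e)
        = e * dc * (e * (1 - e)) + (e * c) * e.map δ * (1 - e) := by
          simp only [Matrix.mul_add, Matrix.add_mul, Matrix.mul_assoc]
      _ = _ := by rw [e2, hec.eq, Matrix.mul_zero, zero_add]; simp only [Matrix.mul_assoc]
  rw [h3, h4] at h2
  rw [← h2]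
  abel

/-- the trace against a block -/
theorem trace_block {e Θ dc : P002R.Mat r ℂ} :
    trace (((1 - e) * Θ * e) * dc) = trace (Θ * (e * dc * (1 - e))) := by
  rw [show ((1 - e) * Θ * e) * dc = (1 - e) * (Θ * (e * dc)) by simp only [Matrix.mul_assoc],
    Matrix.trace_mul_comm (1 - e)]
  simp only [Matrix.mul_assoc]

theorem trace_comm_swap (Θ c u : P002R.Mat r ℂ) :
    trace (Θ * (c * u - u * c)) = trace ((Θ * c - c * Θ) * u) := by
  rw [Matrix.mul_sub, Matrix.sub_mul, trace_sub, trace_sub, ← Matrix.mul_assoc, ← Matrix.mul_assoc,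
    Matrix.trace_mul_comm (Θ * u) c, ← Matrix.mul_assoc c Θ u]

/-- At a generic point no nontrivial idempotent commutes with the frozen tuple, unless the
classes are scalar. -/
theorem gen_idem [Fintype ι] [DecidableEq ι] {K₀ : Subfield ℂ} {J : ι → P002R.Mat r ℂ}
    (hJK : ∀ j a b, J j a b ∈ K₀) {Y : ι ⊕ Bool → P002R.Mat r ℂ} (hJ : ∀ j, IsUnit (J j))
    (hY : ∀ j, IsUnit (Y j)) (L : List ι) (hnd : L.Nodup) (hrel : PhiI J L Y = 1)
    (hgen : GenPt1 K₀ J L Y) {A : P002R.Mat r ℂ} {ν : Fin r → ℂ} (hA : IsUnit A)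
    (hν : Function.Injective ν) (haA : Y (Sum.inr false) * A = A * diagonal ν)
    {e : P002R.Mat r ℂ} (he : e * e = e) (hec : ∀ j, Commute e (cI J Y j))
    (hea : Commute e (Y (Sum.inr false))) (he0 : e ≠ 0) (he1 : e ≠ 1) (j : ι) (hj : j ∈ L) :
    ∃ μ : ℂ, cI J Y j = μ • (1 : P002R.Mat r ℂ) := by
  obtain ⟨a, ha⟩ : ∃ a, a = Y (Sum.inr false) := ⟨_, rfl⟩
  obtain ⟨b, hb⟩ : ∃ b, b = Y (Sum.inr true) := ⟨_, rfl⟩
  obtain ⟨c, hc⟩ : ∃ c, c = cI J Y j := ⟨_, rfl⟩
  have hau : IsUnit a := ha ▸ hY _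
  have hbu : IsUnit b := hb ▸ hY _
  have hcu : IsUnit c := hc ▸ isUnit_cI hJ hY j
  have hecj : Commute e c := hc ▸ hec j
  have hrel' : (L.map (cI J Y)).prod * (a * b * a⁻¹ * b⁻¹) = 1 := by
    rw [← hrel, PhiI, hI, ha, hb]
  rw [← ha] at haA hea
  -- `e` commutes with `a'`
  have hea' : Commute e (b * a⁻¹ * b⁻¹) := by
    have h1 : ((L.map (cI J Y)).prod * a) * (b * a⁻¹ * b⁻¹) = 1 := by
      rw [← hrel']; simp only [Matrix.mul_assoc]
    refine commute_of_mul_one h1 (Commute.mul_right ?_ hea)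
    have h2 : ∀ l : List ι, Commute e (l.map (cI J Y)).prod := by
      intro l
      induction l with
      | nil => simp
      | cons k l ih => rw [List.map_cons, List.prod_cons]; exact (hec k).mul_right ih
    exact h2 L
  obtain ⟨hν0, haA'⟩ := eigen_a' hau hbu hA haA
  have hν' : Function.Injective fun i => (ν i)⁻¹ := fun i k hik => hν (inv_injective hik)
  obtain ⟨l', l'', hL⟩ := List.append_of_mem hj
  rw [← hc]
  refine scalar_of_block hecj he0 he1 fun Θ₀ => ?_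
  obtain ⟨Θ, hΘ⟩ : ∃ Θ, Θ = (1 - e) * Θ₀ * e := ⟨_, rfl⟩
  have e2 : (1 - e) * (1 - e) = 1 - e := by
    have e0 : (1 - e) * (1 - e) = 1 - e - (e - e * e) := by noncomm_ring
    rw [e0, he, sub_self, sub_zero]
  have hΘe : (1 - e) * Θ * e = Θ := by
    rw [hΘ]
    calc (1 - e) * ((1 - e) * Θ₀ * e) * e = ((1 - e) * (1 - e)) * Θ₀ * (e * e) := by
          simp only [Matrix.mul_assoc]
      _ = _ := by rw [e2, he]
  rw [← hΘ]
  have hcomm1 : Commute (1 - e) c := (Commute.one_left c).sub_left hecj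
  have hblock : ∀ M : P002R.Mat r ℂ, Commute (1 - e) M → Commute e M →
      (1 - e) * (Θ * M - M * Θ) * e = Θ * M - M * Θ := by
    intro M h1 h2
    calc (1 - e) * (Θ * M - M * Θ) * e
        = (1 - e) * Θ * (M * e) - ((1 - e) * M) * Θ * e := by
          simp only [Matrix.mul_sub, Matrix.sub_mul, Matrix.mul_assoc]
      _ = ((1 - e) * Θ * e) * M - M * ((1 - e) * Θ * e) := by
          rw [← h2.eq, h1.eq]; simp only [Matrix.mul_assoc]
      _ = _ := by rw [hΘe]
  obtain ⟨T, hT⟩ := exists_off hA hν haA he hea (hblock c hcomm1 hecj)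
  obtain ⟨Wm, hWm⟩ : ∃ Wm, Wm = -((1 - e) * T * e) := ⟨_, rfl⟩
  obtain ⟨F, hF⟩ := exists_FI (cI J Y) a Θ Wm j
  obtain ⟨D, hD⟩ := exists_D1lin (cI J Y) a b L
  obtain ⟨N, hN⟩ := exists_factor D F (by
    intro x hx
    rw [hD, ha, hb] at hx
    obtain ⟨δ, hδ, hxδ⟩ := hgen x hx
    have h1 := map_der_cI hJK hY δ hδ x hxδ j
    have h2 := hxδ (Sum.inr false)
    rw [← ha] at h2
    rw [← hc] at h1
    obtain ⟨u, hu⟩ : ∃ u, u = e * e.map δ * (1 - e) := ⟨_, rfl⟩
    have h3 := der_idem he hecj δ h1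
    have h4 := der_idem he hea δ h2
    rw [← hu] at h3 h4
    rw [hF, ← hc]
    have h5 : trace (Θ * (x (Sum.inl j) * c - c * x (Sum.inl j))) =
        trace ((T * a - a * T) * u) := by
      rw [hT, ← trace_comm_swap, ← h3, ← trace_block, hΘe]
    have h6 : trace (Wm * (x (Sum.inr false) * a)) = -trace ((T * a - a * T) * u) := by
      rw [hWm, Matrix.neg_mul, trace_neg, trace_block, h4, trace_comm_swap]
    rw [h5, h6, add_neg_cancel])
  obtain ⟨hN1, -, hN2⟩ := dual_gen hau hbu L hnd hrel' j l' l'' hL Θ Wm N (fun x => by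
    rw [← hF, hN, hD])
  rw [← hc] at hN2
  -- `N` commutes with `e`
  obtain ⟨n, hn⟩ := diag_of_commute (hbu.mul hA) hν' haA' hN1
  obtain ⟨n', hn'⟩ := diag_of_commute (hbu.mul hA) hν' haA' hea'
  have hNe : Commute N e := commute_of_diag (hbu.mul hA) hn hn'
  obtain ⟨K, hK⟩ : ∃ K, K = c * Θ - Θ * c := ⟨_, rfl⟩
  rw [← hK] at hN2
  have hKe : (1 - e) * K * e = K := by
    have h1 := hblock c hcomm1 hecj
    have h2 : K = -(Θ * c - c * Θ) := by rw [hK, neg_sub]
    rw [h2, Matrix.mul_neg, Matrix.neg_mul, h1]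
  have e3 : (1 - e) * e = 0 := by rw [Matrix.sub_mul, he, Matrix.one_mul, sub_self]
  have h1 : c * K = 0 := by
    have h2 : (1 - e) * (N * c) * e = 0 := by
      calc (1 - e) * (N * c) * e = (1 - e) * (N * (c * e)) := by simp only [Matrix.mul_assoc]
        _ = (1 - e) * ((N * e) * c) := by rw [← hecj.eq]; simp only [Matrix.mul_assoc]
        _ = ((1 - e) * e) * (N * c) := by rw [hNe.eq]; simp only [Matrix.mul_assoc]
        _ = 0 := by rw [e3, Matrix.zero_mul]
    have h3 : (1 - e) * (c * (N - K)) * e = -(c * K) := by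
      calc (1 - e) * (c * (N - K)) * e
          = ((1 - e) * c) * (N * e) - ((1 - e) * c) * K * e := by
            simp only [Matrix.mul_sub, Matrix.sub_mul, Matrix.mul_assoc]
        _ = c * (((1 - e) * e) * N) - c * ((1 - e) * K * e) := by
            rw [hcomm1.eq, hNe.eq]; simp only [Matrix.mul_assoc]
        _ = _ := by rw [e3, hKe, Matrix.zero_mul, Matrix.mul_zero, zero_sub]
    rw [hN2, h3, neg_eq_zero] at h2
    exact h2
  have h2 : K = 0 := hcu.mul_left_cancel (by rw [h1, Matrix.mul_zero])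
  rw [hK, sub_eq_zero] at h2
  exact h2

end Vale.Agent.P002R
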