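import Vale.Agent.P002R.Z2Det

/-!
# P002, genus 1, arbitrary classes: generic points
-/

namespace Vale.Agent.P002R

open Matrix Module Vale.Agent.P002

variable {r : ℕ} {ι : Type}

theorem charpoly_cI (J : ι → P002R.Mat r ℂ) {Y : ι ⊕ Bool → P002R.Mat r ℂ}
    (hY : ∀ j, IsUnit (Y j)) (j : ι) : (cI J Y j).charpoly = (J j).charpoly := by
  obtain ⟨u, hu⟩ := hY (Sum.inl j)
  have h1 : cI J Y j = (u : P002R.Mat r ℂ) * J j * (u : P002R.Mat r ℂ)⁻¹ := by
    rw [cI_eqn, cj_apply, ← hu]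
  rw [h1]
  exact Matrix.charpoly_units_conj u (J j)

/-- logarithmic derivative of a product -/
theorem der_prod {κ : Type*} [DecidableEq κ] (δ : Derivation ℤ ℂ ℂ) (s : Finset κ) (ν l : κ → ℂ)
    (h : ∀ i, δ (ν i) = l i * ν i) : δ (∏ i ∈ s, ν i) = (∑ i ∈ s, l i) * ∏ i ∈ s, ν i := by
  induction s using Finset.induction_on with
  | empty => simp
  | insert i s hi ih =>
    rw [Finset.prod_insert hi, Derivation.leibniz, ih, h, Finset.sum_insert hi, smul_eq_mul,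
      smul_eq_mul]
    ring

/-- The matrices `c_j` and `a` generate an irreducible group. -/
theorem gen_irr2 [Fintype ι] [DecidableEq ι] {K₀ : Subfield ℂ} {J : ι → P002R.Mat r ℂ}
    (hJK : ∀ j a b, J j a b ∈ K₀) (hJE : ∀ j lam, (J j).charpoly.IsRoot lam → lam ∈ K₀)
    {Y : ι ⊕ Bool → P002R.Mat r ℂ} (hJ : ∀ j, IsUnit (J j))
    (hY : ∀ j, IsUnit (Y j)) (L : List ι) (hnd : L.Nodup) (hmem : ∀ j, j ∈ L)
    (hrel : PhiI J L Y = 1) (hadj : Algebra.adjoin ℂ (Set.range (allI J Y)) = ⊤)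
    (hgen : GenPt1 K₀ J L Y) {A : P002R.Mat r ℂ} {ν : Fin r → ℂ} (hA : IsUnit A)
    (hν : Function.Injective ν) (haA : Y (Sum.inr false) * A = A * diagonal ν) (j₀ : ι)
    (hns : ∀ μ : ℂ, J j₀ ≠ μ • (1 : P002R.Mat r ℂ))
    (W : Submodule ℂ (Fin r → ℂ)) (hW : ∀ j, ∀ w ∈ W, cI J Y j *ᵥ w ∈ W)
    (hWa : ∀ w ∈ W, Y (Sum.inr false) *ᵥ w ∈ W) : W = ⊥ ∨ W = ⊤ := by
  classical
  -- no idempotents
  have hno : ∀ e : P002R.Mat r ℂ, e * e = e → (∀ j, Commute e (cI J Y j)) →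
      Commute e (Y (Sum.inr false)) → e = 0 ∨ e = 1 := by
    intro e he hec hea
    by_contra hcon
    push Not at hcon
    obtain ⟨μ, hμ⟩ := gen_idem hJK hJ hY L hnd hrel hgen hA hν haA he hec hea hcon.1 hcon.2 j₀
      (hmem j₀)
    apply hns μ
    have hud : IsUnit (Y (Sum.inl j₀)).det := (Matrix.isUnit_iff_isUnit_det _).1 (hY _)
    have a2 := Matrix.nonsing_inv_mul _ hud
    have h1 : J j₀ = (Y (Sum.inl j₀))⁻¹ * cI J Y j₀ * Y (Sum.inl j₀) := by
      rw [cI_eqn, cj_apply]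
      simp only [Matrix.mul_assoc, mulL a2, a2, Matrix.mul_one]
    rw [h1, hμ, Matrix.mul_smul, Matrix.mul_one, Matrix.smul_mul, a2]
  obtain ⟨a, ha⟩ : ∃ a, a = Y (Sum.inr false) := ⟨_, rfl⟩
  obtain ⟨b, hb⟩ : ∃ b, b = Y (Sum.inr true) := ⟨_, rfl⟩
  have hau : IsUnit a := ha ▸ hY _
  have hbu : IsUnit b := hb ▸ hY _
  have hAd : IsUnit A.det := (Matrix.isUnit_iff_isUnit_det _).1 hA
  have A2 := Matrix.nonsing_inv_mul _ hAd
  obtain ⟨P, hP⟩ : ∃ P, P = (L.map (cI J Y)).prod := ⟨_, rfl⟩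
  have hrel' : P * (a * b * a⁻¹ * b⁻¹) = 1 := by
    rw [← hrel, PhiI, hI, ha, hb, hP]
  have haA2 : a * A = A * diagonal ν := by rw [ha]; exact haA
  obtain ⟨hν0, haA'⟩ := eigen_a' hau hbu hA haA2
  have hν' : Function.Injective fun i => (ν i)⁻¹ := fun i k hik => hν (inv_injective hik)
  obtain ⟨a', ha'⟩ : ∃ a', a' = b * a⁻¹ * b⁻¹ := ⟨_, rfl⟩
  rw [← ha'] at haA'
  have hrel2 : (P * a) * a' = 1 := by
    rw [← hrel', ha']; simp only [Matrix.mul_assoc]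
  -- stability
  have hWP : ∀ w ∈ W, P *ᵥ w ∈ W := fun w hw => by
    rw [hP]
    exact prod_stab (cI J Y) W L (fun j _ => hW j) w hw
  have hWa2 : ∀ w ∈ W, a *ᵥ w ∈ W := fun w hw => by rw [ha]; exact hWa w hw
  have hWPa : ∀ w ∈ W, (P * a) *ᵥ w ∈ W := fun w hw => by
    rw [← Matrix.mulVec_mulVec]
    exact hWP _ (hWa2 w hw)
  have hWa' : ∀ w ∈ W, a' *ᵥ w ∈ W := inv_stab (mul_eq_one_comm.1 hrel2) W hWPa
  -- the index sets
  obtain ⟨I, hI1⟩ : ∃ I : Finset (Fin r), ∀ i, i ∈ I ↔ A *ᵥ Pi.single i 1 ∈ W :=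
    ⟨Finset.univ.filter fun i => A *ᵥ Pi.single i 1 ∈ W, fun i => by simp⟩
  obtain ⟨I', hI2⟩ : ∃ I' : Finset (Fin r), ∀ i, i ∈ I' ↔ (b * A) *ᵥ Pi.single i 1 ∈ W :=
    ⟨Finset.univ.filter fun i => (b * A) *ᵥ Pi.single i 1 ∈ W, fun i => by simp⟩
  have hd1 := dSub_eigen hA haA2 hν W hWa2 I hI1
  have hd2 := dSub_eigen (hbu.mul hA) haA' hν' W hWa' I' hI2
  have hd3 : dSub W P ∈ K₀ := by
    have h2 : ∀ l : List ι, dSub W (l.map (cI J Y)).prod ∈ K₀ := by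
      intro l
      induction l with
      | nil =>
        rw [List.map_nil, List.prod_nil, dSub_one]
        exact K₀.one_mem
      | cons k l ih =>
        rw [List.map_cons, List.prod_cons, dSub_mul W _ _ (hW k)
          (prod_stab (cI J Y) W l fun j _ => hW j)]
        refine K₀.mul_mem (dSub_mem (fun lam hlam => hJE k lam ?_) W (hW k)) ih
        rwa [charpoly_cI J hY] at hlam
    rw [hP]
    exact h2 L
  have hd4 : dSub W P * (∏ i ∈ I, ν i) * ∏ i ∈ I', (ν i)⁻¹ = 1 := by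
    rw [← hd1, ← hd2, ← dSub_mul W P a hWP hWa2, ← dSub_mul W (P * a) a' hWPa hWa', hrel2, dSub_one]
  have hd5 : dSub W P * (∏ i ∈ I, ν i) = ∏ i ∈ I', ν i := by
    rw [Finset.prod_inv_distrib] at hd4
    have h3 : (∏ i ∈ I', ν i) ≠ 0 := Finset.prod_ne_zero_iff.2 fun i _ => hν0 i
    field_simp at hd4
    exact hd4
  -- the index sets agree
  obtain ⟨m, hm⟩ : ∃ m : Fin r → ℂ, ∀ i, m i = (if i ∈ I then 1 else 0) - (if i ∈ I' then 1 else 0) :=
    ⟨_, fun i => rfl⟩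
  have hm0 : m = 0 := by
    refine gen_free hJ hY L hnd hmem hrel hA hν haA j₀ hno m fun x hx => ?_
    obtain ⟨δ, hδ, hxδ⟩ := hgen x hx
    obtain ⟨X, hX⟩ : ∃ X, X = x (Sum.inr false) := ⟨_, rfl⟩
    have h1 : a.map δ = X * a := by rw [ha, hX]; exact hxδ _
    have h2 := der_eigenvalues δ h1 hA haA2
    have h3 := der_prod δ I ν (fun i => (A⁻¹ * X * A) i i) h2
    have h4 := der_prod δ I' ν (fun i => (A⁻¹ * X * A) i i) h2
    have h5 := congrArg δ hd5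
    rw [Derivation.leibniz, h3, h4, hδ _ hd3, smul_zero, add_zero, smul_eq_mul] at h5
    have h6 : (∑ i ∈ I, (A⁻¹ * X * A) i i - ∑ i ∈ I', (A⁻¹ * X * A) i i) * ∏ i ∈ I', ν i = 0 := by
      rw [sub_mul, ← h5, ← hd5]
      ring
    have h7 : (∏ i ∈ I', ν i) ≠ 0 := Finset.prod_ne_zero_iff.2 fun i _ => hν0 i
    have h8 := (mul_eq_zero.1 h6).resolve_right h7
    rw [← hX, show A * diagonal m * A⁻¹ * X = A * (diagonal m * A⁻¹ * X) by
      simp only [Matrix.mul_assoc], Matrix.trace_mul_comm, Matrix.trace]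
    have h9 : ∀ i, (diagonal m * A⁻¹ * X * A).diag i = m i * (A⁻¹ * X * A) i i := by
      intro i
      rw [Matrix.diag_apply, show diagonal m * A⁻¹ * X * A = diagonal m * (A⁻¹ * X * A) by
        simp only [Matrix.mul_assoc], Matrix.diagonal_mul]
    simp only [h9, hm, sub_mul, ite_mul, one_mul, zero_mul, Finset.sum_sub_distrib,
      Finset.sum_ite_mem, Finset.univ_inter]
    exact h8
  have hII : ∀ i, i ∈ I → i ∈ I' := by
    intro i hi
    have h1 := hm i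
    rw [hm0, if_pos hi, Pi.zero_apply] at h1
    by_contra hcon
    rw [if_neg hcon, sub_zero] at h1
    exact zero_ne_one h1
  -- `b` preserves `W`
  have hWb : ∀ w ∈ W, b *ᵥ w ∈ W := by
    intro w hw
    have a1 : A * A⁻¹ = 1 := Matrix.mul_nonsing_inv _ hAd
    obtain ⟨c, hc⟩ : ∃ c, c = A⁻¹ *ᵥ w := ⟨_, rfl⟩
    have hwc : w = A *ᵥ c := by rw [hc, Matrix.mulVec_mulVec, a1, Matrix.one_mulVec]
    have hwm : A *ᵥ c ∈ W := hwc ▸ hw
    have h4 : c = ∑ i, c i • (Pi.single i 1 : Fin r → ℂ) := by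
      funext k
      rw [Finset.sum_apply, Finset.sum_eq_single k]
      · rw [Pi.smul_apply, Pi.single_eq_same, smul_eq_mul, mul_one]
      · intro b _ hb
        rw [Pi.smul_apply, Pi.single_eq_of_ne hb.symm, smul_zero]
      · intro h
        exact absurd (Finset.mem_univ _) h
    rw [hwc, Matrix.mulVec_mulVec, h4, Matrix.mulVec_sum]
    refine Submodule.sum_mem _ fun i _ => ?_
    rw [Matrix.mulVec_smul]
    by_cases hci : c i = 0
    · rw [hci, zero_smul]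
      exact W.zero_mem
    · exact W.smul_mem _ ((hI2 i).1 (hII i ((hI1 i).2 (col_mem haA2 hν W hWa2 c hwm i hci))))
  refine eq_bot_or_top_of_adjoin (allI J Y) hadj W fun k => ?_
  rcases k with j | s
  · exact hW j
  · cases s
    · exact hWa
    · rw [allI_inr, ← hb]
      exact hWb

end Vale.Agent.P002R
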