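import Vale.Agent.P002R.Z1Minor

/-!
# P002, genus 1, arbitrary classes: idempotents commuting with the frozen tuple
-/

namespace Vale.Agent.P002R

open Matrix Module Vale.Agent.P002

variable {r : ℕ}

/-- matrices commuting with a matrix with distinct eigenvalues are diagonal in the eigenbasis -/
theorem diag_of_commute {M A N : P002R.Mat r ℂ} {ν : Fin r → ℂ} (hA : IsUnit A)
    (hν : Function.Injective ν) (hMA : M * A = A * diagonal ν) (h : Commute N M) :
    ∃ n : Fin r → ℂ, N * A = A * diagonal n := by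
  have hud : IsUnit A.det := (Matrix.isUnit_iff_isUnit_det _).1 hA
  have a1 : A * A⁻¹ = 1 := Matrix.mul_nonsing_inv _ hud
  have a2 : A⁻¹ * A = 1 := Matrix.nonsing_inv_mul _ hud
  obtain ⟨T, hT⟩ : ∃ T, T = A⁻¹ * (N * A) := ⟨_, rfl⟩
  have hAT : N * A = A * T := by rw [hT, mulL a1]
  have h1 : T * diagonal ν = diagonal ν * T := by
    have h2 : A * (T * diagonal ν) = A * (diagonal ν * T) := by
      calc A * (T * diagonal ν) = N * (A * diagonal ν) := by
            rw [← Matrix.mul_assoc, ← hAT, Matrix.mul_assoc]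
        _ = (N * M) * A := by rw [← hMA, Matrix.mul_assoc]
        _ = M * (N * A) := by rw [h.eq, Matrix.mul_assoc]
        _ = A * (diagonal ν * T) := by rw [hAT, ← Matrix.mul_assoc, hMA, Matrix.mul_assoc]
    exact hA.mul_left_cancel h2
  refine ⟨fun i => T i i, ?_⟩
  rw [hAT]
  congr 1
  ext i j
  by_cases hij : i = j
  · rw [hij, Matrix.diagonal_apply_eq]
  · rw [Matrix.diagonal_apply_ne _ hij]
    have h3 := congrFun (congrFun h1 i) j
    rw [Matrix.mul_diagonal, Matrix.diagonal_mul] at h3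
    have h4 : (ν i - ν j) * T i j = 0 := by linear_combination -h3
    rcases mul_eq_zero.1 h4 with h | h
    · exact absurd (hν (sub_eq_zero.1 h)) hij
    · exact h

theorem commute_of_diag {A N N' : P002R.Mat r ℂ} {n n' : Fin r → ℂ} (hA : IsUnit A)
    (h : N * A = A * diagonal n) (h' : N' * A = A * diagonal n') : Commute N N' := by
  have h1 : N * N' * A = N' * N * A := by
    calc N * N' * A = N * (N' * A) := Matrix.mul_assoc _ _ _
      _ = A * (diagonal n * diagonal n') := by
        rw [h', ← Matrix.mul_assoc, h, Matrix.mul_assoc]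
      _ = A * (diagonal n' * diagonal n) := by
        rw [Matrix.diagonal_mul_diagonal, Matrix.diagonal_mul_diagonal]
        congr 2
        funext i
        exact mul_comm _ _
      _ = N' * (N * A) := by rw [h, ← Matrix.mul_assoc N', h', Matrix.mul_assoc]
      _ = _ := (Matrix.mul_assoc _ _ _).symm
  exact hA.mul_right_cancel h1

/-- Solving the commutator equation in an off diagonal block. -/
theorem exists_off {a A e S : P002R.Mat r ℂ} {ν : Fin r → ℂ} (hA : IsUnit A)
    (hν : Function.Injective ν) (haA : a * A = A * diagonal ν) (he : e * e = e)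
    (hea : Commute e a) (hS : (1 - e) * S * e = S) :
    ∃ T : P002R.Mat r ℂ, T * a - a * T = S := by
  have hud : IsUnit A.det := (Matrix.isUnit_iff_isUnit_det _).1 hA
  have a1 : A * A⁻¹ = 1 := Matrix.mul_nonsing_inv _ hud
  have a2 : A⁻¹ * A = 1 := Matrix.nonsing_inv_mul _ hud
  obtain ⟨n, hn⟩ := diag_of_commute hA hν haA hea
  have hn2 : ∀ i, n i * n i = n i := by
    intro i
    have h1 : A * (diagonal n * diagonal n) = A * diagonal n := by
      rw [← Matrix.mul_assoc, ← hn, Matrix.mul_assoc, ← hn, ← Matrix.mul_assoc, he]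
    have h2 := hA.mul_left_cancel h1
    rw [Matrix.diagonal_mul_diagonal] at h2
    have h3 := congrFun (congrFun h2 i) i
    rwa [Matrix.diagonal_apply_eq, Matrix.diagonal_apply_eq] at h3
  obtain ⟨S', hS'⟩ : ∃ S', S' = A⁻¹ * (S * A) := ⟨_, rfl⟩
  have hSA : S * A = A * S' := by rw [hS', mulL a1]
  have hS'd : ∀ i, S' i i = 0 := by
    intro i
    have h1 : A * ((1 - diagonal n) * S' * diagonal n) = A * S' := by
      calc A * ((1 - diagonal n) * S' * diagonal n)
          = (A - A * diagonal n) * S' * diagonal n := by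
            simp only [Matrix.mul_sub, Matrix.sub_mul, Matrix.mul_assoc, Matrix.one_mul]
        _ = (1 - e) * (A * S') * diagonal n := by
            rw [← hn]
            simp only [Matrix.sub_mul, Matrix.mul_assoc, Matrix.one_mul]
        _ = (1 - e) * S * (A * diagonal n) := by rw [← hSA]; simp only [Matrix.mul_assoc]
        _ = ((1 - e) * S * e) * A := by rw [← hn]; simp only [Matrix.mul_assoc]
        _ = A * S' := by rw [hS, hSA]
    have h2 := congrFun (congrFun (hA.mul_left_cancel h1) i) i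
    rw [Matrix.mul_diagonal, Matrix.sub_mul, Matrix.sub_apply, Matrix.one_mul,
      Matrix.diagonal_mul] at h2
    have h3 := hn2 i
    linear_combination -h2 - S' i i * h3
  obtain ⟨T', hT'⟩ : ∃ T' : P002R.Mat r ℂ, T' * diagonal ν - diagonal ν * T' = S' := by
    refine ⟨Matrix.of fun i j => if i = j then 0 else S' i j / (ν j - ν i), ?_⟩
    ext i j
    rw [Matrix.sub_apply, Matrix.mul_diagonal, Matrix.diagonal_mul, Matrix.of_apply]
    by_cases hij : i = j
    · rw [if_pos hij, zero_mul, mul_zero, sub_zero, hij, hS'd]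
    · rw [if_neg hij]
      have h1 : ν j - ν i ≠ 0 := sub_ne_zero.2 fun h => hij (hν h).symm
      field_simp
  have hAi : A⁻¹ * a = diagonal ν * A⁻¹ := by
    calc A⁻¹ * a = A⁻¹ * (a * A) * A⁻¹ := by
          simp only [Matrix.mul_assoc, a1, Matrix.mul_one]
      _ = _ := by rw [haA, mulL a2]
  refine ⟨A * T' * A⁻¹, ?_⟩
  calc A * T' * A⁻¹ * a - a * (A * T' * A⁻¹)
      = A * T' * (A⁻¹ * a) - (a * A) * T' * A⁻¹ := by simp only [Matrix.mul_assoc]
    _ = A * (T' * diagonal ν - diagonal ν * T') * A⁻¹ := by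
      rw [hAi, haA]
      simp only [Matrix.mul_sub, Matrix.sub_mul, Matrix.mul_assoc]
    _ = S := by
      rw [hT', ← hSA, Matrix.mul_assoc, a1, Matrix.mul_one]

variable {ι : Type}

/-- the general functional -/
theorem exists_FI (c : ι → P002R.Mat r ℂ) (a Θ Wm : P002R.Mat r ℂ) (j : ι) :
    ∃ F : (ι ⊕ Bool → P002R.Mat r ℂ) →ₗ[ℂ] ℂ, ∀ x, F x =
      trace (Θ * (x (Sum.inl j) * c j - c j * x (Sum.inl j))) +
        trace (Wm * (x (Sum.inr false) * a)) := by
  refine ⟨LinearMap.mk (AddHom.mk (fun x => trace (Θ * (x (Sum.inl j) * c j -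
    c j * x (Sum.inl j))) + trace (Wm * (x (Sum.inr false) * a))) ?_) ?_, fun x => rfl⟩
  · intro x x'
    have e1 : Θ * ((x + x') (Sum.inl j) * c j - c j * (x + x') (Sum.inl j)) =
        Θ * (x (Sum.inl j) * c j - c j * x (Sum.inl j)) +
          Θ * (x' (Sum.inl j) * c j - c j * x' (Sum.inl j)) := by
      rw [Pi.add_apply]
      noncomm_ring
    have e2 : Wm * ((x + x') (Sum.inr false) * a) = Wm * (x (Sum.inr false) * a) +
        Wm * (x' (Sum.inr false) * a) := by
      rw [Pi.add_apply]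
      noncomm_ring
    rw [e1, e2, trace_add, trace_add]
    ring
  · intro t x
    show trace (Θ * ((t • x) (Sum.inl j) * c j - c j * (t • x) (Sum.inl j))) +
      trace (Wm * ((t • x) (Sum.inr false) * a)) =
      t • (trace (Θ * (x (Sum.inl j) * c j - c j * x (Sum.inl j))) +
        trace (Wm * (x (Sum.inr false) * a)))
    have e1 : Θ * ((t • x) (Sum.inl j) * c j - c j * (t • x) (Sum.inl j)) =
        t • (Θ * (x (Sum.inl j) * c j - c j * x (Sum.inl j))) := by
      rw [Pi.smul_apply]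
      simp only [Matrix.smul_mul, Matrix.mul_smul, smul_sub, Matrix.mul_sub]
    have e2 : Wm * ((t • x) (Sum.inr false) * a) = t • (Wm * (x (Sum.inr false) * a)) := by
      rw [Pi.smul_apply]
      simp only [Matrix.smul_mul, Matrix.mul_smul]
    rw [e1, e2, trace_smul, trace_smul]
    simp only [smul_eq_mul]
    ring

/-- the dual equations -/
theorem dual_gen [DecidableEq ι] {c : ι → P002R.Mat r ℂ} {a b : P002R.Mat r ℂ}
    (ha : IsUnit a) (hb : IsUnit b) (L : List ι) (hnd : L.Nodup)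
    (hrel : (L.map c).prod * (a * b * a⁻¹ * b⁻¹) = 1) (j : ι) (l' l'' : List ι)
    (hL : L = l' ++ j :: l'') (Θ Wm N : P002R.Mat r ℂ)
    (hN : ∀ x : ι ⊕ Bool → P002R.Mat r ℂ,
      trace (Θ * (x (Sum.inl j) * c j - c j * x (Sum.inl j))) +
        trace (Wm * (x (Sum.inr false) * a)) = trace (N * D1 c a b L x)) :
    Commute N (b * a⁻¹ * b⁻¹) ∧
      (a * b * a⁻¹ * b⁻¹) * N * (L.map c).prod - b⁻¹ * N * b = a * Wm ∧
      N * c j = c j * (N - (c j * Θ - Θ * c j)) := by
  have had : IsUnit a.det := (Matrix.isUnit_iff_isUnit_det _).1 ha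
  have hbd : IsUnit b.det := (Matrix.isUnit_iff_isUnit_det _).1 hb
  obtain ⟨cP, hcP⟩ : ∃ cP, cP = (L.map c).prod := ⟨_, rfl⟩
  obtain ⟨h, hh⟩ : ∃ h, h = a * b * a⁻¹ * b⁻¹ := ⟨_, rfl⟩
  have H : HInv a a⁻¹ b b⁻¹ h cP :=
    ⟨Matrix.mul_nonsing_inv _ had, Matrix.nonsing_inv_mul _ had, Matrix.mul_nonsing_inv _ hbd,
      Matrix.nonsing_inv_mul _ hbd, hh, by rw [← hrel, hcP, hh]⟩
  rw [← hcP, ← hh]
  have hN' : ∀ x : ι ⊕ Bool → P002R.Mat r ℂ,
      trace (Θ * (x (Sum.inl j) * c j - c j * x (Sum.inl j))) +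
        trace (Wm * (x (Sum.inr false) * a)) =
      trace (N * (DL c (fun j => x (Sum.inl j)) L * h +
      cP * (x (Sum.inr false) * h + a * x (Sum.inr true) * (b * a⁻¹ * b⁻¹) -
        a * b * a⁻¹ * x (Sum.inr false) * b⁻¹ - h * x (Sum.inr true)))) := by
    intro x
    have h1 := hN x
    rw [D1, ← hh, ← hcP] at h1
    exact h1
  have hu1 : ∀ (s : Bool) (X : P002R.Mat r ℂ) (j : ι),
      (Function.update (0 : ι ⊕ Bool → P002R.Mat r ℂ) (Sum.inr s) X) (Sum.inl j) = 0 := by
    intro s X j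
    rw [Function.update_of_ne (by simp), Pi.zero_apply]
  have hu2 : ∀ (s : Bool) (X : P002R.Mat r ℂ) (j : ι),
      (Function.update (0 : ι ⊕ Bool → P002R.Mat r ℂ) (Sum.inl j) X) (Sum.inr s) = 0 := by
    intro s X j
    rw [Function.update_of_ne (by simp), Pi.zero_apply]
  have hu3 : ∀ (X : P002R.Mat r ℂ) (j k : ι), k ≠ j →
      (Function.update (0 : ι ⊕ Bool → P002R.Mat r ℂ) (Sum.inl j) X) (Sum.inl k) = 0 := by
    intro X j k hk
    rw [Function.update_of_ne (by simpa using hk), Pi.zero_apply]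
  have hu4 : ∀ X : P002R.Mat r ℂ,
      (Function.update (0 : ι ⊕ Bool → P002R.Mat r ℂ) (Sum.inr false) X) (Sum.inr true) = 0 := by
    intro X
    rw [Function.update_of_ne (by simp), Pi.zero_apply]
  have hu5 : ∀ X : P002R.Mat r ℂ,
      (Function.update (0 : ι ⊕ Bool → P002R.Mat r ℂ) (Sum.inr true) X) (Sum.inr false) = 0 := by
    intro X
    rw [Function.update_of_ne (by simp), Pi.zero_apply]
  have hndL : (l' ++ j :: l'').Nodup := hL ▸ hnd
  rw [List.nodup_append, List.nodup_cons] at hndL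
  have hjl' : ∀ k ∈ l', k ≠ j := fun k hk => hndL.2.2 k hk j List.mem_cons_self
  have hvar : ∀ (k : ι) (l₁ l₂ : List ι), L = l₁ ++ k :: l₂ → ∀ K : P002R.Mat r ℂ,
      DL c (fun i => (Function.update (0 : ι ⊕ Bool → P002R.Mat r ℂ) (Sum.inl k) K)
          (Sum.inl i)) L = (l₁.map c).prod * (K * c k - c k * K) * (l₂.map c).prod := by
    intro k l₁ l₂ hl K
    have hnd' : (l₁ ++ k :: l₂).Nodup := hl ▸ hnd
    rw [List.nodup_append, List.nodup_cons] at hnd'
    rw [hl, DL_split c _ l₁ l₂ k (fun i hi => ?_) (fun i hi => ?_), Function.update_self]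
    · exact hu3 K k i (hnd'.2.2 i hi k List.mem_cons_self)
    · refine hu3 K k i ?_
      rintro rfl
      exact hnd'.2.1.1 hi
  have hc1 := pre_ind c N l' (by
    intro l₁ k l₂ hl hcom
    obtain ⟨X, hX⟩ : ∃ X, X = (l₁.map c).prod := ⟨_, rfl⟩
    obtain ⟨Z, hZ⟩ : ∃ Z, Z = ((l₂ ++ j :: l'').map c).prod := ⟨_, rfl⟩
    rw [← hX] at hcom
    have hkj : k ≠ j := hjl' k (by rw [hl]; simp)
    have hLk : L = l₁ ++ k :: (l₂ ++ j :: l'') := by rw [hL, hl]; simp
    have h1 : ∀ K, trace ((0 : P002R.Mat r ℂ) * K) =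
        trace ((c k * (Z * h * N * X) - (Z * h * N * X) * c k) * K) := by
      intro K
      have h2 := hN' (Function.update 0 (Sum.inl k) K)
      rw [hvar k _ _ hLk K, hu2, hu2, hu3 K k j hkj.symm, ← hX, ← hZ] at h2
      simp only [Matrix.zero_mul, Matrix.mul_zero, add_zero, trace_zero, sub_self] at h2
      rw [← tr_comm, Matrix.zero_mul, trace_zero, h2]
      simp only [Matrix.mul_assoc]
    have h2 := eq_of_trace_eq h1
    have hcyc := cyc_one (X := X) (a := c k) (Y := Z * h) (by
      rw [← H.rel, hcP, hLk, hX, hZ]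
      simp only [List.map_append, List.map_cons, List.prod_append, List.prod_cons,
        Matrix.mul_assoc])
    refine comm_of_inv hcyc.1 ?_
    rw [show Z * h * X * N = Z * h * N * X by rw [Matrix.mul_assoc, ← hcom.eq, Matrix.mul_assoc,
      Matrix.mul_assoc, Matrix.mul_assoc], ← h2])
  have Eb := rankB_Eb (N := N) H (fun X => by
    have h2 := hN' (Function.update 0 (Sum.inr true) X)
    rw [Function.update_self, hu5, hu1,
      DL_zero_fun c L _ (fun j => hu1 true X j)] at h2
    simp only [Matrix.zero_mul, Matrix.mul_zero, sub_zero, zero_add, trace_zero, add_zero] at h2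
    exact h2.symm)
  have Ea := rankB_Ea (N := N) (Wm := Wm) H (fun X => by
    have h2 := hN' (Function.update 0 (Sum.inr false) X)
    rw [Function.update_self, hu4, hu1,
      DL_zero_fun c L _ (fun j => hu1 false X j)] at h2
    simp only [Matrix.zero_mul, Matrix.mul_zero, sub_zero, zero_add, trace_zero,
      add_zero] at h2 ⊢
    exact h2)
  refine ⟨?_, Ea, ?_⟩
  · show N * (b * a⁻¹ * b⁻¹) = b * a⁻¹ * b⁻¹ * N
    have h1 : b * a⁻¹ * b⁻¹ * N = b * (a⁻¹ * (b⁻¹ * N)) := by simp only [Matrix.mul_assoc]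
    rw [h1, Eb]
    simp only [Matrix.mul_assoc]
  · obtain ⟨X, hX⟩ : ∃ X, X = (l'.map c).prod := ⟨_, rfl⟩
    obtain ⟨Z, hZ⟩ : ∃ Z, Z = (l''.map c).prod := ⟨_, rfl⟩
    have hcom : Commute N X := hX ▸ hc1.1
    have h1 : ∀ K, trace ((c j * Θ - Θ * c j) * K) =
        trace ((c j * (Z * h * N * X) - (Z * h * N * X) * c j) * K) := by
      intro K
      have h2 := hN' (Function.update 0 (Sum.inl j) K)
      rw [hvar j _ _ hL K, hu2, hu2, Function.update_self, ← hX, ← hZ] at h2
      simp only [Matrix.zero_mul, Matrix.mul_zero, add_zero, trace_zero, sub_self] at h2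
      have h3 := tr_comm Θ 1 1 (c j) K
      simp only [Matrix.one_mul, Matrix.mul_one] at h3
      rw [← tr_comm, ← h3, h2]
      simp only [Matrix.mul_assoc]
    have h2 := eq_of_trace_eq h1
    have hcyc := cyc_one (X := X) (a := c j) (Y := Z * h) (by
      rw [← H.rel, hcP, hL, hX, hZ]
      simp only [List.map_append, List.map_cons, List.prod_append, List.prod_cons,
        Matrix.mul_assoc])
    obtain ⟨V, hV⟩ : ∃ V, V = Z * h * X := ⟨_, rfl⟩
    rw [← hV] at hcyc
    have h3 : Z * h * N * X = V * N := by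
      rw [hV, Matrix.mul_assoc _ X N, ← hcom.eq, ← Matrix.mul_assoc]
    rw [h3] at h2
    rw [h2]
    calc N * c j = c j * (V * N * c j) := by
          rw [← Matrix.mul_assoc, ← Matrix.mul_assoc, hcyc.1, Matrix.one_mul]
      _ = c j * (N - (c j * (V * N) - V * N * c j)) := by
          rw [← Matrix.mul_assoc (c j) V N, hcyc.1, Matrix.one_mul, sub_sub_cancel]

end Vale.Agent.P002R
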