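import Vale.Agent.P002R.Z2Free

/-!
# P002, genus 1, arbitrary classes: the frozen tuple is irreducible at a generic point
-/

namespace Vale.Agent.P002R

open Matrix Module Vale.Agent.P002

variable {r : ℕ}

/-- spectral projections commute with the commutant -/
theorem commute_spectral {A N c : P002R.Mat r ℂ} {n : Fin r → ℂ} (hA : IsUnit A)
    (hn : N * A = A * diagonal n) (hNc : Commute N c) (g : ℂ → ℂ) :
    Commute (A * diagonal (fun i => g (n i)) * A⁻¹) c := by
  have hud : IsUnit A.det := (Matrix.isUnit_iff_isUnit_det _).1 hA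
  have a1 : A * A⁻¹ = 1 := Matrix.mul_nonsing_inv _ hud
  have a2 : A⁻¹ * A = 1 := Matrix.nonsing_inv_mul _ hud
  obtain ⟨C, hC⟩ : ∃ C, C = A⁻¹ * (c * A) := ⟨_, rfl⟩
  have hcA : c * A = A * C := by rw [hC, mulL a1]
  have h1 : diagonal n * C = C * diagonal n := by
    have h2 : A * (diagonal n * C) = A * (C * diagonal n) := by
      calc A * (diagonal n * C) = N * (A * C) := by rw [← Matrix.mul_assoc, ← hn, Matrix.mul_assoc]
        _ = (N * c) * A := by rw [← hcA, Matrix.mul_assoc]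
        _ = c * (N * A) := by rw [hNc.eq, Matrix.mul_assoc]
        _ = A * (C * diagonal n) := by
          rw [hn, ← Matrix.mul_assoc, hcA, Matrix.mul_assoc]
    exact hA.mul_left_cancel h2
  have h2 : diagonal (fun i => g (n i)) * C = C * diagonal (fun i => g (n i)) := by
    ext i j
    rw [Matrix.diagonal_mul, Matrix.mul_diagonal]
    have h3 := congrFun (congrFun h1 i) j
    rw [Matrix.diagonal_mul, Matrix.mul_diagonal] at h3
    by_cases hij : n i = n j
    · rw [hij]
      ring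
    · have h4 : (n i - n j) * C i j = 0 := by linear_combination h3
      rcases mul_eq_zero.1 h4 with h | h
      · exact absurd (sub_eq_zero.1 h) hij
      · rw [h, mul_zero, zero_mul]
  have hAc : A⁻¹ * c = C * A⁻¹ := by
    rw [hC]
    simp only [Matrix.mul_assoc, a1, Matrix.mul_one]
  show A * diagonal (fun i => g (n i)) * A⁻¹ * c = c * (A * diagonal (fun i => g (n i)) * A⁻¹)
  calc A * diagonal (fun i => g (n i)) * A⁻¹ * c
      = A * (diagonal (fun i => g (n i)) * C) * A⁻¹ := by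
        rw [Matrix.mul_assoc _ A⁻¹ c, hAc]
        simp only [Matrix.mul_assoc]
    _ = (c * A) * diagonal (fun i => g (n i)) * A⁻¹ := by
        rw [h2, hcA]
        simp only [Matrix.mul_assoc]
    _ = _ := by simp only [Matrix.mul_assoc]

variable {ι : Type}

/-- The logarithmic derivatives of the eigenvalues of `a` are free. -/
theorem gen_free [DecidableEq ι] {J : ι → P002R.Mat r ℂ}
    {Y : ι ⊕ Bool → P002R.Mat r ℂ} (hJ : ∀ j, IsUnit (J j))
    (hY : ∀ j, IsUnit (Y j)) (L : List ι) (hnd : L.Nodup) (hmem : ∀ j, j ∈ L)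
    (hrel : PhiI J L Y = 1) {A : P002R.Mat r ℂ} {ν : Fin r → ℂ} (hA : IsUnit A)
    (hν : Function.Injective ν) (haA : Y (Sum.inr false) * A = A * diagonal ν) (j₀ : ι)
    (hno : ∀ e : P002R.Mat r ℂ, e * e = e → (∀ j, Commute e (cI J Y j)) →
      Commute e (Y (Sum.inr false)) → e = 0 ∨ e = 1)
    (m : Fin r → ℂ) (hm : ∀ x : ι ⊕ Bool → P002R.Mat r ℂ,
      D1 (cI J Y) (Y (Sum.inr false)) (Y (Sum.inr true)) L x = 0 →
      trace (A * diagonal m * A⁻¹ * x (Sum.inr false)) = 0) : m = 0 := by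
  classical
  obtain ⟨a, ha⟩ : ∃ a, a = Y (Sum.inr false) := ⟨_, rfl⟩
  obtain ⟨b, hb⟩ : ∃ b, b = Y (Sum.inr true) := ⟨_, rfl⟩
  have hau : IsUnit a := ha ▸ hY _
  have hbu : IsUnit b := hb ▸ hY _
  have had : IsUnit a.det := (Matrix.isUnit_iff_isUnit_det _).1 hau
  have hbd : IsUnit b.det := (Matrix.isUnit_iff_isUnit_det _).1 hbu
  have hAd : IsUnit A.det := (Matrix.isUnit_iff_isUnit_det _).1 hA
  have a1 := Matrix.mul_nonsing_inv _ had
  have b1 := Matrix.mul_nonsing_inv _ hbd
  have b2 := Matrix.nonsing_inv_mul _ hbd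
  have A1 := Matrix.mul_nonsing_inv _ hAd
  have A2 := Matrix.nonsing_inv_mul _ hAd
  have hrel' : (L.map (cI J Y)).prod * (a * b * a⁻¹ * b⁻¹) = 1 := by
    rw [← hrel, PhiI, hI, ha, hb]
  rw [← ha, ← hb] at hm
  rw [← ha] at haA hno
  obtain ⟨E, hE⟩ : ∃ E, E = A * diagonal m * A⁻¹ := ⟨_, rfl⟩
  obtain ⟨F, hF⟩ := exists_FI (cI J Y) a 0 (a⁻¹ * E) j₀
  obtain ⟨D, hD⟩ := exists_D1lin (cI J Y) a b L
  have htr : ∀ X : P002R.Mat r ℂ, trace (a⁻¹ * E * (X * a)) = trace (E * X) := by
    intro X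
    rw [show a⁻¹ * E * (X * a) = (a⁻¹ * E * X) * a by simp only [Matrix.mul_assoc],
      Matrix.trace_mul_comm]
    congr 1
    simp only [Matrix.mul_assoc, mulL a1]
  obtain ⟨N, hN⟩ := exists_factor D F (by
    intro x hx
    rw [hD] at hx
    rw [hF, Matrix.zero_mul, trace_zero, zero_add, htr, hE]
    exact hm x hx)
  have hdual : ∀ k : ι, Commute N (b * a⁻¹ * b⁻¹) ∧
      (a * b * a⁻¹ * b⁻¹) * N * (L.map (cI J Y)).prod - b⁻¹ * N * b = a * (a⁻¹ * E) ∧
      N * cI J Y k = cI J Y k * (N - (cI J Y k * 0 - 0 * cI J Y k)) := by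
    intro k
    obtain ⟨l', l'', hL⟩ := List.append_of_mem (hmem k)
    refine dual_gen hau hbu L hnd hrel' k l' l'' hL 0 (a⁻¹ * E) N fun x => ?_
    rw [← hD, ← hN, hF, Matrix.zero_mul, Matrix.zero_mul, trace_zero]
  have hNc : ∀ k, Commute N (cI J Y k) := by
    intro k
    have h1 := (hdual k).2.2
    rw [Matrix.mul_zero, Matrix.zero_mul, sub_zero, sub_zero] at h1
    exact h1
  obtain ⟨hN1, hN2, -⟩ := hdual j₀
  obtain ⟨P, hP⟩ : ∃ P, P = (L.map (cI J Y)).prod := ⟨_, rfl⟩
  have hPu : IsUnit P := hP ▸ isUnit_cI_prod hJ hY L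
  have hNP : Commute N P := by
    have h2 : ∀ l : List ι, Commute N (l.map (cI J Y)).prod := by
      intro l
      induction l with
      | nil => simp
      | cons k l ih => rw [List.map_cons, List.prod_cons]; exact (hNc k).mul_right ih
    exact hP ▸ h2 L
  rw [← hP] at hN2 hrel'
  have hNa : Commute N a := by
    have h1 : (b * a⁻¹ * b⁻¹) * (P * a) = 1 := by
      apply mul_eq_one_comm.1
      rw [← hrel']; simp only [Matrix.mul_assoc]
    have h2 : Commute N (P * a) := commute_of_mul_one h1 hN1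
    have h3 : P * (N * a) = P * (a * N) := by
      rw [← Matrix.mul_assoc, ← hNP.eq, Matrix.mul_assoc, h2.eq, Matrix.mul_assoc]
    exact hPu.mul_left_cancel h3
  have h1 : (a * b * a⁻¹ * b⁻¹) * N * P = N := by
    rw [Matrix.mul_assoc, hNP.eq, ← Matrix.mul_assoc, mul_eq_one_comm.1 hrel', Matrix.one_mul]
  rw [h1, mulL a1] at hN2
  obtain ⟨n, hn⟩ := diag_of_commute hA hν haA hNa
  -- `N` is a scalar
  have hsc : ∀ i k, n i = n k := by
    intro i₀ k₀
    obtain ⟨g, hg⟩ : ∃ g : ℂ → ℂ, g = fun z => if z = n i₀ then 1 else 0 := ⟨_, rfl⟩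
    obtain ⟨e, he⟩ : ∃ e, e = A * diagonal (fun i => g (n i)) * A⁻¹ := ⟨_, rfl⟩
    have hee : e * e = e := by
      rw [he]
      have h2 : (diagonal (fun i => g (n i)) : P002R.Mat r ℂ) * diagonal (fun i => g (n i)) =
          diagonal fun i => g (n i) := by
        rw [Matrix.diagonal_mul_diagonal]
        congr 1
        funext i
        rw [hg]
        simp only
        split_ifs <;> simp
      calc A * diagonal (fun i => g (n i)) * A⁻¹ * (A * diagonal (fun i => g (n i)) * A⁻¹)
          = A * (diagonal (fun i => g (n i)) * diagonal (fun i => g (n i))) * A⁻¹ := by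
            simp only [Matrix.mul_assoc, mulL A2]
        _ = _ := by rw [h2]
    have heA : e * A = A * diagonal fun i => g (n i) := by
      rw [he]; simp only [Matrix.mul_assoc, A2, Matrix.mul_one]
    have hdiag : ∀ i, g (n i) = (A⁻¹ * (e * A)) i i := by
      intro i
      rw [heA, mulL A2, Matrix.diagonal_apply_eq]
    rcases hno e hee (fun j => he ▸ commute_spectral hA hn (hNc j) g)
      (he ▸ commute_spectral hA hn hNa g) with h | h
    · exfalso
      have h2 := hdiag i₀
      rw [h, Matrix.zero_mul, Matrix.mul_zero, Matrix.zero_apply, hg] at h2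
      simp at h2
    · have h2 := hdiag k₀
      rw [h, Matrix.one_mul, A2, Matrix.one_apply_eq, hg] at h2
      simp only at h2
      by_contra hcon
      rw [if_neg (Ne.symm hcon)] at h2
      exact zero_ne_one h2
  have hE0 : E = 0 := by
    rcases Nat.eq_zero_or_pos r with hr | hr
    · subst hr
      exact Subsingleton.elim _ _
    · obtain ⟨i₀⟩ : Nonempty (Fin r) := ⟨⟨0, hr⟩⟩
      have h2 : N = n i₀ • (1 : P002R.Mat r ℂ) := by
        have h3 : diagonal n = n i₀ • (1 : P002R.Mat r ℂ) := by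
          rw [Matrix.smul_one_eq_diagonal]
          congr 1
          funext i
          exact hsc i i₀
        have h4 : N = N * A * A⁻¹ := by rw [Matrix.mul_assoc, A1, Matrix.mul_one]
        rw [h4, hn, h3, Matrix.mul_smul, Matrix.mul_one, Matrix.smul_mul, A1]
      rw [← hN2, h2, Matrix.mul_smul, Matrix.mul_one, Matrix.smul_mul, b2, sub_self]
  have h5 : (diagonal m : P002R.Mat r ℂ) = 0 := by
    have h6 : (diagonal m : P002R.Mat r ℂ) = A⁻¹ * E * A := by
      rw [hE]; simp only [Matrix.mul_assoc, mulL A2, A2, Matrix.mul_one]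
    rw [h6, hE0, Matrix.mul_zero, Matrix.zero_mul]
  funext i
  have h7 := congrFun (congrFun h5 i) i
  rwa [Matrix.diagonal_apply_eq] at h7

/-- derivation of the eigenvalues -/
theorem der_eigenvalues {a A X : P002R.Mat r ℂ} {ν : Fin r → ℂ} (δ : Derivation ℤ ℂ ℂ)
    (ha : a.map δ = X * a) (hA : IsUnit A) (haA : a * A = A * diagonal ν) (i : Fin r) :
    δ (ν i) = (A⁻¹ * X * A) i i * ν i := by
  have hud : IsUnit A.det := (Matrix.isUnit_iff_isUnit_det _).1 hA
  have a1 : A * A⁻¹ = 1 := Matrix.mul_nonsing_inv _ hud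
  have a2 : A⁻¹ * A = 1 := Matrix.nonsing_inv_mul _ hud
  obtain ⟨Z, hZ⟩ : ∃ Z, Z = A⁻¹ * A.map δ := ⟨_, rfl⟩
  have hAZ : A.map δ = A * Z := by rw [hZ, mulL a1]
  have h1 := congrArg (fun M : P002R.Mat r ℂ => M.map δ) haA
  simp only [map_der_mul] at h1
  rw [ha, hAZ] at h1
  have h2 : A⁻¹ * X * A * diagonal ν + diagonal ν * Z =
      Z * diagonal ν + (diagonal ν).map δ := by
    calc A⁻¹ * X * A * diagonal ν + diagonal ν * Z
        = A⁻¹ * (X * (A * diagonal ν)) + A⁻¹ * (A * diagonal ν) * Z := by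
          rw [mulL a2]; simp only [Matrix.mul_assoc]
      _ = A⁻¹ * (X * a * A + a * (A * Z)) := by
          rw [← haA, Matrix.mul_add]; simp only [Matrix.mul_assoc]
      _ = _ := by rw [h1, Matrix.mul_add, mulL a2, Matrix.mul_assoc, mulL a2]
  have h3 := congrFun (congrFun h2 i) i
  rw [Matrix.add_apply, Matrix.add_apply, Matrix.mul_diagonal, Matrix.diagonal_mul,
    Matrix.mul_diagonal, Matrix.map_apply, Matrix.diagonal_apply_eq] at h3
  linear_combination -h3

end Vale.Agent.P002R
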