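import Vale.Agent.P002R.Z2Minor
import Vale.Agent.P002R.Z1Chart

/-!
# P002, genus 1, arbitrary classes: generic representations
-/

namespace Vale.Agent.P002R

open Matrix Module Vale.Agent.P002

variable {r : ℕ} {ι : Type}

/-- a countable field which contains the entries and the eigenvalues -/
theorem exists_entry_field [Finite ι] (J : ι → P002R.Mat r ℂ) :
    ∃ K₀ : Subfield ℂ, Countable K₀ ∧ (∀ j a b, J j a b ∈ K₀) ∧
      ∀ j lam, (J j).charpoly.IsRoot lam → lam ∈ K₀ := by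
  obtain ⟨K₀, hK₀, hsub⟩ := exists_countable_subfield'
    ((Set.range fun p : ι × Fin r × Fin r => J p.1 p.2.1 p.2.2) ∪
      ⋃ j, {lam : ℂ | (J j).charpoly.IsRoot lam}) (by
      have := Finite.to_countable (α := ι)
      refine (Set.countable_range _).union (Set.countable_iUnion fun j => Set.Finite.countable ?_)
      exact Polynomial.finite_setOfPred_isRoot (Matrix.charpoly_monic _).ne_zero)
  exact ⟨K₀, hK₀, fun j a b => hsub (Or.inl ⟨(j, a, b), rfl⟩),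
    fun j lam hlam => hsub (Or.inr (Set.mem_iUnion.2 ⟨j, hlam⟩))⟩

/-- Near every irreducible tuple, one of whose classes is not scalar, there is a generic one. -/
theorem exists_generic_two [Fintype ι] [DecidableEq ι] (hr : 1 ≤ r) (L : List ι)
    (hnd : L.Nodup) (hmem : ∀ j, j ∈ L) (J : ι → P002R.Mat r ℂ) (hJ : ∀ j, IsUnit (J j)) (j₀ : ι)
    (hns : ∀ μ : ℂ, J j₀ ≠ μ • (1 : P002R.Mat r ℂ))
    (Y₀ : ι ⊕ Bool → P002R.Mat r ℂ) (hY₀ : ∀ j, IsUnit (Y₀ j)) (hrel : PhiI J L Y₀ = 1)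
    (hadj : Algebra.adjoin ℂ (Set.range (allI J Y₀)) = ⊤) (U : Set (ι ⊕ Bool → P002R.Mat r ℂ))
    (hU : U ∈ nhds Y₀) :
    ∃ Y ∈ U, (∀ j, IsUnit (Y j)) ∧ PhiI J L Y = 1 ∧
      Algebra.adjoin ℂ (Set.range (allI J Y)) = ⊤ ∧
      (∀ W : Submodule ℂ (Fin r → ℂ), (∀ j, ∀ w ∈ W, cI J Y j *ᵥ w ∈ W) →
        (∀ w ∈ W, Y (Sum.inr false) *ᵥ w ∈ W) → W = ⊥ ∨ W = ⊤) ∧
      ∃ (A : P002R.Mat r ℂ) (ν : Fin r → ℂ), IsUnit A ∧ Function.Injective ν ∧
        Y (Sum.inr false) * A = A * diagonal ν ∧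
        (∀ m m' : Fin r → ℕ, ∏ i, ν i ^ m i = ∏ i, ν i ^ m' i → m = m') ∧
        ∀ (l₁ l₂ : List ι), L = l₁ ++ l₂ → ∀ (k : ℕ) (f g : Fin k → Fin r),
          Function.Injective f → Function.Injective g →
          (((Y (Sum.inr true) * A)⁻¹ * (l₁.map (cI J Y)).prod * A).submatrix f g).det ≠ 0 := by
  obtain ⟨K₀, hK₀, hJK, hJE⟩ := exists_entry_field J
  obtain ⟨Y, hYU, hYu, hYrel, hYadj, hgen⟩ := generic_point1 hr L hnd hmem K₀ hK₀ J hJK Y₀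
    hY₀ hrel hadj U hU
  -- distinct eigenvalues; rotate the list
  obtain ⟨A, ν, hA, hν, haA⟩ := exists_eigenbasis (M := Y (Sum.inr false)) (by
    obtain ⟨i₀, l, rfl⟩ : ∃ i₀ l, L = i₀ :: l := by
      cases L with
      | nil => exact absurd (hmem j₀) (by simp)
      | cons i₀ l => exact ⟨i₀, l, rfl⟩
    exact fun lam y w hy hw hya haw => gen_pair hJ hYu i₀ l hnd hmem hYrel hYadj hgen lam y w hy
      hw hya haw)
  have hno : ∀ e : P002R.Mat r ℂ, e * e = e → (∀ j, Commute e (cI J Y j)) →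
      Commute e (Y (Sum.inr false)) → e = 0 ∨ e = 1 := by
    intro e he hec hea
    by_contra hcon
    push Not at hcon
    obtain ⟨μ, hμ⟩ := gen_idem hJK hJ hYu L hnd hYrel hgen hA hν haA he hec hea hcon.1 hcon.2 j₀
      (hmem j₀)
    apply hns μ
    have hud : IsUnit (Y (Sum.inl j₀)).det := (Matrix.isUnit_iff_isUnit_det _).1 (hYu _)
    have a2 := Matrix.nonsing_inv_mul _ hud
    have h1 : J j₀ = (Y (Sum.inl j₀))⁻¹ * cI J Y j₀ * Y (Sum.inl j₀) := by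
      rw [cI_eqn, cj_apply]
      simp only [Matrix.mul_assoc, mulL a2, a2, Matrix.mul_one]
    rw [h1, hμ, Matrix.mul_smul, Matrix.mul_one, Matrix.smul_mul, a2]
  have hirr : ∀ W : Submodule ℂ (Fin r → ℂ), (∀ j, ∀ w ∈ W, cI J Y j *ᵥ w ∈ W) →
      (∀ w ∈ W, Y (Sum.inr false) *ᵥ w ∈ W) → W = ⊥ ∨ W = ⊤ :=
    gen_irr2 hJK hJE hJ hYu L hnd hmem hYrel hYadj hgen hA hν haA j₀ hns
  refine ⟨Y, hYU, hYu, hYrel, hYadj, hirr, A, ν, hA, hν, haA, fun m m' h => ?_, ?_⟩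
  · exact gen_mult_indep hYu L hgen hA haA (fun m hm => gen_free hJ hYu L hnd hmem hYrel hA hν haA
      j₀ hno m hm) m m' h
  · rintro l₁ l₂ rfl k f g hf hg
    exact gen_minor2 hJK hJ hYu l₁ l₂ hnd hmem hYrel hirr hgen hA hν haA f g hf hg

/-- Generic representations of the once punctured handle. -/
structure GenRep {n : ℕ} (x : FU 1 n →* (Mat r ℂ)ˣ) (A : Mat r ℂ) (ν : Fin r → ℂ) : Prop where
  /-- `c_j` and `a` generate an irreducible group -/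
  irr : ∀ W : Submodule ℂ (Fin r → ℂ), (∀ j, ∀ w ∈ W, mt x (Sum.inl j) *ᵥ w ∈ W) →
    (∀ w ∈ W, mt x (Sum.inr false) *ᵥ w ∈ W) → W = ⊥ ∨ W = ⊤
  /-- the eigenbasis of `a` -/
  unit : IsUnit A
  inj : Function.Injective ν
  eig : mt x (Sum.inr false) * A = A * diagonal ν
  /-- multiplicative independence -/
  indep : ∀ m m' : Fin r → ℕ, ∏ i, ν i ^ m i = ∏ i, ν i ^ m' i → m = m'
  /-- general position of the flags of `b a⁻¹ b⁻¹` and `a` -/
  minor : ∀ (l₁ l₂ : List (Fin n)), List.finRange n = l₁ ++ l₂ → ∀ (k : ℕ) (f g : Fin k → Fin r),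
    Function.Injective f → Function.Injective g →
    (((mt x (Sum.inr true) * A)⁻¹ * (l₁.map fun j => mt x (Sum.inl j)).prod * A).submatrix
      f g).det ≠ 0

/-- Density of the generic representations. -/
theorem exists_genRep {n : ℕ} (hr : 0 < r) (C : Fin n → (Mat r ℂ)ˣ) (j₀ : Fin n)
    (hns : ∀ μ : ℂ, (C j₀ : Mat r ℂ) ≠ μ • (1 : Mat r ℂ))
    (x : FU 1 n →* (Mat r ℂ)ˣ) (hrel : x (relatorU 1 n) = 1)
    (hcl : ∀ j, IsConj (C j) (x (FreeGroup.of (Sum.inr j))))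
    (hadj : Algebra.adjoin ℂ (Set.range fun w => (x w : Mat r ℂ)) = ⊤)
    (f : MvPolynomial (GenU 1 n × Fin r × Fin r) ℂ) (hf : evalG x f ≠ 0) :
    ∃ (z : FU 1 n →* (Mat r ℂ)ˣ) (A : Mat r ℂ) (ν : Fin r → ℂ), evalG z f ≠ 0 ∧
      z (relatorU 1 n) = 1 ∧ (∀ j, IsConj (C j) (z (FreeGroup.of (Sum.inr j)))) ∧
      Algebra.adjoin ℂ (Set.range fun w => (z w : Mat r ℂ)) = ⊤ ∧ GenRep z A ν := by
  classical
  have hy : ∀ j, ∃ y : (Mat r ℂ)ˣ, y * C j * y⁻¹ = x (FreeGroup.of (Sum.inr j)) := fun j =>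
    isConj_iff.1 (hcl j)
  choose y hy using hy
  obtain ⟨Y₀, hY₀, hY₀'⟩ : ∃ Y₀ : Fin n ⊕ Bool → Mat r ℂ,
      (∀ j, Y₀ (Sum.inl j) = (y j : Mat r ℂ)) ∧ ∀ s, Y₀ (Sum.inr s) = mt x (Sum.inr s) :=
    ⟨Sum.elim (fun j => (y j : Mat r ℂ)) fun s => mt x (Sum.inr s), fun _ => rfl, fun _ => rfl⟩
  obtain ⟨J', hJ'⟩ : ∃ J' : Fin n → Mat r ℂ, ∀ j, J' j = (C j : Mat r ℂ) :=
    ⟨_, fun _ => rfl⟩
  have hY₀u : ∀ j, IsUnit (Y₀ j) := by
    rintro (j | s)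
    · rw [hY₀]
      exact (y j).isUnit
    · rw [hY₀', mt_inr]
      exact Units.isUnit _
  have hJ'u : ∀ j, IsUnit (J' j) := fun j => by rw [hJ']; exact (C j).isUnit
  have hcj : allI J' Y₀ = mt x := by
    funext k
    rcases k with j | s
    · rw [allI_inl, cI_eqn, cj_apply, hY₀, hJ', mt_inl, ← hy, Units.val_mul, Units.val_mul,
        Matrix.coe_units_inv]
    · rw [allI_inr, hY₀']
  have hPhi : ∀ (z : FU 1 n →* (Mat r ℂ)ˣ) (Y : Fin n ⊕ Bool → Mat r ℂ),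
      mt z = allI J' Y → (z (relatorU 1 n) = 1 ↔ PhiI J' (List.finRange n) Y = 1) := by
    intro z Y hz
    rw [relU1_iff, PhiI, hI]
    have h1 : (fun j => mt z (Sum.inl j)) = cI J' Y := by
      funext j
      rw [hz, allI_inl]
    rw [h1, hz, allI_inr, allI_inr]
  -- the neighbourhood
  have hU : {Y : Fin n ⊕ Bool → Mat r ℂ | evT1 f (allI J' Y) ≠ 0} ∈ nhds Y₀ := by
    have h1 : ContinuousAt (fun Y : Fin n ⊕ Bool → Mat r ℂ => evT1 f (allI J' Y)) Y₀ :=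
      ContinuousAt.comp (f := fun Y : Fin n ⊕ Bool → Mat r ℂ => allI J' Y)
        (evT1_continuous f).continuousAt (continuousAt_allI' J' hY₀u)
    refine h1.eventually_ne ?_
    rw [hcj, ← evalG_eq_evT1]
    exact hf
  obtain ⟨Y, hYU, hYu, hYrel, hYadj, hYirr, A, ν, hA, hν, haA, hind, hmin⟩ :=
    exists_generic_two hr (List.finRange n) (List.nodup_finRange _)
    (fun j => List.mem_finRange j) J' hJ'u j₀ (by rw [hJ']; exact hns) Y₀ hY₀u
    ((hPhi x Y₀ hcj.symm).1 hrel) (by rw [hcj]; exact (adjoin_iff1 x).1 hadj) _ hU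
  have hYU' : evT1 f (allI J' Y) ≠ 0 := hYU
  obtain ⟨yy, hyy⟩ : ∃ yy : Fin n ⊕ Bool → (Mat r ℂ)ˣ, ∀ k, (yy k : Mat r ℂ) = Y k :=
    ⟨fun k => (hYu k).unit, fun k => rfl⟩
  obtain ⟨z, hz1, hz2⟩ : ∃ z : FU 1 n →* (Mat r ℂ)ˣ,
      (∀ j, z (FreeGroup.of (Sum.inr j)) = yy (Sum.inl j) * C j * (yy (Sum.inl j))⁻¹) ∧
      ∀ s, z (FreeGroup.of (Sum.inl (0, s))) = yy (Sum.inr s) :=
    ⟨mkR1 (Sum.elim (fun j => yy (Sum.inl j) * C j * (yy (Sum.inl j))⁻¹) fun s => yy (Sum.inr s)),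
      fun j => mkR1_inr _ j, fun s => mkR1_inl _ 0 s⟩
  have hmz : mt z = allI J' Y := by
    funext k
    rcases k with j | s
    · rw [allI_inl, cI_eqn, cj_apply, hJ', ← hyy, mt_inl, hz1, Units.val_mul, Units.val_mul,
        Matrix.coe_units_inv]
    · rw [allI_inr, mt_inr, hz2, hyy]
  refine ⟨z, A, ν, ?_, (hPhi z Y hmz).2 hYrel, ?_, ?_, ?_⟩
  · rw [evalG_eq_evT1, hmz]
    exact hYU'
  · intro j
    rw [hz1, isConj_iff]
    exact ⟨yy (Sum.inl j), rfl⟩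
  · rw [adjoin_iff1, hmz]
    exact hYadj
  · have h1 : (fun j => mt z (Sum.inl j)) = cI J' Y := by
      funext j
      rw [hmz, allI_inl]
    have h2 : ∀ s, mt z (Sum.inr s) = Y (Sum.inr s) := fun s => by rw [hmz, allI_inr]
    refine ⟨?_, hA, hν, by rw [h2]; exact haA, hind, ?_⟩
    · intro W hW hWa
      rw [h2] at hWa
      exact hYirr W (fun j => by rw [← h1]; exact hW j) hWa
    · rw [h1, h2]
      exact hmin

end Vale.Agent.P002R
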