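import Vale.Agent.P002R.Z2Gen

/-!
# P002, genus 1, arbitrary classes: minors at a generic point
-/

namespace Vale.Agent.P002R

open Matrix Module Vale.Agent.P002

variable {r : ℕ}

theorem DL_const {κ : Type*} (q : κ → P002R.Mat r ℂ) (z : P002R.Mat r ℂ) (l : List κ) :
    DL q (fun _ => z) l = z * (l.map q).prod - (l.map q).prod * z := by
  induction l with
  | nil => rw [DL_nil, List.map_nil, List.prod_nil, Matrix.mul_one, Matrix.one_mul, sub_self]
  | cons j l ih =>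
    rw [DL_cons, ih, List.map_cons, List.prod_cons]
    noncomm_ring

theorem DL_rotate {κ : Type*} (q x : κ → P002R.Mat r ℂ) (t : κ) (l : List κ)
    (hrel : q t * (l.map q).prod = 1) (h : DL q x (t :: l) = 0) :
    DL q x (l ++ [t]) = 0 := by
  obtain ⟨P, hP⟩ : ∃ P, P = (l.map q).prod := ⟨_, rfl⟩
  obtain ⟨E, hE⟩ : ∃ E, E = DL q x l := ⟨_, rfl⟩
  have h2 : P * q t = 1 := mul_eq_one_comm.1 (hP ▸ hrel)
  rw [DL_cons, ← hP, ← hE] at h
  rw [DL_append, DL_cons, DL_nil, List.map_cons, List.map_nil, List.prod_cons, List.prod_nil,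
    ← hP, ← hE]
  have h3 : P * ((x t * q t - q t * x t) * P + q t * E) * q t = 0 := by
    rw [h, Matrix.mul_zero, Matrix.zero_mul]
  have h4 : P * ((x t * q t - q t * x t) * P + q t * E) * q t =
      P * ((x t * q t - q t * x t) * (P * q t)) + P * q t * (E * q t) := by
    simp only [Matrix.mul_add, Matrix.add_mul, Matrix.mul_assoc]
  rw [h4, h2, Matrix.mul_one, Matrix.one_mul] at h3
  rw [Matrix.mul_one, Matrix.mul_one, Matrix.mul_zero, add_zero, ← h3, add_comm]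

variable {ι : Type}

/-- the functional equation with frozen `a`, ends `a'` and `a` -/
theorem gen_F2 [DecidableEq ι] {K₀ : Subfield ℂ} {J : ι → P002R.Mat r ℂ}
    {Y : ι ⊕ Bool → P002R.Mat r ℂ} (hJ : ∀ j, IsUnit (J j)) (hY : ∀ j, IsUnit (Y j))
    (l₁ l₂ : List ι) (hnd : (l₁ ++ l₂).Nodup) (hmem : ∀ j, j ∈ l₁ ++ l₂)
    (hrel : PhiI J (l₁ ++ l₂) Y = 1)
    (hirr : ∀ W : Submodule ℂ (Fin r → ℂ), (∀ j, ∀ w ∈ W, cI J Y j *ᵥ w ∈ W) →
      (∀ w ∈ W, Y (Sum.inr false) *ᵥ w ∈ W) → W = ⊥ ∨ W = ⊤)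
    (hgen : GenPt1 K₀ J (l₁ ++ l₂) Y)
    (u y : Fin r → ℂ) (hu : u ≠ 0) (hy : y ≠ 0) :
    ∃ (δ : Derivation ℤ ℂ ℂ) (x : ι ⊕ Bool → P002R.Mat r ℂ), (∀ a ∈ K₀, δ a = 0) ∧
      (∀ k, (Y k).map δ = x k * Y k) ∧ x (Sum.inr false) = 0 ∧
      y ⬝ᵥ ((DL (cI J Y) (fun j => x (Sum.inl j)) l₁ - x (Sum.inr true) *
        (l₁.map (cI J Y)).prod) *ᵥ u) ≠ 0 := by
  obtain ⟨M, hM⟩ : ∃ M : List (ι ⊕ Bool), M = (l₁ ++ l₂).map Sum.inl ++ [Sum.inr false] :=
    ⟨_, rfl⟩
  have hL : (Sum.inr true :: M : List (ι ⊕ Bool)) =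
      Sum.inr true :: (l₁.map Sum.inl ++ (l₂.map Sum.inl ++ Sum.inr false :: [])) := by
    rw [hM]; simp
  have hqu : ∀ k, IsUnit (qI J Y k) := by
    rintro (j | s)
    · exact isUnit_cI hJ hY j
    · cases s
      · exact hY _
      · rw [qI_true]
        exact ((hY _).mul (Matrix.isUnit_nonsing_inv_iff.2 (hY _))).mul
          (Matrix.isUnit_nonsing_inv_iff.2 (hY _))
  have hrelM : qI J Y (Sum.inr true) * (M.map (qI J Y)).prod = 1 := by
    apply mul_eq_one_comm.1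
    rw [hM, List.map_append, List.prod_append, qI_prod]
    simp only [List.map_cons, List.map_nil, List.prod_cons, List.prod_nil, Matrix.mul_one,
      qI_false, qI_true]
    rw [← hrel, PhiI, hI]
    simp only [Matrix.mul_assoc]
  obtain ⟨x, hx2, hx3⟩ := rank_one (qI J Y) hqu (Sum.inr true) (Sum.inr false)
    (l₁.map Sum.inl) (l₂.map Sum.inl) [] (by
      rw [← hL, hM, List.nodup_cons, List.nodup_append]
      refine ⟨by simp, (List.nodup_map_iff Sum.inl_injective).2 hnd, by simp, ?_⟩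
      intro k hk k' hk'
      rw [List.mem_map] at hk
      obtain ⟨j, -, rfl⟩ := hk
      simp only [List.mem_cons, List.not_mem_nil, or_false] at hk'
      rw [hk']
      simp) (by
      rw [← hL, List.map_cons, List.prod_cons]
      exact hrelM) (by
      intro k
      rw [← hL, hM, List.mem_cons, List.mem_append]
      rcases k with j | s
      · right
        left
        exact List.mem_map_of_mem (hmem j)
      · cases s <;> simp) (fun W hW => hirr W (fun j => hW (Sum.inl j)) (hW (Sum.inr false)))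
    u y hu hy
  rw [← hL] at hx2
  -- subtract a constant
  obtain ⟨z, hz⟩ : ∃ z, z = x (Sum.inr false) := ⟨_, rfl⟩
  obtain ⟨x', hx'⟩ : ∃ x' : ι ⊕ Bool → P002R.Mat r ℂ, x' = x + (-1 : ℂ) • fun _ => z := ⟨_, rfl⟩
  have hx'k : ∀ k, x' k = x k - z := by
    intro k
    rw [hx', Pi.add_apply, Pi.smul_apply, neg_one_smul, ← sub_eq_add_neg]
  have hDL : ∀ l, DL (qI J Y) x' l = DL (qI J Y) x l -
      (z * (l.map (qI J Y)).prod - (l.map (qI J Y)).prod * z) := by
    intro l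
    rw [hx', DL_add, DL_smul, DL_const, neg_one_smul, ← sub_eq_add_neg]
  have hx'2 : DL (qI J Y) x' (Sum.inr true :: M) = 0 := by
    rw [hDL, hx2, List.map_cons, List.prod_cons, hrelM, Matrix.mul_one, Matrix.one_mul, sub_self,
      sub_zero]
  have hx'1 : x' (Sum.inr false) = 0 := by rw [hx'k, ← hz, sub_self]
  have hD := D1_frozen (l₁ ++ l₂) (qI J Y) (fun j => qI_inl J Y j) (qI_false J Y)
    (qI_true J Y) x' hx'1
  have hM2 : ((l₁ ++ l₂).map Sum.inl ++ [Sum.inr false, Sum.inr true] : List (ι ⊕ Bool)) =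
      M ++ [Sum.inr true] := by
    rw [hM]; simp
  rw [hM2, DL_rotate (qI J Y) x' _ M hrelM hx'2] at hD
  obtain ⟨δ, h1, h2⟩ := hgen x' hD
  refine ⟨δ, x', h1, h2, hx'1, ?_⟩
  have h3 : ∀ l : List ι, DL (qI J Y) x' (l.map Sum.inl) =
      DL (cI J Y) (fun j => x' (Sum.inl j)) l := by
    intro l
    induction l with
    | nil => rfl
    | cons j l ih =>
      rw [List.map_cons, DL_cons, DL_cons, ih, qI_prod, qI_inl]
  rw [← h3, hDL, hx'k]
  rw [← hz, qI_prod] at hx3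
  rw [qI_prod]
  have h4 : DL (qI J Y) x (l₁.map Sum.inl) - (z * (l₁.map (cI J Y)).prod -
      (l₁.map (cI J Y)).prod * z) - (x (Sum.inr true) - z) * (l₁.map (cI J Y)).prod =
      DL (qI J Y) x (l₁.map Sum.inl) + (l₁.map (cI J Y)).prod * z - x (Sum.inr true) *
        (l₁.map (cI J Y)).prod := by
    noncomm_ring
  rw [h4]
  exact hx3

/-- Pairing with a singular submatrix, left multiplication by a diagonal matrix. -/
theorem exists_pair_minor2 {κ : Type*} [Fintype κ] [DecidableEq κ] (G : P002R.Mat r ℂ)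
    (f g : κ → Fin r) (hf : Function.Injective f) (hg : Function.Injective g)
    (hdet : (G.submatrix f g).det = 0) :
    ∃ w s : Fin r → ℂ, w ≠ 0 ∧ s ≠ 0 ∧ (∀ δ : Derivation ℤ ℂ ℂ, s ⬝ᵥ (G.map δ *ᵥ w) = 0) ∧
      ∀ Z : P002R.Mat r ℂ, (∀ i j, i ≠ j → Z i j = 0) → s ⬝ᵥ ((G * Z) *ᵥ w) = 0 ∧
        s ⬝ᵥ ((Z * G) *ᵥ w) = 0 := by
  obtain ⟨v, hv0, hv⟩ := Matrix.exists_mulVec_eq_zero_iff.2 hdet
  obtain ⟨z, hz0, hz⟩ := Matrix.exists_vecMul_eq_zero_iff.2 hdet
  -- extension by zero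
  obtain ⟨w, hw⟩ : ∃ w : Fin r → ℂ, ∀ M : P002R.Mat r ℂ, ∀ a, (M *ᵥ w) a =
      ∑ c, M a (g c) * v c := by
    refine ⟨∑ c, v c • Pi.single (g c) 1, fun M a => ?_⟩
    rw [Matrix.mulVec_sum, Finset.sum_apply]
    refine Finset.sum_congr rfl fun c _ => ?_
    rw [Matrix.mulVec_smul, Matrix.mulVec_single_one, Pi.smul_apply, smul_eq_mul, mul_comm]
    rfl
  obtain ⟨s, hs⟩ : ∃ s : Fin r → ℂ, ∀ q : Fin r → ℂ, s ⬝ᵥ q = ∑ c, z c * q (f c) := by
    refine ⟨∑ c, z c • Pi.single (f c) 1, fun q => ?_⟩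
    rw [sum_dotProduct]
    refine Finset.sum_congr rfl fun c _ => ?_
    rw [smul_dotProduct, single_dotProduct, one_mul, smul_eq_mul]
  refine ⟨w, s, ?_, ?_, fun δ => ?_, fun Z hZ => ⟨?_, ?_⟩⟩
  · intro h0
    obtain ⟨c₀, hc₀⟩ := Function.ne_iff.1 hv0
    apply hc₀
    have h1 := hw 1 (g c₀)
    rw [h0, Matrix.mulVec_zero, Pi.zero_apply, Finset.sum_eq_single c₀] at h1
    · rw [Matrix.one_apply_eq, one_mul] at h1
      exact h1.symm
    · intro c _ hc
      rw [Matrix.one_apply_ne, zero_mul]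
      intro h
      exact hc (hg h.symm)
    · intro h
      exact absurd (Finset.mem_univ _) h
  · intro h0
    obtain ⟨c₀, hc₀⟩ := Function.ne_iff.1 hz0
    apply hc₀
    have h1 := hs (Pi.single (f c₀) 1)
    rw [h0, zero_dotProduct, Finset.sum_eq_single c₀] at h1
    · rw [Pi.single_eq_same, mul_one] at h1
      exact h1.symm
    · intro c _ hc
      rw [Pi.single_eq_of_ne, mul_zero]
      intro h
      exact hc (hf h)
    · intro h
      exact absurd (Finset.mem_univ _) h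
  · rw [hs]
    -- `z δ(G') v = 0`
    have h2 : ∀ c, ∑ d, (G.map δ) (f c) (g d) * v d = - ∑ d, G (f c) (g d) * δ (v d) := by
      intro c
      have h3 := congrArg δ (congrFun hv c)
      rw [Pi.zero_apply, map_zero] at h3
      simp only [Matrix.mulVec, dotProduct, Matrix.submatrix_apply, map_sum, Derivation.leibniz,
        smul_eq_mul, Finset.sum_add_distrib] at h3
      rw [eq_neg_iff_add_eq_zero, add_comm, ← h3]
      congr 1
      refine Finset.sum_congr rfl fun d _ => ?_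
      rw [Matrix.map_apply, mul_comm]
    have h4 : ∑ c, z c * (G.map δ *ᵥ w) (f c) = - ∑ d, (∑ c, z c * G (f c) (g d)) * δ (v d) := by
      calc ∑ c, z c * (G.map δ *ᵥ w) (f c)
          = ∑ c, z c * -∑ d, G (f c) (g d) * δ (v d) := by
            refine Finset.sum_congr rfl fun c _ => ?_
            rw [hw, h2]
        _ = - ∑ c, ∑ d, z c * (G (f c) (g d) * δ (v d)) := by
            rw [← Finset.sum_neg_distrib]
            refine Finset.sum_congr rfl fun c _ => ?_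
            rw [mul_neg, Finset.mul_sum]
        _ = _ := by
            rw [Finset.sum_comm]
            congr 1
            refine Finset.sum_congr rfl fun d _ => ?_
            rw [Finset.sum_mul]
            refine Finset.sum_congr rfl fun c _ => by ring
    rw [h4, neg_eq_zero]
    refine Finset.sum_eq_zero fun d _ => ?_
    have h5 := congrFun hz d
    have h6 : ∑ c, z c * G (f c) (g d) = 0 := h5
    rw [h6, zero_mul]
  · rw [hs]
    have h2 : ∀ c, ((G * Z) *ᵥ w) (f c) = ∑ d, G (f c) (g d) * (Z (g d) (g d) * v d) := by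
      intro c
      rw [hw]
      refine Finset.sum_congr rfl fun d _ => ?_
      rw [Matrix.mul_apply, Finset.sum_eq_single (g d), mul_assoc]
      · intro k _ hk
        rw [hZ k (g d) hk, mul_zero]
      · intro h
        exact absurd (Finset.mem_univ _) h
    calc ∑ c, z c * ((G * Z) *ᵥ w) (f c)
        = ∑ c, ∑ d, z c * (G (f c) (g d) * (Z (g d) (g d) * v d)) := by
          refine Finset.sum_congr rfl fun c _ => ?_
          rw [h2, Finset.mul_sum]
      _ = ∑ d, (∑ c, z c * G (f c) (g d)) * (Z (g d) (g d) * v d) := by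
          rw [Finset.sum_comm]
          refine Finset.sum_congr rfl fun d _ => ?_
          rw [Finset.sum_mul]
          refine Finset.sum_congr rfl fun c _ => by ring
      _ = 0 := by
          refine Finset.sum_eq_zero fun d _ => ?_
          have h5 := congrFun hz d
          have h6 : ∑ c, z c * G (f c) (g d) = 0 := h5
          rw [h6, zero_mul]
  · rw [hs]
    refine Finset.sum_eq_zero fun c _ => ?_
    have h2 : ((Z * G) *ᵥ w) (f c) = Z (f c) (f c) * ∑ d, G (f c) (g d) * v d := by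
      rw [hw, Finset.mul_sum]
      refine Finset.sum_congr rfl fun d _ => ?_
      rw [Matrix.mul_apply, Finset.sum_eq_single (f c), mul_assoc]
      · intro k _ hk
        rw [hZ (f c) k (Ne.symm hk), zero_mul]
      · intro h
        exact absurd (Finset.mem_univ _) h
    have h5 := congrFun hv c
    have h6 : ∑ d, G (f c) (g d) * v d = 0 := h5
    rw [h2, h6, mul_zero, mul_zero]

/-- minors at a generic point, ends `b a⁻¹ b⁻¹` and `a` -/
theorem gen_minor2 [Fintype ι] [DecidableEq ι] {K₀ : Subfield ℂ} {J : ι → P002R.Mat r ℂ}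
    (hJK : ∀ j a b, J j a b ∈ K₀)
    {Y : ι ⊕ Bool → P002R.Mat r ℂ} (hJ : ∀ j, IsUnit (J j)) (hY : ∀ j, IsUnit (Y j))
    (l₁ l₂ : List ι) (hnd : (l₁ ++ l₂).Nodup) (hmem : ∀ j, j ∈ l₁ ++ l₂)
    (hrel : PhiI J (l₁ ++ l₂) Y = 1)
    (hirr : ∀ W : Submodule ℂ (Fin r → ℂ), (∀ j, ∀ w ∈ W, cI J Y j *ᵥ w ∈ W) →
      (∀ w ∈ W, Y (Sum.inr false) *ᵥ w ∈ W) → W = ⊥ ∨ W = ⊤)
    (hgen : GenPt1 K₀ J (l₁ ++ l₂) Y)
    {A : P002R.Mat r ℂ} {ν : Fin r → ℂ} (hA : IsUnit A) (hν : Function.Injective ν)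
    (haA : Y (Sum.inr false) * A = A * diagonal ν) {κ : Type*} [Fintype κ] [DecidableEq κ]
    (f g : κ → Fin r) (hf : Function.Injective f) (hg : Function.Injective g) :
    (((Y (Sum.inr true) * A)⁻¹ * (l₁.map (cI J Y)).prod * A).submatrix f g).det ≠ 0 := by
  intro hdet
  obtain ⟨P, hP⟩ : ∃ P, P = (l₁.map (cI J Y)).prod := ⟨_, rfl⟩
  obtain ⟨b, hb⟩ : ∃ b, b = Y (Sum.inr true) := ⟨_, rfl⟩
  have hbu : IsUnit b := hb ▸ hY _
  have hBu : IsUnit (b * A) := hbu.mul hA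
  rw [← hb, ← hP] at hdet
  obtain ⟨G, hG⟩ : ∃ G, G = (b * A)⁻¹ * P * A := ⟨_, rfl⟩
  rw [← hG] at hdet
  obtain ⟨w, s, hw0, hs0, hδs, hZs⟩ := exists_pair_minor2 G f g hf hg hdet
  have hAd : IsUnit A.det := (Matrix.isUnit_iff_isUnit_det _).1 hA
  have hBd : IsUnit (b * A).det := (Matrix.isUnit_iff_isUnit_det _).1 hBu
  have A1 := Matrix.mul_nonsing_inv _ hAd
  have B1 := Matrix.mul_nonsing_inv _ hBd
  have B2 := Matrix.nonsing_inv_mul _ hBd
  have hu : A *ᵥ w ≠ 0 := by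
    intro h
    apply hw0
    calc w = (A⁻¹ * A) *ᵥ w := by
          rw [Matrix.nonsing_inv_mul _ hAd, Matrix.one_mulVec]
      _ = 0 := by rw [← Matrix.mulVec_mulVec, h, Matrix.mulVec_zero]
  have hy : s ᵥ* (b * A)⁻¹ ≠ 0 := by
    intro h
    apply hs0
    calc s = s ᵥ* ((b * A)⁻¹ * (b * A)) := by
          rw [B2, Matrix.vecMul_one]
      _ = 0 := by rw [← Matrix.vecMul_vecMul, h, Matrix.zero_vecMul]
  obtain ⟨δ, x, hδ, hx, hx0, hne⟩ := gen_F2 hJ hY l₁ l₂ hnd hmem hrel hirr hgen _ _ hu hy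
  apply hne
  rw [← hP]
  obtain ⟨Z, hZ⟩ : ∃ Z, Z = A⁻¹ * A.map δ := ⟨_, rfl⟩
  have hAZ : A.map δ = A * Z := by
    rw [hZ, mulL A1]
  have hZ0 := der_eigenbasis δ (by rw [hx, hx0, Matrix.zero_mul]) hA hν haA hAZ
  have hBδ : (b * A).map δ = x (Sum.inr true) * (b * A) + (b * A) * Z := by
    rw [map_der_mul, hAZ, hb, hx]
    simp only [Matrix.mul_assoc]
  have hGδ : G.map δ = (b * A)⁻¹ * (DL (cI J Y) (fun j => x (Sum.inl j)) l₁ -
      x (Sum.inr true) * P) * A + (G * Z - Z * G) := by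
    have hPδ : P.map δ = DL (cI J Y) (fun j => x (Sum.inl j)) l₁ := by
      rw [hP, map_der_listI hJK hY δ hδ x hx]
    have e : -((b * A)⁻¹ * (x (Sum.inr true) * (b * A) + (b * A) * Z) * (b * A)⁻¹) =
        -((b * A)⁻¹ * x (Sum.inr true)) - Z * (b * A)⁻¹ := by
      rw [Matrix.mul_add, Matrix.add_mul, neg_add, ← sub_eq_add_neg]
      congr 1
      · have e1 : (b * A)⁻¹ * (x (Sum.inr true) * (b * A)) * (b * A)⁻¹ =
          (b * A)⁻¹ * (x (Sum.inr true) * ((b * A) * (b * A)⁻¹)) := by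
          simp only [Matrix.mul_assoc]
        rw [e1, B1, Matrix.mul_one]
      · rw [← Matrix.mul_assoc (b * A)⁻¹ (b * A), B2, Matrix.one_mul]
    rw [hG, map_der_mul, map_der_mul, map_der_inv hBu, hBδ, hPδ, hAZ, e]
    noncomm_ring
  have h1 := hδs δ
  obtain ⟨h2, h3⟩ := hZs Z hZ0
  rw [hGδ, Matrix.add_mulVec, dotProduct_add, Matrix.sub_mulVec, dotProduct_sub, h2, h3, sub_zero,
    add_zero] at h1
  have e1 : ∀ A B C : P002R.Mat r ℂ, (s ᵥ* A) ⬝ᵥ (B *ᵥ (C *ᵥ w)) =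
      s ⬝ᵥ ((A * B * C) *ᵥ w) := fun A B C => by
    rw [← Matrix.mulVec_mulVec, ← Matrix.mulVec_mulVec, Matrix.dotProduct_mulVec s]
  rw [e1]
  exact h1

/-- The eigenvalues of `a` are multiplicatively independent at a generic point. -/
theorem gen_mult_indep [DecidableEq ι] {K₀ : Subfield ℂ} {J : ι → P002R.Mat r ℂ}
    {Y : ι ⊕ Bool → P002R.Mat r ℂ} (hY : ∀ j, IsUnit (Y j)) (L : List ι)
    (hgen : GenPt1 K₀ J L Y) {A : P002R.Mat r ℂ} {ν : Fin r → ℂ} (hA : IsUnit A)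
    (haA : Y (Sum.inr false) * A = A * diagonal ν)
    (hfree : ∀ m : Fin r → ℂ, (∀ x : ι ⊕ Bool → P002R.Mat r ℂ,
      D1 (cI J Y) (Y (Sum.inr false)) (Y (Sum.inr true)) L x = 0 →
      trace (A * diagonal m * A⁻¹ * x (Sum.inr false)) = 0) → m = 0)
    (m m' : Fin r → ℕ) (h : ∏ i, ν i ^ m i = ∏ i, ν i ^ m' i) : m = m' := by
  have hν0 : ∀ i, ν i ≠ 0 := (eigen_a' (hY _) (hY (Sum.inr true)) hA haA).1
  have key : (fun i => (m i : ℂ) - (m' i : ℂ)) = 0 := by
    refine hfree _ fun x hx => ?_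
    obtain ⟨δ, -, hxδ⟩ := hgen x hx
    obtain ⟨X, hX⟩ : ∃ X, X = x (Sum.inr false) := ⟨_, rfl⟩
    obtain ⟨t, ht⟩ : ∃ t : Fin r → ℂ, ∀ i, t i = (A⁻¹ * X * A) i i := ⟨_, fun i => rfl⟩
    have h2 : ∀ i, δ (ν i) = t i * ν i := fun i => by
      rw [ht]
      exact der_eigenvalues δ (by rw [hX]; exact hxδ _) hA haA i
    have hpow : ∀ (k : ℕ) (i : Fin r), δ (ν i ^ k) = ((k : ℂ) * t i) * ν i ^ k := by
      intro k i
      induction k with
      | zero => simp
      | succ k ih =>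
        rw [pow_succ, Derivation.leibniz, ih, h2, smul_eq_mul, smul_eq_mul]
        push_cast
        ring
    have h3 := der_prod δ Finset.univ (fun i => ν i ^ m i) (fun i => (m i : ℂ) * t i)
      (fun i => hpow _ i)
    have h4 := der_prod δ Finset.univ (fun i => ν i ^ m' i) (fun i => (m' i : ℂ) * t i)
      (fun i => hpow _ i)
    rw [h, h4] at h3
    have h5 : (∏ i, ν i ^ m' i) ≠ 0 := Finset.prod_ne_zero_iff.2 fun i _ => pow_ne_zero _ (hν0 i)
    have h6 := mul_right_cancel₀ h5 h3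
    rw [← hX, show A * diagonal (fun i => (m i : ℂ) - (m' i : ℂ)) * A⁻¹ * X =
      A * (diagonal (fun i => (m i : ℂ) - (m' i : ℂ)) * A⁻¹ * X) by
      simp only [Matrix.mul_assoc], Matrix.trace_mul_comm, Matrix.trace]
    have h9 : ∀ i, (diagonal (fun i => (m i : ℂ) - (m' i : ℂ)) * A⁻¹ * X * A).diag i =
        (m i : ℂ) * t i - (m' i : ℂ) * t i := by
      intro i
      rw [Matrix.diag_apply, show diagonal (fun i => (m i : ℂ) - (m' i : ℂ)) * A⁻¹ * X * A =
        diagonal (fun i => (m i : ℂ) - (m' i : ℂ)) * (A⁻¹ * X * A) by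
        simp only [Matrix.mul_assoc], Matrix.diagonal_mul, ← ht, sub_mul]
    simp only [h9, Finset.sum_sub_distrib]
    rw [h6, sub_self]
  funext i
  have h1 := congrFun key i
  rw [Pi.zero_apply, sub_eq_zero] at h1
  exact_mod_cast h1

end Vale.Agent.P002R
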