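import Vale.Agent.P002R.ZBridge

/-!
# Density for products of curves with at least `3 - 2g` regular classes, two coefficient rings
-/

namespace Vale.Agent.P002R

open Matrix NumberField

/-- The main theorem in genus one: irreducible representations of a torus with `n + 1`
punctures, the class of the puncture `0` has a cyclic vector; two coefficient rings. -/
def G1Irr2 : Prop :=
  ∀ {n r : ℕ}, 0 < r → ∀ {R₀ R : Type} [CommRing R₀] [CommRing R] (φ₀ : R₀ →+* ℂ) (φ : R →+* ℂ)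
    (ι : R₀ →+* R), (∀ a, φ (ι a) = φ₀ a) →
    (∀ u : R₀ˣ, ∃ c : Rˣ, ι (u : R₀) = (c : R) ^ r) →
    ∀ E : Subgroup ℂˣ, CoefOK φ₀ E r → CoefOK φ E r →
    (∀ (u : R₀ˣ) (D : R₀), D ≠ 0 → ∃ M : ℕ, 0 < M ∧ D ∣ (u : R₀) ^ M - 1) →
    ∀ C : Fin (n + 1) → (Mat r ℂ)ˣ, (∀ j, EigIn E (C j : Mat r ℂ)) →
    HasCyc r (C 0 : Mat r ℂ) →
    ∀ x ∈ YG ({relatorU 1 (n + 1)} : Set (FreeGroup ((Fin 1 × Bool) ⊕ Fin (n + 1)))) C,
    (∀ M : Mat r ℂ, (∀ w, Commute M (x w : Mat r ℂ)) → ∃ c : ℂ, M = c • (1 : Mat r ℂ)) →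
    ∀ f : MvPolynomial (((Fin 1 × Bool) ⊕ Fin (n + 1)) × Fin r × Fin r) ℂ,
    (∀ y ∈ DGT ({relatorU 1 (n + 1)} : Set (FreeGroup ((Fin 1 × Bool) ⊕ Fin (n + 1)))) φ C,
      evalG y f = 0) → evalG x f = 0

theorem CoefOK.mono {R : Type*} [CommRing R] {φ : R →+* ℂ} {E : Subgroup ℂˣ} {r r' : ℕ}
    (hc : CoefOK φ E r) (h : r' ≤ r) : CoefOK φ E r' :=
  ⟨hc.inj, hc.neg, fun k hk hk' => hc.root k hk (hk'.trans h), hc.unit⟩

theorem CoefOK.ring_mono {R₀ R : Type*} [CommRing R₀] [CommRing R] {φ₀ : R₀ →+* ℂ} {φ : R →+* ℂ}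
    (ι : R₀ →+* R) (hι : ∀ a, φ (ι a) = φ₀ a) (hφ : Function.Injective φ) {E : Subgroup ℂˣ} {r : ℕ}
    (hc : CoefOK φ₀ E r) : CoefOK φ E r := by
  refine ⟨hφ, hc.neg, fun k hk hkr z hz => ?_, ?_⟩
  · obtain ⟨a, ha⟩ := hc.root k hk hkr z hz
    exact ⟨ι a, by rw [hι, ha]⟩
  · obtain ⟨u, hu⟩ := hc.unit
    refine ⟨Units.map (ι : R₀ →* R) u, fun k hk h => hu k hk ?_⟩
    have h1 : Units.map (φ : R →* ℂ) (Units.map (ι : R₀ →* R) u) = Units.map (φ₀ : R₀ →* ℂ) u := by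
      ext1
      exact hι _
    rwa [h1] at h

/-- Tori with at least one regular class. -/
theorem g1_irrDenseQ2 (hG : G1Irr2) {n r : ℕ} {R₀ R : Type} [CommRing R₀] [CommRing R]
    (φ₀ : R₀ →+* ℂ) (φ : R →+* ℂ) (ι : R₀ →+* R) (hι : ∀ a, φ (ι a) = φ₀ a)
    (hroot : ∀ r' ≤ r, 0 < r' → ∀ u : R₀ˣ, ∃ c : Rˣ, ι (u : R₀) = (c : R) ^ r')
    (E : Subgroup ℂˣ) (hc₀ : CoefOK φ₀ E r) (hc : CoefOK φ E r)
    (hUP : ∀ (u : R₀ˣ) (D : R₀), D ≠ 0 → ∃ M : ℕ, 0 < M ∧ D ∣ (u : R₀) ^ M - 1)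
    {T : Finset (Fin n)} (hT : T.Nonempty) {Q : Fin n → ∀ r : ℕ, Mat r ℂ → Prop}
    (hE : ∀ j r M, Q j r M → EigIn E M) (hQ : ∀ j ∈ T, ∀ r M, Q j r M → HasCyc r M) :
    ∀ r' ≤ r, 0 < r' →
      IrrDenseQ Q ({relatorU 1 n} : Set (FreeGroup ((Fin 1 × Bool) ⊕ Fin n))) φ r' := by
  intro r' hr' hr'0
  obtain ⟨j, hj⟩ := hT
  obtain ⟨m, rfl⟩ : ∃ m, n = m + 1 := ⟨n - 1, by
    have := j.2
    omega⟩
  refine irrDenseQ_reorder (Equiv.swap 0 j) fun C hC x hx hirr f hf => ?_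
  refine hG hr'0 φ₀ φ ι hι (hroot r' hr' hr'0) E (hc₀.mono hr') (hc.mono hr') hUP C
    (fun j => hE _ _ _ (hC j)) (hQ j hj _ _ ?_) x hx hirr f hf
  have h1 : Q (Equiv.swap 0 j 0) r' (C 0 : Mat r' ℂ) := hC 0
  rwa [Equiv.swap_apply_left] at h1

/-! ### number fields -/

/-- A number field which contains the `k`-th roots of the units of a given number field. -/
theorem exists_root_field (L₀ : IntermediateField ℚ ℂ) (hL₀ : FiniteDimensional ℚ L₀) (k : ℕ)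
    (hk : 0 < k) : ∃ L : IntermediateField ℚ ℂ, FiniteDimensional ℚ L ∧ L₀ ≤ L ∧
      ∀ u : (𝓞 L₀)ˣ, ∀ z : ℂ, z ^ k = phiO (algebraMap L₀ ℂ) (u : 𝓞 L₀) → z ∈ L := by
  have : NumberField L₀ := { to_charZero := inferInstance, to_finiteDimensional := hL₀ }
  have hfg : Group.FG (𝓞 L₀)ˣ := Group.fg_iff_monoid_fg.2 inferInstance
  obtain ⟨S₀, hS₀, hS₀f⟩ := Group.fg_iff.1 hfg
  obtain ⟨G, hG⟩ : ∃ G : (𝓞 L₀)ˣ →* ℂˣ, G = Units.map (phiO (algebraMap L₀ ℂ) : 𝓞 L₀ →* ℂ) :=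
    ⟨_, rfl⟩
  obtain ⟨S, hS⟩ : ∃ S : Set ℂˣ, S = G '' S₀ := ⟨_, rfl⟩
  have hSf : S.Finite := hS ▸ hS₀f.image _
  have hmem : ∀ u : (𝓞 L₀)ˣ, G u ∈ Subgroup.closure S := by
    intro u
    rw [hS, ← MonoidHom.map_closure, hS₀]
    exact ⟨u, Subgroup.mem_top _, rfl⟩
  have hint : ∀ u : (𝓞 L₀)ˣ, IsIntegral ℤ ((G u : ℂˣ) : ℂ) := by
    intro u
    rw [hG]
    exact (u : 𝓞 L₀).isIntegral_coe.map (algebraMap L₀ ℂ).toIntAlgHom
  obtain ⟨V, hV⟩ : ∃ V : Set ℂ, V = ((↑) : ℂˣ → ℂ) '' {w : ℂˣ | w ^ k ∈ insert 1 S} := ⟨_, rfl⟩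
  have hVf : V.Finite := by
    rw [hV]
    exact (roots_finite _ (hSf.insert 1) k hk).image _
  have hVint : ∀ x ∈ V, IsIntegral ℚ x := by
    rintro x hx
    rw [hV] at hx
    obtain ⟨w, hw, rfl⟩ := hx
    refine IsIntegral.tower_top (R := ℤ) (IsIntegral.of_pow hk ?_)
    rw [← Units.val_pow_eq_pow_val]
    rcases hw with h | h
    · rw [h, Units.val_one]
      exact isIntegral_one
    · rw [hS] at h
      obtain ⟨u, _, hu⟩ := h
      rw [← hu]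
      exact hint u
  have hVfd : FiniteDimensional ℚ (IntermediateField.adjoin ℚ V) := by
    have : Finite V := hVf
    exact IntermediateField.finiteDimensional_adjoin fun x hx => hVint x hx
  refine ⟨L₀ ⊔ IntermediateField.adjoin ℚ V, inferInstance, le_sup_left, fun u z hz => ?_⟩
  have hz0 : z ≠ 0 := by
    rintro rfl
    rw [zero_pow hk.ne'] at hz
    have h1 : ((G u : ℂˣ) : ℂ) ≠ 0 := (G u).ne_zero
    rw [hG] at h1
    exact h1 hz.symm
  have h1 : (Units.mk0 z hz0) ^ k = G u := by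
    ext1
    rw [Units.val_pow_eq_pow_val, Units.val_mk0, hz, hG]
    rfl
  have h2 := root_mem_closure S k hk (Units.mk0 z hz0) (by rw [h1]; exact hmem u)
  have h3 : ∀ w ∈ Subgroup.closure {w : ℂˣ | w ^ k ∈ insert 1 S},
      (w : ℂ) ∈ IntermediateField.adjoin ℚ V := by
    intro w hw
    induction hw using Subgroup.closure_induction with
    | mem x hx =>
      refine IntermediateField.subset_adjoin ℚ V ?_
      rw [hV]
      exact ⟨x, hx, rfl⟩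
    | one => exact IntermediateField.one_mem _
    | mul x y _ _ hx hy =>
      rw [Units.val_mul]
      exact IntermediateField.mul_mem _ hx hy
    | inv x _ hx =>
      rw [Units.val_inv_eq_inv_val]
      exact IntermediateField.inv_mem _ hx
  have h4 : IntermediateField.adjoin ℚ V ≤ L₀ ⊔ IntermediateField.adjoin ℚ V := le_sup_right
  exact h4 (h3 _ h2)

/-- The inclusion of the rings of integers. -/
noncomputable def iotaO {L₀ L : IntermediateField ℚ ℂ} (h : L₀ ≤ L) : 𝓞 L₀ →+* 𝓞 L :=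
  RingOfIntegers.mapRingHom (IntermediateField.inclusion h).toRingHom

theorem phiO_iotaO {L₀ L : IntermediateField ℚ ℂ} (h : L₀ ≤ L) (a : 𝓞 L₀) :
    phiO (algebraMap L ℂ) (iotaO h a) = phiO (algebraMap L₀ ℂ) a := rfl

/-- Units of the small ring are powers of units of the big ring. -/
theorem exists_unit_root {L₀ L : IntermediateField ℚ ℂ} (h : L₀ ≤ L) (r : ℕ)
    (hu : ∀ u : (𝓞 L₀)ˣ, ∃ z ∈ L, z ^ r.factorial = ((u : 𝓞 L₀) : ℂ)) (r' : ℕ) (hr' : r' ≤ r)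
    (hr'0 : 0 < r') (u : (𝓞 L₀)ˣ) : ∃ c : (𝓞 L)ˣ, iotaO h (u : 𝓞 L₀) = (c : 𝓞 L) ^ r' := by
  obtain ⟨z, hzL, hz⟩ := hu u
  obtain ⟨q, hq⟩ := Nat.dvd_factorial hr'0 hr'
  have h1 : (z ^ q) ^ r' = phiO (algebraMap L₀ ℂ) (u : 𝓞 L₀) := by
    rw [← pow_mul, mul_comm, ← hq, hz]
    rfl
  have hint : IsIntegral ℤ (z ^ q) := by
    refine IsIntegral.of_pow hr'0 ?_
    rw [h1]
    exact (u : 𝓞 L₀).isIntegral_coe.map (algebraMap L₀ ℂ).toIntAlgHom
  have hint' : IsIntegral ℤ (⟨z ^ q, pow_mem hzL q⟩ : L) := by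
    rw [← isIntegral_algebraMap_iff (A := L) (B := ℂ) (algebraMap L ℂ).injective]
    exact hint
  obtain ⟨w, hw⟩ : ∃ w : 𝓞 L, w = ⟨⟨z ^ q, pow_mem hzL q⟩, hint'⟩ := ⟨_, rfl⟩
  have h2 : w ^ r' = iotaO h (u : 𝓞 L₀) := by
    apply phiO_injective (algebraMap L ℂ)
    rw [map_pow, phiO_iotaO, ← h1, hw]
    rfl
  have h3 : IsUnit (w ^ r') := by
    rw [h2]
    exact u.isUnit.map (iotaO h)
  obtain ⟨c, hc⟩ := (isUnit_pow_iff hr'0.ne').1 h3
  exact ⟨c, by rw [hc, h2]⟩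

end Vale.Agent.P002R

namespace Vale.Agent.P002R.Product

open Matrix NumberField

variable {k r : ℕ} {g n : Fin k → ℕ}

theorem FRel_irrDenseH {R : Type} [CommRing R] (φ : R →+* ℂ) (E : Subgroup ℂˣ)
    (hc : CoefOK φ E r) (T : ∀ i, Finset (Fin (n i)))
    (hI : ∀ i, ¬ OKCurve (g i) (n i) → ∀ r' ≤ r, 0 < r' →
      IrrDenseQ (fun j => QC E (g i) (n i) (T i) j)
        ({relatorU (g i) (n i)} : Set (FreeGroup ((Fin (g i) × Bool) ⊕ Fin (n i)))) φ r') :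
    ∀ r' ≤ r, 0 < r' → IrrDenseQ (fun p : Σ i, Fin (n i) => QC E (g p.1) (n p.1) (T p.1) p.2)
      (FRel g n) φ r' := by
  refine fam_irrDenseQ φ E r k _ _ (fun i j => QC E (g i) (n i) (T i) j)
    (fun i j => classOK_QC E (g i) (n i) (T i) j) _ fun i r' hr' hr'0 => ?_
  by_cases h : 2 ≤ g i ∨ n i = 0
  · exact (surface_irrDense φ E hc h r' hr' hr'0).toQ fun j M hM => hM.1
  by_cases h1 : g i = 0 ∧ n i ≤ 2
  · exact (abel_irrDense φ E _ (fun r'' x hx => surface_comm (Or.inl h1) r'' x hx) r' hr'0).toQ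
      fun j M hM => hM.1
  · have h2 : ¬ OKCurve (g i) (n i) := by
      unfold OKCurve
      omega
    exact hI i h2 r' hr' hr'0

theorem density_EH (C : ∀ i, Fin (n i) → SpecialLinearGroup (Fin r) ℂ) (E : Subgroup ℂˣ)
    (hC : ∀ i j, EigIn E ((C i j).1)) (T : ∀ i, Finset (Fin (n i)))
    (hT : ∀ i, ¬ OKCurve (g i) (n i) → ∀ j ∈ T i, HasCyc r (C i j).1)
    (L : IntermediateField ℚ ℂ) (hL : FiniteDimensional ℚ L)
    (hc : CoefOK (phiO (algebraMap L ℂ)) E r)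
    (hI : ∀ i, ¬ OKCurve (g i) (n i) → ∀ r' ≤ r, 0 < r' →
      IrrDenseQ (fun j => QC E (g i) (n i) (T i) j)
        ({relatorU (g i) (n i)} : Set (FreeGroup ((Fin (g i) × Bool) ⊕ Fin (n i))))
        (phiO (algebraMap L ℂ)) r') :
    IsZariskiDenseRep {X ∈ Y g C | IsIntegralRep L X} (Y g C) := by
  have : NumberField L := { to_charZero := inferInstance, to_finiteDimensional := hL }
  obtain ⟨φ, hφ⟩ : ∃ φ, φ = phiO (algebraMap L ℂ) := ⟨_, rfl⟩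
  rw [← hφ] at hc hI
  have hφi : Function.Injective φ := hc.inj
  obtain ⟨C', hC'⟩ : ∃ C' : ((i : Fin k) × Fin (n i)) → (Mat r ℂ)ˣ,
      C' = fun p => SpecialLinearGroup.toGL (C p.1 p.2) := ⟨_, rfl⟩
  refine ⟨fun _ hX => hX.1, fun F hF X hX => ?_⟩
  rw [← evalG_toU]
  -- integral representations
  have key : ∀ y : FreeGroup (Gens g n) →* SpecialLinearGroup (Fin r) (𝓞 L),
      (∀ w ∈ FRel g n, y w = 1) →
      (∀ p, IsConj (C' p) (slU φ (y (FreeGroup.of (Sum.inr p))))) →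
      SS ((slU φ).comp y) → evalG ((slU φ).comp y) F = 0 := by
    intro y hy hyC hyS
    obtain ⟨Z, hZ⟩ : ∃ Z : Gens g n → SpecialLinearGroup (Fin r) (𝓞 L),
        ∀ p, Z p = y (FreeGroup.of p) := ⟨_, fun _ => rfl⟩
    obtain ⟨X', hX'⟩ : ∃ X' : Gens g n → SpecialLinearGroup (Fin r) ℂ,
        X' = fun p => SpecialLinearGroup.map (phiO (algebraMap L ℂ)) (Z p) := ⟨_, rfl⟩
    have h0 : FreeGroup.lift X' = (SpecialLinearGroup.map (phiO (algebraMap L ℂ))).comp y := by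
      apply FreeGroup.ext_hom
      intro p
      rw [FreeGroup.lift_apply_of, hX', MonoidHom.comp_apply, ← hZ]
    have h1 : (slU φ).comp y = toU X' := by
      rw [toU, h0, hφ]; rfl
    rw [h1, evalG_toU]
    refine hF _ ⟨⟨⟨?_, ?_⟩, fun i j => Statement.isConj_toGL _ _ ?_⟩, ?_⟩
    · rw [isRep_iff]
      intro w hw
      rw [h0, MonoidHom.comp_apply, hy w hw, map_one]
    · rw [← SS_toU, ← h1]; exact hyS
    · have := hyC ⟨i, j⟩
      rw [hC', ← MonoidHom.comp_apply, h1, toU_of] at this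
      exact this
    · rw [hX']; exact isIntegralRep_map Z
  rcases Nat.eq_zero_or_pos r with hr | hr
  · subst hr
    have h1 : toU X = (slU φ).comp 1 := by
      ext w i
      exact i.elim0
    rw [h1]
    refine key 1 (fun w _ => rfl) (fun p => ?_) ?_
    · have : C' p = slU φ ((1 : FreeGroup (Gens g n) →* SpecialLinearGroup (Fin 0) (𝓞 L))
          (FreeGroup.of (Sum.inr p))) := Units.ext (Subsingleton.elim _ _)
      rw [← this]
    · rw [← h1]; exact (SS_toU X).2 hX.1.2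
  · have hEig : ∀ p : Σ i, Fin (n i), QC E (g p.1) (n p.1) (T p.1) p.2 r (C' p : Mat r ℂ) := by
      intro p
      rw [hC']
      exact ⟨hC p.1 p.2, fun h1 h2 => hT p.1 h1 p.2 h2⟩
    have hYG : toU X ∈ YG (FRel g n) C' := by
      refine ⟨fun w hw => ?_, fun p => ?_, (SS_toU X).2 hX.1.2⟩
      · rw [toU, MonoidHom.comp_apply, (isRep_iff X).1 hX.1.1 w hw, map_one]
      · rw [hC', toU_of]
        exact Statement.toGL_isConj _ _ (hX.2 p.1 p.2)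
    obtain ⟨ζ, hζ⟩ := hc.root r hr le_rfl
      (Units.mk0 (Complex.exp (2 * Real.pi * Complex.I / r)) (Complex.exp_ne_zero _)) (by
        have h1 : (Units.mk0 (Complex.exp (2 * Real.pi * Complex.I / r))
            (Complex.exp_ne_zero _)) ^ r = 1 := by
          ext1
          rw [Units.val_pow_eq_pow_val, Units.val_mk0, Units.val_one,
            (Complex.isPrimitiveRoot_exp r hr.ne').pow_eq_one]
        rw [h1]
        exact one_mem _)
    rw [Units.val_mk0] at hζ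
    have hζp : IsPrimitiveRoot (φ ζ) r := by
      rw [hζ]
      exact Complex.isPrimitiveRoot_exp r hr.ne'
    refine unscaleG φ hφi ζ (hφi ?_) hζp hr (FRel g n) (FRel_charOK g n) C' ?_ F key (toU X) ?_
      fun f' hf' => partIVQ φ E (Q := fun p : Σ i, Fin (n i) => QC E (g p.1) (n p.1) (T p.1) p.2)
        (fun p => classOK_QC E (g p.1) (n p.1) (T p.1) p.2) hc.weak (FRel g n) (FRel_charOK g n)
        (FRel_irrDenseH φ E hc T hI) C' hEig (toU X) hYG f' hf'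
    · rw [map_pow, map_one]
      exact hζp.pow_eq_one
    · intro p
      rw [hC']
      exact (C p.1 p.2).2
    · intro w
      rw [toU_coe]
      exact (FreeGroup.lift X w).2


/-- Low genus: the input for `density_EH`. -/
theorem low_irrDenseQ {g n r : ℕ} {R : Type} [CommRing R] (hG : G0Irr) (φ : R →+* ℂ)
    (E : Subgroup ℂˣ) (hc : CoefOK φ E r)
    (hUP : ∀ (u : Rˣ) (D : R), D ≠ 0 → ∃ M : ℕ, 0 < M ∧ D ∣ (u : R) ^ M - 1)
    (T : Finset (Fin n)) (h : ¬ OKCurve g n) (h3 : 3 ≤ 2 * g + T.card)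
    (h1 : g = 1 → T.Nonempty → ∀ r' ≤ r, 0 < r' → IrrDenseQ (fun j => QC E 1 n T j)
      ({relatorU 1 n} : Set (FreeGroup ((Fin 1 × Bool) ⊕ Fin n))) φ r') :
    ∀ r' ≤ r, 0 < r' → IrrDenseQ (fun j => QC E g n T j)
      ({relatorU g n} : Set (FreeGroup ((Fin g × Bool) ⊕ Fin n))) φ r' := by
  have h4 : g = 0 ∨ g = 1 := by
    unfold OKCurve at h
    omega
  rcases h4 with rfl | rfl
  · exact g0_irrDenseQ hG φ E hc hUP (by omega) (fun j r M hM => hM.1)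
      (fun j hj r M hM => hM.2 h hj)
  · exact h1 rfl (Finset.card_pos.1 (by omega))

theorem exists_T {C : ∀ i, Fin (n i) → SpecialLinearGroup (Fin r) ℂ}
    (hg : ∀ i, OKCurveQ (g i) (n i) r (C i)) : ∃ T : ∀ i, Finset (Fin (n i)),
      (∀ i, ¬ OKCurve (g i) (n i) → 3 ≤ 2 * g i + (T i).card) ∧
      ∀ i, ¬ OKCurve (g i) (n i) → ∀ j ∈ T i, HasCyc r (C i j).1 := by
  have h1 : ∀ i, ∃ T : Finset (Fin (n i)), (¬ OKCurve (g i) (n i) →
      3 ≤ 2 * g i + T.card) ∧ (¬ OKCurve (g i) (n i) → ∀ j ∈ T, HasCyc r (C i j).1) := by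
    intro i
    rcases hg i with h | ⟨T, hT, hT'⟩
    · exact ⟨∅, fun h' => absurd h h', fun h' => absurd h h'⟩
    · exact ⟨T, fun _ => hT, fun _ => hT'⟩
  choose T hT using h1
  exact ⟨T, fun i => (hT i).1, fun i => (hT i).2⟩

theorem hUP_field (L : IntermediateField ℚ ℂ) (hL : FiniteDimensional ℚ L) (u : (𝓞 L)ˣ) (D : 𝓞 L)
    (hD : D ≠ 0) : ∃ M : ℕ, 0 < M ∧ D ∣ (u : 𝓞 L) ^ M - 1 := by
  have : NumberField L := { to_charZero := inferInstance, to_finiteDimensional := hL }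
  exact exists_dvd_pow_sub_one L u D hD

/-- Density, no punctured torus. -/
theorem density_E0 (hG : G0Irr) (C : ∀ i, Fin (n i) → SpecialLinearGroup (Fin r) ℂ)
    (E : Subgroup ℂˣ) (hC : ∀ i j, EigIn E ((C i j).1))
    (hg : ∀ i, OKCurveQ (g i) (n i) r (C i)) (hg1 : ∀ i, g i = 1 → n i = 0)
    (L : IntermediateField ℚ ℂ) (hL : FiniteDimensional ℚ L)
    (hc : CoefOK (phiO (algebraMap L ℂ)) E r) :
    IsZariskiDenseRep {X ∈ Y g C | IsIntegralRep L X} (Y g C) := by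
  obtain ⟨T, hT, hT'⟩ := exists_T hg
  refine density_EH C E hC T hT' L hL hc fun i hi => ?_
  refine low_irrDenseQ hG _ E hc (hUP_field L hL) (T i) hi (hT i hi) fun h => ?_
  exact absurd (Or.inr (Or.inl (hg1 i h))) hi

/-- Density, two fields. -/
theorem density_E2 (hG : G0Irr) (hG1 : G1Irr2)
    (C : ∀ i, Fin (n i) → SpecialLinearGroup (Fin r) ℂ)
    (E : Subgroup ℂˣ) (hC : ∀ i j, EigIn E ((C i j).1))
    (hg : ∀ i, OKCurveQ (g i) (n i) r (C i))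
    (L₀ L : IntermediateField ℚ ℂ) (hL₀ : FiniteDimensional ℚ L₀) (hL : FiniteDimensional ℚ L)
    (h : L₀ ≤ L) (hc : CoefOK (phiO (algebraMap L₀ ℂ)) E r)
    (hu : ∀ u : (𝓞 L₀)ˣ, ∃ z ∈ L, z ^ r.factorial = ((u : 𝓞 L₀) : ℂ)) :
    IsZariskiDenseRep {X ∈ Y g C | IsIntegralRep L X} (Y g C) := by
  obtain ⟨T, hT, hT'⟩ := exists_T hg
  have hc' : CoefOK (phiO (algebraMap L ℂ)) E r :=
    hc.ring_mono (iotaO h) (phiO_iotaO h) (phiO_injective _)
  refine density_EH C E hC T hT' L hL hc' fun i hi => ?_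
  refine low_irrDenseQ hG _ E hc' (hUP_field L hL) (T i) hi (hT i hi) fun h1 hne => ?_
  refine g1_irrDenseQ2 hG1 (phiO (algebraMap L₀ ℂ)) _ (iotaO h) (phiO_iotaO h)
    (exists_unit_root h r hu) E hc hc' (hUP_field L₀ hL₀) hne (fun j r M hM => hM.1)
    fun j hj r M hM => hM.2 ?_ hj
  rwa [h1] at hi

end Vale.Agent.P002R.Product
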