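import Vale.Agent.P002R.ZBridge2

/-!
# Density for products of curves with at least `3 - 2g` regular classes: quasi-unipotent classes
and classes with algebraic unit eigenvalues
-/

namespace Vale.Agent.P002R.Product

open Matrix NumberField

variable {k r : ℕ} {g n : Fin k → ℕ}

theorem coefOK_roots (N : ℕ) (hN : 0 < N) (r : ℕ) (L : IntermediateField ℚ ℂ)
    (hL : FiniteDimensional ℚ L)
    (hμ : ∀ z : ℂ, z ^ (2 * N * r.factorial) = 1 → z ∈ L) (hu : Infinite (𝓞 L)ˣ) :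
    CoefOK (phiO (algebraMap L ℂ)) (powMonoidHom (α := ℂˣ) (2 * N)).ker r := by
  have : NumberField L := { to_charZero := inferInstance, to_finiteDimensional := hL }
  obtain ⟨u, hu⟩ := exists_unit_infinite_order (L := L) (algebraMap L ℂ)
  obtain ⟨E, hE', hE⟩ : ∃ E : Subgroup ℂˣ, E = (powMonoidHom (α := ℂˣ) (2 * N)).ker ∧
    ∀ z, z ∈ E ↔ z ^ (2 * N) = 1 := ⟨_, rfl, fun z => Iff.rfl⟩
  rw [← hE']
  refine coefOK_of_field E ?_ ?_ r L ?_ ⟨u, ?_⟩
  · intro z hz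
    rw [hE] at hz
    refine IsIntegral.of_pow (n := 2 * N) (by positivity) ?_
    rw [← Units.val_pow_eq_pow_val, hz, Units.val_one]
    exact isIntegral_one
  · rw [hE, pow_mul, neg_one_sq, one_pow]
  · intro m hm hmr z hz
    rw [hE] at hz
    apply hμ
    obtain ⟨c, hc⟩ := mul_dvd_mul_left (2 * N) (Nat.dvd_factorial hm hmr)
    have h1 : (z : ℂ) ^ (2 * N * m) = 1 := by
      rw [mul_comm (2 * N) m, pow_mul, ← Units.val_pow_eq_pow_val, ← Units.val_pow_eq_pow_val, hz,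
        Units.val_one]
    rw [hc, pow_mul, h1, one_pow]
  · intro m hm e he h
    rw [hE] at he
    refine hu (m * (2 * N)) (by positivity) ?_
    rw [pow_mul, h, ← Units.val_pow_eq_pow_val, he, Units.val_one]

theorem eigIn_roots (C : SpecialLinearGroup (Fin r) ℂ) (N : ℕ) (hN : 0 < N)
    (hC : ∀ z, IsEigenvalue C z → z ^ N = 1) :
    EigIn (powMonoidHom (α := ℂˣ) (2 * N)).ker C.1 := by
  intro z hz
  have h1 : z ^ N = 1 := hC z hz
  have h0 : z ≠ 0 := by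
    rintro rfl
    rw [zero_pow hN.ne'] at h1
    exact zero_ne_one h1
  refine ⟨Units.mk0 z h0, ?_, rfl⟩
  change Units.mk0 z h0 ^ (2 * N) = 1
  ext1
  rw [Units.val_pow_eq_pow_val, Units.val_mk0, Units.val_one, mul_comm, pow_mul, h1, one_pow]

/-- The field of coefficients attached to eigenvalues that are algebraic units. -/
theorem exists_field_eig (C : ∀ i, Fin (n i) → SpecialLinearGroup (Fin r) ℂ)
    (hC : ∀ i j z, IsEigenvalue (C i j) z → IsIntegral ℤ z ∧ IsIntegral ℤ z⁻¹) :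
    ∃ E : Subgroup ℂˣ, (∀ i j, EigIn E ((C i j).1)) ∧ ∃ L : IntermediateField ℚ ℂ,
      FiniteDimensional ℚ L ∧ CoefOK (phiO (algebraMap L ℂ)) E r := by
  have h0 : ∀ i j z, IsEigenvalue (C i j) z → z ≠ 0 := by
    rintro i j z hz rfl
    have h1 : (C i j).1.charpoly.eval 0 = 0 := hz
    rw [Matrix.eval_charpoly, map_zero, zero_sub, Matrix.det_neg, (C i j).2, mul_one] at h1
    exact pow_ne_zero _ (by norm_num) h1
  obtain ⟨S, hS⟩ : ∃ S : Set ℂˣ, S = {z : ℂˣ | ∃ i j, IsEigenvalue (C i j) (z : ℂ)} :=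
    ⟨_, rfl⟩
  have hSf : S.Finite := by
    have h1 : (⋃ p : (i : Fin k) × Fin (n i), {z : ℂ | (C p.1 p.2).1.charpoly.IsRoot z}).Finite :=
      Set.finite_iUnion fun p => Polynomial.finite_setOfPred_isRoot
        (Matrix.charpoly_monic _).ne_zero
    refine Set.Finite.of_injOn (f := fun z : ℂˣ => (z : ℂ)) ?_ (Units.val_injective.injOn) h1
    intro z hz
    rw [hS] at hz
    obtain ⟨i, j, hz⟩ := hz
    exact Set.mem_iUnion.2 ⟨⟨i, j⟩, hz⟩
  obtain ⟨L, hL, hc⟩ := exists_field_E S hSf (fun z hz => by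
    rw [hS] at hz
    obtain ⟨i, j, hz⟩ := hz
    rw [Units.val_inv_eq_inv_val]
    exact hC i j z hz) r
  refine ⟨_, fun i j z hz => ?_, L, hL, hc⟩
  refine ⟨Units.mk0 z (h0 i j z hz), Subgroup.subset_closure (Set.mem_insert_of_mem _ ?_), rfl⟩
  rw [hS]
  exact ⟨i, j, hz⟩

/-- No punctured torus, quasi-unipotent classes, explicit fields. -/
theorem density_roots0 (hG : G0Irr) (C : ∀ i, Fin (n i) → SpecialLinearGroup (Fin r) ℂ) (N : ℕ)
    (hN : 0 < N) (hC : ∀ i j z, IsEigenvalue (C i j) z → z ^ N = 1)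
    (hg : ∀ i, OKCurveQ (g i) (n i) r (C i)) (hg1 : ∀ i, g i = 1 → n i = 0)
    (L : IntermediateField ℚ ℂ) (hL : FiniteDimensional ℚ L)
    (hμ : ∀ z : ℂ, z ^ (2 * N * r.factorial) = 1 → z ∈ L) (hu : Infinite (𝓞 L)ˣ) :
    IsZariskiDenseRep {X ∈ Y g C | IsIntegralRep L X} (Y g C) :=
  density_E0 hG C _ (fun i j => eigIn_roots (C i j) N hN (hC i j)) hg hg1 L hL
    (coefOK_roots N hN r L hL hμ hu)

/-- No punctured torus, existence of the field. -/
theorem exists_density0 (hG : G0Irr) (C : ∀ i, Fin (n i) → SpecialLinearGroup (Fin r) ℂ)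
    (hC : ∀ i j z, IsEigenvalue (C i j) z → IsIntegral ℤ z ∧ IsIntegral ℤ z⁻¹)
    (hg : ∀ i, OKCurveQ (g i) (n i) r (C i)) (hg1 : ∀ i, g i = 1 → n i = 0) :
    ∃ L : IntermediateField ℚ ℂ, FiniteDimensional ℚ L ∧
      IsZariskiDenseRep {X ∈ Y g C | IsIntegralRep L X} (Y g C) := by
  obtain ⟨E, hE, L, hL, hc⟩ := exists_field_eig C hC
  exact ⟨L, hL, density_E0 hG C E hE hg hg1 L hL hc⟩

/-- Quasi-unipotent classes, explicit fields. -/
theorem density_roots2 (hG : G0Irr) (hG1 : G1Irr2)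
    (C : ∀ i, Fin (n i) → SpecialLinearGroup (Fin r) ℂ) (N : ℕ)
    (hN : 0 < N) (hC : ∀ i j z, IsEigenvalue (C i j) z → z ^ N = 1)
    (hg : ∀ i, OKCurveQ (g i) (n i) r (C i))
    (L₀ L : IntermediateField ℚ ℂ) (hL : FiniteDimensional ℚ L) (h : L₀ ≤ L)
    (hμ : ∀ z : ℂ, z ^ (2 * N * r.factorial) = 1 → z ∈ L₀) (hu : Infinite (𝓞 L₀)ˣ)
    (hroot : (∀ i, g i = 1 → n i = 0) ∨
      ∀ u : (𝓞 L₀)ˣ, ∃ z ∈ L, z ^ r.factorial = ((u : 𝓞 L₀) : ℂ)) :
    IsZariskiDenseRep {X ∈ Y g C | IsIntegralRep L X} (Y g C) := by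
  have hL₀ : FiniteDimensional ℚ L₀ :=
    FiniteDimensional.of_injective (IntermediateField.inclusion h).toLinearMap
      (IntermediateField.inclusion h).injective
  have hE := fun i j => eigIn_roots (C i j) N hN (hC i j)
  have hc := coefOK_roots N hN r L₀ hL₀ hμ hu
  rcases hroot with hg1 | hroot
  · exact density_E0 hG C _ hE hg hg1 L hL
      (hc.ring_mono (iotaO h) (phiO_iotaO h) (phiO_injective _))
  · exact density_E2 hG hG1 C _ hE hg L₀ L hL₀ hL h hc hroot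

/-- Existence of the field. -/
theorem exists_density2 (hG : G0Irr) (hG1 : G1Irr2)
    (C : ∀ i, Fin (n i) → SpecialLinearGroup (Fin r) ℂ)
    (hC : ∀ i j z, IsEigenvalue (C i j) z → IsIntegral ℤ z ∧ IsIntegral ℤ z⁻¹)
    (hg : ∀ i, OKCurveQ (g i) (n i) r (C i)) :
    ∃ L : IntermediateField ℚ ℂ, FiniteDimensional ℚ L ∧
      IsZariskiDenseRep {X ∈ Y g C | IsIntegralRep L X} (Y g C) := by
  obtain ⟨E, hE, L₀, hL₀, hc⟩ := exists_field_eig C hC
  obtain ⟨L, hL, h, hroot⟩ := exists_root_field L₀ hL₀ r.factorial (Nat.factorial_pos r)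
  refine ⟨L, hL, density_E2 hG hG1 C E hE hg L₀ L hL₀ hL h hc fun u => ?_⟩
  obtain ⟨z, hz⟩ := IsAlgClosed.exists_pow_nat_eq (phiO (algebraMap L₀ ℂ) (u : 𝓞 L₀))
    (Nat.factorial_pos r)
  exact ⟨z, hroot u z hz, hz⟩

end Vale.Agent.P002R.Product
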