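import Vale.Agent.P002R.ZCore

/-!
# P002: rational families in the cell with prescribed diagonal and characteristic polynomial
-/

namespace Vale.Agent.P002R

open Matrix

/-- Every element of the cell with a cyclic first basis vector is a member of a rational family of
such elements with prescribed diagonal and prescribed characteristic polynomial. -/
theorem exists_family {σ : Type*} {x₀ : σ → ℂ} {n : ℕ} (q : Fin (n + 1) → ratAt x₀)
    (χ : Polynomial (ratAt x₀)) (hχ : χ.Monic) (hχd : χ.natDegree = n + 1)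
    (Yl : Mat (n + 1) ℂ) (hdiag : ∀ i, rev x₀ x₀ (q i) = Yl i i)
    (hchar : (zZ Yl).charpoly = χ.map ((rev x₀ x₀ : ratAt x₀ →ₐ[ℂ] ℂ) : ratAt x₀ →+* ℂ))
    (hcyc : P002G.Cyc (zZ Yl) (P002G.e0 n ℂ)) :
    ∃ (Yt : Mat (n + 1) (ratAt x₀)) (κ : ratAt x₀), rev x₀ x₀ κ ≠ 0 ∧
      (∀ i j, rev x₀ x₀ (Yt i j) = Yl i j) ∧
      ∀ x, rev x₀ x κ ≠ 0 →
        (χ.map ((rev x₀ x : ratAt x₀ →ₐ[ℂ] ℂ) : ratAt x₀ →+* ℂ)).coeff 0 =
          (-1) ^ (n + 1) * ∏ i, rev x₀ x (q i) →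
        (∀ i, rev x₀ x (Yt i i) = rev x₀ x (q i)) ∧
        (zZ (Yt.map (rev x₀ x))).charpoly =
          χ.map ((rev x₀ x : ratAt x₀ →ₐ[ℂ] ℂ) : ratAt x₀ →+* ℂ) ∧
        P002G.Cyc (zZ (Yt.map (rev x₀ x))) (P002G.e0 n ℂ) := by
  obtain ⟨XN, hXN⟩ : ∃ XN : Mat n (ratAt x₀), XN = Matrix.of fun i j => if i = j then q i.succ
    else algebraMap ℂ _ (Yl i.succ j.succ) := ⟨_, rfl⟩
  obtain ⟨l, hl⟩ : ∃ l : Fin n → ratAt x₀, l = fun i => algebraMap ℂ _ (Yl i.succ 0) :=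
    ⟨_, rfl⟩
  obtain ⟨N, hN⟩ : ∃ N : Mat n (ratAt x₀), N = P002G.zZ XN := ⟨_, rfl⟩
  obtain ⟨b, hb⟩ : ∃ b : Fin n → ratAt x₀, b = P002G.uU XN *ᵥ l := ⟨_, rfl⟩
  -- the evaluations
  obtain ⟨rv, hrv⟩ : ∃ rv : (σ → ℂ) → ratAt x₀ →+* ℂ,
    rv = fun x => ((rev x₀ x : ratAt x₀ →ₐ[ℂ] ℂ) : ratAt x₀ →+* ℂ) := ⟨_, rfl⟩
  have hrv' : ∀ x s, rv x s = rev x₀ x s := by
    intro x s
    rw [hrv]
    rfl
  have hlr : ∀ x i, rv x (l i) = Yl i.succ 0 := by
    intro x i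
    rw [hrv', hl]
    exact AlgHom.commutes _ _
  have hNr : ∀ x, N.map (rv x) = P002G.zZ (XN.map (rv x)) := fun x => by
    rw [hN, P002G.zZ_map]
  have hbr : ∀ x, (fun i => rv x (b i)) = P002G.uU (XN.map (rv x)) *ᵥ fun i => rv x (l i) := by
    intro x
    funext i
    rw [hb, RingHom.map_mulVec, ← P002G.uU_map]
    rfl
  have hWr : ∀ x, (P002G.WW N b).map (rv x) = P002G.WW (N.map (rv x)) fun i => rv x (b i) :=
    fun x => P002G.WW_map (rv x) N b
  have hXNr : ∀ x i j, (XN.map (rv x)) i j = if i = j then rv x (q i.succ) else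
      Yl i.succ j.succ := by
    intro x i j
    rw [hXN, Matrix.map_apply, Matrix.of_apply]
    split_ifs
    · rfl
    · rw [hrv']
      exact AlgHom.commutes _ _
  -- the base point
  have hq0 : ∀ i, rv x₀ (q i) = Yl i i := by
    intro i
    rw [hrv', hdiag]
  obtain ⟨ψ, hψ⟩ : ∃ ψ : (σ → ℂ) → Polynomial ℂ, ψ = fun x => χ.map (rv x) := ⟨_, rfl⟩
  have hψ1 : ∀ x, (ψ x).Monic := by intro x; rw [hψ]; exact hχ.map (rv x)
  have hψ2 : ∀ x, (ψ x).natDegree = n + 1 := by intro x; rw [hψ]; exact (hχ.natDegree_map _).trans hχd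
  have hψr : ∀ x, ψ x = χ.map ((rev x₀ x : ratAt x₀ →ₐ[ℂ] ℂ) : ratAt x₀ →+* ℂ) := by
    intro x
    rw [hψ, hrv]
  have hXN0 : XN.map (rv x₀) = Matrix.of fun i j => Yl i.succ j.succ := by
    ext i j
    rw [hXNr, Matrix.of_apply]
    split_ifs with h
    · rw [h, hq0]
    · rfl
  have hYm : P002G.bcons (Yl 0 0) (fun j => Yl 0 j.succ)
      (fun i => rv x₀ (l i)) (XN.map (rv x₀)) = Yl := by
    rw [hXN0]
    have h1 : (fun i => rv x₀ (l i)) = fun i : Fin n => Yl i.succ 0 :=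
      funext fun i => hlr x₀ i
    rw [h1]
    exact P002G.bcons_eta _
  obtain ⟨a0, ha0⟩ : ∃ a0 : Fin n → ℂ, a0 ᵥ* P002G.uU (XN.map (rv x₀)) =
      fun j => Yl 0 j.succ := ⟨_, P002G.exists_vecMul_uU _ _⟩
  have hbrd0 : P002G.zZ Yl = P002G.brd (Yl 0 0) (N.map (rv x₀))
      (fun i => rv x₀ (b i)) a0 := by
    rw [hNr, hbr, ← P002G.zZ_bcons, ha0, hYm]
  have hcyc0 : P002G.Cyc (N.map (rv x₀)) fun i => rv x₀ (b i) := by
    have h1 : P002G.Cyc (P002G.zZ Yl) (P002G.e0 n ℂ) := hcyc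
    rw [hbrd0, P002G.cyc_brd] at h1
    exact h1
  have hdW : rev x₀ x₀ (P002G.WW N b).det ≠ 0 := by
    rw [← hrv', RingHom.map_det]
    change ((P002G.WW N b).map (rv x₀)).det ≠ 0
    rw [hWr, ← isUnit_iff_ne_zero, ← Matrix.isUnit_iff_isUnit_det, P002G.isUnit_WW]
    exact hcyc0
  obtain ⟨winv, hwinv⟩ := exists_rinv (P002G.WW N b).det hdW
  obtain ⟨a, ha⟩ : ∃ a : Fin n → ratAt x₀, a = winv • ((P002G.WW N b).adjugate *ᵥ fun j : Fin n =>
    (N.charpoly * (Polynomial.X - Polynomial.C (q 0)) - χ).coeff ((j : ℕ) + 1)) := ⟨_, rfl⟩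
  have har : ∀ x, (fun i => rv x (a i)) = P002G.aOf (ψ x) (rv x (q 0)) (N.map (rv x))
      fun i => rv x (b i) := by
    intro x
    funext i
    rw [ha, P002G.aOf, ← hWr, Matrix.inv_def, Ring.inverse_eq_inv', Matrix.smul_mulVec,
      Pi.smul_apply, Pi.smul_apply, smul_eq_mul, smul_eq_mul, map_mul, hrv' x winv, hwinv x,
      ← hrv' x, RingHom.map_det, RingHom.map_mulVec]
    congr 1
    have h1 : ((P002G.WW N b).adjugate.map (rv x)) = ((P002G.WW N b).map (rv x)).adjugate :=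
      RingHom.map_adjugate (rv x) _
    rw [h1]
    refine congrArg (fun v => (((P002G.WW N b).map (rv x)).adjugate *ᵥ v) i) ?_
    funext j
    have h2 : (N.map (rv x)).charpoly = N.charpoly.map (rv x) := Matrix.charpoly_map N (rv x)
    have h3 : χ.map (rv x) = ψ x := by rw [hψ]
    rw [Function.comp_apply, ← Polynomial.coeff_map, Polynomial.map_sub, Polynomial.map_mul,
      Polynomial.map_sub, Polynomial.map_X, Polynomial.map_C, h2, h3]
  obtain ⟨Yt, hYt⟩ : ∃ Yt : Mat (n + 1) (ratAt x₀),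
    Yt = P002G.bcons (q 0) (a ᵥ* P002G.uU XN) l XN := ⟨_, rfl⟩
  have hYtr : ∀ x, Yt.map (rv x) = P002G.bcons (rv x (q 0))
      ((fun i => rv x (a i)) ᵥ* P002G.uU (XN.map (rv x))) (fun i => rv x (l i))
      (XN.map (rv x)) := by
    intro x
    rw [hYt, bcons_map]
    congr 1
    funext j
    rw [← P002G.uU_map, RingHom.map_vecMul]
    rfl
  have hzZt : ∀ x, P002G.zZ (Yt.map (rv x)) = P002G.brd (rv x (q 0)) (N.map (rv x))
      (fun i => rv x (b i)) (fun i => rv x (a i)) := by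
    intro x
    rw [hYtr, P002G.zZ_bcons, ← hNr, ← hbr]
  -- the constant coefficient
  have hconst : ∀ x, (ψ x).coeff 0 = (-1) ^ (n + 1) * ∏ i, rv x (q i) →
      (ψ x).coeff 0 = -(rv x (q 0) * (N.map (rv x)).charpoly.coeff 0) := by
    intro x hx
    rw [hx, hNr, P002G.charpoly_zZ_coeff_zero, Fin.prod_univ_succ]
    have h5 : ∏ i, (XN.map (rv x)) i i = ∏ i : Fin n, rv x (q i.succ) :=
      Finset.prod_congr rfl fun i _ => by rw [hXNr, if_pos rfl]
    rw [h5]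
    ring
  have hconst0 : (ψ x₀).coeff 0 = (-1) ^ (n + 1) * ∏ i, rv x₀ (q i) := by
    have h4 : ψ x₀ = (P002G.zZ Yl).charpoly := by
      rw [hψr]
      exact hchar.symm
    rw [h4, P002G.charpoly_zZ_coeff_zero]
    congr 1
    exact Finset.prod_congr rfl fun i _ => (hq0 i).symm
  -- the value at the base point
  have hYt0 : Yt.map (rv x₀) = Yl := by
    have h1 : a0 = fun i => rv x₀ (a i) := by
      rw [har]
      have h2 := P002G.charpoly_brd_iff (hψ1 x₀) (hψ2 x₀) hcyc0 (hconst x₀ hconst0) a0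
      apply h2.1
      rw [hq0, ← hbrd0, hψr]
      exact hchar
    rw [hYtr, ← h1, ha0, hq0, hYm]
  refine ⟨Yt, (P002G.WW N b).det, hdW, fun i j => ?_, fun x hκ hx => ?_⟩
  · rw [← hrv']
    exact congrFun (congrFun hYt0 i) j
  have h6 : P002G.Cyc (N.map (rv x)) fun i => rv x (b i) := by
    rw [← P002G.isUnit_WW, Matrix.isUnit_iff_isUnit_det, isUnit_iff_ne_zero, ← hWr]
    have h7 := RingHom.map_det (rv x) (P002G.WW N b)
    rw [hrv'] at h7
    rw [h7] at hκ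
    exact hκ
  have hxc : (ψ x).coeff 0 = (-1) ^ (n + 1) * ∏ i, rv x (q i) := by
    rw [hψr, hx]
    simp only [hrv']
  have h8 := (P002G.charpoly_brd_iff (hψ1 x) (hψ2 x) h6 (hconst x hxc)
    (fun i => rv x (a i))).2 (har x)
  rw [← hzZt] at h8
  have hYr : Yt.map (rev x₀ x) = Yt.map (rv x) := by
    ext i j
    rw [Matrix.map_apply, Matrix.map_apply, hrv']
  refine ⟨fun i => ?_, ?_, ?_⟩
  · have h9 : (Yt.map (rv x)) i i = rv x (q i) := by
      rw [hYtr]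
      refine Fin.cases ?_ (fun i => ?_) i
      · rfl
      · rw [P002G.bcons_succ_succ, hXNr, if_pos rfl]
    rw [← hrv', ← hrv']
    exact h9
  · rw [hYr, ← hψr]
    exact h8
  · rw [hYr]
    have h11 : P002G.Cyc (P002G.zZ (Yt.map (rv x))) (P002G.e0 n ℂ) := by
      rw [hzZt, P002G.cyc_brd]
      exact h6
    exact h11

end Vale.Agent.P002R
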