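import Vale.Agent.P002R.ZRankOne
import Vale.Agent.P002R.RTensor

/-!
# P002, genus 0: generic points
-/

namespace Vale.Agent.P002R

open Matrix Module Vale.Agent.P002

variable {r : ℕ}

section normed

open scoped Matrix.Norms.Operator

/-- Existence of generic points; the derivations vanish on the subfield `K₀`. -/
theorem exists_generic_point_K {G : Type} [Fintype G] [DecidableEq G] (hr : 1 ≤ r)
    (K₀ : Subfield ℂ) (hK₀ : Countable K₀) (Φ : (G → P002R.Mat r ℂ) → P002R.Mat r ℂ)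
    (hΦ : ∀ Y : G → P002R.Mat r ℂ, (∀ k, IsUnit (Y k)) → ∃ D : (G → P002R.Mat r ℂ) →L[ℂ] P002R.Mat r ℂ,
      HasStrictFDerivAt Φ D Y ∧ ∀ δ : Derivation ℤ ℂ ℂ, (∀ c ∈ K₀, δ c = 0) →
        (Φ Y).map δ = D fun k => (Y k).map δ)
    (hdet : ∀ Y : G → P002R.Mat r ℂ, (∀ k, IsUnit (Y k)) → (Φ Y).det = 1)
    (X : G → P002R.Mat r ℂ) (hX : ∀ k, IsUnit (X k)) (hΦX : Φ X = 1)
    (hdual : ∀ D : (G → P002R.Mat r ℂ) →L[ℂ] P002R.Mat r ℂ, HasStrictFDerivAt Φ D X →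
      ∀ N : P002R.Mat r ℂ, (∀ H, trace (N * D H) = 0) → ∃ c : ℂ, N = c • (1 : P002R.Mat r ℂ))
    (U : Set (G → P002R.Mat r ℂ)) (hU : U ∈ nhds X) :
    ∃ Y ∈ U, (∀ k, IsUnit (Y k)) ∧ Φ Y = 1 ∧ ∃ c : Fin r × Fin r → ℂ,
      ∀ D : (G → P002R.Mat r ℂ) →L[ℂ] P002R.Mat r ℂ, HasStrictFDerivAt Φ D Y →
        ∀ H : G → P002R.Mat r ℂ, D H = 0 → ∀ γ : Fin r × Fin r → ℂ,
          ∃ δ : Derivation ℤ ℂ ℂ, (∀ c ∈ K₀, δ c = 0) ∧ (∀ k i j, δ (Y k i j) = H k i j) ∧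
            ∀ p, δ (c p) = γ p := by
  have hr0 : 0 < r := hr
  -- the derivative of `c • Φ Y`
  have hder : ∀ (Y : G → P002R.Mat r ℂ) (c : ℂ) (D : (G → P002R.Mat r ℂ) →L[ℂ] P002R.Mat r ℂ),
      HasStrictFDerivAt Φ D Y → ∃ D' : ((G → P002R.Mat r ℂ) × ℂ) →L[ℂ] P002R.Mat r ℂ,
        HasStrictFDerivAt (fun p : (G → P002R.Mat r ℂ) × ℂ => p.2 • Φ p.1) D' (Y, c) ∧
          ∀ H γ, D' (H, γ) = c • D H + γ • Φ Y := by
    intro Y c D hD
    have hfst : HasStrictFDerivAt (fun p : (G → P002R.Mat r ℂ) × ℂ => Φ p.1)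
        (D.comp (ContinuousLinearMap.fst ℂ (G → P002R.Mat r ℂ) ℂ)) (Y, c) :=
      HasStrictFDerivAt.comp (Y, c) hD
        (ContinuousLinearMap.fst ℂ (G → P002R.Mat r ℂ) ℂ).hasStrictFDerivAt
    have hsnd : HasStrictFDerivAt (fun p : (G → P002R.Mat r ℂ) × ℂ => p.2)
        (ContinuousLinearMap.snd ℂ (G → P002R.Mat r ℂ) ℂ) (Y, c) :=
      (ContinuousLinearMap.snd ℂ (G → P002R.Mat r ℂ) ℂ).hasStrictFDerivAt
    exact ⟨_, hsnd.smul hfst, fun H γ => rfl⟩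
  obtain ⟨D₀, hD₀, -⟩ := hΦ X hX
  obtain ⟨D, hD, hDe⟩ := hder X 1 D₀ hD₀
  have hDe' : ∀ H γ, D (H, γ) = D₀ H + γ • (1 : P002R.Mat r ℂ) := fun H γ => by
    rw [hDe, one_smul, hΦX]
  have hsurj : ∀ M, ∃ p, D p = M := by
    have h1 : D.range = ⊤ := by
      by_contra hne
      obtain ⟨φ, hφ, hle⟩ := Submodule.exists_le_ker_of_lt_top _ (lt_top_iff_ne_top.2 hne)
      obtain ⟨N, hNφ⟩ := exists_trace_repr φ
      have h0 : ∀ p, trace (N * D p) = 0 := fun p => by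
        have := hle (LinearMap.mem_range_self D.toLinearMap p)
        rw [LinearMap.mem_ker, hNφ] at this
        exact this
      have h1 : ∀ H, trace (N * D₀ H) = 0 := fun H => by
        have := h0 (H, 0)
        rw [hDe', zero_smul, add_zero] at this
        exact this
      obtain ⟨c, hcN⟩ := hdual D₀ hD₀ N h1
      have h2 : trace N = 0 := by
        have := h0 (0, 1)
        rw [hDe', map_zero, one_smul, zero_add, Matrix.mul_one] at this
        exact this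
      rw [hcN, trace_smul, trace_one, smul_eq_mul, Fintype.card_fin] at h2
      have hc0 : c = 0 := by
        rcases mul_eq_zero.1 h2 with h | h
        · exact h
        · exact absurd (Nat.cast_eq_zero.1 h) hr0.ne'
      rw [hc0, zero_smul] at hcN
      apply hφ
      ext1 M
      rw [hNφ, hcN, Matrix.zero_mul, trace_zero, LinearMap.zero_apply]
    intro M
    have h2 : M ∈ D.range := h1 ▸ Submodule.mem_top
    exact h2
  -- coordinates
  obtain ⟨e, he⟩ : ∃ e : (G × Fin r × Fin r) → ((G → P002R.Mat r ℂ) × ℂ) →ₗ[ℂ] ℂ,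
      ∀ a p, e a p = p.1 a.1 a.2.1 a.2.2 :=
    ⟨fun a => (Matrix.entryLinearMap ℂ ℂ a.2.1 a.2.2 : P002R.Mat r ℂ →ₗ[ℂ] ℂ).comp
      ((LinearMap.proj a.1).comp (LinearMap.fst ℂ (G → P002R.Mat r ℂ) ℂ)), fun a p => rfl⟩
  obtain ⟨I, hI1, hI2⟩ := exists_coords e (LinearMap.ker D.toLinearMap) (by
    rintro ⟨H, γ⟩ hz h
    have h1 : H = 0 := by
      funext k
      ext i j
      have := h (k, i, j)
      rw [he] at this
      exact this
    have h2 : D (H, γ) = 0 := hz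
    rw [hDe', h1, map_zero, zero_add] at h2
    have h3 : γ = 0 := by
      have := congrFun (congrFun h2 ⟨0, hr0⟩) ⟨0, hr0⟩
      simpa using this
    rw [h1, h3]
    rfl)
  -- the local diffeomorphism
  obtain ⟨eI, heI⟩ : ∃ eI : ((G → P002R.Mat r ℂ) × ℂ) →L[ℂ] (I → ℂ), ∀ p a, eI p a = e a p :=
    ⟨LinearMap.toContinuousLinearMap (LinearMap.pi fun a : I => e a), fun p a => rfl⟩
  have hbij : Function.Bijective (D.prod eI) := by
    constructor
    · rw [injective_iff_map_eq_zero]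
      intro z hz
      have h1 : D z = 0 := congrArg Prod.fst hz
      have h2 : eI z = 0 := congrArg Prod.snd hz
      refine hI1 z h1 fun i hi => ?_
      rw [← heI z ⟨i, hi⟩, h2]
      rfl
    · rintro ⟨M, a⟩
      obtain ⟨p, hp⟩ := hsurj M
      obtain ⟨z, hz, hz'⟩ := hI2 fun i => if h : i ∈ I then a ⟨i, h⟩ - e i p else 0
      have hz0 : D z = 0 := hz
      refine ⟨p + z, Prod.ext ?_ ?_⟩
      · show D (p + z) = M
        rw [map_add, hp, hz0, add_zero]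
      · show eI (p + z) = a
        funext i
        rw [map_add, Pi.add_apply, heI, heI, hz' i i.2, dif_pos i.2]
        ring
  obtain ⟨A, hA⟩ : ∃ A : ((G → P002R.Mat r ℂ) × ℂ) ≃L[ℂ] (P002R.Mat r ℂ × (I → ℂ)),
      (A : ((G → P002R.Mat r ℂ) × ℂ) →L[ℂ] (P002R.Mat r ℂ × (I → ℂ))) = D.prod eI := by
    refine ⟨(LinearEquiv.ofBijective (D.prod eI).toLinearMap hbij).toContinuousLinearEquiv, ?_⟩
    ext p <;> rfl
  have hΨ : HasStrictFDerivAt (fun p : (G → P002R.Mat r ℂ) × ℂ => (p.2 • Φ p.1, eI p))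
      (A : ((G → P002R.Mat r ℂ) × ℂ) →L[ℂ] (P002R.Mat r ℂ × (I → ℂ))) (X, (1 : ℂ)) := by
    rw [hA]
    exact hD.prodMk eI.hasStrictFDerivAt
  obtain ⟨s, hs, hsinj⟩ := exists_approx A hΨ
  have hmap := hΨ.map_nhds_eq_of_equiv
  -- the neighbourhood
  have hUn : {Y : G → P002R.Mat r ℂ | ∀ k, IsUnit (Y k)} ∈ nhds X := by
    have : {Y : G → P002R.Mat r ℂ | ∀ k, IsUnit (Y k)} =
        ⋂ k, {Y : G → P002R.Mat r ℂ | (Y k).det ≠ 0} := by
      ext Y
      simp only [Set.mem_ofPred_eq, Set.mem_iInter]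
      exact forall_congr' fun k => by rw [Matrix.isUnit_iff_isUnit_det, isUnit_iff_ne_zero]
    rw [this]
    refine (isOpen_iInter_of_finite fun k => ?_).mem_nhds ?_
    · exact isOpen_ne.preimage (Continuous.matrix_det (continuous_apply k))
    · simp only [Set.mem_iInter, Set.mem_ofPred_eq]
      intro k
      rw [← isUnit_iff_ne_zero, ← Matrix.isUnit_iff_isUnit_det]
      exact hX k
  have hCn : {c : ℂ | c ^ r = 1 → c = 1} ∈ nhds (1 : ℂ) := by
    have hfin : ({c : ℂ | c ^ r = 1 ∧ c ≠ 1}).Finite := by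
      refine (Multiset.finite_toSet (Polynomial.nthRoots r (1 : ℂ))).subset ?_
      rintro c ⟨h1, -⟩
      exact (Polynomial.mem_nthRoots hr0).2 h1
    have h1 : {c : ℂ | c ^ r = 1 → c = 1} = {c : ℂ | c ^ r = 1 ∧ c ≠ 1}ᶜ := by
      ext c
      simp only [Set.mem_ofPred_eq, Set.mem_compl_iff, not_and, not_not]
    rw [h1]
    refine hfin.isClosed.isOpen_compl.mem_nhds ?_
    simp
  have hprod : (U ∩ {Y : G → P002R.Mat r ℂ | ∀ k, IsUnit (Y k)}) ×ˢ
      {c : ℂ | c ^ r = 1 → c = 1} ∈ nhds (X, (1 : ℂ)) :=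
    prod_mem_nhds (Filter.inter_mem hU hUn) hCn
  have hall : ((U ∩ {Y : G → P002R.Mat r ℂ | ∀ k, IsUnit (Y k)}) ×ˢ
      {c : ℂ | c ^ r = 1 → c = 1}) ∩ interior s ∈ nhds (X, (1 : ℂ)) :=
    Filter.inter_mem hprod (interior_mem_nhds.2 hs)
  have himg := hmap.ge (Filter.image_mem_map (m := fun p : (G → P002R.Mat r ℂ) × ℂ =>
    (p.2 • Φ p.1, eI p)) hall)
  have hbase : ((X, (1 : ℂ)).2 • Φ (X, (1 : ℂ)).1, eI (X, (1 : ℂ))) =
      ((1 : P002R.Mat r ℂ), eI (X, (1 : ℂ))) := by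
    simp only [one_smul, hΦX]
  rw [hbase, nhds_prod_eq] at himg
  obtain ⟨V₁, hV₁, V₂, hV₂, hV⟩ := Filter.mem_prod_iff.1 himg
  obtain ⟨ε, hε, hball⟩ := Metric.mem_nhds_iff.1 hV₂
  -- algebraically independent coordinates
  obtain ⟨tc, htV, htind⟩ := exists_dense_algIndep K₀ hK₀
    (ι := I ⊕ (Fin r × Fin r))
    (fun a => Sum.elim (fun a : I => Metric.ball (eI (X, (1 : ℂ)) a) ε) (fun _ => Set.univ) a)
    (fun a => by
      cases a with
      | inl a => exact Metric.isOpen_ball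
      | inr a => exact isOpen_univ)
    (fun a => by
      cases a with
      | inl a => exact Metric.nonempty_ball.2 hε
      | inr a => exact Set.univ_nonempty)
  have htmem : (fun a : I => tc (Sum.inl a)) ∈ V₂ := by
    refine hball ?_
    rw [Metric.mem_ball, dist_pi_lt_iff hε]
    intro a
    exact htV (Sum.inl a)
  obtain ⟨⟨Y, c₁⟩, ⟨⟨⟨hYU, hYn⟩, hc₁⟩, hYs⟩, hYeq⟩ := hV (Set.mk_mem_prod
    (mem_of_mem_nhds hV₁) htmem)
  have hY1 : c₁ • Φ Y = 1 := congrArg Prod.fst hYeq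
  have hY2 : eI (Y, c₁) = fun a : I => tc (Sum.inl a) := congrArg Prod.snd hYeq
  have hc1 : c₁ = 1 := by
    apply hc₁
    have h1 := congrArg Matrix.det hY1
    rw [det_smul, hdet Y hYn, mul_one, det_one, Fintype.card_fin] at h1
    exact h1
  rw [hc1] at hY1 hY2 hYs
  rw [one_smul] at hY1
  refine ⟨Y, hYU, hYn, hY1, fun p => tc (Sum.inr p), fun D₁ hD₁ H hH γ => ?_⟩
  obtain ⟨δ, hδ0, hδ⟩ := exists_derivation K₀ tc htind
    (fun a => Sum.elim (fun a : I => H a.1.1 a.1.2.1 a.1.2.2) γ a)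
  refine ⟨δ, hδ0, ?_, fun p => hδ (Sum.inr p)⟩
  obtain ⟨D₂, hD₂, hD₂δ⟩ := hΦ Y hYn
  have hDD : D₂ = D₁ := hD₂.hasFDerivAt.unique hD₁.hasFDerivAt
  have h1 : D₁ (fun k => (Y k).map δ) = 0 := by
    rw [← hDD, ← hD₂δ δ hδ0, hY1]
    ext i j
    rw [Matrix.map_apply, Matrix.one_apply]
    split_ifs
    · simp
    · simp
  obtain ⟨D₃, hD₃, hD₃e⟩ := hder Y 1 D₁ hD₁
  have h2 : ((fun k => (Y k).map δ) - H, (0 : ℂ)) = 0 := by
    refine hsinj (Y, (1 : ℂ)) (mem_interior_iff_mem_nhds.1 hYs) (D₃.prod eI)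
      (hD₃.prodMk eI.hasStrictFDerivAt).hasFDerivAt _ ?_
    refine Prod.ext ?_ ?_
    · show D₃ ((fun k => (Y k).map δ) - H, (0 : ℂ)) = 0
      rw [hD₃e, map_sub, h1, hH, sub_zero, smul_zero, zero_smul, add_zero]
    · show eI ((fun k => (Y k).map δ) - H, (0 : ℂ)) = 0
      funext a
      have h3 : Y a.1.1 a.1.2.1 a.1.2.2 = tc (Sum.inl a) := by
        have := congrFun hY2 a
        rw [heI, he] at this
        exact this
      have h4 := hδ (Sum.inl a)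
      rw [heI, he]
      show δ (Y a.1.1 a.1.2.1 a.1.2.2) - H a.1.1 a.1.2.1 a.1.2.2 = 0
      rw [h3, h4]
      exact sub_self _
  have h3 : (fun k => (Y k).map δ) - H = 0 := congrArg Prod.fst h2
  intro k i j
  have h4 := congrFun (congrFun (congrFun (sub_eq_zero.1 h3) k) i) j
  exact h4

end normed

end Vale.Agent.P002R
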