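import Vale.Agent.P002R.ZGenPt
import Vale.Agent.P002.Krylov

/-!
# P002, genus 0: generic points of the variety of tuples of conjugates with product one
-/

namespace Vale.Agent.P002R

open Matrix Module Vale.Agent.P002

variable {r : ℕ} {ι : Type}

/-- the tuple of the conjugates -/
noncomputable def cj (J Y : ι → P002R.Mat r ℂ) (j : ι) : P002R.Mat r ℂ := Y j * J j * (Y j)⁻¹

theorem cj_apply (J Y : ι → P002R.Mat r ℂ) (j : ι) : cj J Y j = Y j * J j * (Y j)⁻¹ := rfl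

theorem isUnit_cj {J Y : ι → P002R.Mat r ℂ} (hJ : ∀ j, IsUnit (J j)) (hY : ∀ j, IsUnit (Y j))
    (j : ι) : IsUnit (cj J Y j) :=
  ((hY j).mul (hJ j)).mul (Matrix.isUnit_nonsing_inv_iff.2 (hY j))

theorem isUnit_cj_prod {J Y : ι → P002R.Mat r ℂ} (hJ : ∀ j, IsUnit (J j))
    (hY : ∀ j, IsUnit (Y j)) (l : List ι) : IsUnit (l.map (cj J Y)).prod := by
  induction l with
  | nil => simp
  | cons j l ih => rw [List.map_cons, List.prod_cons]; exact (isUnit_cj hJ hY j).mul ih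

theorem det_cj {J Y : ι → P002R.Mat r ℂ} (hY : ∀ j, IsUnit (Y j)) (j : ι) :
    (cj J Y j).det = (J j).det := by
  have hud : IsUnit (Y j).det := (Matrix.isUnit_iff_isUnit_det _).1 (hY j)
  rw [cj_apply, det_mul, det_mul, det_nonsing_inv, mul_right_comm, Ring.mul_inverse_cancel _ hud,
    one_mul]

theorem det_cj_prod {J Y : ι → P002R.Mat r ℂ} (hY : ∀ j, IsUnit (Y j)) (l : List ι) :
    (l.map (cj J Y)).prod.det = (l.map fun j => (J j).det).prod := by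
  induction l with
  | nil => simp
  | cons j l ih => rw [List.map_cons, List.prod_cons, det_mul, ih, det_cj hY, List.map_cons,
      List.prod_cons]

/-- a matrix orthogonal to the image of `DL` is a scalar -/
theorem scalar_of_orth [DecidableEq ι] {c : ι → P002R.Mat r ℂ} (L : List ι) (hnd : L.Nodup)
    (hmem : ∀ j, j ∈ L) (hrel : (L.map c).prod = 1)
    (hadj : Algebra.adjoin ℂ (Set.range c) = ⊤)
    (N : P002R.Mat r ℂ) (hN : ∀ x, trace (N * DL c x L) = 0) :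
    ∃ a : ℂ, N = a • (1 : P002R.Mat r ℂ) := by
  have h1 := pre_ind c N L (by
    intro l' j l'' hl hcom
    obtain ⟨X, hX⟩ : ∃ X, X = (l'.map c).prod := ⟨_, rfl⟩
    obtain ⟨Z, hZ⟩ : ∃ Z, Z = (l''.map c).prod := ⟨_, rfl⟩
    rw [← hX] at hcom
    have hnd' : (l' ++ j :: l'').Nodup := hl ▸ hnd
    rw [List.nodup_append, List.nodup_cons] at hnd'
    have h1 : ∀ H, trace ((0 : P002R.Mat r ℂ) * H) =
        trace ((c j * (Z * N * X) - (Z * N * X) * c j) * H) := by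
      intro H
      rw [← tr_comm, Matrix.zero_mul, trace_zero, ← hN (Function.update 0 j H), hl]
      rw [DL_split c _ l' l'' j (fun k hk => ?_) (fun k hk => ?_), Function.update_self, hX, hZ]
      · rw [Function.update_of_ne, Pi.zero_apply]
        exact hnd'.2.2 k hk j List.mem_cons_self
      · rw [Function.update_of_ne, Pi.zero_apply]
        rintro rfl
        exact hnd'.2.1.1 hk
    have h2 := eq_of_trace_eq h1
    have hcyc := cyc_one (X := X) (a := c j) (Y := Z) (by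
      rw [← hrel, hl, hX, hZ]
      simp only [List.map_append, List.map_cons, List.prod_append, List.prod_cons,
        Matrix.mul_assoc])
    refine comm_of_inv hcyc.1 ?_
    rw [show Z * X * N = Z * N * X by rw [Matrix.mul_assoc, ← hcom.eq, Matrix.mul_assoc], ← h2])
  have h2 : ∀ M : P002R.Mat r ℂ, Commute N M := by
    intro M
    have h3 : M ∈ Algebra.adjoin ℂ (Set.range c) := hadj ▸ Algebra.mem_top
    induction h3 using Algebra.adjoin_induction with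
    | mem x hx =>
      obtain ⟨j, rfl⟩ := hx
      exact h1.2 j (hmem j)
    | algebraMap a => exact (Algebra.commutes a N).symm
    | add x y _ _ hx hy => exact hx.add_right hy
    | mul x y _ _ hx hy => exact hx.mul_right hy
  obtain ⟨a, ha⟩ := Matrix.mem_range_scalar_iff_commute_single'.2 fun i j => (h2 (single i j 1)).symm
  refine ⟨a, ?_⟩
  rw [← ha, Matrix.scalar_apply, Matrix.smul_one_eq_diagonal]

section normed

open scoped Matrix.Norms.Operator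

variable [Fintype ι]

theorem deriv_cj (J : ι → P002R.Mat r ℂ) {Y : ι → P002R.Mat r ℂ} (hY : ∀ j, IsUnit (Y j)) (j : ι) :
    ∃ D : (ι → P002R.Mat r ℂ) →L[ℂ] P002R.Mat r ℂ,
      HasStrictFDerivAt (fun Y : ι → P002R.Mat r ℂ => cj J Y j) D Y ∧
      ∀ x : ι → P002R.Mat r ℂ, D (fun k => x k * Y k) = x j * cj J Y j - cj J Y j * x j := by
  have hp : HasStrictFDerivAt (fun Y : ι → P002R.Mat r ℂ => Y j)
      (ContinuousLinearMap.proj j : (ι → P002R.Mat r ℂ) →L[ℂ] P002R.Mat r ℂ) Y :=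
    (ContinuousLinearMap.proj j : (ι → P002R.Mat r ℂ) →L[ℂ] P002R.Mat r ℂ).hasStrictFDerivAt
  obtain ⟨D1, h1, e1⟩ := exists_deriv_inv hp (hY j)
  obtain ⟨D2, h2, e2⟩ := exists_deriv_mul hp (hasStrictFDerivAt_const (J j) Y)
  obtain ⟨D3, h3, e3⟩ := exists_deriv_mul h2 h1
  refine ⟨D3, h3, fun x => ?_⟩
  have hud : IsUnit (Y j).det := (Matrix.isUnit_iff_isUnit_det _).1 (hY j)
  have a1 : Y j * (Y j)⁻¹ = 1 := Matrix.mul_nonsing_inv _ hud
  have eqn : D3 (fun k => x k * Y k) = (x j * Y j * J j + Y j * 0) * (Y j)⁻¹ +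
      Y j * J j * -((Y j)⁻¹ * (x j * Y j) * (Y j)⁻¹) :=
    (e3 _).trans (congrArg₂ (fun M N => M + N)
      (congrArg (fun M => M * (Y j)⁻¹) (e2 _))
      (congrArg (fun M => Y j * J j * M) (e1 _)))
  refine eqn.trans ?_
  rw [cj_apply]
  have e : Y j * J j * -((Y j)⁻¹ * (x j * Y j) * (Y j)⁻¹) =
      -(Y j * J j * (Y j)⁻¹ * x j * (Y j * (Y j)⁻¹)) := by noncomm_ring
  rw [e, a1]
  noncomm_ring

theorem deriv_list (J : ι → P002R.Mat r ℂ) {Y : ι → P002R.Mat r ℂ} (hY : ∀ j, IsUnit (Y j))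
    (l : List ι) :
    ∃ D : (ι → P002R.Mat r ℂ) →L[ℂ] P002R.Mat r ℂ,
      HasStrictFDerivAt (fun Y : ι → P002R.Mat r ℂ => (l.map (cj J Y)).prod) D Y ∧
      ∀ x : ι → P002R.Mat r ℂ, D (fun k => x k * Y k) = DL (cj J Y) x l := by
  induction l with
  | nil =>
    refine ⟨0, ?_, fun x => rfl⟩
    simp only [List.map_nil, List.prod_nil]
    exact hasStrictFDerivAt_const _ _
  | cons j l ih =>
    obtain ⟨D₁, h1, e1⟩ := deriv_cj J hY j
    obtain ⟨D₂, h2, e2⟩ := ih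
    obtain ⟨D, h, e⟩ := exists_deriv_mul h1 h2
    refine ⟨D, ?_, fun x => ?_⟩
    · simp only [List.map_cons, List.prod_cons]
      exact h
    · rw [DL_cons, ← e1, ← e2]
      exact e _

theorem good_cj (K₀ : Subfield ℂ) {J : ι → P002R.Mat r ℂ} (hJK : ∀ j a b, J j a b ∈ K₀)
    {Y : ι → P002R.Mat r ℂ} (hY : ∀ j, IsUnit (Y j)) (l : List ι) :
    GoodG K₀ (fun Y : ι → P002R.Mat r ℂ => (l.map (cj J Y)).prod) Y := by
  refine GoodG.list_prod (fun j Y => cj J Y j) l fun j _ => ?_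
  exact ((GoodG.proj _).mul (GoodG.const (hJK j))).mul (GoodG.inv (GoodG.proj _) (hY _))

theorem units_nhds (Y : ι → P002R.Mat r ℂ) (hY : ∀ j, IsUnit (Y j)) :
    {Y : ι → P002R.Mat r ℂ | ∀ k, IsUnit (Y k)} ∈ nhds Y := by
  have : {Y : ι → P002R.Mat r ℂ | ∀ k, IsUnit (Y k)} =
      ⋂ k, {Y : ι → P002R.Mat r ℂ | (Y k).det ≠ 0} := by
    ext Y
    simp only [Set.mem_ofPred_eq, Set.mem_iInter]
    exact forall_congr' fun k => by rw [Matrix.isUnit_iff_isUnit_det, isUnit_iff_ne_zero]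
  rw [this]
  refine (isOpen_iInter_of_finite fun k => ?_).mem_nhds ?_
  · exact isOpen_ne.preimage (Continuous.matrix_det (continuous_apply k))
  · simp only [Set.mem_iInter, Set.mem_ofPred_eq]
    intro k
    rw [← isUnit_iff_ne_zero, ← Matrix.isUnit_iff_isUnit_det]
    exact hY k

/-- generating the matrix algebra is an open condition -/
theorem adjoin_nhds (J Y : ι → P002R.Mat r ℂ) (hY : ∀ j, IsUnit (Y j))
    (hadj : Algebra.adjoin ℂ (Set.range (cj J Y)) = ⊤) :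
    {Y : ι → P002R.Mat r ℂ | Algebra.adjoin ℂ (Set.range (cj J Y)) = ⊤} ∈ nhds Y := by
  classical
  have h1 : Submodule.span ℂ (Submonoid.closure (Set.range (cj J Y)) : Set (P002R.Mat r ℂ)) = ⊤ := by
    rw [← Algebra.adjoin_eq_span, hadj]
    rfl
  obtain ⟨f, hf, hspan, hind⟩ := Submodule.exists_fun_fin_finrank_span_eq ℂ
    (Submonoid.closure (Set.range (cj J Y)) : Set (P002R.Mat r ℂ))
  have hword : ∀ x ∈ Submonoid.closure (Set.range (cj J Y)),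
      ∃ l : List ι, (l.map (cj J Y)).prod = x := by
    intro x hx
    induction hx using Submonoid.closure_induction with
    | mem x hx =>
      obtain ⟨j, rfl⟩ := hx
      exact ⟨[j], by simp⟩
    | one => exact ⟨[], rfl⟩
    | mul x y _ _ hx hy =>
      obtain ⟨l, rfl⟩ := hx
      obtain ⟨l', rfl⟩ := hy
      exact ⟨l ++ l', by rw [List.map_append, List.prod_append]⟩
  choose w hw using fun i => hword (f i) (hf i)
  obtain ⟨d, hd⟩ : ∃ d, d = finrank ℂ (Submodule.span ℂ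
    (Submonoid.closure (Set.range (cj J Y)) : Set (P002R.Mat r ℂ))) := ⟨_, rfl⟩
  have hcont : ContinuousAt (fun (Y : ι → P002R.Mat r ℂ) i => ((w i).map (cj J Y)).prod) Y := by
    refine continuousAt_pi.2 fun i => ?_
    obtain ⟨D, hD, -⟩ := deriv_list J hY (w i)
    exact hD.hasFDerivAt.continuousAt
  have hfw : (fun i => ((w i).map (cj J Y)).prod) = f := funext hw
  have h3 : {g | LinearIndependent ℂ g} ∈ nhds (fun i => ((w i).map (cj J Y)).prod) := by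
    rw [hfw]
    exact hind.eventually
  have h4 := hcont h3
  refine Filter.mem_of_superset h4 ?_
  intro Y' hY'
  have h5 : LinearIndependent ℂ (fun i => ((w i).map (cj J Y')).prod) := hY'
  show Algebra.adjoin ℂ (Set.range (cj J Y')) = ⊤
  have h6 : Submodule.span ℂ (Set.range fun i => ((w i).map (cj J Y')).prod) = ⊤ := by
    apply Submodule.eq_top_of_finrank_eq
    rw [finrank_span_eq_card h5, Fintype.card_fin, h1, finrank_top]
  have h7 : Submodule.span ℂ (Set.range fun i => ((w i).map (cj J Y')).prod) ≤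
      Subalgebra.toSubmodule (Algebra.adjoin ℂ (Set.range (cj J Y'))) := by
    rw [Submodule.span_le]
    rintro _ ⟨i, rfl⟩
    show ((w i).map (cj J Y')).prod ∈ Algebra.adjoin ℂ (Set.range (cj J Y'))
    refine list_prod_mem fun x hx => ?_
    rw [List.mem_map] at hx
    obtain ⟨j, -, rfl⟩ := hx
    exact Algebra.subset_adjoin ⟨j, rfl⟩
  rw [h6, top_le_iff] at h7
  exact Algebra.toSubmodule_eq_top.1 h7

/-- Existence of generic points. -/
theorem generic_point_norm [DecidableEq ι] (hr : 1 ≤ r) (L : List ι) (hnd : L.Nodup)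
    (hmem : ∀ j, j ∈ L) (K₀ : Subfield ℂ) (hK₀ : Countable K₀) (J : ι → P002R.Mat r ℂ)
    (hJK : ∀ j a b, J j a b ∈ K₀)
    (Y₀ : ι → P002R.Mat r ℂ) (hY₀ : ∀ j, IsUnit (Y₀ j)) (hrel : (L.map (cj J Y₀)).prod = 1)
    (hadj : Algebra.adjoin ℂ (Set.range (cj J Y₀)) = ⊤) (U : Set (ι → P002R.Mat r ℂ))
    (hU : U ∈ nhds Y₀) :
    ∃ Y ∈ U, (∀ j, IsUnit (Y j)) ∧ (L.map (cj J Y)).prod = 1 ∧
      Algebra.adjoin ℂ (Set.range (cj J Y)) = ⊤ ∧
      ∀ x : ι → P002R.Mat r ℂ, DL (cj J Y) x L = 0 →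
        ∃ δ : Derivation ℤ ℂ ℂ, (∀ a ∈ K₀, δ a = 0) ∧ ∀ k, (Y k).map δ = x k * Y k := by
  have hdet : ∀ Y : ι → P002R.Mat r ℂ, (∀ k, IsUnit (Y k)) →
      ((L.map (cj J Y)).prod).det = 1 := by
    intro Y hY
    rw [det_cj_prod hY, ← det_cj_prod hY₀, hrel, det_one]
  obtain ⟨Y, ⟨hYU, hYadj⟩, hYu, hYrel, c, hgen⟩ := exists_generic_point_K hr K₀ hK₀
    (fun Y : ι → P002R.Mat r ℂ => (L.map (cj J Y)).prod)
    (fun Y hY => good_cj K₀ hJK hY L) hdet Y₀ hY₀ hrel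
    (fun D hD N hN => by
      obtain ⟨D', hD', hDe⟩ := deriv_list J hY₀ L
      have hDD : D' = D := hD'.hasFDerivAt.unique hD.hasFDerivAt
      refine scalar_of_orth L hnd hmem hrel hadj N fun x => ?_
      rw [← hDe, hDD]
      exact hN _)
    _ (Filter.inter_mem hU (adjoin_nhds J Y₀ hY₀ hadj))
  refine ⟨Y, hYU, hYu, hYrel, hYadj, fun x hx => ?_⟩
  obtain ⟨D, hD, hDe⟩ := deriv_list J hYu L
  obtain ⟨δ, hδ0, hδ1, -⟩ := hgen D hD (fun k => x k * Y k) (by rw [hDe]; exact hx) 0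
  refine ⟨δ, hδ0, fun k => ?_⟩
  ext i j
  exact hδ1 k i j

theorem map_der_list_norm {K₀ : Subfield ℂ} {J Y : ι → P002R.Mat r ℂ} (hJK : ∀ j a b, J j a b ∈ K₀)
    (hY : ∀ j, IsUnit (Y j)) (δ : Derivation ℤ ℂ ℂ) (hδ : ∀ a ∈ K₀, δ a = 0)
    (x : ι → P002R.Mat r ℂ) (hx : ∀ k, (Y k).map δ = x k * Y k) (l : List ι) :
    ((l.map (cj J Y)).prod).map δ = DL (cj J Y) x l := by
  obtain ⟨D, hD, h⟩ := good_cj K₀ hJK hY l
  obtain ⟨D', hD', e⟩ := deriv_list J hY l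
  have hDD : D' = D := hD'.hasFDerivAt.unique hD.hasFDerivAt
  rw [← e, hDD]
  refine (h δ hδ).trans ?_
  congr 1
  funext k
  exact hx k

end normed

variable [Fintype ι]

/-- Generic points. -/
def GenPt (K₀ : Subfield ℂ) (J : ι → P002R.Mat r ℂ) (L : List ι) (Y : ι → P002R.Mat r ℂ) : Prop :=
  ∀ x : ι → P002R.Mat r ℂ, DL (cj J Y) x L = 0 →
    ∃ δ : Derivation ℤ ℂ ℂ, (∀ a ∈ K₀, δ a = 0) ∧ ∀ k, (Y k).map δ = x k * Y k

theorem generic_point [DecidableEq ι] (hr : 1 ≤ r) (L : List ι) (hnd : L.Nodup)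
    (hmem : ∀ j, j ∈ L) (K₀ : Subfield ℂ) (hK₀ : Countable K₀) (J : ι → P002R.Mat r ℂ)
    (hJK : ∀ j a b, J j a b ∈ K₀)
    (Y₀ : ι → P002R.Mat r ℂ) (hY₀ : ∀ j, IsUnit (Y₀ j)) (hrel : (L.map (cj J Y₀)).prod = 1)
    (hadj : Algebra.adjoin ℂ (Set.range (cj J Y₀)) = ⊤) (U : Set (ι → P002R.Mat r ℂ))
    (hU : U ∈ nhds Y₀) :
    ∃ Y ∈ U, (∀ j, IsUnit (Y j)) ∧ (L.map (cj J Y)).prod = 1 ∧
      Algebra.adjoin ℂ (Set.range (cj J Y)) = ⊤ ∧ GenPt K₀ J L Y :=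
  generic_point_norm hr L hnd hmem K₀ hK₀ J hJK Y₀ hY₀ hrel hadj U hU

theorem map_der_list {K₀ : Subfield ℂ} {J Y : ι → P002R.Mat r ℂ} (hJK : ∀ j a b, J j a b ∈ K₀)
    (hY : ∀ j, IsUnit (Y j)) (δ : Derivation ℤ ℂ ℂ) (hδ : ∀ a ∈ K₀, δ a = 0)
    (x : ι → P002R.Mat r ℂ) (hx : ∀ k, (Y k).map δ = x k * Y k) (l : List ι) :
    ((l.map (cj J Y)).prod).map δ = DL (cj J Y) x l :=
  map_der_list_norm hJK hY δ hδ x hx l

theorem map_der_inv {M : P002R.Mat r ℂ} (hM : IsUnit M) (δ : Derivation ℤ ℂ ℂ) :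
    (M⁻¹).map δ = -(M⁻¹ * M.map δ * M⁻¹) := by
  have hud : IsUnit M.det := (Matrix.isUnit_iff_isUnit_det _).1 hM
  have h1 : M * M⁻¹ = 1 := Matrix.mul_nonsing_inv _ hud
  have h2 : M⁻¹ * M = 1 := Matrix.nonsing_inv_mul _ hud
  have h3 := congrArg (fun M : P002R.Mat r ℂ => M.map δ) h1
  simp only [map_der_mul] at h3
  have h4 : (1 : P002R.Mat r ℂ).map δ = 0 := by
    ext i j
    rw [Matrix.map_apply, Matrix.one_apply]
    split_ifs <;> simp
  rw [h4] at h3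
  have h5 : M * M⁻¹.map δ = -(M.map δ * M⁻¹) := by
    rw [eq_neg_iff_add_eq_zero, add_comm]; exact h3
  calc M⁻¹.map δ = M⁻¹ * (M * M⁻¹.map δ) := by
        rw [← Matrix.mul_assoc, h2, Matrix.one_mul]
    _ = -(M⁻¹ * M.map δ * M⁻¹) := by
        rw [h5, Matrix.mul_neg, Matrix.mul_assoc]

omit [Fintype ι] in
/-- the functional equation at a generic point -/
theorem generic_fun [DecidableEq ι] {K₀ : Subfield ℂ} {J : ι → P002R.Mat r ℂ}
    {Y : ι → P002R.Mat r ℂ} (hJ : ∀ j, IsUnit (J j)) (hY : ∀ j, IsUnit (Y j)) (b t : ι)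
    (l₁ l₂ l₃ : List ι) (hnd : (b :: (l₁ ++ (l₂ ++ t :: l₃))).Nodup)
    (hmem : ∀ j, j ∈ b :: (l₁ ++ (l₂ ++ t :: l₃)))
    (hrel : ((b :: (l₁ ++ (l₂ ++ t :: l₃))).map (cj J Y)).prod = 1)
    (hadj : Algebra.adjoin ℂ (Set.range (cj J Y)) = ⊤)
    (hgen : GenPt K₀ J (b :: (l₁ ++ (l₂ ++ t :: l₃))) Y) (u y : Fin r → ℂ) (hu : u ≠ 0)
    (hy : y ≠ 0) :
    ∃ (δ : Derivation ℤ ℂ ℂ) (x : ι → P002R.Mat r ℂ), (∀ a ∈ K₀, δ a = 0) ∧
      (∀ k, (Y k).map δ = x k * Y k) ∧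
      y ⬝ᵥ ((DL (cj J Y) x l₁ + (l₁.map (cj J Y)).prod * x t - x b * (l₁.map (cj J Y)).prod) *ᵥ u)
        ≠ 0 := by
  obtain ⟨x, hx1, hx2⟩ := rank_one (cj J Y) (fun j => isUnit_cj hJ hY j) b t l₁ l₂ l₃ hnd hrel
    hmem (fun W hW => eq_bot_or_top_of_adjoin (cj J Y) hadj W hW) u y hu hy
  obtain ⟨δ, h1, h2⟩ := hgen x hx1
  exact ⟨δ, x, h1, h2, hx2⟩

/-- minors at a generic point -/
theorem generic_minor [DecidableEq ι] {K₀ : Subfield ℂ} {J : ι → P002R.Mat r ℂ}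
    (hJK : ∀ j a b, J j a b ∈ K₀)
    {Y : ι → P002R.Mat r ℂ} (hJ : ∀ j, IsUnit (J j)) (hY : ∀ j, IsUnit (Y j)) (b t : ι)
    (l₁ l₂ l₃ : List ι) (hnd : (b :: (l₁ ++ (l₂ ++ t :: l₃))).Nodup)
    (hmem : ∀ j, j ∈ b :: (l₁ ++ (l₂ ++ t :: l₃)))
    (hrel : ((b :: (l₁ ++ (l₂ ++ t :: l₃))).map (cj J Y)).prod = 1)
    (hadj : Algebra.adjoin ℂ (Set.range (cj J Y)) = ⊤)
    (hgen : GenPt K₀ J (b :: (l₁ ++ (l₂ ++ t :: l₃))) Y) {κ : Type*} [Fintype κ] [DecidableEq κ]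
    (f g : κ → Fin r) (hf : Function.Injective f) (hg : Function.Injective g) :
    (((Y b)⁻¹ * (l₁.map (cj J Y)).prod * Y t).submatrix f g).det ≠ 0 := by
  intro hdet
  obtain ⟨P, hP⟩ : ∃ P, P = (l₁.map (cj J Y)).prod := ⟨_, rfl⟩
  obtain ⟨G, hG⟩ : ∃ G, G = (Y b)⁻¹ * P * Y t := ⟨_, rfl⟩
  rw [← hP, ← hG] at hdet
  obtain ⟨v, hv0, hv⟩ := Matrix.exists_mulVec_eq_zero_iff.2 hdet
  obtain ⟨z, hz0, hz⟩ := Matrix.exists_vecMul_eq_zero_iff.2 hdet
  have bu : IsUnit (Y b)⁻¹ := Matrix.isUnit_nonsing_inv_iff.2 (hY b)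
  -- extension by zero
  obtain ⟨w, hw⟩ : ∃ w : Fin r → ℂ, ∀ M : P002R.Mat r ℂ, ∀ a, (M *ᵥ w) a =
      ∑ c, M a (g c) * v c := by
    refine ⟨∑ c, v c • Pi.single (g c) 1, fun M a => ?_⟩
    rw [Matrix.mulVec_sum, Finset.sum_apply]
    refine Finset.sum_congr rfl fun c _ => ?_
    rw [Matrix.mulVec_smul, Matrix.mulVec_single_one, Pi.smul_apply, smul_eq_mul, mul_comm]
    rfl
  obtain ⟨s, hs⟩ : ∃ s : Fin r → ℂ, ∀ q : Fin r → ℂ, s ⬝ᵥ q = ∑ c, z c * q (f c) := by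
    refine ⟨∑ c, z c • Pi.single (f c) 1, fun q => ?_⟩
    rw [sum_dotProduct]
    refine Finset.sum_congr rfl fun c _ => ?_
    rw [smul_dotProduct, single_dotProduct, one_mul, smul_eq_mul]
  have hw0 : w ≠ 0 := by
    intro h0
    obtain ⟨c₀, hc₀⟩ := Function.ne_iff.1 hv0
    apply hc₀
    have h1 := hw 1 (g c₀)
    rw [h0, Matrix.mulVec_zero, Pi.zero_apply, Finset.sum_eq_single c₀] at h1
    · rw [Matrix.one_apply_eq, one_mul] at h1
      exact h1.symm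
    · intro c _ hc
      rw [Matrix.one_apply_ne, zero_mul]
      intro h
      exact hc (hg h.symm)
    · intro h
      exact absurd (Finset.mem_univ _) h
  have hs0 : s ≠ 0 := by
    intro h0
    obtain ⟨c₀, hc₀⟩ := Function.ne_iff.1 hz0
    apply hc₀
    have h1 := hs (Pi.single (f c₀) 1)
    rw [h0, zero_dotProduct, Finset.sum_eq_single c₀] at h1
    · rw [Pi.single_eq_same, mul_one] at h1
      exact h1.symm
    · intro c _ hc
      rw [Pi.single_eq_of_ne, mul_zero]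
      intro h
      exact hc (hf h)
    · intro h
      exact absurd (Finset.mem_univ _) h
  have hu : Y t *ᵥ w ≠ 0 := by
    intro h
    apply hw0
    have hud : IsUnit (Y t).det := (Matrix.isUnit_iff_isUnit_det _).1 (hY t)
    calc w = ((Y t)⁻¹ * Y t) *ᵥ w := by rw [Matrix.nonsing_inv_mul _ hud, Matrix.one_mulVec]
      _ = 0 := by rw [← Matrix.mulVec_mulVec, h, Matrix.mulVec_zero]
  have hy : s ᵥ* (Y b)⁻¹ ≠ 0 := by
    intro h
    apply hs0
    have hud : IsUnit (Y b).det := (Matrix.isUnit_iff_isUnit_det _).1 (hY b)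
    calc s = s ᵥ* ((Y b)⁻¹ * Y b) := by rw [Matrix.nonsing_inv_mul _ hud, Matrix.vecMul_one]
      _ = 0 := by rw [← Matrix.vecMul_vecMul, h, Matrix.zero_vecMul]
  obtain ⟨δ, x, hδ, hx, hne⟩ := generic_fun hJ hY b t l₁ l₂ l₃ hnd hmem hrel hadj hgen _ _ hu hy
  apply hne
  rw [← hP]
  have hGδ : G.map δ = (Y b)⁻¹ * (DL (cj J Y) x l₁ + P * x t - x b * P) * Y t := by
    have hud : IsUnit (Y b).det := (Matrix.isUnit_iff_isUnit_det _).1 (hY b)
    have a1 : Y b * (Y b)⁻¹ = 1 := Matrix.mul_nonsing_inv _ hud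
    rw [hG, map_der_mul, map_der_mul, map_der_inv (hY b), hx, hx, hP, map_der_list hJK hY δ hδ x hx,
      ← hP]
    have e : -((Y b)⁻¹ * (x b * Y b) * (Y b)⁻¹) = -((Y b)⁻¹ * x b * (Y b * (Y b)⁻¹)) := by
      noncomm_ring
    rw [e, a1]
    noncomm_ring
  have h1 : (s ᵥ* (Y b)⁻¹) ⬝ᵥ ((DL (cj J Y) x l₁ + P * x t - x b * P) *ᵥ (Y t *ᵥ w)) =
      s ⬝ᵥ (G.map δ *ᵥ w) := by
    rw [hGδ, ← Matrix.mulVec_mulVec, ← Matrix.mulVec_mulVec, Matrix.dotProduct_mulVec s]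
  rw [h1, hs]
  -- `z δ(G') v = 0`
  have h2 : ∀ c, ∑ d, (G.map δ) (f c) (g d) * v d = - ∑ d, G (f c) (g d) * δ (v d) := by
    intro c
    have h3 := congrArg δ (congrFun hv c)
    rw [Pi.zero_apply, map_zero] at h3
    simp only [Matrix.mulVec, dotProduct, Matrix.submatrix_apply, map_sum, Derivation.leibniz,
      smul_eq_mul, Finset.sum_add_distrib] at h3
    rw [eq_neg_iff_add_eq_zero, add_comm, ← h3]
    congr 1
    refine Finset.sum_congr rfl fun d _ => ?_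
    rw [Matrix.map_apply, mul_comm]
  have h4 : ∑ c, z c * (G.map δ *ᵥ w) (f c) = - ∑ d, (∑ c, z c * G (f c) (g d)) * δ (v d) := by
    calc ∑ c, z c * (G.map δ *ᵥ w) (f c)
        = ∑ c, z c * -∑ d, G (f c) (g d) * δ (v d) := by
          refine Finset.sum_congr rfl fun c _ => ?_
          rw [hw, h2]
      _ = - ∑ c, ∑ d, z c * (G (f c) (g d) * δ (v d)) := by
          rw [← Finset.sum_neg_distrib]
          refine Finset.sum_congr rfl fun c _ => ?_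
          rw [mul_neg, Finset.mul_sum]
      _ = _ := by
          rw [Finset.sum_comm]
          congr 1
          refine Finset.sum_congr rfl fun d _ => ?_
          rw [Finset.sum_mul]
          refine Finset.sum_congr rfl fun c _ => by ring
  rw [h4, neg_eq_zero]
  refine Finset.sum_eq_zero fun d _ => ?_
  have h5 := congrFun hz d
  have h6 : ∑ c, z c * G (f c) (g d) = 0 := h5
  rw [h6, zero_mul]

/-- linear functionals at a generic point -/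
theorem generic_functional [DecidableEq ι] {K₀ : Subfield ℂ} {J : ι → P002R.Mat r ℂ}
    (hJK : ∀ j a b, J j a b ∈ K₀)
    {Y : ι → P002R.Mat r ℂ} (hJ : ∀ j, IsUnit (J j)) (hY : ∀ j, IsUnit (Y j)) (b t : ι)
    (l₁ l₂ l₃ : List ι) (hnd : (b :: (l₁ ++ (l₂ ++ t :: l₃))).Nodup)
    (hmem : ∀ j, j ∈ b :: (l₁ ++ (l₂ ++ t :: l₃)))
    (hrel : ((b :: (l₁ ++ (l₂ ++ t :: l₃))).map (cj J Y)).prod = 1)
    (hadj : Algebra.adjoin ℂ (Set.range (cj J Y)) = ⊤)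
    (hgen : GenPt K₀ J (b :: (l₁ ++ (l₂ ++ t :: l₃))) Y)
    (e ε : Fin r → ℂ) (he : ∀ i, e i ∈ K₀) (hε : ∀ i, ε i ∈ K₀) (he0 : e ≠ 0) (hε0 : ε ≠ 0) :
    ε ⬝ᵥ (((Y t)⁻¹ * ((l₁.map (cj J Y)).prod)⁻¹ * Y b) *ᵥ e) ≠ 0 := by
  intro h0
  obtain ⟨P, hP⟩ : ∃ P, P = (l₁.map (cj J Y)).prod := ⟨_, rfl⟩
  have hPu : IsUnit P := hP ▸ isUnit_cj_prod hJ hY l₁
  obtain ⟨G, hG⟩ : ∃ G, G = (Y t)⁻¹ * P⁻¹ * Y b := ⟨_, rfl⟩
  rw [← hP, ← hG] at h0
  have hu : (P⁻¹ * Y b) *ᵥ e ≠ 0 := by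
    intro h
    apply he0
    have hud : IsUnit (P⁻¹ * Y b).det :=
      (Matrix.isUnit_iff_isUnit_det _).1 ((Matrix.isUnit_nonsing_inv_iff.2 hPu).mul (hY b))
    calc e = ((P⁻¹ * Y b)⁻¹ * (P⁻¹ * Y b)) *ᵥ e := by
          rw [Matrix.nonsing_inv_mul _ hud, Matrix.one_mulVec]
      _ = 0 := by rw [← Matrix.mulVec_mulVec, h, Matrix.mulVec_zero]
  have hy : ε ᵥ* ((Y t)⁻¹ * P⁻¹) ≠ 0 := by
    intro h
    apply hε0
    have hud : IsUnit ((Y t)⁻¹ * P⁻¹).det :=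
      (Matrix.isUnit_iff_isUnit_det _).1 ((Matrix.isUnit_nonsing_inv_iff.2 (hY t)).mul
        (Matrix.isUnit_nonsing_inv_iff.2 hPu))
    calc ε = ε ᵥ* (((Y t)⁻¹ * P⁻¹) * ((Y t)⁻¹ * P⁻¹)⁻¹) := by
          rw [Matrix.mul_nonsing_inv _ hud, Matrix.vecMul_one]
      _ = 0 := by rw [← Matrix.vecMul_vecMul, h, Matrix.zero_vecMul]
  obtain ⟨δ, x, hδ, hx, hne⟩ := generic_fun hJ hY b t l₁ l₂ l₃ hnd hmem hrel hadj hgen _ _ hu hy
  apply hne
  rw [← hP]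
  have hGδ : G.map δ = -((Y t)⁻¹ * P⁻¹ * (DL (cj J Y) x l₁ + P * x t - x b * P) * (P⁻¹ * Y b)) := by
    have hud : IsUnit (Y t).det := (Matrix.isUnit_iff_isUnit_det _).1 (hY t)
    have hPd : IsUnit P.det := (Matrix.isUnit_iff_isUnit_det _).1 hPu
    have a1 : Y t * (Y t)⁻¹ = 1 := Matrix.mul_nonsing_inv _ hud
    have a2 : P * P⁻¹ = 1 := Matrix.mul_nonsing_inv _ hPd
    have a3 : P⁻¹ * P = 1 := Matrix.nonsing_inv_mul _ hPd
    have hPδ : P.map δ = DL (cj J Y) x l₁ := by rw [hP, map_der_list hJK hY δ hδ x hx]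
    rw [hG, map_der_mul, map_der_mul, map_der_inv (hY t), map_der_inv hPu, hx, hx, hPδ]
    have e1 : -((Y t)⁻¹ * (x t * Y t) * (Y t)⁻¹) = -((Y t)⁻¹ * x t * (Y t * (Y t)⁻¹)) := by
      noncomm_ring
    have e2 : (Y t)⁻¹ * P⁻¹ * (DL (cj J Y) x l₁ + P * x t - x b * P) * (P⁻¹ * Y b) =
        (Y t)⁻¹ * P⁻¹ * DL (cj J Y) x l₁ * P⁻¹ * Y b +
          (Y t)⁻¹ * (P⁻¹ * P) * x t * P⁻¹ * Y b - (Y t)⁻¹ * P⁻¹ * x b * (P * P⁻¹) * Y b := by
      noncomm_ring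
    rw [e1, a1, e2, a2, a3]
    noncomm_ring
  have h1 : (ε ᵥ* ((Y t)⁻¹ * P⁻¹)) ⬝ᵥ
      ((DL (cj J Y) x l₁ + P * x t - x b * P) *ᵥ ((P⁻¹ * Y b) *ᵥ e)) = - (ε ⬝ᵥ (G.map δ *ᵥ e)) := by
    have e1 : ∀ A B C : P002R.Mat r ℂ, (ε ᵥ* A) ⬝ᵥ (B *ᵥ (C *ᵥ e)) =
        ε ⬝ᵥ ((A * B * C) *ᵥ e) := fun A B C => by
      rw [← Matrix.mulVec_mulVec, ← Matrix.mulVec_mulVec, Matrix.dotProduct_mulVec ε]
    rw [hGδ, Matrix.neg_mulVec, dotProduct_neg, neg_neg, e1]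
  rw [h1, neg_eq_zero]
  have h2 := congrArg δ h0
  rw [map_zero] at h2
  simp only [dotProduct, map_sum, Derivation.leibniz, smul_eq_mul, hδ _ (hε _), mul_zero,
    add_zero, Matrix.mulVec, Finset.mul_sum, hδ _ (he _)] at h2
  simp only [dotProduct, Matrix.mulVec, Matrix.map_apply, Finset.mul_sum]
  rw [← h2]
  refine Finset.sum_congr rfl fun i _ => Finset.sum_congr rfl fun j _ => ?_
  rw [zero_add]
  ring

/-- The Krylov matrix is invertible if no left eigenvector annihilates the vector. -/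
theorem kry_det_ne (M : P002R.Mat r ℂ) (v : Fin r → ℂ)
    (h : ∀ (lam : ℂ) (y : Fin r → ℂ), y ≠ 0 → y ᵥ* M = lam • y → y ⬝ᵥ v ≠ 0) :
    (kry M v).det ≠ 0 := by
  intro hdet
  obtain ⟨y, hy0, hy⟩ := Matrix.exists_vecMul_eq_zero_iff.2 hdet
  have h1 : ∀ j : ℕ, j < r → y ⬝ᵥ ((M ^ j) *ᵥ v) = 0 := by
    intro j hj
    exact congrFun hy ⟨j, hj⟩
  have h2 : ∀ p : Polynomial ℂ, y ⬝ᵥ (Polynomial.aeval M p *ᵥ v) = 0 := by
    intro p
    have hm := Matrix.charpoly_monic M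
    have e1 := Polynomial.modByMonic_add_div p M.charpoly
    have e2 : Polynomial.aeval M p = Polynomial.aeval M (p %ₘ M.charpoly) := by
      conv_lhs => rw [← e1]
      rw [map_add, map_mul, Matrix.aeval_self_charpoly, zero_mul, add_zero]
    by_cases h0 : p %ₘ M.charpoly = 0
    · rw [e2, h0, map_zero, Matrix.zero_mulVec, dotProduct_zero]
    have hdeg : (p %ₘ M.charpoly).natDegree < r := by
      rw [Polynomial.natDegree_lt_iff_degree_lt h0]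
      have := Polynomial.degree_modByMonic_lt p hm
      rwa [Matrix.charpoly_degree_eq_dim, Fintype.card_fin] at this
    rw [e2, Polynomial.aeval_eq_sum_range' hdeg, Matrix.sum_mulVec, dotProduct_sum]
    refine Finset.sum_eq_zero fun n hn => ?_
    rw [Matrix.smul_mulVec, dotProduct_smul, h1 n (Finset.mem_range.1 hn), smul_zero]
  -- the annihilator is invariant
  obtain ⟨W, hW⟩ : ∃ W : Submodule ℂ (Fin r → ℂ), ∀ z, z ∈ W ↔
      ∀ p : Polynomial ℂ, z ⬝ᵥ (Polynomial.aeval M p *ᵥ v) = 0 :=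
    ⟨{ carrier := {z | ∀ p : Polynomial ℂ, z ⬝ᵥ (Polynomial.aeval M p *ᵥ v) = 0}
       add_mem' := fun {a b} ha hb p => by rw [add_dotProduct, ha p, hb p, add_zero]
       zero_mem' := fun p => zero_dotProduct _
       smul_mem' := fun c z hz p => by rw [smul_dotProduct, hz p, smul_zero] }, fun z => Iff.rfl⟩
  have hinv : ∀ z ∈ W, Matrix.toLin' Mᵀ z ∈ W := by
    intro z hz
    rw [hW] at hz ⊢
    intro p
    rw [Matrix.toLin'_apply, Matrix.mulVec_transpose, ← Matrix.dotProduct_mulVec,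
      Matrix.mulVec_mulVec]
    have := hz (Polynomial.X * p)
    rwa [map_mul, Polynomial.aeval_X] at this
  have hyW : y ∈ W := (hW y).2 h2
  have hnt : Nontrivial W := ⟨⟨⟨y, hyW⟩, 0, fun h => hy0 (congrArg Subtype.val h)⟩⟩
  obtain ⟨lam, hlam⟩ := Module.End.exists_eigenvalue ((Matrix.toLin' Mᵀ).restrict hinv)
  obtain ⟨⟨z, hzW⟩, hz⟩ := hlam.exists_hasEigenvector
  have hz1 : y ≠ 0 := hy0
  have hz2 : Matrix.toLin' Mᵀ z = lam • z := congrArg Subtype.val hz.apply_eq_smul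
  have hz3 : z ≠ 0 := fun h0 => hz.2 (Subtype.ext h0)
  rw [Matrix.toLin'_apply, Matrix.mulVec_transpose] at hz2
  refine h lam z hz3 hz2 ?_
  have h3 := (hW z).1 hzW 1
  rwa [map_one, Matrix.one_mulVec] at h3

/-- A left eigenvector is unique up to scalars if there is a cyclic vector. -/
theorem left_eigen_unique {J : P002R.Mat r ℂ} {v : Fin r → ℂ} (hv : (kry J v).det ≠ 0) {lam : ℂ}
    {y z : Fin r → ℂ} (hy : y ᵥ* J = lam • y) (hz : z ᵥ* J = lam • z) (hz0 : z ≠ 0) :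
    ∃ a : ℂ, y = a • z := by
  have hpow : ∀ w : Fin r → ℂ, w ᵥ* J = lam • w → ∀ n : ℕ, w ᵥ* (J ^ n) = lam ^ n • w := by
    intro w hw n
    induction n with
    | zero => rw [pow_zero, pow_zero, one_smul, Matrix.vecMul_one]
    | succ n ih =>
      rw [pow_succ, ← Matrix.vecMul_vecMul, ih, Matrix.smul_vecMul, hw, smul_smul, pow_succ]
  have hzero : ∀ w : Fin r → ℂ, w ᵥ* J = lam • w → w ⬝ᵥ v = 0 → w = 0 := by
    intro w hw h0
    by_contra hw0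
    apply hv
    apply Matrix.exists_vecMul_eq_zero_iff.1
    refine ⟨w, hw0, ?_⟩
    funext j
    show w ⬝ᵥ (fun i => kry J v i j) = 0
    have h1 : (fun i => kry J v i j) = (J ^ (j : ℕ)) *ᵥ v := rfl
    rw [h1, Matrix.dotProduct_mulVec, hpow w hw, smul_dotProduct, h0, smul_zero]
  have hzv : z ⬝ᵥ v ≠ 0 := fun h => hz0 (hzero z hz h)
  refine ⟨(y ⬝ᵥ v) / (z ⬝ᵥ v), ?_⟩
  rw [← sub_eq_zero]
  refine hzero _ ?_ ?_
  · rw [Matrix.sub_vecMul, Matrix.smul_vecMul, hy, hz, smul_sub, smul_comm]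
  · rw [sub_dotProduct, smul_dotProduct, smul_eq_mul, div_mul_cancel₀ _ hzv, sub_self]

omit [Fintype ι] in
/-- The set of the values which have to be constants. -/
theorem exists_eigen_field [Finite ι] (J : ι → P002R.Mat r ℂ) :
    ∃ K₀ : Subfield ℂ, Countable K₀ ∧ (∀ j a b, J j a b ∈ K₀) ∧
      ∀ j (lam : ℂ) (y : Fin r → ℂ), y ≠ 0 → y ᵥ* J j = lam • y →
        ∃ z : Fin r → ℂ, z ≠ 0 ∧ z ᵥ* J j = lam • z ∧ ∀ i, z i ∈ K₀ := by
  classical
  have hch : ∀ (j : ι) (lam : ℂ), ∃ z : Fin r → ℂ,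
      (∃ y : Fin r → ℂ, y ≠ 0 ∧ y ᵥ* J j = lam • y) → z ≠ 0 ∧ z ᵥ* J j = lam • z := by
    intro j lam
    by_cases h : ∃ y : Fin r → ℂ, y ≠ 0 ∧ y ᵥ* J j = lam • y
    · obtain ⟨y, hy⟩ := h
      exact ⟨y, fun _ => hy⟩
    · exact ⟨0, fun h' => absurd h' h⟩
  choose z hz using hch
  obtain ⟨K₀, hK₀, hsub⟩ := exists_countable_subfield'
    ((Set.range fun p : ι × Fin r × Fin r => J p.1 p.2.1 p.2.2) ∪
      ⋃ j, ⋃ i : Fin r, (fun lam => z j lam i) '' {lam : ℂ | (J j).charpoly.IsRoot lam}) (by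
      have := Finite.to_countable (α := ι)
      refine (Set.countable_range _).union (Set.countable_iUnion fun j =>
        Set.countable_iUnion fun i => Set.Countable.image (Set.Finite.countable ?_) _)
      exact Polynomial.finite_setOfPred_isRoot (Matrix.charpoly_monic _).ne_zero)
  refine ⟨K₀, hK₀, fun j a b => hsub (Or.inl ⟨(j, a, b), rfl⟩), fun j lam y hy0 hy => ?_⟩
  obtain ⟨h1, h2⟩ := hz j lam ⟨y, hy0, hy⟩
  refine ⟨z j lam, h1, h2, fun i => hsub (Or.inr ?_)⟩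
  refine Set.mem_iUnion.2 ⟨j, Set.mem_iUnion.2 ⟨i, lam, ?_, rfl⟩⟩
  show (J j).charpoly.IsRoot lam
  rw [Polynomial.IsRoot.def, Matrix.eval_charpoly]
  apply Matrix.exists_vecMul_eq_zero_iff.1
  refine ⟨y, hy0, ?_⟩
  rw [Matrix.vecMul_sub, hy, Matrix.scalar_apply, ← Matrix.smul_one_eq_diagonal,
    Matrix.vecMul_smul, Matrix.vecMul_one, sub_self]

/-- Near every irreducible tuple of conjugates with product one there is one all of whose
flags are in general position, and which satisfies all cyclicity conditions. -/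
theorem exists_generic_flags [DecidableEq ι] (hr : 1 ≤ r) (L : List ι) (hnd : L.Nodup)
    (hmem : ∀ j, j ∈ L) (J : ι → P002R.Mat r ℂ) (hJ : ∀ j, IsUnit (J j))
    (Y₀ : ι → P002R.Mat r ℂ) (hY₀ : ∀ j, IsUnit (Y₀ j)) (hrel : (L.map (cj J Y₀)).prod = 1)
    (hadj : Algebra.adjoin ℂ (Set.range (cj J Y₀)) = ⊤) (U : Set (ι → P002R.Mat r ℂ))
    (hU : U ∈ nhds Y₀) :
    ∃ Y ∈ U, (∀ j, IsUnit (Y j)) ∧ (L.map (cj J Y)).prod = 1 ∧
      Algebra.adjoin ℂ (Set.range (cj J Y)) = ⊤ ∧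
      ∀ (b t : ι) (l₁ l₂ l₃ : List ι), L = b :: (l₁ ++ (l₂ ++ t :: l₃)) →
        (∀ (k : ℕ) (f g : Fin k → Fin r), Function.Injective f → Function.Injective g →
          (((Y b)⁻¹ * (l₁.map (cj J Y)).prod * Y t).submatrix f g).det ≠ 0) ∧
        ((∃ v, (kry (J t) v).det ≠ 0) → ∀ a : Fin r,
          (kry (cj J Y t)
            ((((l₁.map (cj J Y)).prod)⁻¹ * Y b) *ᵥ (Pi.single a 1 : Fin r → ℂ))).det ≠ 0) := by
  obtain ⟨K₀, hK₀, hJK, hE⟩ := exists_eigen_field J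
  obtain ⟨Y, hYU, hYu, hYrel, hYadj, hgen⟩ := generic_point hr L hnd hmem K₀ hK₀ J hJK Y₀ hY₀ hrel
    hadj U hU
  refine ⟨Y, hYU, hYu, hYrel, hYadj, ?_⟩
  rintro b t l₁ l₂ l₃ rfl
  refine ⟨fun k f g hf hg => generic_minor hJK hJ hYu b t l₁ l₂ l₃ hnd hmem hYrel hYadj hgen f g
    hf hg, fun hcyc a => ?_⟩
  obtain ⟨v, hv⟩ := hcyc
  refine kry_det_ne _ _ fun lam y hy0 hy h0 => ?_
  have hud : IsUnit (Y t).det := (Matrix.isUnit_iff_isUnit_det _).1 (hYu t)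
  have a1 : Y t * (Y t)⁻¹ = 1 := Matrix.mul_nonsing_inv _ hud
  have a2 : (Y t)⁻¹ * Y t = 1 := Matrix.nonsing_inv_mul _ hud
  have h1 : (y ᵥ* Y t) ᵥ* J t = lam • (y ᵥ* Y t) := by
    calc (y ᵥ* Y t) ᵥ* J t = (y ᵥ* cj J Y t) ᵥ* Y t := by
          rw [Matrix.vecMul_vecMul, Matrix.vecMul_vecMul, cj_apply, Matrix.mul_assoc (Y t * J t),
            a2, Matrix.mul_one]
      _ = _ := by rw [hy, Matrix.smul_vecMul]
  have h2 : y ᵥ* Y t ≠ 0 := by
    intro h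
    apply hy0
    calc y = y ᵥ* (Y t * (Y t)⁻¹) := by rw [a1, Matrix.vecMul_one]
      _ = 0 := by rw [← Matrix.vecMul_vecMul, h, Matrix.zero_vecMul]
  obtain ⟨z, hz0, hz, hzK⟩ := hE t lam _ h2 h1
  obtain ⟨c, hc⟩ := left_eigen_unique hv h1 hz hz0
  have hc0 : c ≠ 0 := by
    rintro rfl
    apply h2
    rw [hc, zero_smul]
  refine generic_functional hJK hJ hYu b t l₁ l₂ l₃ hnd hmem hYrel hYadj hgen
    (Pi.single a 1) z (fun i => ?_) hzK (fun h => ?_) hz0 ?_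
  · by_cases hi : i = a
    · subst hi
      rw [Pi.single_eq_same]
      exact K₀.one_mem
    · rw [Pi.single_eq_of_ne hi]
      exact K₀.zero_mem
  · have := congrFun h a
    rw [Pi.single_eq_same, Pi.zero_apply] at this
    exact one_ne_zero this
  · have h3 : z = c⁻¹ • (y ᵥ* Y t) := by
      rw [hc, smul_smul, inv_mul_cancel₀ hc0, one_smul]
    rw [h3, smul_dotProduct, Matrix.mul_assoc, ← Matrix.mulVec_mulVec, ← Matrix.dotProduct_mulVec,
      Matrix.mulVec_mulVec, a1, Matrix.one_mulVec, h0, smul_zero]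

end Vale.Agent.P002R
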