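import Vale.Agent.P002R.ZGlue2
import Vale.Agent.P002R.ZChart
import Vale.Agent.P002R.ZFib

/-!
# P002, genus 0: the main theorem for irreducible representations, from total density
-/

namespace Vale.Agent.P002R

open Matrix

/-- The main theorem in genus zero, given total density for the arbitrary classes. -/
theorem g0Irr_of_totD
    (hT : ∀ {r : ℕ} {R : Type} [CommRing R] (φ : R →+* ℂ) (E : Subgroup ℂˣ), CoefOK φ E r →
      (∀ (u : Rˣ) (D : R), D ≠ 0 → ∃ M : ℕ, 0 < M ∧ D ∣ (u : R) ^ M - 1) → 0 < r →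
      ∀ J : (Mat r ℂ)ˣ, EigIn E (J : Mat r ℂ) → TotD φ (J : Mat r ℂ)) : G0Irr := by
  intro m r hr R _ φ E hc hUP C hE h0 hm hl x hx hirr f hf
  obtain ⟨n, rfl⟩ : ∃ n, r = n + 1 := ⟨r - 1, by omega⟩
  refine irr_of_chartDens φ C (fun x hx1 hx2 hup hlo hcell hcyc f hf => ?_) hm x hx hirr f hf
  exact chart_density φ E hc (fibD φ E hc hUP n) C hE
    (fun j _ _ => hT φ E hc hUP (Nat.succ_pos n) (C j) (hE j)) h0 hl x hx1 hx2 hup hlo
    hcell hcyc f hf

end Vale.Agent.P002R
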