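import Mathlib

/-!
# P002, genus 0: rational functions which are regular at a point
-/

namespace Vale.Agent.P002R

open MvPolynomial

variable {σ : Type*}

/-- Functions on `σ → ℂ` which are rational and regular at `x₀`, as functions on the complement of
the zero set of some polynomial `d` with `d x₀ ≠ 0`. -/
def ratAt (x₀ : σ → ℂ) : Subalgebra ℂ ((σ → ℂ) → ℂ) where
  carrier := {g | ∃ d P : MvPolynomial σ ℂ, eval x₀ d ≠ 0 ∧
    ∀ x, eval x d ≠ 0 → g x * eval x d = eval x P}
  mul_mem' := by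
    rintro g g' ⟨d, P, h1, h2⟩ ⟨d', P', h1', h2'⟩
    refine ⟨d * d', P * P', by rw [map_mul]; exact mul_ne_zero h1 h1', fun x hx => ?_⟩
    rw [map_mul] at hx ⊢
    have h3 := h2 x (left_ne_zero_of_mul hx)
    have h4 := h2' x (right_ne_zero_of_mul hx)
    rw [map_mul, ← h3, ← h4, Pi.mul_apply]
    ring
  add_mem' := by
    rintro g g' ⟨d, P, h1, h2⟩ ⟨d', P', h1', h2'⟩
    refine ⟨d * d', P * d' + P' * d, by rw [map_mul]; exact mul_ne_zero h1 h1', fun x hx => ?_⟩
    rw [map_mul] at hx ⊢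
    have h3 := h2 x (left_ne_zero_of_mul hx)
    have h4 := h2' x (right_ne_zero_of_mul hx)
    rw [map_add, map_mul, map_mul, ← h3, ← h4, Pi.add_apply]
    ring
  algebraMap_mem' := fun c => ⟨1, C c, by simp, fun x _ => by simp⟩

theorem mem_ratAt {x₀ : σ → ℂ} {g : (σ → ℂ) → ℂ} : g ∈ ratAt x₀ ↔ ∃ d P : MvPolynomial σ ℂ,
    eval x₀ d ≠ 0 ∧ ∀ x, eval x d ≠ 0 → g x * eval x d = eval x P := Iff.rfl

/-- Evaluation. -/
def rev (x₀ x : σ → ℂ) : ratAt x₀ →ₐ[ℂ] ℂ := (Pi.evalAlgHom ℂ (fun _ : σ → ℂ => ℂ) x).comp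
  (ratAt x₀).val

theorem rev_apply (x₀ x : σ → ℂ) (g : ratAt x₀) : rev x₀ x g = g.1 x := rfl

/-- The coordinate functions. -/
def rX (x₀ : σ → ℂ) (i : σ) : ratAt x₀ :=
  ⟨fun x => x i, 1, X i, by simp, fun x _ => by simp⟩

theorem rev_rX (x₀ x : σ → ℂ) (i : σ) : rev x₀ x (rX x₀ i) = x i := rfl

theorem ratAt_ne {x₀ : σ → ℂ} (g : ratAt x₀) (hg : rev x₀ x₀ g ≠ 0) :
    ∃ d : MvPolynomial σ ℂ, eval x₀ d ≠ 0 ∧ ∀ x, eval x d ≠ 0 → rev x₀ x g ≠ 0 := by
  obtain ⟨g, d, P, h1, h2⟩ := g
  rw [rev_apply] at hg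
  simp only at hg
  refine ⟨P * d, ?_, fun x hx => ?_⟩
  · rw [map_mul, ← h2 x₀ h1]
    exact mul_ne_zero (mul_ne_zero hg h1) h1
  · rw [map_mul] at hx
    have h3 := left_ne_zero_of_mul hx
    rw [← h2 x (right_ne_zero_of_mul hx)] at h3
    exact left_ne_zero_of_mul h3

/-- Pointwise inverse. -/
theorem exists_rinv {x₀ : σ → ℂ} (g : ratAt x₀) (hg : rev x₀ x₀ g ≠ 0) :
    ∃ h : ratAt x₀, ∀ x, rev x₀ x h = (rev x₀ x g)⁻¹ := by
  obtain ⟨g, d, P, h1, h2⟩ := g
  rw [rev_apply] at hg
  simp only at hg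
  refine ⟨⟨fun x => (g x)⁻¹, P * d, d * d, ?_, fun x hx => ?_⟩, fun x => rfl⟩
  · rw [map_mul, ← h2 x₀ h1]
    exact mul_ne_zero (mul_ne_zero hg h1) h1
  · rw [map_mul] at hx
    have h3 := left_ne_zero_of_mul hx
    have h4 := h2 x (right_ne_zero_of_mul hx)
    rw [← h4] at h3
    rw [map_mul, map_mul, ← h4]
    have h5 := left_ne_zero_of_mul h3
    field_simp

/-- Density for rational functions: if `g` vanishes at the points of a product of infinite sets
where `κ` does not vanish, and `κ x₀ ≠ 0`, then `g x₀ = 0`. -/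
theorem ratAt_dense {x₀ : σ → ℂ} (s : σ → Set ℂ) (hs : ∀ i, (s i).Infinite) (g κ : ratAt x₀)
    (hκ : rev x₀ x₀ κ ≠ 0)
    (h : ∀ x : σ → ℂ, (∀ i, x i ∈ s i) → rev x₀ x κ ≠ 0 → rev x₀ x g = 0) :
    rev x₀ x₀ g = 0 := by
  obtain ⟨d₀, hd₀, hd₀'⟩ := ratAt_ne κ hκ
  obtain ⟨g, d, P, h1, h2⟩ := g
  have h3 : P * d * d₀ = 0 := by
    refine funext_set s hs fun x hx => ?_
    rw [map_zero, map_mul, map_mul]
    by_cases h4 : eval x d₀ = 0
    · rw [h4, mul_zero]
    by_cases h5 : eval x d = 0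
    · rw [h5, mul_zero, zero_mul]
    have h6 := h x (fun i => hx i (Set.mem_univ i)) (hd₀' x h4)
    rw [rev_apply] at h6
    simp only at h6
    rw [← h2 x h5, h6]
    ring
  have h4 : P = 0 := by
    have hd : d ≠ 0 := fun h => h1 (by rw [h, map_zero])
    have hd0 : d₀ ≠ 0 := fun h => hd₀ (by rw [h, map_zero])
    rcases mul_eq_zero.1 h3 with h | h
    · exact (mul_eq_zero.1 h).resolve_right hd
    · exact absurd h hd0
  have h5 := h2 x₀ h1
  rw [h4, map_zero] at h5
  rw [rev_apply]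
  exact (mul_eq_zero.1 h5).resolve_right h1

/-- Vanishing on a product of sets. -/
theorem dense_pi {m : ℕ} {τ : Type*} (S T : Fin m → Set (τ → ℂ))
    (h : ∀ k (f : MvPolynomial τ ℂ), (∀ x ∈ S k, eval x f = 0) → ∀ x ∈ T k, eval x f = 0)
    (F : MvPolynomial (Fin m × τ) ℂ)
    (hF : ∀ x : Fin m → τ → ℂ, (∀ k, x k ∈ S k) → eval (fun p => x p.1 p.2) F = 0)
    (x : Fin m → τ → ℂ) (hx : ∀ k, x k ∈ T k) : eval (fun p => x p.1 p.2) F = 0 := by
  classical
  have key : ∀ s : Finset (Fin m), ∀ x : Fin m → τ → ℂ, (∀ k ∈ s, x k ∈ T k) →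
      (∀ k, k ∉ s → x k ∈ S k) → eval (fun p => x p.1 p.2) F = 0 := by
    intro s
    induction s using Finset.induction_on with
    | empty => exact fun x _ h2 => hF x fun k => h2 k (Finset.notMem_empty k)
    | insert a s ha ih =>
      intro x h1 h2
      obtain ⟨f, hf⟩ : ∃ f : MvPolynomial τ ℂ, ∀ v : τ → ℂ, eval v f =
          eval (fun p : Fin m × τ => (Function.update x a v) p.1 p.2) F := by
        refine ⟨MvPolynomial.aeval (fun p : Fin m × τ => if p.1 = a then
          (MvPolynomial.X p.2 : MvPolynomial τ ℂ) else MvPolynomial.C (x p.1 p.2)) F, fun v => ?_⟩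
        have e1 : ∀ G : MvPolynomial (Fin m × τ) ℂ, eval v (MvPolynomial.aeval
            (fun p : Fin m × τ => if p.1 = a then (MvPolynomial.X p.2 : MvPolynomial τ ℂ)
              else MvPolynomial.C (x p.1 p.2)) G) =
            eval (fun p : Fin m × τ => (Function.update x a v) p.1 p.2) G := by
          intro G
          induction G using MvPolynomial.induction_on with
          | C c => simp
          | add p q hp hq => rw [map_add, map_add, map_add, hp, hq]
          | mul_X p i hp =>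
            rw [map_mul, map_mul, map_mul, hp]
            congr 1
            rw [MvPolynomial.aeval_X, MvPolynomial.eval_X]
            by_cases hi : i.1 = a
            · rw [if_pos hi, MvPolynomial.eval_X, ← hi, Function.update_self]
            · rw [if_neg hi, MvPolynomial.eval_C, Function.update_of_ne hi]
        exact e1 F
      have h3 := h a f (fun v hv => by
        rw [hf]
        refine ih _ (fun k hk => ?_) (fun k hk => ?_)
        · have hka : k ≠ a := by
            rintro rfl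
            exact ha hk
          rw [Function.update_of_ne hka]
          exact h1 k (Finset.mem_insert_of_mem hk)
        · by_cases hka : k = a
          · rw [hka, Function.update_self]; exact hv
          · rw [Function.update_of_ne hka]
            refine h2 k fun h => ?_
            rcases Finset.mem_insert.1 h with h | h
            · exact hka h
            · exact hk h) (x a) (h1 a (Finset.mem_insert_self a s))
      rw [hf, Function.update_eq_self] at h3
      exact h3
  exact key Finset.univ x (fun k _ => hx k) fun k hk => absurd (Finset.mem_univ k) hk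

end Vale.Agent.P002R
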