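import Vale.Agent.P002R.ZReg
import Vale.Agent.P002R.ZRat

/-!
# P002, genus 0: integral points of the chart
-/

namespace Vale.Agent.P002R

open Matrix

/-- Two matrices are conjugate by an invertible matrix. -/
def CjM {r : ℕ} (J Z : Mat r ℂ) : Prop :=
  ∃ g : (Mat r ℂ)ˣ, Z = (g : Mat r ℂ) * J * ((g⁻¹ : (Mat r ℂ)ˣ) : Mat r ℂ)

theorem CjM.trans {r : ℕ} {A B C : Mat r ℂ} (h : CjM A B) (h' : CjM B C) : CjM A C := by
  obtain ⟨g, rfl⟩ := h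
  obtain ⟨g', rfl⟩ := h'
  refine ⟨g' * g, ?_⟩
  rw [_root_.mul_inv_rev, Units.val_mul, Units.val_mul]
  simp only [mul_assoc]

theorem CjM.symm {r : ℕ} {A B : Mat r ℂ} (h : CjM A B) : CjM B A := by
  obtain ⟨g, rfl⟩ := h
  refine ⟨g⁻¹, ?_⟩
  rw [inv_inv, mul_assoc, mul_assoc, mul_assoc, Units.inv_mul, mul_one, ← mul_assoc,
    Units.inv_mul, one_mul]

theorem CjM.det {r : ℕ} {A B : Mat r ℂ} (h : CjM A B) : B.det = A.det := by
  obtain ⟨g, rfl⟩ := h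
  rw [Matrix.det_units_conj]

theorem CjM.charpoly {r : ℕ} {A B : Mat r ℂ} (h : CjM A B) : B.charpoly = A.charpoly := by
  obtain ⟨g, rfl⟩ := h
  rw [Matrix.coe_units_inv, Matrix.charpoly_units_conj]

theorem CjM.cyc {r : ℕ} {A B : Mat r ℂ} (h : CjM A B) (hA : ∃ v, P002G.Cyc A v) :
    ∃ v, P002G.Cyc B v := by
  obtain ⟨g, rfl⟩ := h
  obtain ⟨v, hv⟩ := hA
  exact ⟨_, P002G.cyc_conj g hv⟩

theorem cjM_of_isConj {r : ℕ} {A B : (Mat r ℂ)ˣ} (h : IsConj A B) :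
    CjM (A : Mat r ℂ) (B : Mat r ℂ) := by
  obtain ⟨g, rfl⟩ := isConj_iff.1 h
  exact ⟨g, by rw [Units.val_mul, Units.val_mul]⟩

theorem isConj_of_cjM {r : ℕ} {A B : (Mat r ℂ)ˣ} (h : CjM (A : Mat r ℂ) (B : Mat r ℂ)) :
    IsConj A B := by
  obtain ⟨g, hg⟩ := h
  rw [isConj_iff]
  refine ⟨g, ?_⟩
  apply Units.ext
  rw [hg, Units.val_mul, Units.val_mul]

/-! ### The members of the tuple over a field -/

section field

variable {r : ℕ}

theorem adj_Uc (Y : ℕ → Mat r ℂ) (k : ℕ) : (Uc Y k).adjugate = (Uc Y k)⁻¹ := by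
  rw [Matrix.inv_def, det_Uc, Ring.inverse_one, one_smul]

theorem adj_Lc (Y : ℕ → Mat r ℂ) (k : ℕ) (κ : ℂ) (hκ : κ * (Lc Y k).det = 1) :
    κ • (Lc Y k).adjugate = (Lc Y k)⁻¹ := by
  rw [Matrix.inv_def, Ring.inverse_eq_inv', eq_inv_of_mul_eq_one_left hκ]

theorem Lc_diag_ne (Y : ℕ → Mat r ℂ) (k : ℕ) (κ : ℂ) (hκ : κ * (Lc Y k).det = 1) (i : Fin r) :
    Lc Y k i i ≠ 0 := by
  have h1 : (Lc Y k).det ≠ 0 := right_ne_zero_of_mul (by rw [hκ]; exact one_ne_zero)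
  rw [(loT_Lc Y k).det, Finset.prod_ne_zero_iff] at h1
  exact h1 i (Finset.mem_univ i)

theorem ctup_zero_upT (m : ℕ) (t t' : Fin r → ℂ) (κ : ℕ → ℂ) (Y : ℕ → Mat r ℂ) :
    UpT (ctup m t t' κ Y 0) ∧ ∀ i, ctup m t t' κ Y 0 i i = t' i := by
  have h1 : ∀ i, Uc Y m i i ≠ 0 := fun i => by rw [Uc_diag]; exact one_ne_zero
  have h2 : UpT (Uc Y m)⁻¹ := (upT_Uc Y m).inv h1
  rw [ctup_zero, adj_Uc]
  refine ⟨(upT_diagonal t').mul h2, fun i => ?_⟩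
  rw [(upT_diagonal t').mul_diag h2, Matrix.diagonal_apply_eq, inv_diag (upT_Uc Y m) h1, Uc_diag,
    inv_one, mul_one]

theorem ctup_last_loT (m : ℕ) (t t' : Fin r → ℂ) (κ : ℕ → ℂ) (Y : ℕ → Mat r ℂ)
    (hκ : κ m * (Lc Y m).det = 1) :
    LoT (ctup m t t' κ Y (m + 1)) ∧ ∀ i, ctup m t t' κ Y (m + 1) i i * Lc Y m i i = t i := by
  have h1 : ∀ i, Lc Y m i i ≠ 0 := Lc_diag_ne Y m _ hκ
  have h2 : LoT (Lc Y m)⁻¹ := (loT_Lc Y m).inv h1
  rw [ctup_last, ← smul_mul_assoc, adj_Lc Y m _ hκ]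
  refine ⟨h2.mul (loT_diagonal t), fun i => ?_⟩
  rw [h2.mul_diag (loT_diagonal t), Matrix.diagonal_apply_eq, (loT_Lc Y m).inv_diag h1,
    mul_assoc, mul_comm (t i), ← mul_assoc, inv_mul_cancel₀ (h1 i), one_mul]

theorem ctup_mid_cjM (m : ℕ) (t t' : Fin r → ℂ) (κ : ℕ → ℂ) (Y : ℕ → Mat r ℂ) (k : ℕ) (hk : k < m)
    (hκ : κ k * (Lc Y k).det = 1) : ∃ L : (Mat r ℂ)ˣ, (L : Mat r ℂ) = Lc Y k ∧
      zZ (Y k) = (L : Mat r ℂ) * ctup m t t' κ Y (k + 1) * ((L⁻¹ : (Mat r ℂ)ˣ) : Mat r ℂ) := by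
  have hd : IsUnit (Lc Y k).det :=
    isUnit_iff_ne_zero.2 (right_ne_zero_of_mul (by rw [hκ]; exact one_ne_zero))
  obtain ⟨L, hL⟩ := (Matrix.isUnit_iff_isUnit_det _).2 hd
  refine ⟨L, hL, ?_⟩
  rw [ctup_mid m t t' κ Y k hk, ← smul_mul_assoc, ← smul_mul_assoc, adj_Lc Y k _ hκ, ← hL,
    Matrix.coe_units_inv]
  have hd' : IsUnit (L : Mat r ℂ).det := by rw [hL]; exact hd
  rw [← mul_assoc, ← mul_assoc, Matrix.mul_nonsing_inv _ hd', one_mul, mul_assoc,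
    Matrix.mul_nonsing_inv _ hd', mul_one]

theorem charpoly_upT {A : Mat r ℂ} (hA : UpT A) :
    A.charpoly = ∏ i, (Polynomial.X - Polynomial.C (A i i)) :=
  Matrix.charpoly_of_isUpperTriangular A fun i j h => hA i j h

theorem charpoly_loT {A : Mat r ℂ} (hA : LoT A) :
    A.charpoly = ∏ i, (Polynomial.X - Polynomial.C (A i i)) := by
  rw [← Matrix.charpoly_transpose, charpoly_upT hA.transpose]
  rfl

theorem isUnit_of_prod (N : ℕ) (c : Fin N → Mat r ℂ) (h : (List.ofFn c).prod = 1) (j : Fin N) :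
    IsUnit (c j) := by
  rw [Matrix.isUnit_iff_isUnit_det]
  have h1 : ((List.ofFn c).map Matrix.det).prod = 1 := by
    have := congrArg Matrix.det h
    rwa [Matrix.det_one, ← Matrix.coe_detMonoidHom, map_list_prod] at this
  apply isUnit_of_dvd_one
  rw [← h1]
  apply List.dvd_prod
  rw [List.mem_map]
  exact ⟨c j, List.mem_ofFn.2 ⟨j, rfl⟩, rfl⟩

theorem exists_hom (N : ℕ) (c : Fin N → Mat r ℂ) (h : (List.ofFn c).prod = 1) :
    ∃ y : FU 0 N →* (Mat r ℂ)ˣ, y (relatorU 0 N) = 1 ∧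
      ∀ j, (y (FreeGroup.of (Sum.inr j)) : Mat r ℂ) = c j := by
  have hu : ∀ j, ∃ u : (Mat r ℂ)ˣ, (u : Mat r ℂ) = c j := fun j => isUnit_of_prod N c h j
  choose u hu using hu
  refine ⟨FreeGroup.lift (Sum.elim (fun _ => 1) u), ?_, fun j => ?_⟩
  · rw [relatorU_eqn]
    simp only [List.ofFn_zero, List.prod_nil, mul_one]
    apply Units.ext
    rw [map_list_prod, List.map_ofFn, Units.val_one, ← h]
    have h2 : ((List.ofFn u).prod : (Mat r ℂ)ˣ) =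
        (List.ofFn ((FreeGroup.lift (Sum.elim (fun _ => 1) u)) ∘ fun j : Fin N =>
          (FreeGroup.of (Sum.inr j) : FU 0 N))).prod := by
      congr 2
      funext j
      simp
    rw [← h2, ← Units.coeHom_apply, map_list_prod, List.map_ofFn]
    congr 2
    funext j
    exact hu j
  · rw [FreeGroup.lift_apply_of]
    exact hu j

end field

/-! ### Integral points -/

section integral

variable {R : Type*} [CommRing R] {E : Subgroup ℂˣ} {r m : ℕ}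

/-- The inverse of the determinant of `Lc Y k`. -/
def kap' (δ : ℕ → Rˣ) (k : ℕ) : R := ((∏ l ∈ Finset.range k, δ l)⁻¹ : Rˣ)

theorem kap'_mul (δ : ℕ → Rˣ) (φ : R →+* ℂ) (Y : ℕ → Mat r ℂ) (k : ℕ)
    (h : ∀ l < k, (zZ (Y l)).det = φ (δ l)) : φ (kap' δ k) * (Lc Y k).det = 1 := by
  have h1 : (Lc Y k).det = φ ((∏ l ∈ Finset.range k, δ l : Rˣ) : R) := by
    rw [det_Lc, Finset.prod_comm, Units.coe_prod, map_prod]
    refine Finset.prod_congr rfl fun l hl => ?_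
    rw [← h l (Finset.mem_range.1 hl), det_zZ]
  rw [h1, kap', ← map_mul, Units.inv_mul, map_one]

theorem chart_integral (φ : R →+* ℂ) (hc : CoefOK φ E r) (hr : 0 < r)
    (C : Fin (m + 3) → (Mat r ℂ)ˣ) (hE : ∀ j, EigIn E (C j : Mat r ℂ))
    (h0 : ∃ v, P002G.Cyc (C 0 : Mat r ℂ) v)
    (hm : ∃ v, P002G.Cyc (C ⟨m + 1, by omega⟩ : Mat r ℂ) v)
    (hl : ∃ v, P002G.Cyc (C (Fin.last (m + 2)) : Mat r ℂ) v)
    (δ : ℕ → Rˣ) (ξ ξ' : Fin r → Rˣ)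
    (hδ : ∀ l (hl : l < m + 1), φ (δ l) = (C ⟨l + 1, by omega⟩ : Mat r ℂ).det)
    (hξ : (C 0 : Mat r ℂ).charpoly = ∏ i, (Polynomial.X - Polynomial.C (φ (ξ i))))
    (hξ' : (C (Fin.last (m + 2)) : Mat r ℂ).charpoly =
      ∏ i, (Polynomial.X - Polynomial.C (φ (ξ' i))))
    (Y : ℕ → Mat r R)
    (hY : ∀ k (hk : k < m), CjM (C ⟨k + 1, by omega⟩ : Mat r ℂ) (zZ ((Y k).map φ)))
    (hYm : (zZ ((Y m).map φ)).charpoly = (C ⟨m + 1, by omega⟩ : Mat r ℂ).charpoly)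
    (hYm' : ∃ v, P002G.Cyc (zZ ((Y m).map φ)) v)
    (hprod : ∀ i, (∏ l ∈ Finset.range (m + 1), φ (Y l i i)) * φ (ξ i) * φ (ξ' i) = 1) :
    (∀ k ≤ m + 1, φ (kap' δ k) * (Lc (fun k => (Y k).map φ) k).det = 1) ∧
    ∃ y : FU 0 (m + 3) →* (Mat r ℂ)ˣ, y (relatorU 0 (m + 3)) = 1 ∧
      (∀ j : Fin (m + 3), (y (FreeGroup.of (Sum.inr j)) : Mat r ℂ) =
        ctup (m + 1) (fun i => φ ((ξ i)⁻¹ : Rˣ)) (fun i => φ (ξ i)) (fun k => φ (kap' δ k))
          (fun k => (Y k).map φ) j) ∧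
      ((∃ v, P002G.Cyc (ctup (m + 1) (fun i => φ ((ξ i)⁻¹ : Rˣ)) (fun i => φ (ξ i))
          (fun k => φ (kap' δ k)) (fun k => (Y k).map φ) 0) v) →
        (∃ v, P002G.Cyc (ctup (m + 1) (fun i => φ ((ξ i)⁻¹ : Rˣ)) (fun i => φ (ξ i))
          (fun k => φ (kap' δ k)) (fun k => (Y k).map φ) (m + 2)) v) →
        (∀ j, IsConj (C j) (y (FreeGroup.of (Sum.inr j)))) ∧
          ∀ k, y (FreeGroup.of k) ∈ GR r φ) := by
  obtain ⟨Y', hY'⟩ : ∃ Y' : ℕ → Mat r ℂ, Y' = fun k => (Y k).map φ := ⟨_, rfl⟩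
  have hdet : ∀ l < m + 1, (zZ (Y' l)).det = φ (δ l) := by
    intro l hlm
    rw [hδ l hlm, hY']
    rcases Nat.lt_succ_iff_lt_or_eq.1 hlm with h | rfl
    · exact (hY l h).det
    · rw [Matrix.det_eq_sign_charpoly_coeff, Matrix.det_eq_sign_charpoly_coeff, hYm]
  have hκ : ∀ k ≤ m + 1, φ (kap' δ k) * (Lc Y' k).det = 1 := fun k hk =>
    kap'_mul δ φ Y' k fun l hl => hdet l (lt_of_lt_of_le hl hk)
  rw [← hY']
  refine ⟨hκ, ?_⟩
  obtain ⟨t, ht⟩ : ∃ t : Fin r → ℂ, t = fun i => φ ((ξ i)⁻¹ : Rˣ) := ⟨_, rfl⟩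
  obtain ⟨t', ht'⟩ : ∃ t' : Fin r → ℂ, t' = fun i => φ (ξ i) := ⟨_, rfl⟩
  obtain ⟨κ, hκdef⟩ : ∃ κ : ℕ → ℂ, κ = fun k => φ (kap' δ k) := ⟨_, rfl⟩
  have hκ' : ∀ k ≤ m + 1, κ k * (Lc Y' k).det = 1 := by rw [hκdef]; exact hκ
  have hint : ∀ j, ctup (m + 1) t t' κ Y' j =
      (ctup (m + 1) (fun i => (((ξ i)⁻¹ : Rˣ) : R)) (fun i => (ξ i : R)) (kap' δ) Y j).map φ := by
    intro j
    rw [ctup_map, ht, ht', hκdef, hY']
  rw [← ht, ← ht', ← hκdef]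
  have htt : ∀ i, t' i * t i = 1 := by
    intro i
    rw [ht, ht']
    simp only
    rw [← map_mul, Units.mul_inv, map_one]
  obtain ⟨y, hy1, hy2⟩ := exists_hom (m + 3) (fun j => ctup (m + 1) t t' κ Y' j)
    (ctup_prod (m + 1) t t' κ Y' hκ' htt)
  refine ⟨y, hy1, hy2, fun hc0 hcl => ?_⟩
  have hconj : ∀ j, IsConj (C j) (y (FreeGroup.of (Sum.inr j))) := by
    intro j
    rcases Nat.eq_zero_or_pos (j : ℕ) with h | h
    · have hj : j = 0 := Fin.ext h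
      subst hj
      obtain ⟨v, hv⟩ := h0
      obtain ⟨w, hw⟩ := hc0
      obtain ⟨h1, h2⟩ := ctup_zero_upT (m + 1) t t' κ Y'
      have h3 : (y (FreeGroup.of (Sum.inr 0)) : Mat r ℂ) = ctup (m + 1) t t' κ Y' 0 := hy2 0
      refine isConj_of_cyc (v := v) (w := w) _ _ ?_ hv (by rw [h3]; exact hw)
      rw [h3, charpoly_upT h1, hξ]
      refine Finset.prod_congr rfl fun i _ => ?_
      rw [h2, ht']
    obtain ⟨k, hk⟩ : ∃ k, (j : ℕ) = k + 1 := ⟨(j : ℕ) - 1, by omega⟩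
    have hkN : k + 1 < m + 3 := by have := j.2; omega
    have hj : j = ⟨k + 1, hkN⟩ := Fin.ext hk
    clear hk h
    subst hj
    rcases Nat.lt_or_ge k (m + 1) with hkm | hkm
    · have h3 : (y (FreeGroup.of (Sum.inr ⟨k + 1, by omega⟩)) : Mat r ℂ) =
        ctup (m + 1) t t' κ Y' (k + 1) := hy2 _
      obtain ⟨L, hL, hL'⟩ := ctup_mid_cjM (m + 1) t t' κ Y' k hkm (hκ' k hkm.le)
      have h4 : CjM (y (FreeGroup.of (Sum.inr ⟨k + 1, by omega⟩)) : Mat r ℂ) (zZ (Y' k)) := by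
        rw [h3]
        exact ⟨L, hL'⟩
      rcases Nat.lt_succ_iff_lt_or_eq.1 hkm with h | rfl
      · have h5 := hY k h
        apply isConj_of_cjM
        refine CjM.trans ?_ h4.symm
        rw [hY']
        exact h5
      · obtain ⟨v, hv⟩ := hm
        obtain ⟨w, hw⟩ : ∃ w, P002G.Cyc (y (FreeGroup.of (Sum.inr ⟨k + 1, by omega⟩)) : Mat r ℂ) w :=
          h4.symm.cyc (by rw [hY']; exact hYm')
        refine isConj_of_cyc _ _ ?_ hv hw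
        rw [← h4.charpoly, hY', hYm]
    · have hkm' : k = m + 1 := by omega
      subst hkm'
      obtain ⟨v, hv⟩ := hl
      obtain ⟨w, hw⟩ := hcl
      obtain ⟨h1, h2⟩ := ctup_last_loT (m + 1) t t' κ Y' (hκ' _ le_rfl)
      have h3 : (y (FreeGroup.of (Sum.inr ⟨m + 1 + 1, by omega⟩)) : Mat r ℂ) =
        ctup (m + 1) t t' κ Y' (m + 1 + 1) := hy2 _
      refine isConj_of_cyc (v := v) (w := w) _ _ ?_ hv (by rw [h3]; exact hw)
      rw [h3, charpoly_loT h1]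
      refine hξ'.trans ?_
      refine Finset.prod_congr rfl fun i _ => ?_
      have h5 := h2 i
      have h6 := hprod i
      have h7 : Lc Y' (m + 1) i i = ∏ l ∈ Finset.range (m + 1), φ (Y l i i) := by
        rw [Lc_diag, hY']
        rfl
      rw [← h7] at h6
      have h8 := htt i
      have h9 : φ (ξ' i) = ctup (m + 1) t t' κ Y' (m + 1 + 1) i i := by
        have h10 : φ (ξ i) = t' i := by rw [ht']
        rw [h10] at h6
        calc φ (ξ' i) = φ (ξ' i) * (t' i * t i) := by rw [h8, mul_one]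
          _ = φ (ξ' i) * (t' i * (ctup (m + 1) t t' κ Y' (m + 1 + 1) i i * Lc Y' (m + 1) i i)) := by
            rw [h5]
          _ = ctup (m + 1) t t' κ Y' (m + 1 + 1) i i * (Lc Y' (m + 1) i i * t' i * φ (ξ' i)) := by
            ring
          _ = _ := by rw [h6, mul_one]
      rw [h9]
  refine ⟨hconj, fun k => ?_⟩
  rcases k with k | j
  · exact k.1.elim0
  · refine mem_GR_of_det φ hc hr _ _ ((hy2 j).trans (hint j)) ?_
    rw [(cjM_of_isConj (hconj j)).det]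
    exact (hE j).det

end integral

end Vale.Agent.P002R
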