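import Vale.Agent.P002R.ZOneTup

/-!
# P002, genus 1: the chart
-/

namespace Vale.Agent.P002R

open Matrix

variable {r m : ℕ}

/-- The integral points of the chart give integral representations. -/
theorem chart_integral1 {R : Type*} [CommRing R] (φ : R →+* ℂ) (hφ : Function.Injective φ)
    (C : Fin (m + 1) → (Mat r ℂ)ˣ)
    (h0 : ∃ v, P002G.Cyc (C 0 : Mat r ℂ) v)
    (δ : ℕ → Rˣ) (ξ : Fin r → Rˣ)
    (hδ : ∀ l (hl : l < m), φ (δ l) = (C ⟨l + 1, by omega⟩ : Mat r ℂ).det)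
    (hξ : (C 0 : Mat r ℂ).charpoly = ∏ i, (Polynomial.X - Polynomial.C (φ (ξ i))))
    (Y : ℕ → Mat r R) (e y : Fin r → R)
    (hYu : ∀ k ≤ m, ∀ i, IsUnit (Y k i i))
    (hY : ∀ k (hk : k < m), CjM (C ⟨k + 1, by omega⟩ : Mat r ℂ) (zZ ((Y k).map φ)))
    (hYm : (zZ (Y m)).charpoly = ∏ i, (Polynomial.X - Polynomial.C
      ((ξ i : R) * ∏ l ∈ Finset.range (m + 1), Y l i i)))
    (hZ : IsUnit (P002.kry (zZ (Y m)) e).det)
    (hA : IsUnit (P002.kry (Amat m (fun i => (ξ i : R)) Y) y).det) (κ : ℕ → ℂ)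
    (hκ : ∀ k ≤ m, κ k = φ (kap' δ k)) :
    ∃ z : FU 1 (m + 1) →* (Mat r ℂ)ˣ, z (relatorU 1 (m + 1)) = 1 ∧
      (∀ k, (z (FreeGroup.of k) : Mat r ℂ) =
        Gone m (fun i => φ ((ξ i)⁻¹ : Rˣ)) (fun i => φ (ξ i)) κ (fun k => (Y k).map φ)
          (fun i => φ (e i)) (fun i => φ (y i)) k) ∧
      (∀ k, ∃ A : Mat r R, IsUnit A.det ∧ (z (FreeGroup.of k) : Mat r ℂ) = A.map φ) ∧
      ((∃ v, P002G.Cyc (ctup (m + 1) (fun i => φ ((ξ i)⁻¹ : Rˣ)) (fun i => φ (ξ i))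
          κ (fun k => (Y k).map φ) 0) v) →
        ∀ j, IsConj (C j) (z (FreeGroup.of (Sum.inr j)))) := by
  have hpr : ∀ k ≤ m + 1, IsUnit (Lc Y k).det := by
    intro k hk
    rw [det_Lc, IsUnit.prod_univ_iff]
    intro i
    rw [IsUnit.prod_iff]
    exact fun l hl => hYu l (by rw [Finset.mem_range] at hl; omega) i
  obtain ⟨w, hw⟩ := hpr (m + 1) le_rfl
  obtain ⟨κR, hκR⟩ : ∃ κR : ℕ → R, κR = fun k => if k ≤ m then kap' δ k else ((w⁻¹ : Rˣ) : R) :=
    ⟨_, rfl⟩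
  have hκR1 : ∀ k ≤ m, κR k = kap' δ k := fun k hk => by rw [hκR]; exact if_pos hk
  have hκR2 : κR (m + 1) = ((w⁻¹ : Rˣ) : R) := by rw [hκR]; exact if_neg (by omega)
  have hκRdet : ∀ k ≤ m + 1, κR k * (Lc Y k).det = 1 := by
    intro k hk
    rcases Nat.lt_or_ge m k with h | h
    · have hk' : k = m + 1 := by omega
      rw [hk', hκR2, ← hw, Units.inv_mul]
    · rw [hκR1 k h]
      apply hφ
      have h1 := kap'_mul δ φ (fun k => (Y k).map φ) k fun l hl => by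
        rw [(hY l (by omega)).det, hδ l (by omega)]
      rw [map_mul, map_one, ← h1, ← Lc_map]
      congr 1
      exact RingHom.map_det φ _
  obtain ⟨tR, htR⟩ : ∃ tR : Fin r → R, tR = fun i => (((ξ i)⁻¹ : Rˣ) : R) := ⟨_, rfl⟩
  obtain ⟨tR', htR'⟩ : ∃ tR' : Fin r → R, tR' = fun i => (ξ i : R) := ⟨_, rfl⟩
  have htt : ∀ i, tR' i * tR i = 1 := by
    intro i
    rw [htR, htR']
    simp only
    rw [Units.mul_inv]
  have hprodR := ctup_prod (m + 1) tR tR' κR Y hκRdet htt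
  have hcu : ∀ j < m + 3, IsUnit (ctup (m + 1) tR tR' κR Y j).det := by
    intro j hj
    rw [← Matrix.isUnit_iff_isUnit_det]
    exact isUnit_of_prod' (m + 3) (fun j : Fin (m + 3) => ctup (m + 1) tR tR' κR Y j) hprodR ⟨j, hj⟩
  -- complex objects
  obtain ⟨Y', hY'⟩ : ∃ Y' : ℕ → Mat r ℂ, Y' = fun k => (Y k).map φ := ⟨_, rfl⟩
  obtain ⟨t, ht⟩ : ∃ t : Fin r → ℂ, t = fun i => φ (tR i) := ⟨_, rfl⟩
  obtain ⟨t', ht'⟩ : ∃ t' : Fin r → ℂ, t' = fun i => φ (tR' i) := ⟨_, rfl⟩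
  obtain ⟨κ', hκ'⟩ : ∃ κ' : ℕ → ℂ, κ' = fun k => φ (κR k) := ⟨_, rfl⟩
  have htC : (fun i => φ ((ξ i)⁻¹ : Rˣ)) = t := by rw [ht, htR]
  have htC' : (fun i => φ (ξ i)) = t' := by rw [ht', htR']
  rw [← hY', htC, htC']
  have hmap : ∀ j, (ctup (m + 1) tR tR' κR Y j).map φ = ctup (m + 1) t t' κ' Y' j := by
    intro j
    rw [ctup_map, ht, ht', hκ', hY']
  have hκc : ∀ k ≤ m + 1, κ' k * (Lc Y' k).det = 1 := by
    intro k hk
    have h1 := congrArg φ (hκRdet k hk)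
    rw [map_mul, map_one] at h1
    rw [← h1, hκ', hY', ← Lc_map]
    congr 1
    exact (RingHom.map_det φ _).symm
  have htt' : ∀ i, t' i * t i = 1 := by
    intro i
    rw [ht, ht']
    simp only
    rw [← map_mul, htt, map_one]
  have hκκ : ∀ j ≤ m + 1, ctup (m + 1) t t' κ Y' j = ctup (m + 1) t t' κ' Y' j := by
    intro j hj
    refine ctup_congr_kap (fun l hl => ?_) j hj
    rw [hκ l (by omega), hκ']
    simp only
    rw [hκR1 l (by omega)]
  have hprod := ctup_prod (m + 1) t t' κ' Y' hκc htt'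
  have hZc : IsUnit (P002.kry (zZ (Y' m)) fun i => φ (e i)) := by
    rw [hY', ← zZ_map, ← kry_map, Matrix.isUnit_iff_isUnit_det]
    have := hZ.map φ
    rwa [RingHom.map_det] at this
  have hAc : IsUnit (P002.kry (Amat m t' Y') fun i => φ (y i)) := by
    have h1 : Amat m t' Y' = (Amat m tR' Y).map φ := by rw [Amat_map, ht', hY']
    rw [h1, ← kry_map, Matrix.isUnit_iff_isUnit_det]
    rw [← htR'] at hA
    have := hA.map φ
    rwa [RingHom.map_det] at this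
  have hchc : (zZ (Y' m)).charpoly = ∏ i, (Polynomial.X - Polynomial.C
      (t' i * ∏ l ∈ Finset.range (m + 1), Y' l i i)) := by
    have h1 : (zZ (Y' m)).charpoly = (zZ (Y m)).charpoly.map φ := by
      rw [hY', ← zZ_map]
      exact Matrix.charpoly_map _ φ
    rw [h1, hYm, Polynomial.map_prod]
    refine Finset.prod_congr rfl fun i _ => ?_
    rw [Polynomial.map_sub, Polynomial.map_X, Polynomial.map_C, map_mul, map_prod, ht', htR', hY']
    rfl
  obtain ⟨z, hz1, hz2, hz3, hz4⟩ := exists_hom1 (fun j => ctup (m + 1) t t' κ' Y' j)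
    (Amat m t' Y') (Bmat m t' Y' (fun i => φ (e i)) fun i => φ (y i)) hprod
    (isUnit_Bmat t' κ' Y' _ _ (hκc m (Nat.le_succ m)) hAc hZc)
    (Bmat_mul t t' κ' Y' _ _ (hκc m (Nat.le_succ m)) hchc hZc)
    (Amat_mul_ctup t t' κ' Y' (hκc (m + 1) le_rfl) htt')
  have hzG : ∀ k, (z (FreeGroup.of k) : Mat r ℂ) =
      Gone m t t' κ Y' (fun i => φ (e i)) (fun i => φ (y i)) k := by
    intro k
    rcases k with ⟨k, b⟩ | j
    · have hk0 : k = 0 := Subsingleton.elim _ _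
      subst hk0
      cases b
      · rw [hz3, Gone_false, hκκ _ le_rfl]
      · rw [hz4, Gone_true]
    · rw [hz2, Gone_inr, hκκ _ (by omega)]
  refine ⟨z, hz1, hzG, fun k => ?_, fun hc0 j => ?_⟩
  · rcases k with ⟨k, b⟩ | j
    · have hk0 : k = 0 := Subsingleton.elim _ _
      subst hk0
      cases b
      · exact ⟨_, hcu (m + 1) (by omega), by rw [hz3, ← hmap]⟩
      · obtain ⟨η, hη⟩ := hZ
        refine ⟨P002.kry (Amat m tR' Y) y * (((η⁻¹ : Rˣ) : R) • (P002.kry (zZ (Y m)) e).adjugate) *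
          Lc Y m, ?_, ?_⟩
        · rw [← Matrix.isUnit_iff_isUnit_det]
          refine IsUnit.mul (IsUnit.mul ?_ ?_) ?_
          · rw [Matrix.isUnit_iff_isUnit_det, htR']
            exact hA
          · have h1 : (((η⁻¹ : Rˣ) : R) • (P002.kry (zZ (Y m)) e).adjugate) *
                P002.kry (zZ (Y m)) e = 1 := by
              rw [smul_mul_assoc, Matrix.adjugate_mul, smul_smul, ← hη, Units.inv_mul, one_smul]
            exact IsUnit.of_mul_eq_one _ h1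
          · rw [Matrix.isUnit_iff_isUnit_det]
            exact hpr m (Nat.le_succ m)
        · rw [hz4, Bmat, Matrix.map_mul, Matrix.map_mul, smul_map, adjugate_map, Lc_map, kry_map,
            kry_map, Amat_map, zZ_map, Matrix.inv_def, Ring.inverse_eq_inv', ht', hY']
          congr 2
          congr 1
          have h2 : (P002.kry (zZ ((Y m).map φ)) fun i => φ (e i)).det = φ η := by
            rw [hη, ← zZ_map, ← kry_map]
            exact (RingHom.map_det φ _).symm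
          rw [h2]
          exact (eq_inv_of_mul_eq_one_left (by rw [← map_mul, Units.inv_mul, map_one])).symm
    · exact ⟨_, hcu j (by omega), by rw [hz2, ← hmap]⟩
  · rcases Nat.eq_zero_or_pos (j : ℕ) with h | h
    · have hj : j = 0 := Fin.ext h
      subst hj
      obtain ⟨v, hv⟩ := h0
      obtain ⟨w', hw'⟩ := hc0
      obtain ⟨h1, h2⟩ := ctup_zero_upT (m + 1) t t' κ' Y'
      have h3 : (z (FreeGroup.of (Sum.inr 0)) : Mat r ℂ) = ctup (m + 1) t t' κ' Y' 0 := hz2 0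
      refine isConj_of_cyc (v := v) (w := w') _ _ ?_ hv
        (by rw [h3, ← hκκ 0 (Nat.zero_le _)]; exact hw')
      rw [h3, charpoly_upT h1, hξ]
      refine Finset.prod_congr rfl fun i _ => ?_
      rw [h2, ← htC']
    obtain ⟨k, hk⟩ : ∃ k, (j : ℕ) = k + 1 := ⟨(j : ℕ) - 1, by omega⟩
    have hkN : k + 1 < m + 1 := by have := j.2; omega
    have hj : j = ⟨k + 1, hkN⟩ := Fin.ext hk
    clear hk h
    subst hj
    have h3 : (z (FreeGroup.of (Sum.inr ⟨k + 1, hkN⟩)) : Mat r ℂ) =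
      ctup (m + 1) t t' κ' Y' (k + 1) := hz2 _
    obtain ⟨L, hL, hL'⟩ := ctup_mid_cjM (m + 1) t t' κ' Y' k (by omega) (hκc k (by omega))
    have h4 : CjM (z (FreeGroup.of (Sum.inr ⟨k + 1, hkN⟩)) : Mat r ℂ) (zZ (Y' k)) := by
      rw [h3]
      exact ⟨L, hL'⟩
    have h5 := hY k (by omega)
    apply isConj_of_cjM
    refine CjM.trans ?_ h4.symm
    rw [hY']
    exact h5

/-- The matrices of `c_0, ..., c_m, a, b a⁻¹ b⁻¹`. -/
noncomputable def cseq1 (x : FU 1 (m + 1) →* (Mat r ℂ)ˣ) (j : ℕ) : Mat r ℂ :=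
  if h : j < m + 1 then (x (FreeGroup.of (Sum.inr ⟨j, h⟩)) : Mat r ℂ)
  else if j = m + 1 then (x (FreeGroup.of (Sum.inl (0, false))) : Mat r ℂ)
  else ((x (FreeGroup.of (Sum.inl (0, true))) * (x (FreeGroup.of (Sum.inl (0, false))))⁻¹ *
    (x (FreeGroup.of (Sum.inl (0, true))))⁻¹ : (Mat r ℂ)ˣ) : Mat r ℂ)

theorem cseq1_inr (x : FU 1 (m + 1) →* (Mat r ℂ)ˣ) (j : Fin (m + 1)) :
    cseq1 x j = (x (FreeGroup.of (Sum.inr j)) : Mat r ℂ) := by
  rw [cseq1, dif_pos j.2]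

theorem cseq1_a (x : FU 1 (m + 1) →* (Mat r ℂ)ˣ) :
    cseq1 x (m + 1) = (x (FreeGroup.of (Sum.inl (0, false))) : Mat r ℂ) := by
  rw [cseq1, dif_neg (by omega), if_pos rfl]

theorem cseq1_a' (x : FU 1 (m + 1) →* (Mat r ℂ)ˣ) :
    cseq1 x (m + 2) = ((x (FreeGroup.of (Sum.inl (0, true))) *
      (x (FreeGroup.of (Sum.inl (0, false))))⁻¹ *
      (x (FreeGroup.of (Sum.inl (0, true))))⁻¹ : (Mat r ℂ)ˣ) : Mat r ℂ) := by
  rw [cseq1, dif_neg (by omega), if_neg (by omega)]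

theorem cseq1_prod (x : FU 1 (m + 1) →* (Mat r ℂ)ˣ) (hx : x (relatorU 1 (m + 1)) = 1) :
    (List.ofFn fun j : Fin (m + 3) => cseq1 x j).prod = 1 := by
  have h1 : ((x (relatorU 1 (m + 1)) : (Mat r ℂ)ˣ) : Mat r ℂ) = 1 := by rw [hx, Units.val_one]
  rw [relatorU_eqn] at h1
  simp only [List.ofFn_succ (n := 0), List.ofFn_zero, List.prod_nil, List.prod_cons, mul_one] at h1
  rw [map_mul, Units.val_mul, map_list_prod, List.map_ofFn, ← Units.coeHom_apply, map_list_prod,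
    List.map_ofFn] at h1
  rw [List.ofFn_succ', List.concat_eq_append, List.prod_append, List.prod_singleton,
    List.ofFn_succ', List.concat_eq_append, List.prod_append, List.prod_singleton]
  have h2 : cseq1 x (Fin.last (m + 2)) = _ := cseq1_a' x
  have h3 : cseq1 x (Fin.castSucc (Fin.last (m + 1)) : Fin (m + 3)) = _ := cseq1_a x
  have h4 : (List.ofFn fun i : Fin (m + 1) =>
      cseq1 x ((Fin.castSucc (Fin.castSucc i) : Fin (m + 3)) : ℕ)) =
      List.ofFn ((Units.coeHom (Mat r ℂ)) ∘ (x ∘ fun j : Fin (m + 1) =>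
        (FreeGroup.of (Sum.inr j) : FU 1 (m + 1)))) := by
    congr 1
    funext j
    exact cseq1_inr x j
  rw [h4, h3, h2, mul_assoc, ← Units.val_mul]
  rw [← h1]
  congr 2
  simp only [map_mul, map_inv]
  group

theorem units_infinite {R : Type*} [CommRing R] (φ : R →+* ℂ) (E : Subgroup ℂˣ) {r : ℕ}
    (hc : CoefOK φ E r) : {z : ℂ | ∃ w ∈ (⊤ : Subgroup Rˣ), φ (w : R) = z}.Infinite := by
  obtain ⟨u, hu⟩ := hc.unit
  have hinj : Function.Injective fun k : ℕ => φ ((u ^ k : Rˣ) : R) := by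
    have key : ∀ k l : ℕ, k < l → φ ((u ^ k : Rˣ) : R) ≠ φ ((u ^ l : Rˣ) : R) := by
      intro k l hkl h
      have h1 : u ^ k = u ^ l := Units.ext (hc.inj h)
      apply hu (l - k) (by omega)
      have h2 : u ^ (l - k) = 1 := by
        have h3 : u ^ l = u ^ (l - k) * u ^ k := by rw [← pow_add]; congr 1; omega
        rw [h3] at h1
        exact (mul_eq_right.1 h1.symm)
      rw [← map_pow, h2, map_one]
      exact E.one_mem
    intro k l h
    rcases lt_trichotomy k l with h' | h' | h'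
    · exact absurd h (key k l h')
    · exact h'
    · exact absurd h.symm (key l k h')
  refine (Set.infinite_range_of_injective hinj).mono ?_
  rintro _ ⟨k, rfl⟩
  exact ⟨u ^ k, Subgroup.mem_top _, rfl⟩

theorem e0_map {R : Type*} [CommRing R] (φ : R →+* ℂ) (n : ℕ) :
    (fun i => φ (P002G.e0 n R i)) = P002G.e0 n ℂ := by
  funext i
  refine Fin.cases ?_ (fun i => ?_) i
  · exact map_one φ
  · exact map_zero φ

theorem chart_density1 {R₀ : Type*} [CommRing R₀] (φ₀ : R₀ →+* ℂ) (E : Subgroup ℂˣ) {n m : ℕ}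
    (hc : CoefOK φ₀ E (n + 1)) (hB : FibV φ₀ ⊤ n) (hVec : VecV φ₀ ⊤ (n + 1))
    (G : Subgroup (Mat (n + 1) ℂ)ˣ)
    (hR : ∀ (A : Mat (n + 1) R₀) (U : (Mat (n + 1) ℂ)ˣ), IsUnit A.det →
      (U : Mat (n + 1) ℂ) = A.map φ₀ → U ∈ G)
    (C : Fin (m + 1) → (Mat (n + 1) ℂ)ˣ) (hE : ∀ j, EigIn E (C j : Mat (n + 1) ℂ))
    (hT : ∀ j : Fin (m + 1), 1 ≤ (j : ℕ) → TotV φ₀ ⊤ (C j : Mat (n + 1) ℂ))
    (h0 : ∃ v, P002G.Cyc (C 0 : Mat (n + 1) ℂ) v)
    (x : FU 1 (m + 1) →* (Mat (n + 1) ℂ)ˣ) (hx1 : x (relatorU 1 (m + 1)) = 1)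
    (hxC : ∀ j, IsConj (C j) (x (FreeGroup.of (Sum.inr j))))
    (hup : UpT (cseq1 x 0)) (hlo : LoT (cseq1 x (m + 2)))
    (hcell : ∀ k ≤ m + 1, ∃ X : Mat (n + 1) ℂ,
      (List.ofFn fun j : Fin k => cseq1 x ((j : ℕ) + 1)).prod = zZ X ∧ ∀ i, X i i ≠ 0)
    (hcyc : P002G.Cyc (cseq1 x (m + 1))
      (((List.ofFn fun j : Fin m => cseq1 x ((j : ℕ) + 1)).prod)⁻¹ *ᵥ P002G.e0 n ℂ))
    (f : MvPolynomial (GenU 1 (m + 1) × Fin (n + 1) × Fin (n + 1)) ℂ)
    (hf : ∀ y : FU 1 (m + 1) →* (Mat (n + 1) ℂ)ˣ, y (relatorU 1 (m + 1)) = 1 →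
      (∀ j, IsConj (C j) (y (FreeGroup.of (Sum.inr j)))) →
      (∀ k, y (FreeGroup.of k) ∈ G) → evalG y f = 0) :
    evalG x f = 0 := by
  -- the tuple in the chart
  have hXex : ∀ k, ∃ X : Mat (n + 1) ℂ, k ≤ m + 1 →
      (List.ofFn fun j : Fin k => cseq1 x ((j : ℕ) + 1)).prod = zZ X ∧ ∀ i, X i i ≠ 0 := by
    intro k
    by_cases hk : k ≤ m + 1
    · obtain ⟨X, hX⟩ := hcell k hk
      exact ⟨X, fun _ => hX⟩
    · exact ⟨0, fun h => absurd h hk⟩
  choose X hX using hXex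
  obtain ⟨Y, κ, t, hκ, ht, hctup, hLc, hY0⟩ := exists_ctup (m + 1) (cseq1 x) X
    (fun k hk => (hX k hk).1) (fun k hk => (hX k hk).2) hup hlo (cseq1_prod x hx1)
  obtain ⟨t', ht'⟩ : ∃ t' : Fin (n + 1) → ℂ, t' = fun i => cseq1 x 0 i i := ⟨_, rfl⟩
  rw [← ht'] at hctup
  have hcx : ∀ j (hj : j < m + 1), CjM (C ⟨j, hj⟩ : Mat (n + 1) ℂ) (cseq1 x j) := by
    intro j hj
    have h1 : cseq1 x j = _ := cseq1_inr x ⟨j, hj⟩
    rw [h1]
    exact cjM_of_isConj (hxC ⟨j, hj⟩)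
  have hcx0 : CjM (C 0 : Mat (n + 1) ℂ) (cseq1 x 0) := hcx 0 (by omega)
  -- eigenvalues
  have hξ0 : ∀ i, ∃ u : R₀ˣ, φ₀ (u : R₀) = cseq1 x 0 i i := by
    intro i
    apply exists_unit_of_mem φ₀ hc (Nat.succ_pos n)
    apply hE 0
    rw [← hcx0.charpoly, charpoly_upT hup, Polynomial.IsRoot.def, Polynomial.eval_prod]
    exact Finset.prod_eq_zero (Finset.mem_univ i) (by simp)
  choose ξ hξ using hξ0
  have hδ0 : ∀ l, ∃ u : R₀ˣ, ∀ hl : l < m, φ₀ (u : R₀) =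
      (C ⟨l + 1, by omega⟩ : Mat (n + 1) ℂ).det := by
    intro l
    by_cases hl : l < m
    · obtain ⟨u, hu⟩ := exists_unit_of_mem φ₀ hc (Nat.succ_pos n) _
        (hE ⟨l + 1, by omega⟩).det
      exact ⟨u, fun _ => hu⟩
    · exact ⟨1, fun h => absurd h hl⟩
  choose δ hδ using hδ0
  -- the elements of the cell
  have hYc : ∀ k (hk : k < m + 1), CjM (cseq1 x (k + 1)) (zZ (Y k)) := by
    intro k hk
    obtain ⟨L, -, hL⟩ := ctup_mid_cjM (m + 1) t t' κ Y k hk (hκ k hk.le)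
    refine ⟨L, ?_⟩
    rw [hctup (k + 1) (by omega)]
    exact hL
  have hYC : ∀ k (hk : k < m), CjM (C ⟨k + 1, by omega⟩ : Mat (n + 1) ℂ) (zZ (Y k)) :=
    fun k hk => (hcx (k + 1) (by omega)).trans (hYc k (by omega))
  have hκ' : ∀ k ≤ m, κ k = φ₀ (kap' δ k) := by
    intro k hk
    have h1 := kap'_mul δ φ₀ Y k fun l hlk => by
      rw [(hYC l (by omega)).det, hδ l (by omega)]
    have h2 := hκ k (by omega)
    have h3 : (Lc Y k).det ≠ 0 := right_ne_zero_of_mul (by rw [h2]; exact one_ne_zero)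
    exact mul_right_cancel₀ h3 (h2.trans h1.symm)
  have htt : t = fun i => φ₀ ((ξ i)⁻¹ : R₀ˣ) := by
    funext i
    have h1 := ht i
    have h2 : φ₀ (ξ i) * φ₀ ((ξ i)⁻¹ : R₀ˣ) = 1 := by rw [← map_mul, Units.mul_inv, map_one]
    rw [hξ] at h2
    exact mul_left_cancel₀ (left_ne_zero_of_mul (by rw [h1]; exact one_ne_zero)) (h1.trans h2.symm)
  have htt' : t' = fun i => φ₀ (ξ i) := by
    rw [ht']
    funext i
    rw [hξ]
  have ht't : ∀ i, t' i * t i = 1 := by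
    intro i
    rw [ht']
    exact ht i
  -- the matrices `a` and `b`
  obtain ⟨a, ha⟩ : ∃ a, a = x (FreeGroup.of (Sum.inl (0, false))) := ⟨_, rfl⟩
  obtain ⟨b, hb⟩ : ∃ b, b = x (FreeGroup.of (Sum.inl (0, true))) := ⟨_, rfl⟩
  have hca : cseq1 x (m + 1) = (a : Mat (n + 1) ℂ) := by rw [cseq1_a, ha]
  have hca' : cseq1 x (m + 2) = ((b * a⁻¹ * b⁻¹ : (Mat (n + 1) ℂ)ˣ) : Mat (n + 1) ℂ) := by
    rw [cseq1_a', ha, hb]
  have hAinv : Amat m t' Y = ((b * a * b⁻¹ : (Mat (n + 1) ℂ)ˣ) : Mat (n + 1) ℂ) := by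
    have h1 := Amat_mul_ctup (m := m) t t' κ Y (hκ (m + 1) le_rfl) ht't
    rw [← hctup (m + 2) le_rfl, hca'] at h1
    have h2 := Units.eq_inv_of_mul_eq_one_right h1
    rw [h2]
    congr 1
    group
  have hchA : (zZ (Y m)).charpoly = ∏ i, (Polynomial.X - Polynomial.C
      (t' i * ∏ l ∈ Finset.range (m + 1), Y l i i)) := by
    have h1 : (zZ (Y m)).charpoly = (a : Mat (n + 1) ℂ).charpoly := by
      rw [← hca]
      exact (hYc m (Nat.lt_succ_self m)).charpoly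
    have h2 : (Amat m t' Y).charpoly = (a : Mat (n + 1) ℂ).charpoly := by
      rw [hAinv, Units.val_mul, Units.val_mul, Matrix.coe_units_inv, Matrix.charpoly_units_conj]
    rw [h1, ← h2, charpoly_loT (Amat_loT m t' Y)]
    exact Finset.prod_congr rfl fun i _ => by rw [Amat_diag]
  -- cyclicity
  obtain ⟨L, hL1, hL2⟩ := ctup_mid_cjM (m + 1) t t' κ Y m (Nat.lt_succ_self m)
    (hκ m (Nat.le_succ m))
  rw [← hctup (m + 1) (by omega)] at hL2
  have hcycY : P002G.Cyc (zZ (Y m)) (P002G.e0 n ℂ) := by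
    rw [hL2]
    have h1 := P002G.cyc_conj L hcyc
    have h2 : (L : Mat (n + 1) ℂ) *ᵥ (((List.ofFn fun j : Fin m => cseq1 x ((j : ℕ) + 1)).prod)⁻¹ *ᵥ
        P002G.e0 n ℂ) = P002G.e0 n ℂ := by
      have h3 := (hX m (Nat.le_succ m)).1
      have hdU : IsUnit (uU (X m)).det := by rw [det_uU]; exact isUnit_one
      have hdL : IsUnit (lL (X m)).det := by
        rw [det_lL, isUnit_iff_ne_zero, Finset.prod_ne_zero_iff]
        exact fun i _ => (hX m (Nat.le_succ m)).2 i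
      rw [h3, zZ, Matrix.mul_inv_rev, hL1, hLc m (Nat.le_succ m), mulVec_mulVec, ← mul_assoc,
        Matrix.mul_nonsing_inv _ hdL, one_mul]
      have h4 : uU (X m) *ᵥ P002G.e0 n ℂ = P002G.e0 n ℂ := by
        funext i
        rw [mulVec, dotProduct, Fin.sum_univ_succ]
        have h5 : ∀ j : Fin n, P002G.e0 n ℂ j.succ = 0 := fun j => rfl
        have h6 : P002G.e0 n ℂ 0 = 1 := rfl
        simp only [h5, mul_zero, Finset.sum_const_zero, add_zero, h6, mul_one]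
        refine Fin.cases ?_ (fun i => ?_) i
        · rw [uU_diag, h6]
        · rw [h5, upT_uU _ _ _ (Fin.succ_pos i)]
      calc (uU (X m))⁻¹ *ᵥ P002G.e0 n ℂ = (uU (X m))⁻¹ *ᵥ (uU (X m) *ᵥ P002G.e0 n ℂ) := by rw [h4]
        _ = P002G.e0 n ℂ := by rw [mulVec_mulVec, Matrix.nonsing_inv_mul _ hdU, one_mulVec]
    rw [h2] at h1
    exact h1
  have hkZ : IsUnit (P002.kry (zZ (Y m)) (P002G.e0 n ℂ)) := (P002G.cyc_iff _ _).1 hcycY
  have hkZ' : (P002.kry (zZ (Y m)) (P002G.e0 n ℂ)).det ≠ 0 :=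
    ((Matrix.isUnit_iff_isUnit_det _).1 hkZ).ne_zero
  -- the vector
  obtain ⟨y, hy⟩ : ∃ y : Fin (n + 1) → ℂ, y = (b : Mat (n + 1) ℂ) *ᵥ
    (((L⁻¹ : (Mat (n + 1) ℂ)ˣ) : Mat (n + 1) ℂ) *ᵥ P002G.e0 n ℂ) := ⟨_, rfl⟩
  have hBb : Bmat m t' Y (P002G.e0 n ℂ) y = (b : Mat (n + 1) ℂ) := by
    have h1 : ((b * L⁻¹ : (Mat (n + 1) ℂ)ˣ) : Mat (n + 1) ℂ) * zZ (Y m) =
        Amat m t' Y * ((b * L⁻¹ : (Mat (n + 1) ℂ)ˣ) : Mat (n + 1) ℂ) := by
      rw [hAinv, hL2, hca, ← Units.val_mul, ← Units.val_mul, ← Units.val_mul, ← Units.val_mul]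
      congr 1
      group
    have h2 := P002.mul_kry ((b * L⁻¹ : (Mat (n + 1) ℂ)ˣ) : Mat (n + 1) ℂ) (zZ (Y m))
      (P002G.e0 n ℂ) (Amat m t' Y) h1
    have h3 : ((b * L⁻¹ : (Mat (n + 1) ℂ)ˣ) : Mat (n + 1) ℂ) *ᵥ P002G.e0 n ℂ = y := by
      rw [hy, Units.val_mul, mulVec_mulVec]
    rw [h3] at h2
    rw [Bmat, ← h2, mul_assoc _ (P002.kry (zZ (Y m)) (P002G.e0 n ℂ)),
      Matrix.mul_nonsing_inv _ ((Matrix.isUnit_iff_isUnit_det _).1 hkZ), mul_one, ← hL1,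
      ← Units.val_mul]
    congr 1
    group
  -- the polynomial
  obtain ⟨v, hv⟩ := hcx0.cyc h0
  obtain ⟨F, N, hF⟩ := exists_chart_poly1 (m := m) t t' κ (P002G.e0 n ℂ) v f
  have hext : ∀ j, ctup (m + 1) t t' κ (extY fun k : Fin (m + 1) => Y k) j =
      ctup (m + 1) t t' κ Y j := fun j =>
    ctup_congr (fun l hl => extY_of _ l hl) (fun _ _ => rfl) j
  have hextm : extY (fun k : Fin (m + 1) => Y k) m = Y m := extY_of _ m (Nat.lt_succ_self m)
  have hdet : (∏ i, φ₀ (ξ i)) * ∏ k : Fin m, (C ⟨k + 1, by omega⟩ : Mat (n + 1) ℂ).det = 1 := by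
    have h1 : (cseq1 x 0).det = ∏ i, φ₀ (ξ i) := by
      rw [hup.det]
      exact Finset.prod_congr rfl fun i _ => (hξ i).symm
    have h2 := congrArg Matrix.det (cseq1_prod x hx1)
    rw [Matrix.det_one, ← Matrix.coe_detMonoidHom, map_list_prod, List.map_ofFn, List.prod_ofFn,
      Fin.prod_univ_castSucc, Fin.prod_univ_castSucc, Fin.prod_univ_succ] at h2
    simp only [Function.comp_apply, Matrix.coe_detMonoidHom, Fin.val_last, Fin.val_castSucc,
      Fin.val_succ, Fin.val_zero] at h2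
    rw [h1, hca, hca'] at h2
    have h3 : ((b * a⁻¹ * b⁻¹ : (Mat (n + 1) ℂ)ˣ) : Mat (n + 1) ℂ).det *
        (a : Mat (n + 1) ℂ).det = 1 := by
      rw [← Matrix.det_mul, ← Units.val_mul]
      have h4 : b * a⁻¹ * b⁻¹ * a = b * (a⁻¹ * (b⁻¹ * a * b)) * b⁻¹ := by group
      rw [h4, Units.val_mul, Units.val_mul, Matrix.det_units_conj, Units.val_mul, Matrix.det_mul,
        Units.val_mul, Units.val_mul]
      have h5 : (((b⁻¹ : (Mat (n + 1) ℂ)ˣ) : Mat (n + 1) ℂ) * (a : Mat (n + 1) ℂ) *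
          (b : Mat (n + 1) ℂ)).det = (a : Mat (n + 1) ℂ).det :=
        Matrix.det_units_conj' b (a : Mat (n + 1) ℂ)
      rw [h5, ← Matrix.det_mul, Units.inv_mul, Matrix.det_one]
    rw [mul_assoc _ (a : Mat (n + 1) ℂ).det, mul_comm (a : Mat (n + 1) ℂ).det, h3, mul_one] at h2
    rw [← h2]
    congr 1
    refine Finset.prod_congr rfl fun k _ => ?_
    exact ((hcx (k + 1) (by omega)).det).symm
  have hmain := core1 φ₀ ⊤ ?_ hB hVec
    (fun k : Fin m => (C ⟨k + 1, by omega⟩ : Mat (n + 1) ℂ))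
    (fun k => hT _ (Nat.succ_le_succ (Nat.zero_le _))) ξ (fun _ => Subgroup.mem_top _) hdet F
    (fun Y' y' hY1 hY2 hY3 hY4 hY5 => ?_)
    (fun k : Fin (m + 1) => Y k) (fun k i => hY0 k k.2 i) (fun k => hYC k k.2)
    (by
      have h1 : (zZ (Y m)).charpoly = ∏ i, (Polynomial.X - Polynomial.C
          (φ₀ (ξ i) * ∏ l : Fin (m + 1), Y l i i)) := by
        rw [hchA]
        refine Finset.prod_congr rfl fun i _ => ?_
        rw [htt', Fin.prod_univ_eq_prod_range (fun l => Y l i i)]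
      exact h1) hcycY y
  · have h1 := hF (fun k : Fin (m + 1) => Y k) y (by rw [hextm]; exact hkZ')
    rw [hmain, hext] at h1
    have hkv : (P002.kry (ctup (m + 1) t t' κ Y 0) v).det ≠ 0 := by
      rw [← hctup 0 (by omega), ← isUnit_iff_ne_zero, ← Matrix.isUnit_iff_isUnit_det,
        ← P002G.cyc_iff]
      exact hv
    rw [hextm] at h1
    have h2 : MvPolynomial.aeval (fun p => Gone m t t' κ (extY fun k : Fin (m + 1) => Y k)
        (P002G.e0 n ℂ) y p.1 p.2.1 p.2.2) f = (0 : ℂ) := by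
      rcases mul_eq_zero.1 h1.symm with h | h
      · exact (mul_eq_zero.1 h).resolve_left (pow_ne_zero _ hkZ')
      · exact absurd h hkv
    rw [evalG_eqn, ← h2]
    congr 2
    funext p
    obtain ⟨k, i, j⟩ := p
    have hG : (x (FreeGroup.of k) : Mat (n + 1) ℂ) =
        Gone m t t' κ (extY fun k : Fin (m + 1) => Y k) (P002G.e0 n ℂ) y k := by
      rcases k with ⟨k, b'⟩ | j
      · have hk0 : k = 0 := Subsingleton.elim _ _
        subst hk0
        cases b'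
        · rw [Gone_false, hext, ← hctup (m + 1) (by omega), cseq1_a]
        · rw [Gone_true, ← hb, ← hBb, Bmat, Bmat, Amat, Amat, hextm]
          rw [Lc_congr (Y := extY fun k : Fin (m + 1) => Y k) (Y' := Y) (k := m + 1)
            fun l hl => extY_of _ l hl]
          rw [Lc_congr (Y := extY fun k : Fin (m + 1) => Y k) (Y' := Y) (k := m)
            fun l hl => extY_of _ l (by omega)]
      · rw [Gone_inr, hext, ← hctup j (by omega), cseq1_inr]
    rw [hG]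
  · exact units_infinite φ₀ E hc
  · obtain ⟨Z, hZ⟩ : ∃ Z : ℕ → Mat (n + 1) R₀, Z = extY Y' := ⟨_, rfl⟩
    have hZk : ∀ k (hk : k < m + 1), Z k = Y' ⟨k, hk⟩ := fun k hk => by
      rw [hZ, extY_of _ k hk]
    have hZm : Z m = Y' (Fin.last m) := hZk m (Nat.lt_succ_self m)
    obtain ⟨z, hz1, hz2, hz3, hz4⟩ := chart_integral1 φ₀ hc.inj C h0 δ ξ (fun l hl => hδ l hl)
      (by
        rw [← hcx0.charpoly, charpoly_upT hup]
        exact Finset.prod_congr rfl fun i _ => by rw [hξ])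
      Z (P002G.e0 n R₀) y'
      (fun k hk i => by
        rw [hZk k (by omega)]
        obtain ⟨w, -, hw⟩ := hY1 ⟨k, by omega⟩ i
        rw [← hw]
        exact w.isUnit)
      (fun k hk => by
        rw [hZk k (by omega)]
        exact hY2 ⟨k, hk⟩)
      (by
        rw [hZm, hY3]
        refine Finset.prod_congr rfl fun i _ => ?_
        rw [← Fin.prod_univ_eq_prod_range (fun l => Z l i i)]
        congr 3
        exact Finset.prod_congr rfl fun l _ => by rw [hZk l l.2])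
      (by
        rw [hZm]
        obtain ⟨w, -, hw⟩ := hY4
        rw [← hw]
        exact w.isUnit)
      (by
        rw [Amat, hZ]
        obtain ⟨w, -, hw⟩ := hY5
        rw [← hw]
        exact w.isUnit) κ hκ'
    have hZe : (fun k => (Z k).map φ₀) = extY fun k => (Y' k).map φ₀ := by
      rw [hZ, extY_map]
    rw [e0_map, hZe, ← htt, ← htt'] at hz2
    rw [hZe, ← htt, ← htt'] at hz4
    have hFY := hF (fun k => (Y' k).map φ₀) (fun i => φ₀ (y' i)) (by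
      rw [extY_of _ m (Nat.lt_succ_self m)]
      have h1 : (⟨m, Nat.lt_succ_self m⟩ : Fin (m + 1)) = Fin.last m := rfl
      rw [h1, ← zZ_map, ← e0_map φ₀, ← kry_map]
      obtain ⟨w, -, hw⟩ := hY4
      have h2 := RingHom.map_det φ₀ (P002.kry (zZ (Y' (Fin.last m))) (P002G.e0 n R₀))
      rw [← hw] at h2
      change ((P002.kry (zZ (Y' (Fin.last m))) (P002G.e0 n R₀)).map φ₀).det ≠ 0
      have h3 : ((P002.kry (zZ (Y' (Fin.last m))) (P002G.e0 n R₀)).map φ₀).det = φ₀ w := h2.symm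
      rw [h3]
      exact (w.isUnit.map φ₀).ne_zero)
    simp only [Matrix.map_apply] at hFY
    rw [hFY]
    by_cases hk1 : (P002.kry (ctup (m + 1) t t' κ (extY fun k => (Y' k).map φ₀) 0) v).det = 0
    · rw [hk1, mul_zero]
    have hz5 := hz4 ⟨v, by
      rw [P002G.cyc_iff, Matrix.isUnit_iff_isUnit_det, isUnit_iff_ne_zero]
      exact hk1⟩
    have hz6 := hf z hz1 hz5 (fun k => by
      obtain ⟨A, hA1, hA2⟩ := hz3 k
      exact hR A _ hA1 hA2)
    have hz7 : MvPolynomial.aeval (fun p => Gone m t t' κ (extY fun k => (Y' k).map φ₀)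
        (P002G.e0 n ℂ) (fun i => φ₀ (y' i)) p.1 p.2.1 p.2.2) f = (0 : ℂ) := by
      rw [← hz6, evalG_eqn]
      congr 2
      funext p
      rw [hz2]
    rw [hz7, mul_zero, zero_mul]

end Vale.Agent.P002R
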