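import Vale.Agent.P002R.ZOneCore

/-!
# P002, genus 1: the tuples of the chart
-/

namespace Vale.Agent.P002R

open Matrix

variable {r m : ℕ}

theorem ctup_congr_kap {S : Type*} [CommRing S] {m : ℕ} {t t' : Fin r → S} {κ κ' : ℕ → S}
    {Y : ℕ → Mat r S} (hκ : ∀ l < m, κ l = κ' l) (j : ℕ) (hj : j ≤ m) :
    ctup m t t' κ Y j = ctup m t t' κ' Y j := by
  unfold ctup
  split_ifs with h1
  · rfl
  · rw [hκ (j - 1) (by omega)]

/-- The matrix `a'⁻¹`. -/
def Amat {S : Type*} [CommRing S] (m : ℕ) (t' : Fin r → S) (Y : ℕ → Mat r S) : Mat r S :=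
  diagonal t' * Lc Y (m + 1)

theorem Amat_map {S T : Type*} [CommRing S] [CommRing T] (φ : S →+* T) (m : ℕ) (t' : Fin r → S)
    (Y : ℕ → Mat r S) :
    (Amat m t' Y).map φ = Amat m (fun i => φ (t' i)) fun k => (Y k).map φ := by
  rw [Amat, Matrix.map_mul, Lc_map, Matrix.diagonal_map (map_zero φ), Amat]

theorem Amat_loT {S : Type*} [CommRing S] (m : ℕ) (t' : Fin r → S) (Y : ℕ → Mat r S) :
    LoT (Amat m t' Y) := (loT_diagonal t').mul (loT_Lc Y (m + 1))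

theorem Amat_diag {S : Type*} [CommRing S] (m : ℕ) (t' : Fin r → S) (Y : ℕ → Mat r S)
    (i : Fin r) : Amat m t' Y i i = t' i * ∏ l ∈ Finset.range (m + 1), Y l i i := by
  rw [Amat, (loT_diagonal t').mul_diag (loT_Lc Y (m + 1)), Matrix.diagonal_apply_eq, Lc_diag]

theorem Amat_mul_ctup (t t' : Fin r → ℂ) (κ : ℕ → ℂ) (Y : ℕ → Mat r ℂ)
    (hκ : κ (m + 1) * (Lc Y (m + 1)).det = 1) (ht : ∀ i, t' i * t i = 1) :
    Amat m t' Y * ctup (m + 1) t t' κ Y (m + 2) = 1 := by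
  rw [Amat, ctup_last, mul_assoc, mul_smul_comm, ← mul_assoc (Lc Y (m + 1)), Matrix.mul_adjugate,
    smul_mul_assoc, smul_smul, hκ, one_smul, one_mul, Matrix.diagonal_mul_diagonal]
  rw [← Matrix.diagonal_one]
  congr 1
  funext i
  exact ht i

/-- The matrix `b`. -/
noncomputable def Bmat (m : ℕ) (t' : Fin r → ℂ) (Y : ℕ → Mat r ℂ) (e y : Fin r → ℂ) : Mat r ℂ :=
  P002.kry (Amat m t' Y) y * (P002.kry (zZ (Y m)) e)⁻¹ * Lc Y m

theorem Bmat_mul (t t' : Fin r → ℂ) (κ : ℕ → ℂ) (Y : ℕ → Mat r ℂ) (e y : Fin r → ℂ)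
    (hκ : κ m * (Lc Y m).det = 1)
    (hch : (zZ (Y m)).charpoly = ∏ i, (Polynomial.X - Polynomial.C
      (t' i * ∏ l ∈ Finset.range (m + 1), Y l i i)))
    (hZ : IsUnit (P002.kry (zZ (Y m)) e)) :
    Bmat m t' Y e y * ctup (m + 1) t t' κ Y (m + 1) = Amat m t' Y * Bmat m t' Y e y := by
  obtain ⟨L, hL, hL'⟩ := ctup_mid_cjM (m + 1) t t' κ Y m (Nat.lt_succ_self m) hκ
  have hdet : IsUnit (P002.kry (zZ (Y m)) e).det := (Matrix.isUnit_iff_isUnit_det _).1 hZ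
  have h1 : (P002.kry (Amat m t' Y) y * (P002.kry (zZ (Y m)) e)⁻¹) * zZ (Y m) =
      Amat m t' Y * (P002.kry (Amat m t' Y) y * (P002.kry (zZ (Y m)) e)⁻¹) := by
    refine P002.krylov_comm (zZ (Y m)) (Amat m t' Y) e y ?_ _ ?_ hZ
    · rw [hch, charpoly_loT (Amat_loT m t' Y)]
      exact Finset.prod_congr rfl fun i _ => by rw [Amat_diag]
    · rw [mul_assoc, Matrix.nonsing_inv_mul _ hdet, mul_one]
  have h2 : Lc Y m * ctup (m + 1) t t' κ Y (m + 1) = zZ (Y m) * Lc Y m := by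
    rw [hL', ← hL, mul_assoc, Units.inv_mul, mul_one]
  rw [Bmat, mul_assoc, h2, ← mul_assoc, h1, mul_assoc]

theorem isUnit_Bmat (t' : Fin r → ℂ) (κ : ℕ → ℂ) (Y : ℕ → Mat r ℂ) (e y : Fin r → ℂ)
    (hκ : κ m * (Lc Y m).det = 1) (hA : IsUnit (P002.kry (Amat m t' Y) y))
    (hZ : IsUnit (P002.kry (zZ (Y m)) e)) : IsUnit (Bmat m t' Y e y) := by
  have hL : IsUnit (Lc Y m) := by
    rw [Matrix.isUnit_iff_isUnit_det, isUnit_iff_ne_zero]
    exact right_ne_zero_of_mul (by rw [hκ]; exact one_ne_zero)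
  rw [Bmat]
  refine (hA.mul ?_).mul hL
  rw [Matrix.isUnit_iff_isUnit_det] at hZ ⊢
  exact Matrix.isUnit_nonsing_inv_det _ hZ

/-- Construction of representations in genus 1. -/
theorem exists_hom1 (c : ℕ → Mat r ℂ) (A B : Mat r ℂ)
    (h : (List.ofFn fun j : Fin (m + 3) => c j).prod = 1) (hB : IsUnit B)
    (hBA : B * c (m + 1) = A * B) (hA : A * c (m + 2) = 1) :
    ∃ y : FU 1 (m + 1) →* (Mat r ℂ)ˣ, y (relatorU 1 (m + 1)) = 1 ∧
      (∀ j : Fin (m + 1), (y (FreeGroup.of (Sum.inr j)) : Mat r ℂ) = c j) ∧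
      (y (FreeGroup.of (Sum.inl (0, false))) : Mat r ℂ) = c (m + 1) ∧
      (y (FreeGroup.of (Sum.inl (0, true))) : Mat r ℂ) = B := by
  have hu : ∀ j : Fin (m + 3), ∃ u : (Mat r ℂ)ˣ, (u : Mat r ℂ) = c j :=
    fun j => isUnit_of_prod (m + 3) (fun j : Fin (m + 3) => c j) h j
  choose u hu using hu
  obtain ⟨b, hb⟩ := hB
  obtain ⟨a, ha⟩ : ∃ a : (Mat r ℂ)ˣ, (a : Mat r ℂ) = c (m + 1) := ⟨u ⟨m + 1, by omega⟩, hu _⟩
  obtain ⟨a', ha'⟩ : ∃ a' : (Mat r ℂ)ˣ, (a' : Mat r ℂ) = c (m + 2) := ⟨u ⟨m + 2, by omega⟩, hu _⟩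
  have hA' : A = ((a'⁻¹ : (Mat r ℂ)ˣ) : Mat r ℂ) := by
    rw [← ha'] at hA
    exact Units.eq_inv_of_mul_eq_one_right hA
  have hrel : b * a * b⁻¹ * a' = 1 := by
    apply Units.ext
    rw [Units.val_mul, Units.val_mul, Units.val_mul, hb, ha, hBA, hA', ← hb, mul_assoc _ (b : Mat r ℂ),
      Units.mul_inv, mul_one, Units.inv_mul, Units.val_one]
  have hrel' : b * a⁻¹ * b⁻¹ = a' := by
    have h2 : (b * a * b⁻¹)⁻¹ = a' := (eq_inv_of_mul_eq_one_right hrel).symm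
    rw [← h2]
    group
  refine ⟨FreeGroup.lift (Sum.elim (fun k => if k.2 then b else a)
    fun j => u ⟨j, by omega⟩), ?_, fun j => ?_, ?_, ?_⟩
  · rw [relatorU_eqn, map_mul, map_list_prod, map_list_prod, List.map_ofFn, List.map_ofFn]
    simp only [List.ofFn_succ, List.ofFn_zero, List.prod_cons, List.prod_nil, mul_one,
      Function.comp_apply, map_mul, map_inv, FreeGroup.lift_apply_of, Sum.elim_inl, Sum.elim_inr,
      Bool.false_eq_true, if_false, if_true]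
    have h3 : (u ⟨0, by omega⟩ * (List.ofFn fun i : Fin m =>
        u ⟨((i.succ : Fin (m + 1)) : ℕ), by omega⟩).prod) * a * a' = 1 := by
      apply Units.ext
      rw [List.ofFn_succ', List.concat_eq_append, List.prod_append, List.prod_singleton,
        List.ofFn_succ', List.concat_eq_append, List.prod_append, List.prod_singleton,
        List.ofFn_succ, List.prod_cons] at h
      rw [Units.val_one, ← h, Units.val_mul, Units.val_mul, Units.val_mul, ha, ha']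
      have h4 : (((List.ofFn fun i : Fin m =>
          u ⟨((i.succ : Fin (m + 1)) : ℕ), by omega⟩).prod : (Mat r ℂ)ˣ) : Mat r ℂ) =
          (List.ofFn fun i : Fin m => c ((Fin.castSucc (Fin.castSucc i.succ) : Fin (m + 3)) : ℕ)).prod := by
        rw [← Units.coeHom_apply, map_list_prod, List.map_ofFn]
        congr 2
        funext i
        exact hu _
      rw [h4, hu]
      rfl
    rw [← h3, ← hrel']
    simp only [Fin.val_zero]
    group
  · rw [FreeGroup.lift_apply_of, Sum.elim_inr]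
    exact hu _
  · rw [FreeGroup.lift_apply_of, Sum.elim_inl]
    exact ha
  · rw [FreeGroup.lift_apply_of, Sum.elim_inl]
    exact hb

end Vale.Agent.P002R
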