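import Vale.Agent.P002R.ZOneInt

/-!
# P002, genus 1: integral points and the polynomial of the chart
-/

namespace Vale.Agent.P002R

open Matrix

variable {r m : ℕ}

theorem isUnit_of_prod' {S : Type*} [CommRing S] (N : ℕ) (c : Fin N → Mat r S)
    (h : (List.ofFn c).prod = 1) (j : Fin N) : IsUnit (c j) := by
  rw [Matrix.isUnit_iff_isUnit_det]
  have h1 : ((List.ofFn c).map Matrix.det).prod = 1 := by
    have := congrArg Matrix.det h
    rwa [Matrix.det_one, ← Matrix.coe_detMonoidHom, map_list_prod] at this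
  apply isUnit_of_dvd_one
  rw [← h1]
  apply List.dvd_prod
  rw [List.mem_map]
  exact ⟨c j, List.mem_ofFn.2 ⟨j, rfl⟩, rfl⟩

/-- The matrices of the generators. -/
noncomputable def Gone (m : ℕ) (t t' : Fin r → ℂ) (κ : ℕ → ℂ) (Y : ℕ → Mat r ℂ)
    (e y : Fin r → ℂ) : GenU 1 (m + 1) → Mat r ℂ :=
  Sum.elim (fun k => if k.2 then Bmat m t' Y e y else ctup (m + 1) t t' κ Y (m + 1))
    fun j => ctup (m + 1) t t' κ Y j

theorem Gone_inr (t t' : Fin r → ℂ) (κ : ℕ → ℂ) (Y : ℕ → Mat r ℂ) (e y : Fin r → ℂ)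
    (j : Fin (m + 1)) : Gone m t t' κ Y e y (Sum.inr j) = ctup (m + 1) t t' κ Y j := rfl

theorem Gone_false (t t' : Fin r → ℂ) (κ : ℕ → ℂ) (Y : ℕ → Mat r ℂ) (e y : Fin r → ℂ) :
    Gone m t t' κ Y e y (Sum.inl (0, false)) = ctup (m + 1) t t' κ Y (m + 1) := rfl

theorem Gone_true (t t' : Fin r → ℂ) (κ : ℕ → ℂ) (Y : ℕ → Mat r ℂ) (e y : Fin r → ℂ) :
    Gone m t t' κ Y e y (Sum.inl (0, true)) = Bmat m t' Y e y := rfl

/-- The matrices of the generators, multiplied by the determinant of the Krylov matrix. -/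
noncomputable def Mone {S : Type*} [CommRing S] (m : ℕ) (t t' : Fin r → S) (κ : ℕ → S)
    (Y : ℕ → Mat r S) (e y : Fin r → S) : GenU 1 (m + 1) → Mat r S :=
  Sum.elim (fun k => if k.2 then P002.kry (Amat m t' Y) y * (P002.kry (zZ (Y m)) e).adjugate *
      Lc Y m else (P002.kry (zZ (Y m)) e).det • ctup (m + 1) t t' κ Y (m + 1))
    fun j => (P002.kry (zZ (Y m)) e).det • ctup (m + 1) t t' κ Y j

theorem kry_map {S T : Type*} [CommRing S] [CommRing T] (φ : S →+* T) (A : Mat r S)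
    (v : Fin r → S) : (P002.kry A v).map φ = P002.kry (A.map φ) fun i => φ (v i) := by
  ext i j
  simp only [P002.kry, Matrix.of_apply, Matrix.map_apply]
  have h2 : (A.map φ) ^ (j : ℕ) = (A ^ (j : ℕ)).map φ := by
    have := map_pow φ.mapMatrix A (j : ℕ)
    exact this.symm
  rw [h2, RingHom.map_mulVec]
  rfl

theorem Mone_map {S T : Type*} [CommRing S] [CommRing T] (φ : S →+* T) (m : ℕ) (t t' : Fin r → S)
    (κ : ℕ → S) (Y : ℕ → Mat r S) (e y : Fin r → S) (k : GenU 1 (m + 1)) :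
    (Mone m t t' κ Y e y k).map φ = Mone m (fun i => φ (t i)) (fun i => φ (t' i))
      (fun k => φ (κ k)) (fun k => (Y k).map φ) (fun i => φ (e i)) (fun i => φ (y i)) k := by
  rcases k with ⟨k, b⟩ | j
  · cases b
    · simp only [Mone, Sum.elim_inl, Bool.false_eq_true, if_false]
      rw [smul_map, ctup_map, RingHom.map_det, ← zZ_map, ← kry_map]
      rfl
    · simp only [Mone, Sum.elim_inl, if_true]
      rw [Matrix.map_mul, Matrix.map_mul, kry_map, Amat_map, adjugate_map, kry_map, zZ_map, Lc_map]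
  · simp only [Mone, Sum.elim_inr]
    rw [smul_map, ctup_map, RingHom.map_det, ← zZ_map, ← kry_map]
    rfl

theorem Mone_eq (t t' : Fin r → ℂ) (κ : ℕ → ℂ) (Y : ℕ → Mat r ℂ) (e y : Fin r → ℂ)
    (h : (P002.kry (zZ (Y m)) e).det ≠ 0) (k : GenU 1 (m + 1)) :
    (P002.kry (zZ (Y m)) e).det⁻¹ • Mone m t t' κ Y e y k = Gone m t t' κ Y e y k := by
  rcases k with ⟨k, b⟩ | j
  · cases b
    · simp only [Mone, Gone, Sum.elim_inl, Bool.false_eq_true, if_false]
      rw [smul_smul, inv_mul_cancel₀ h, one_smul]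
    · simp only [Mone, Gone, Sum.elim_inl, if_true]
      rw [Bmat, Matrix.inv_def, Ring.inverse_eq_inv', mul_smul_comm, smul_mul_assoc]
  · simp only [Mone, Gone, Sum.elim_inr]
    rw [smul_smul, inv_mul_cancel₀ h, one_smul]

/-- The polynomial of the chart. -/
theorem exists_chart_poly1 (t t' : Fin r → ℂ) (κ : ℕ → ℂ) (e v : Fin r → ℂ)
    (f : MvPolynomial (GenU 1 (m + 1) × Fin r × Fin r) ℂ) :
    ∃ (F : MvPolynomial ((Fin (m + 1) × Fin r × Fin r) ⊕ Fin r) ℂ) (N : ℕ),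
      ∀ (Y : Fin (m + 1) → Mat r ℂ) (y : Fin r → ℂ), (P002.kry (zZ (extY Y m)) e).det ≠ 0 →
      MvPolynomial.aeval (Sum.elim (fun p => Y p.1 p.2.1 p.2.2) y) F =
        (P002.kry (zZ (extY Y m)) e).det ^ N *
        MvPolynomial.aeval (fun p => Gone m t t' κ (extY Y) e y p.1 p.2.1 p.2.2) f *
        (P002.kry (ctup (m + 1) t t' κ (extY Y) 0) v).det := by
  obtain ⟨N, H, hH⟩ := P002.exists_homog f
  obtain ⟨Yg, hYg⟩ : ∃ Yg : Fin (m + 1) →
    Mat r (MvPolynomial ((Fin (m + 1) × Fin r × Fin r) ⊕ Fin r) ℂ),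
    Yg = fun k => Matrix.of fun i j => MvPolynomial.X (Sum.inl (k, (i, j))) := ⟨_, rfl⟩
  obtain ⟨yg, hyg⟩ : ∃ yg : Fin r → MvPolynomial ((Fin (m + 1) × Fin r × Fin r) ⊕ Fin r) ℂ,
    yg = fun i => MvPolynomial.X (Sum.inr i) := ⟨_, rfl⟩
  obtain ⟨M, hM⟩ : ∃ M : GenU 1 (m + 1) →
    Mat r (MvPolynomial ((Fin (m + 1) × Fin r × Fin r) ⊕ Fin r) ℂ), M =
      Mone m (fun i => MvPolynomial.C (t i)) (fun i => MvPolynomial.C (t' i))
      (fun k => MvPolynomial.C (κ k)) (extY Yg) (fun i => MvPolynomial.C (e i)) yg := ⟨_, rfl⟩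
  obtain ⟨dg, hdg⟩ : ∃ dg : MvPolynomial ((Fin (m + 1) × Fin r × Fin r) ⊕ Fin r) ℂ, dg =
    (P002.kry (zZ (extY Yg m)) fun i => MvPolynomial.C (e i)).det := ⟨_, rfl⟩
  refine ⟨MvPolynomial.aeval (fun o : Option (GenU 1 (m + 1) × Fin r × Fin r) =>
      o.elim dg fun p => M p.1 p.2.1 p.2.2) H *
    (P002.kry (ctup (m + 1) (fun i => MvPolynomial.C (t i)) (fun i => MvPolynomial.C (t' i))
      (fun k => MvPolynomial.C (κ k)) (extY Yg) 0) fun i => MvPolynomial.C (v i)).det, N,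
      fun Y y hd => ?_⟩
  obtain ⟨ev, hev⟩ : ∃ ev : MvPolynomial ((Fin (m + 1) × Fin r × Fin r) ⊕ Fin r) ℂ →ₐ[ℂ] ℂ,
    ev = MvPolynomial.aeval (Sum.elim (fun p => Y p.1 p.2.1 p.2.2) y) := ⟨_, rfl⟩
  rw [← hev]
  have h3 : ∀ z : ℂ, (ev : MvPolynomial ((Fin (m + 1) × Fin r × Fin r) ⊕ Fin r) ℂ →+* ℂ)
      (MvPolynomial.C z) = z := fun z => ev.commutes z
  have hYe : (fun k => (extY Yg k).map
      (ev : MvPolynomial ((Fin (m + 1) × Fin r × Fin r) ⊕ Fin r) ℂ →+* ℂ)) = extY Y := by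
    rw [extY_map]
    congr 1
    funext k
    ext i j
    rw [hYg, Matrix.map_apply]
    change ev (MvPolynomial.X (Sum.inl (k, (i, j)))) = _
    rw [hev, MvPolynomial.aeval_X]
    rfl
  have hye : (fun i => (ev : MvPolynomial ((Fin (m + 1) × Fin r × Fin r) ⊕ Fin r) ℂ →+* ℂ)
      (yg i)) = y := by
    funext i
    rw [hyg]
    change ev (MvPolynomial.X (Sum.inr i)) = _
    rw [hev, MvPolynomial.aeval_X]
    rfl
  have hMe : ∀ k, (M k).map (ev : MvPolynomial ((Fin (m + 1) × Fin r × Fin r) ⊕ Fin r) ℂ →+* ℂ) =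
      Mone m t t' κ (extY Y) e y k := by
    intro k
    rw [hM, Mone_map]
    simp only [h3]
    rw [hYe, hye]
  have hde : ev dg = (P002.kry (zZ (extY Y m)) e).det := by
    rw [hdg]
    have h6 := kry_map' (ev : MvPolynomial ((Fin (m + 1) × Fin r × Fin r) ⊕ Fin r) ℂ →+* ℂ)
      (zZ (extY Yg m)) fun i => MvPolynomial.C (e i)
    simp only [h3] at h6
    rw [zZ_map] at h6
    have h7 := congrFun hYe m
    rw [h7] at h6
    exact h6
  have h8 : ev (P002.kry (ctup (m + 1) (fun i => MvPolynomial.C (t i))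
      (fun i => MvPolynomial.C (t' i)) (fun k => MvPolynomial.C (κ k)) (extY Yg) 0)
      fun i => MvPolynomial.C (v i)).det =
      (P002.kry (ctup (m + 1) t t' κ (extY Y) 0) v).det := by
    have h6 := kry_map' (ev : MvPolynomial ((Fin (m + 1) × Fin r × Fin r) ⊕ Fin r) ℂ →+* ℂ)
      (ctup (m + 1) (fun i => MvPolynomial.C (t i)) (fun i => MvPolynomial.C (t' i))
        (fun k => MvPolynomial.C (κ k)) (extY Yg) 0) fun i => MvPolynomial.C (v i)
    rw [ctup_map] at h6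
    simp only [h3] at h6
    rw [hYe] at h6
    exact h6
  rw [map_mul, h8, ← AlgHom.comp_apply, MvPolynomial.comp_aeval]
  congr 1
  have h9 := hH _ hd fun p => Mone m t t' κ (extY Y) e y p.1 p.2.1 p.2.2
  rw [← MvPolynomial.coe_aeval_eq_eval] at h9
  have h10 : (fun o : Option (GenU 1 (m + 1) × Fin r × Fin r) =>
      ev (o.elim dg fun p => M p.1 p.2.1 p.2.2)) =
      fun o => o.elim (P002.kry (zZ (extY Y m)) e).det
        fun p => Mone m t t' κ (extY Y) e y p.1 p.2.1 p.2.2 := by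
    funext o
    cases o with
    | none => exact hde
    | some p => exact congrFun (congrFun (hMe p.1) p.2.1) p.2.2
  rw [h10]
  refine h9.trans ?_
  congr 1
  rw [← MvPolynomial.coe_aeval_eq_eval]
  change MvPolynomial.aeval _ f = MvPolynomial.aeval _ f
  congr 2
  funext p
  rw [← Mone_eq t t' κ (extY Y) e y hd]
  rfl

end Vale.Agent.P002R
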