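import Vale.Agent.P002R.RDense

/-!
# P002, genus 0: the rank one lemma
-/

namespace Vale.Agent.P002R

open Matrix Module

variable {r : ℕ} {ι : Type*}

/-- derivative of a product of conjugates -/
def DL (c x : ι → Mat r ℂ) : List ι → Mat r ℂ
  | [] => 0
  | j :: l => (x j * c j - c j * x j) * (l.map c).prod + c j * DL c x l

theorem DL_nil (c x : ι → Mat r ℂ) : DL c x [] = 0 := rfl

theorem DL_cons (c x : ι → Mat r ℂ) (j : ι) (l : List ι) :
    DL c x (j :: l) = (x j * c j - c j * x j) * (l.map c).prod + c j * DL c x l := rfl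

theorem DL_append (c x : ι → Mat r ℂ) (l₁ l₂ : List ι) :
    DL c x (l₁ ++ l₂) = DL c x l₁ * (l₂.map c).prod + (l₁.map c).prod * DL c x l₂ := by
  induction l₁ with
  | nil => simp [DL_nil]
  | cons j l₁ ih =>
    rw [List.cons_append, DL_cons, DL_cons, ih, List.map_append, List.prod_append, List.map_cons,
      List.prod_cons]
    noncomm_ring

theorem DL_add (c x y : ι → Mat r ℂ) (l : List ι) :
    DL c (x + y) l = DL c x l + DL c y l := by
  induction l with
  | nil => simp [DL_nil]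
  | cons j l ih =>
    rw [DL_cons, DL_cons, DL_cons, ih, Pi.add_apply]
    noncomm_ring

theorem DL_smul (c x : ι → Mat r ℂ) (a : ℂ) (l : List ι) :
    DL c (a • x) l = a • DL c x l := by
  induction l with
  | nil => simp [DL_nil]
  | cons j l ih =>
    rw [DL_cons, DL_cons, ih, Pi.smul_apply]
    simp only [smul_add, Matrix.smul_mul, Matrix.mul_smul, smul_sub, Matrix.sub_mul]

/-- `DL` as a linear map -/
def DLlin (c : ι → Mat r ℂ) (l : List ι) : (ι → Mat r ℂ) →ₗ[ℂ] Mat r ℂ where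
  toFun x := DL c x l
  map_add' x y := DL_add c x y l
  map_smul' a x := DL_smul c x a l

theorem DL_zero_of (c x : ι → Mat r ℂ) (l : List ι) (h : ∀ j ∈ l, x j = 0) : DL c x l = 0 := by
  induction l with
  | nil => rfl
  | cons j l ih =>
    rw [DL_cons, ih fun k hk => h k (List.mem_cons_of_mem _ hk), h j List.mem_cons_self]
    simp

theorem DL_split (c x : ι → Mat r ℂ) (l' l'' : List ι) (j : ι) (h' : ∀ k ∈ l', x k = 0)
    (h'' : ∀ k ∈ l'', x k = 0) :
    DL c x (l' ++ j :: l'') =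
      (l'.map c).prod * (x j * c j - c j * x j) * (l''.map c).prod := by
  rw [DL_append, DL_cons, DL_zero_of c x l' h', DL_zero_of c x l'' h'']
  noncomm_ring

theorem trace_vecMulVec_mul (u y : Fin r → ℂ) (M : Mat r ℂ) :
    trace (vecMulVec u y * M) = y ⬝ᵥ (M *ᵥ u) := by
  simp only [trace, diag_apply, mul_apply, vecMulVec_apply, dotProduct, mulVec, Finset.mul_sum]
  rw [Finset.sum_comm]
  refine Finset.sum_congr rfl fun i _ => Finset.sum_congr rfl fun j _ => by ring

/-- commutation along a list -/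
theorem pre_ind (c : ι → Mat r ℂ) (B : Mat r ℂ) (l : List ι)
    (h : ∀ l' j l'', l = l' ++ j :: l'' → Commute B (l'.map c).prod → Commute B (c j)) :
    Commute B (l.map c).prod ∧ ∀ j ∈ l, Commute B (c j) := by
  have key : ∀ l₁ l₂ : List ι, l = l₁ ++ l₂ →
      Commute B (l₁.map c).prod ∧ ∀ j ∈ l₁, Commute B (c j) := by
    intro l₁
    induction l₁ using List.reverseRecOn with
    | nil => exact fun l₂ _ => ⟨by simp, by simp⟩
    | append_singleton l₁ j ih =>
      intro l₂ hl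
      have hl' : l = l₁ ++ j :: l₂ := by simpa using hl
      obtain ⟨h1, h2⟩ := ih (j :: l₂) hl'
      have h3 := h l₁ j l₂ hl' h1
      refine ⟨?_, ?_⟩
      · rw [List.map_append, List.prod_append]
        simp only [List.map_cons, List.map_nil, List.prod_cons, List.prod_nil, mul_one]
        exact h1.mul_right h3
      · intro k hk
        rcases List.mem_append.1 hk with hk | hk
        · exact h2 k hk
        · rw [List.mem_singleton] at hk
          rw [hk]; exact h3
  exact key l [] (by simp)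

/-- the final contradiction -/
theorem rank_one_end (c : ι → Mat r ℂ) (b t : ι) (N B₂ P A : Mat r ℂ) (u y : Fin r → ℂ)
    (hA : A = vecMulVec u y) (hu0 : u ≠ 0) (hy0 : y ≠ 0) (hub : IsUnit (c b)) (hut : IsUnit (c t))
    (hP : IsUnit P) (hNP : Commute N P) (hB₂ : B₂ = N + A * P)
    (E1 : N * c b = c b * (N + P * A)) (E4 : B₂ * c t = c t * N)
    (hall : ∀ j, j ≠ b → j ≠ t → Commute N (c j) ∨ Commute B₂ (c j))
    (hirr : ∀ W : Submodule ℂ (Fin r → ℂ), (∀ j, ∀ w ∈ W, c j *ᵥ w ∈ W) → W = ⊥ ∨ W = ⊤) :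
    False := by
  have hne : Nonempty (Fin r) := by
    by_contra h
    rw [not_nonempty_iff] at h
    exact hu0 (funext fun i => (h.false i).elim)
  have hA0 : A ≠ 0 := by
    intro h0
    obtain ⟨i, hi⟩ := Function.ne_iff.1 hu0
    obtain ⟨j, hj⟩ := Function.ne_iff.1 hy0
    have h1 := congrFun (congrFun (hA.symm.trans h0) i) j
    rw [vecMulVec_apply] at h1
    rcases mul_eq_zero.1 h1 with h | h
    · exact hi h
    · exact hj h
  -- not scalar
  have hns : ∀ a : ℂ, N ≠ a • (1 : Mat r ℂ) := by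
    intro a ha
    rw [ha] at E1
    have h1 : c b * (P * A) = 0 := by
      have h2 : a • (1 : Mat r ℂ) * c b = c b * (a • (1 : Mat r ℂ)) := by
        rw [Matrix.smul_mul, Matrix.mul_smul, Matrix.one_mul, Matrix.mul_one]
      rw [h2, Matrix.mul_add, left_eq_add] at E1
      exact E1
    have h2 : P * A = 0 := hub.mul_left_cancel (by rw [h1, Matrix.mul_zero])
    exact hA0 (hP.mul_left_cancel (by rw [h2, Matrix.mul_zero]))
  obtain ⟨lam, hlam⟩ := Module.End.exists_eigenvalue (Matrix.toLin' N)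
  obtain ⟨w₀, hw₀⟩ := hlam.exists_hasEigenvector
  have hw₀1 : N *ᵥ w₀ = lam • w₀ := by
    have := hw₀.apply_eq_smul
    rwa [Matrix.toLin'_apply] at this
  have hw₀2 : w₀ ≠ 0 := hw₀.2
  let Kr : Mat r ℂ → Submodule ℂ (Fin r → ℂ) := fun M => LinearMap.ker (Matrix.toLin' (M - lam • 1))
  let Rg : Mat r ℂ → Submodule ℂ (Fin r → ℂ) := fun M => LinearMap.range (Matrix.toLin' (M - lam • 1))
  have hKr : ∀ M w, w ∈ Kr M ↔ M *ᵥ w = lam • w := by
    intro M w
    simp only [Kr, LinearMap.mem_ker, Matrix.toLin'_apply, Matrix.sub_mulVec, Matrix.smul_mulVec,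
      Matrix.one_mulVec, sub_eq_zero]
  have hRg : ∀ M w, w ∈ Rg M ↔ ∃ v, M *ᵥ v - lam • v = w := by
    intro M w
    simp only [Rg, LinearMap.mem_range, Matrix.toLin'_apply, Matrix.sub_mulVec, Matrix.smul_mulVec,
      Matrix.one_mulVec]
  obtain ⟨ti, hti1, hti2⟩ : ∃ ti : Mat r ℂ, c t * ti = 1 ∧ ti * c t = 1 := by
    obtain ⟨q, hq⟩ := hut
    exact ⟨(q⁻¹ : (Mat r ℂ)ˣ), by rw [← hq]; simp, by rw [← hq]; simp⟩
  have E4' : N * ti = ti * B₂ := by
    calc N * ti = ti * (c t * N) * ti := by rw [← Matrix.mul_assoc, hti2, Matrix.one_mul]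
      _ = ti * B₂ := by rw [← E4, Matrix.mul_assoc, Matrix.mul_assoc, hti1, Matrix.mul_one]
  have hAv : ∀ v : Fin r → ℂ, A *ᵥ v = (y ⬝ᵥ v) • u := by
    intro v
    rw [hA, Matrix.vecMulVec_mulVec]
    ext i
    simp [mul_comm]
  by_cases hcase : ∀ w ∈ Kr N, y ⬝ᵥ w = 0
  · -- case 1: the kernel is invariant
    have hPK : ∀ w ∈ Kr N, P *ᵥ w ∈ Kr N := by
      intro w hw
      rw [hKr] at hw ⊢
      rw [Matrix.mulVec_mulVec, hNP.eq, ← Matrix.mulVec_mulVec, hw, Matrix.mulVec_smul]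
    have hK1 : Kr N ≤ Kr (N + P * A) := by
      intro w hw
      have h1 := hcase w hw
      rw [hKr] at hw ⊢
      rw [Matrix.add_mulVec, hw, ← Matrix.mulVec_mulVec, hAv, h1, zero_smul, Matrix.mulVec_zero,
        add_zero]
    have hK2 : Kr N ≤ Kr B₂ := by
      intro w hw
      have h1 := hcase _ (hPK w hw)
      rw [hKr] at hw ⊢
      rw [hB₂, Matrix.add_mulVec, hw, ← Matrix.mulVec_mulVec, hAv, h1, zero_smul, add_zero]
    have hK3 : Kr N = Kr B₂ := by
      refine Submodule.eq_of_le_of_finrank_le hK2 ?_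
      have hmap : ∀ w ∈ Kr B₂, ti *ᵥ w ∈ Kr N := by
        intro w hw
        rw [hKr] at hw ⊢
        rw [Matrix.mulVec_mulVec, E4', ← Matrix.mulVec_mulVec, hw, Matrix.mulVec_smul]
      refine LinearMap.finrank_le_finrank_of_injective
        (f := (Matrix.toLin' ti).restrict (p := Kr B₂) (q := Kr N) (fun w hw => by
          rw [Matrix.toLin'_apply]; exact hmap w hw)) ?_
      rintro ⟨w, hw⟩ ⟨w', hw'⟩ h
      have h1 : ti *ᵥ w = ti *ᵥ w' := congrArg Subtype.val h
      have h2 : c t *ᵥ (ti *ᵥ w) = c t *ᵥ (ti *ᵥ w') := by rw [h1]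
      rw [Matrix.mulVec_mulVec, Matrix.mulVec_mulVec, hti1, Matrix.one_mulVec,
        Matrix.one_mulVec] at h2
      exact Subtype.ext h2
    have hinv : ∀ j, ∀ w ∈ Kr N, c j *ᵥ w ∈ Kr N := by
      intro j w hw
      by_cases hjb : j = b
      · subst hjb
        have h1 := hK1 hw
        rw [hKr] at h1 ⊢
        rw [Matrix.mulVec_mulVec, E1, ← Matrix.mulVec_mulVec, h1, Matrix.mulVec_smul]
      by_cases hjt : j = t
      · subst hjt
        rw [hK3, hKr]
        rw [hKr] at hw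
        rw [Matrix.mulVec_mulVec, E4, ← Matrix.mulVec_mulVec, hw, Matrix.mulVec_smul]
      rcases hall j hjb hjt with h | h
      · rw [hKr] at hw ⊢
        rw [Matrix.mulVec_mulVec, h.eq, ← Matrix.mulVec_mulVec, hw, Matrix.mulVec_smul]
      · rw [hK3, hKr] at hw ⊢
        rw [Matrix.mulVec_mulVec, h.eq, ← Matrix.mulVec_mulVec, hw, Matrix.mulVec_smul]
    rcases hirr (Kr N) hinv with h | h
    · have h1 : w₀ ∈ Kr N := (hKr N w₀).2 hw₀1
      rw [h, Submodule.mem_bot] at h1
      exact hw₀2 h1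
    · apply hns lam
      refine Matrix.toLin'.injective (LinearMap.ext fun w => ?_)
      have h1 : w ∈ Kr N := h ▸ Submodule.mem_top
      rw [hKr] at h1
      rw [Matrix.toLin'_apply, Matrix.toLin'_apply, h1, Matrix.smul_mulVec, Matrix.one_mulVec]
  · -- case 2: the range is invariant
    push Not at hcase
    obtain ⟨w₁, hw₁, hw₁y⟩ := hcase
    rw [hKr] at hw₁
    have hPinv : ∃ w₂, P *ᵥ w₂ = w₁ ∧ N *ᵥ w₂ = lam • w₂ := by
      obtain ⟨q, hq⟩ := hP
      have hq1 : P * ((q⁻¹ : (Mat r ℂ)ˣ) : Mat r ℂ) = 1 := by rw [← hq]; simp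
      have hq2 : ((q⁻¹ : (Mat r ℂ)ˣ) : Mat r ℂ) * P = 1 := by rw [← hq]; simp
      refine ⟨((q⁻¹ : (Mat r ℂ)ˣ) : Mat r ℂ) *ᵥ w₁, ?_, ?_⟩
      · rw [Matrix.mulVec_mulVec, hq1, Matrix.one_mulVec]
      · have h1 : N * ((q⁻¹ : (Mat r ℂ)ˣ) : Mat r ℂ) = ((q⁻¹ : (Mat r ℂ)ˣ) : Mat r ℂ) * N := by
          calc N * ((q⁻¹ : (Mat r ℂ)ˣ) : Mat r ℂ)
              = ((q⁻¹ : (Mat r ℂ)ˣ) : Mat r ℂ) * (P * N) * ((q⁻¹ : (Mat r ℂ)ˣ) : Mat r ℂ) := by
                rw [← Matrix.mul_assoc, hq2, Matrix.one_mul]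
            _ = _ := by rw [← hNP.eq, Matrix.mul_assoc, Matrix.mul_assoc, hq1, Matrix.mul_one]
        rw [Matrix.mulVec_mulVec, h1, ← Matrix.mulVec_mulVec, hw₁, Matrix.mulVec_smul]
    obtain ⟨w₂, hw₂P, hw₂⟩ := hPinv
    have hu1 : P *ᵥ u ∈ Rg (N + P * A) := by
      rw [hRg]
      refine ⟨(y ⬝ᵥ w₁)⁻¹ • w₁, ?_⟩
      rw [Matrix.mulVec_smul, Matrix.add_mulVec, hw₁, ← Matrix.mulVec_mulVec, hAv,
        Matrix.mulVec_smul, smul_add, smul_smul (y ⬝ᵥ w₁)⁻¹ (y ⬝ᵥ w₁), inv_mul_cancel₀ hw₁y,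
        one_smul, smul_comm lam, add_sub_cancel_left]
    have hu2 : u ∈ Rg B₂ := by
      rw [hRg]
      refine ⟨(y ⬝ᵥ w₁)⁻¹ • w₂, ?_⟩
      rw [Matrix.mulVec_smul, hB₂, Matrix.add_mulVec, hw₂, ← Matrix.mulVec_mulVec, hw₂P, hAv,
        smul_add, smul_smul (y ⬝ᵥ w₁)⁻¹ (y ⬝ᵥ w₁), inv_mul_cancel₀ hw₁y, one_smul,
        smul_comm lam, add_sub_cancel_left]
    have hI1 : Rg N ≤ Rg (N + P * A) := by
      intro w hw
      obtain ⟨v, hv⟩ := (hRg _ _).1 hw
      have h1 : w = ((N + P * A) *ᵥ v - lam • v) - (y ⬝ᵥ v) • (P *ᵥ u) := by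
        rw [Matrix.add_mulVec, ← Matrix.mulVec_mulVec, hAv, Matrix.mulVec_smul, ← hv]
        abel
      rw [h1]
      exact Submodule.sub_mem _ ((hRg _ _).2 ⟨v, rfl⟩) (Submodule.smul_mem _ _ hu1)
    have hI2 : Rg N ≤ Rg B₂ := by
      intro w hw
      obtain ⟨v, hv⟩ := (hRg _ _).1 hw
      have h1 : w = (B₂ *ᵥ v - lam • v) - (y ⬝ᵥ (P *ᵥ v)) • u := by
        rw [hB₂, Matrix.add_mulVec, ← Matrix.mulVec_mulVec, hAv, ← hv]
        abel
      rw [h1]
      exact Submodule.sub_mem _ ((hRg _ _).2 ⟨v, rfl⟩) (Submodule.smul_mem _ _ hu2)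
    have hI3 : Rg N = Rg B₂ := by
      refine Submodule.eq_of_le_of_finrank_le hI2 ?_
      have h1 : Rg B₂ ≤ (Rg N).map (Matrix.toLin' (c t)) := by
        intro w hw
        obtain ⟨v, hv⟩ := (hRg _ _).1 hw
        refine ⟨N *ᵥ (ti *ᵥ v) - lam • (ti *ᵥ v), (hRg _ _).2 ⟨_, rfl⟩, ?_⟩
        have e1 : c t * N * ti = B₂ := by
          rw [Matrix.mul_assoc, E4', ← Matrix.mul_assoc, hti1, Matrix.one_mul]
        rw [Matrix.toLin'_apply, Matrix.mulVec_sub, Matrix.mulVec_smul, Matrix.mulVec_mulVec,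
          Matrix.mulVec_mulVec, Matrix.mulVec_mulVec, e1, hti1, Matrix.one_mulVec, hv]
      exact (Submodule.finrank_mono h1).trans (Submodule.finrank_map_le _ _)
    have hinv : ∀ j, ∀ w ∈ Rg N, c j *ᵥ w ∈ Rg N := by
      intro j w hw
      by_cases hjb : j = b
      · subst hjb
        obtain ⟨v, hv⟩ := (hRg _ _).1 (hI1 hw)
        refine (hRg _ _).2 ⟨c j *ᵥ v, ?_⟩
        rw [Matrix.mulVec_mulVec, E1, ← Matrix.mulVec_mulVec, ← Matrix.mulVec_smul,
          ← Matrix.mulVec_sub, hv]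
      by_cases hjt : j = t
      · subst hjt
        obtain ⟨v, hv⟩ := (hRg _ _).1 hw
        rw [hI3]
        refine (hRg _ _).2 ⟨c j *ᵥ v, ?_⟩
        rw [Matrix.mulVec_mulVec, E4, ← Matrix.mulVec_mulVec, ← Matrix.mulVec_smul,
          ← Matrix.mulVec_sub, hv]
      rcases hall j hjb hjt with h | h
      · obtain ⟨v, hv⟩ := (hRg _ _).1 hw
        refine (hRg _ _).2 ⟨c j *ᵥ v, ?_⟩
        rw [Matrix.mulVec_mulVec, h.eq, ← Matrix.mulVec_mulVec, ← Matrix.mulVec_smul,
          ← Matrix.mulVec_sub, hv]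
      · rw [hI3] at hw ⊢
        obtain ⟨v, hv⟩ := (hRg _ _).1 hw
        refine (hRg _ _).2 ⟨c j *ᵥ v, ?_⟩
        rw [Matrix.mulVec_mulVec, h.eq, ← Matrix.mulVec_mulVec, ← Matrix.mulVec_smul,
          ← Matrix.mulVec_sub, hv]
    rcases hirr (Rg N) hinv with h | h
    · apply hns lam
      refine Matrix.toLin'.injective (LinearMap.ext fun w => ?_)
      have h1 : N *ᵥ w - lam • w ∈ Rg N := (hRg _ _).2 ⟨w, rfl⟩
      rw [h, Submodule.mem_bot, sub_eq_zero] at h1
      rw [Matrix.toLin'_apply, Matrix.toLin'_apply, h1, Matrix.smul_mulVec, Matrix.one_mulVec]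
    · have h1 : Function.Surjective (Matrix.toLin' (N - lam • 1)) := LinearMap.range_eq_top.1 h
      have h2 := LinearMap.injective_iff_surjective.2 h1
      apply hw₀2
      apply h2
      rw [map_zero, Matrix.toLin'_apply, Matrix.sub_mulVec, Matrix.smul_mulVec, Matrix.one_mulVec,
        hw₀1, sub_self]


theorem tr_comm (N X Y a H : Mat r ℂ) :
    trace (N * (X * (H * a - a * H) * Y)) = trace ((a * (Y * N * X) - (Y * N * X) * a) * H) := by
  have e1 : trace (N * (X * (H * a) * Y)) = trace (a * (Y * N * X) * H) := by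
    rw [show N * (X * (H * a) * Y) = (N * X * H) * (a * Y) by noncomm_ring,
      Matrix.trace_mul_comm]
    congr 1
    noncomm_ring
  have e2 : trace (N * (X * (a * H) * Y)) = trace ((Y * N * X) * a * H) := by
    rw [show N * (X * (a * H) * Y) = (N * X * a * H) * Y by noncomm_ring,
      Matrix.trace_mul_comm]
    congr 1
    noncomm_ring
  rw [Matrix.mul_sub, Matrix.sub_mul, Matrix.mul_sub, trace_sub, e1, e2, Matrix.sub_mul, trace_sub]

/-- a linear functional vanishing on the kernel of `D` factors through `D` -/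
theorem exists_factor {E : Type*} [AddCommGroup E] [Module ℂ E] (D : E →ₗ[ℂ] Mat r ℂ)
    (F : E →ₗ[ℂ] ℂ) (h : ∀ x, D x = 0 → F x = 0) :
    ∃ N : Mat r ℂ, ∀ x, F x = trace (N * D x) := by
  have h1 : F ∈ LinearMap.range D.dualMap := by
    rw [LinearMap.range_dualMap_eq_dualAnnihilator_ker, Submodule.mem_dualAnnihilator]
    intro x hx
    exact h x hx
  obtain ⟨φ, hφ⟩ := h1
  obtain ⟨N, hN⟩ := Vale.Agent.P002.exists_trace_repr φ
  refine ⟨N, fun x => ?_⟩
  rw [← hφ, ← hN]
  rfl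

/-- cyclic permutations of a product equal to one -/
theorem cyc_one {X a Y : Mat r ℂ} (h : X * a * Y = 1) : a * (Y * X) = 1 ∧ (Y * X) * a = 1 := by
  have h1 : X * (a * Y) = 1 := by rw [← Matrix.mul_assoc]; exact h
  have h2 : (a * Y) * X = 1 := mul_eq_one_comm.1 h1
  have h3 : a * (Y * X) = 1 := by rw [← Matrix.mul_assoc]; exact h2
  exact ⟨h3, mul_eq_one_comm.1 h3⟩

theorem comm_of_inv {a V B : Mat r ℂ} (h1 : a * V = 1)
    (h : a * (V * B) - (V * B) * a = 0) : Commute B a := by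
  have h3 : B = V * B * a := by
    rw [← Matrix.mul_assoc, h1, Matrix.one_mul, sub_eq_zero] at h
    exact h
  show B * a = a * B
  calc B * a = (a * V) * B * a := by rw [h1, Matrix.one_mul]
    _ = a * (V * B * a) := by noncomm_ring
    _ = a * B := by rw [← h3]

section main

variable [DecidableEq ι]

/-- The rank one lemma. -/
theorem rank_one (c : ι → Mat r ℂ) (hc : ∀ j, IsUnit (c j)) (b t : ι) (l₁ l₂ l₃ : List ι)
    (hnd : (b :: (l₁ ++ (l₂ ++ t :: l₃))).Nodup)
    (hrel : ((b :: (l₁ ++ (l₂ ++ t :: l₃))).map c).prod = 1)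
    (hmem : ∀ j, j ∈ b :: (l₁ ++ (l₂ ++ t :: l₃)))
    (hirr : ∀ W : Submodule ℂ (Fin r → ℂ), (∀ j, ∀ w ∈ W, c j *ᵥ w ∈ W) → W = ⊥ ∨ W = ⊤)
    (u y : Fin r → ℂ) (hu0 : u ≠ 0) (hy0 : y ≠ 0) :
    ∃ x : ι → Mat r ℂ, DL c x (b :: (l₁ ++ (l₂ ++ t :: l₃))) = 0 ∧
      y ⬝ᵥ ((DL c x l₁ + (l₁.map c).prod * x t - x b * (l₁.map c).prod) *ᵥ u) ≠ 0 := by
  by_contra hcon
  push Not at hcon
  obtain ⟨P, hPdef⟩ : ∃ P, P = (l₁.map c).prod := ⟨_, rfl⟩
  obtain ⟨P₂, hP₂def⟩ : ∃ P₂, P₂ = (l₂.map c).prod := ⟨_, rfl⟩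
  obtain ⟨P₃, hP₃def⟩ : ∃ P₃, P₃ = (l₃.map c).prod := ⟨_, rfl⟩
  obtain ⟨A, hA⟩ : ∃ A, A = vecMulVec u y := ⟨_, rfl⟩
  have hprodunit : ∀ l : List ι, IsUnit (l.map c).prod := by
    intro l
    induction l with
    | nil => simp
    | cons j l ih => rw [List.map_cons, List.prod_cons]; exact (hc j).mul ih
  rw [← hPdef] at hcon
  -- the functional
  obtain ⟨F, hF⟩ : ∃ F : (ι → Mat r ℂ) →ₗ[ℂ] ℂ, ∀ x, F x =
      trace (A * (DL c x l₁ + P * x t - x b * P)) := by
    refine ⟨LinearMap.mk (AddHom.mk (fun x => trace (A * (DL c x l₁ + P * x t - x b * P)))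
      ?_) ?_, fun x => rfl⟩
    · intro x x'
      rw [DL_add, ← trace_add, Pi.add_apply, Pi.add_apply]
      congr 1
      noncomm_ring
    · intro a x
      show trace (A * (DL c (a • x) l₁ + P * (a • x) t - (a • x) b * P)) =
        a • trace (A * (DL c x l₁ + P * x t - x b * P))
      rw [DL_smul, Pi.smul_apply, Pi.smul_apply, ← trace_smul]
      congr 1
      simp only [Matrix.smul_mul, Matrix.mul_smul, smul_sub, smul_add, Matrix.mul_sub,
        Matrix.mul_add]
  obtain ⟨N, hN⟩ := exists_factor (DLlin c (b :: (l₁ ++ (l₂ ++ t :: l₃)))) F (by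
    intro x hx
    rw [hF, hA, trace_vecMulVec_mul]
    exact hcon x hx)
  have hN' : ∀ x, trace (A * (DL c x l₁ + P * x t - x b * P)) =
      trace (N * DL c x (b :: (l₁ ++ (l₂ ++ t :: l₃)))) := fun x => by rw [← hF, hN]; rfl
  -- variation of one generator
  have hvar : ∀ (j : ι) (l' l'' : List ι), b :: (l₁ ++ (l₂ ++ t :: l₃)) = l' ++ j :: l'' →
      ∀ H : Mat r ℂ, trace (A * (DL c (Function.update 0 j H) l₁ +
        P * (Function.update (0 : ι → Mat r ℂ) j H) t -
        (Function.update (0 : ι → Mat r ℂ) j H) b * P)) =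
      trace ((c j * ((l''.map c).prod * N * (l'.map c).prod) -
        ((l''.map c).prod * N * (l'.map c).prod) * c j) * H) := by
    intro j l' l'' hl H
    rw [hN', hl, ← tr_comm]
    have hnd' : (l' ++ j :: l'').Nodup := hl ▸ hnd
    rw [List.nodup_append, List.nodup_cons] at hnd'
    rw [DL_split c _ l' l'' j (fun k hk => ?_) (fun k hk => ?_), Function.update_self]
    · rw [Function.update_of_ne, Pi.zero_apply]
      exact hnd'.2.2 k hk j List.mem_cons_self
    · rw [Function.update_of_ne, Pi.zero_apply]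
      rintro rfl
      exact hnd'.2.1.1 hk
  have hvar0 : ∀ (j : ι) (l : List ι), j ∉ l → ∀ H : Mat r ℂ,
      DL c (Function.update 0 j H) l = 0 := by
    intro j l hj H
    refine DL_zero_of c _ l fun k hk => ?_
    rw [Function.update_of_ne, Pi.zero_apply]
    rintro rfl
    exact hj hk
  have hnd2 := hnd
  rw [List.nodup_cons, List.nodup_append, List.nodup_append, List.nodup_cons] at hnd2
  obtain ⟨hb, hn1, ⟨hn2, ⟨ht3, hn3⟩, hn23⟩, hn123⟩ := hnd2
  have hb1 : b ∉ l₁ := fun h => hb (List.mem_append_left _ h)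
  have hbt : b ≠ t := fun h => hb (List.mem_append_right _ (List.mem_append_right _
    (h ▸ List.mem_cons_self)))
  have ht1 : t ∉ l₁ := fun h => hn123 t h t (List.mem_append_right _ List.mem_cons_self) rfl
  -- the first equation
  have hrel' : c b * (P * (P₂ * (c t * P₃))) = 1 := by
    rw [← hrel, hPdef, hP₂def, hP₃def]
    simp only [List.map_cons, List.map_append, List.prod_cons, List.prod_append]
  have E1 : N * c b = c b * (N + P * A) := by
    have h1 : ∀ H, trace (-(P * A) * H) = trace ((c b * ((P * (P₂ * (c t * P₃))) * N) -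
        ((P * (P₂ * (c t * P₃))) * N) * c b) * H) := by
      intro H
      have h2 := hvar b [] (l₁ ++ (l₂ ++ t :: l₃)) rfl H
      rw [hvar0 b l₁ hb1, Function.update_of_ne (Ne.symm hbt), Pi.zero_apply,
        Function.update_self] at h2
      simp only [List.map_nil, List.prod_nil, Matrix.mul_one, List.map_append, List.map_cons,
        List.prod_append, List.prod_cons, Matrix.mul_zero, zero_add, zero_sub, ← hPdef,
        ← hP₂def, ← hP₃def] at h2
      rw [← h2, Matrix.neg_mul, trace_neg, Matrix.mul_neg, trace_neg,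
        show A * (H * P) = (A * H) * P by noncomm_ring, Matrix.trace_mul_comm (A * H) P,
        Matrix.mul_assoc]
    have h2 := Vale.Agent.P002.eq_of_trace_eq h1
    rw [← Matrix.mul_assoc (c b) _ N, hrel', Matrix.one_mul] at h2
    have h3 : c b * (N - (P * (P₂ * (c t * P₃))) * N * c b) = c b * (-(P * A)) := by rw [h2]
    rw [Matrix.mul_sub, show c b * ((P * (P₂ * (c t * P₃))) * N * c b) =
      (c b * (P * (P₂ * (c t * P₃)))) * (N * c b) by noncomm_ring, hrel', Matrix.one_mul] at h3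
    rw [Matrix.mul_add]
    have h4 : c b * N - c b * (-(P * A)) = N * c b := by rw [← h3]; abel
    rw [← h4]
    noncomm_ring
  -- the commutation in the first part
  have hc1 := pre_ind c N l₁ (by
    intro l' j l'' hl hcom
    have hjl : j ∈ l₁ := by rw [hl]; simp
    have hjb : b ≠ j := fun h => hb1 (h ▸ hjl)
    have hjt : t ≠ j := fun h => ht1 (h ▸ hjl)
    obtain ⟨X, hX⟩ : ∃ X, X = (l'.map c).prod := ⟨_, rfl⟩
    obtain ⟨Z, hZ⟩ : ∃ Z, Z = (l''.map c).prod := ⟨_, rfl⟩
    have hPX : P = X * (c j * Z) := by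
      rw [hPdef, hl, hX, hZ]
      simp only [List.map_append, List.map_cons, List.prod_append, List.prod_cons]
    rw [← hX] at hcom
    have h1 : ∀ H, trace ((c j * (Z * A * X) - (Z * A * X) * c j) * H) =
        trace ((c j * ((Z * (P₂ * (c t * P₃))) * N * (c b * X)) -
          ((Z * (P₂ * (c t * P₃))) * N * (c b * X)) * c j) * H) := by
      intro H
      have h2 := hvar j (b :: l') (l'' ++ (l₂ ++ t :: l₃)) (by rw [hl]; simp) H
      rw [Function.update_of_ne hjb, Function.update_of_ne hjt, Pi.zero_apply, Pi.zero_apply,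
        Matrix.mul_zero, Matrix.zero_mul, add_zero, sub_zero] at h2
      simp only [List.map_append, List.map_cons, List.prod_append, List.prod_cons,
        ← hP₂def, ← hP₃def, ← hX, ← hZ] at h2
      rw [← h2, ← tr_comm, hl]
      have hn1' : (l' ++ j :: l'').Nodup := hl ▸ hn1
      rw [List.nodup_append, List.nodup_cons] at hn1'
      rw [DL_split c _ l' l'' j (fun k hk => ?_) (fun k hk => ?_), Function.update_self, hX, hZ]
      · rw [Function.update_of_ne, Pi.zero_apply]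
        exact hn1'.2.2 k hk j List.mem_cons_self
      · rw [Function.update_of_ne, Pi.zero_apply]
        rintro rfl
        exact hn1'.2.1.1 hk
    have h2 := Vale.Agent.P002.eq_of_trace_eq h1
    obtain ⟨Q, hQ⟩ : ∃ Q, Q = Z * (P₂ * (c t * P₃)) := ⟨_, rfl⟩
    rw [← hQ] at h2
    have hcyc := cyc_one (X := c b * X) (a := c j) (Y := Q) (by
      rw [← hrel', hPX, hQ]; noncomm_ring)
    have h3 : Q * N * (c b * X) = (Q * (c b * X)) * N + Z * A * X := by
      calc Q * N * (c b * X) = Q * (N * c b) * X := by noncomm_ring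
        _ = Q * c b * (N * X) + (Q * (c b * X) * c j) * (Z * A * X) := by
          rw [E1, hPX]; noncomm_ring
        _ = _ := by rw [hcyc.2, hcom.eq, Matrix.one_mul]; noncomm_ring
    refine comm_of_inv hcyc.1 ?_
    rw [h3] at h2
    have h4 : c j * (Q * (c b * X) * N + Z * A * X) - (Q * (c b * X) * N + Z * A * X) * c j -
        (c j * (Z * A * X) - Z * A * X * c j) = 0 := by rw [← h2, sub_self]
    rw [← h4]
    noncomm_ring)
  obtain ⟨hNP, hNl₁⟩ := hc1
  rw [← hPdef] at hNP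
  obtain ⟨B₂, hB₂⟩ : ∃ B₂, B₂ = N + A * P := ⟨_, rfl⟩
  have E2 : N * (c b * P) = c b * P * B₂ := by
    calc N * (c b * P) = (N * c b) * P := by rw [Matrix.mul_assoc]
      _ = c b * (N * P + P * (A * P)) := by rw [E1]; noncomm_ring
      _ = c b * P * B₂ := by rw [hNP.eq, hB₂]; noncomm_ring
  -- the second part
  have hc2 := pre_ind c B₂ l₂ (by
    intro l' j l'' hl hcom
    have hjl : j ∈ l₂ := by rw [hl]; simp
    have hjb : b ≠ j := fun h => hb (List.mem_append_right _ (List.mem_append_left _ (h ▸ hjl)))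
    have hjt : t ≠ j := fun h => hn23 j hjl t List.mem_cons_self h.symm
    have hj1 : j ∉ l₁ := fun h => hn123 j h j (List.mem_append_left _ hjl) rfl
    obtain ⟨X, hX⟩ : ∃ X, X = (l'.map c).prod := ⟨_, rfl⟩
    obtain ⟨Z, hZ⟩ : ∃ Z, Z = (l''.map c).prod := ⟨_, rfl⟩
    have hPX : P₂ = X * (c j * Z) := by
      rw [hP₂def, hl, hX, hZ]
      simp only [List.map_append, List.map_cons, List.prod_append, List.prod_cons]
    rw [← hX] at hcom
    obtain ⟨Q, hQ⟩ : ∃ Q, Q = Z * (c t * P₃) := ⟨_, rfl⟩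
    have h1 : ∀ H, trace ((0 : Mat r ℂ) * H) =
        trace ((c j * (Q * N * (c b * (P * X))) - (Q * N * (c b * (P * X))) * c j) * H) := by
      intro H
      have h2 := hvar j (b :: (l₁ ++ l')) (l'' ++ t :: l₃) (by rw [hl]; simp) H
      rw [Function.update_of_ne hjb, Function.update_of_ne hjt, Pi.zero_apply, Pi.zero_apply,
        Matrix.mul_zero, Matrix.zero_mul, add_zero, sub_zero, hvar0 j l₁ hj1,
        Matrix.mul_zero] at h2
      simp only [List.map_append, List.map_cons, List.prod_append, List.prod_cons,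
        ← hPdef, ← hP₃def, ← hX, ← hZ, ← hQ] at h2
      rw [← h2, Matrix.zero_mul]
    have h2 := Vale.Agent.P002.eq_of_trace_eq h1
    have hcyc := cyc_one (X := c b * (P * X)) (a := c j) (Y := Q) (by
      rw [← hrel', hPX, hQ]; noncomm_ring)
    have h3 : Q * N * (c b * (P * X)) = (Q * (c b * (P * X))) * B₂ := by
      calc Q * N * (c b * (P * X)) = Q * (N * (c b * P)) * X := by noncomm_ring
        _ = Q * c b * P * (B₂ * X) := by rw [E2]; noncomm_ring
        _ = _ := by rw [hcom.eq]; noncomm_ring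
    refine comm_of_inv hcyc.1 ?_
    rw [← h3, ← h2])
  obtain ⟨hBP₂, hBl₂⟩ := hc2
  rw [← hP₂def] at hBP₂
  -- the equation at `t`
  have E3 : N * (c b * (P * P₂)) = c b * (P * P₂) * B₂ := by
    calc N * (c b * (P * P₂)) = (N * (c b * P)) * P₂ := by noncomm_ring
      _ = c b * P * (B₂ * P₂) := by rw [E2]; noncomm_ring
      _ = _ := by rw [hBP₂.eq]; noncomm_ring
  have hcyct := cyc_one (X := c b * (P * P₂)) (a := c t) (Y := P₃) (by
      rw [← hrel']; noncomm_ring)
  have E4 : B₂ * c t = c t * N := by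
    have h1 : ∀ H, trace ((A * P) * H) =
        trace ((c t * (P₃ * N * (c b * (P * P₂))) - (P₃ * N * (c b * (P * P₂))) * c t) * H) := by
      intro H
      have h2 := hvar t (b :: (l₁ ++ l₂)) l₃ (by simp) H
      rw [Function.update_self, Function.update_of_ne hbt, Pi.zero_apply,
        Matrix.zero_mul, sub_zero, hvar0 t l₁ ht1, zero_add] at h2
      simp only [List.map_append, List.map_cons, List.prod_append, List.prod_cons,
        ← hPdef, ← hP₃def, ← hP₂def] at h2
      rw [← h2, Matrix.mul_assoc]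
    have h2 := Vale.Agent.P002.eq_of_trace_eq h1
    have h3 : P₃ * N * (c b * (P * P₂)) = P₃ * (c b * (P * P₂)) * B₂ := by
      rw [Matrix.mul_assoc, E3]
      simp only [Matrix.mul_assoc]
    rw [h3] at h2
    -- `A P = B₂ - V B₂ c_t`
    have h4 : c t * (P₃ * (c b * (P * P₂)) * B₂) = B₂ := by
      rw [← Matrix.mul_assoc, hcyct.1, Matrix.one_mul]
    rw [h4] at h2
    have h5 : N = P₃ * (c b * (P * P₂)) * B₂ * c t := by
      have : N = B₂ - A * P := by rw [hB₂]; abel
      rw [this, h2]; abel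
    rw [h5, show c t * (P₃ * (c b * (P * P₂)) * B₂ * c t) =
      (c t * (P₃ * (c b * (P * P₂)))) * (B₂ * c t) by noncomm_ring, hcyct.1, Matrix.one_mul]
  have E5 : N * (c b * (P * (P₂ * c t))) = c b * (P * (P₂ * c t)) * N := by
    calc N * (c b * (P * (P₂ * c t))) = (N * (c b * (P * P₂))) * c t := by noncomm_ring
      _ = c b * (P * P₂) * (B₂ * c t) := by rw [E3]; noncomm_ring
      _ = _ := by rw [E4]; noncomm_ring
  -- the third part
  have hc3 := pre_ind c N l₃ (by
    intro l' j l'' hl hcom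
    have hjl : j ∈ l₃ := by rw [hl]; simp
    have hjb : b ≠ j := fun h => hb (List.mem_append_right _ (List.mem_append_right _
      (List.mem_cons_of_mem _ (h ▸ hjl))))
    have hjt : t ≠ j := fun h => ht3 (h ▸ hjl)
    have hj1 : j ∉ l₁ := fun h => hn123 j h j (List.mem_append_right _
      (List.mem_cons_of_mem _ hjl)) rfl
    obtain ⟨X, hX⟩ : ∃ X, X = (l'.map c).prod := ⟨_, rfl⟩
    obtain ⟨Z, hZ⟩ : ∃ Z, Z = (l''.map c).prod := ⟨_, rfl⟩
    have hPX : P₃ = X * (c j * Z) := by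
      rw [hP₃def, hl, hX, hZ]
      simp only [List.map_append, List.map_cons, List.prod_append, List.prod_cons]
    rw [← hX] at hcom
    have h1 : ∀ H, trace ((0 : Mat r ℂ) * H) =
        trace ((c j * (Z * N * (c b * (P * (P₂ * (c t * X))))) -
          (Z * N * (c b * (P * (P₂ * (c t * X))))) * c j) * H) := by
      intro H
      have h2 := hvar j (b :: (l₁ ++ (l₂ ++ t :: l'))) l'' (by rw [hl]; simp) H
      rw [Function.update_of_ne hjb, Function.update_of_ne hjt, Pi.zero_apply, Pi.zero_apply,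
        Matrix.mul_zero, Matrix.zero_mul, add_zero, sub_zero, hvar0 j l₁ hj1,
        Matrix.mul_zero] at h2
      simp only [List.map_append, List.map_cons, List.prod_append, List.prod_cons,
        ← hPdef, ← hP₂def, ← hX, ← hZ] at h2
      rw [← h2, Matrix.zero_mul]
    have h2 := Vale.Agent.P002.eq_of_trace_eq h1
    have hcyc := cyc_one (X := c b * (P * (P₂ * (c t * X)))) (a := c j) (Y := Z) (by
      rw [← hrel', hPX]; noncomm_ring)
    have h3 : Z * N * (c b * (P * (P₂ * (c t * X)))) =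
        (Z * (c b * (P * (P₂ * (c t * X))))) * N := by
      calc Z * N * (c b * (P * (P₂ * (c t * X))))
          = Z * (N * (c b * (P * (P₂ * c t)))) * X := by noncomm_ring
        _ = Z * (c b * (P * (P₂ * c t))) * (N * X) := by rw [E5]; noncomm_ring
        _ = _ := by rw [hcom.eq]; noncomm_ring
    refine comm_of_inv hcyc.1 ?_
    rw [← h3, ← h2])
  refine rank_one_end c b t N B₂ P A u y hA hu0 hy0 (hc b) (hc t) (hPdef ▸ hprodunit l₁) hNP hB₂ E1
    E4 ?_ hirr
  intro j hjb hjt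
  have hj := hmem j
  rw [List.mem_cons, List.mem_append, List.mem_append, List.mem_cons] at hj
  rcases hj with h | h | h | h | h
  · exact absurd h hjb
  · exact Or.inl (hNl₁ j h)
  · exact Or.inr (hBl₂ j h)
  · exact absurd h hjt
  · exact Or.inl (hc3.2 j h)

end main

end Vale.Agent.P002R
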