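import Vale.Agent.P002R.ZTuple
import Vale.Agent.P002R.RReducibleG
import Vale.Agent.P002G.Cell
import Vale.Agent.P002G.Poly

/-!
# P002, genus 0: regular classes, integrality
-/

namespace Vale.Agent.P002R

open Matrix

variable {r : ℕ}

/-- Invertible matrices with cyclic vectors and the same characteristic polynomial are conjugate. -/
theorem isConj_of_cyc (A B : (Mat r ℂ)ˣ) (hc : (A : Mat r ℂ).charpoly = (B : Mat r ℂ).charpoly)
    {v w : Fin r → ℂ} (hv : P002G.Cyc (A : Mat r ℂ) v) (hw : P002G.Cyc (B : Mat r ℂ) w) :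
    IsConj A B := by
  rw [P002G.cyc_iff] at hv hw
  obtain ⟨kA, hkA⟩ := hv
  obtain ⟨kB, hkB⟩ := hw
  have h1 : ((kB * kA⁻¹ : (Mat r ℂ)ˣ) : Mat r ℂ) * P002.kry (A : Mat r ℂ) v =
      P002.kry (B : Mat r ℂ) w := by
    rw [← hkA, ← hkB, ← Units.val_mul, mul_assoc, inv_mul_cancel, mul_one]
  have h2 := P002.krylov_comm (A : Mat r ℂ) (B : Mat r ℂ) v w hc _ h1 (by rw [← hkA]; exact kA.isUnit)
  rw [isConj_iff]
  refine ⟨kB * kA⁻¹, ?_⟩
  rw [mul_inv_eq_iff_eq_mul]
  apply Units.ext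
  rw [Units.val_mul, Units.val_mul]
  exact h2

/-- Cyclic vectors under conjugation. -/
theorem cyc_of_isConj {A B : (Mat r ℂ)ˣ} (h : IsConj A B) {v : Fin r → ℂ}
    (hv : P002G.Cyc (A : Mat r ℂ) v) : ∃ w, P002G.Cyc (B : Mat r ℂ) w := by
  obtain ⟨P, rfl⟩ := isConj_iff.1 h
  refine ⟨(P : Mat r ℂ) *ᵥ v, ?_⟩
  rw [Units.val_mul, Units.val_mul]
  exact P002G.cyc_conj P hv

theorem charpoly_of_isConj {A B : (Mat r ℂ)ˣ} (h : IsConj A B) :
    (B : Mat r ℂ).charpoly = (A : Mat r ℂ).charpoly := by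
  obtain ⟨P, rfl⟩ := isConj_iff.1 h
  rw [Units.val_mul, Units.val_mul, Matrix.coe_units_inv, Matrix.charpoly_units_conj]

section ring

variable {R : Type*} [CommRing R] {E : Subgroup ℂˣ}

theorem mem_GR_of_det (φ : R →+* ℂ) (hc : CoefOK φ E r) (hr : 0 < r) (U : (Mat r ℂ)ˣ) (A : Mat r R)
    (hU : (U : Mat r ℂ) = A.map φ) (hdet : ∃ e ∈ E, (e : ℂ) = (U : Mat r ℂ).det) :
    U ∈ GR r φ := by
  obtain ⟨c, hc'⟩ := exists_rootE φ hc.weak hr A.det (by
    obtain ⟨e, he, he'⟩ := hdet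
    refine ⟨e, he, ?_⟩
    rw [he', hU, RingHom.map_det]
    rfl)
  exact mem_GR_of φ U A hU c hc'

/-- Elements of `E` are units of the ring. -/
theorem exists_unit_of_mem (φ : R →+* ℂ) (hc : CoefOK φ E r) (hr : 0 < r) (z : ℂ)
    (hz : ∃ e ∈ E, (e : ℂ) = z) : ∃ u : Rˣ, φ (u : R) = z := by
  obtain ⟨e, he, rfl⟩ := hz
  obtain ⟨a, ha⟩ := hc.root 1 one_pos hr e (by rw [pow_one]; exact he)
  obtain ⟨b, hb⟩ := hc.root 1 one_pos hr e⁻¹ (by rw [pow_one]; exact E.inv_mem he)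
  have h1 : a * b = 1 := by
    apply hc.inj
    rw [map_mul, ha, hb, map_one, ← Units.val_mul, mul_inv_cancel, Units.val_one]
  exact ⟨⟨a, b, h1, by rw [mul_comm]; exact h1⟩, ha⟩

/-- Characteristic polynomials with roots in `E` have coefficients in the ring. -/
theorem exists_charpoly_lift (φ : R →+* ℂ) (hc : CoefOK φ E r) (hr : 0 < r) (M : Mat r ℂ)
    (hM : EigIn E M) : ∃ χ : Polynomial R, χ.Monic ∧ χ.natDegree = r ∧ χ.map φ = M.charpoly := by
  have key : ∀ s : Multiset ℂ, (∀ z ∈ s, ∃ e ∈ E, (e : ℂ) = z) → ∃ χ : Polynomial R, χ.Monic ∧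
      χ.map φ = (s.map fun z => Polynomial.X - Polynomial.C z).prod := by
    intro s
    induction s using Multiset.induction_on with
    | empty => exact fun _ => ⟨1, Polynomial.monic_one, by simp⟩
    | cons a s ih =>
      intro hs
      obtain ⟨χ, h1, h2⟩ := ih fun z hz => hs z (Multiset.mem_cons_of_mem hz)
      obtain ⟨u, hu⟩ := exists_unit_of_mem φ hc hr a (hs a (Multiset.mem_cons_self a s))
      refine ⟨(Polynomial.X - Polynomial.C (u : R)) * χ, (Polynomial.monic_X_sub_C _).mul h1, ?_⟩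
      rw [Polynomial.map_mul, h2, Multiset.map_cons, Multiset.prod_cons, Polynomial.map_sub,
        Polynomial.map_X, Polynomial.map_C, hu]
  obtain ⟨χ, h1, h2⟩ := key M.charpoly.roots fun z hz => hM z (Polynomial.isRoot_of_mem_roots hz)
  have h3 : (M.charpoly.roots.map fun z => Polynomial.X - Polynomial.C z).prod = M.charpoly :=
    ((IsAlgClosed.splits M.charpoly).eq_prod_roots_of_monic M.charpoly_monic).symm
  rw [h3] at h2
  refine ⟨χ, h1, ?_, h2⟩
  rw [← Polynomial.natDegree_map_eq_of_injective hc.inj, h2, Matrix.charpoly_natDegree_eq_dim,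
    Fintype.card_fin]

end ring

end Vale.Agent.P002R
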