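import Vale.Agent.P002R.ZCell

/-!
# P002, genus 0: tuples with product one from elements of the cell
-/

namespace Vale.Agent.P002R

open Matrix

variable {r : ℕ} {S T : Type*} [CommRing S] [CommRing T]

/-- Products of the upper unitriangular factors. -/
def Uc (Y : ℕ → Mat r S) : ℕ → Mat r S
  | 0 => 1
  | k + 1 => Uc Y k * uU (Y k)

/-- Products of the lower triangular factors. -/
def Lc (Y : ℕ → Mat r S) : ℕ → Mat r S
  | 0 => 1
  | k + 1 => lL (Y k) * Lc Y k

theorem Uc_zero (Y : ℕ → Mat r S) : Uc Y 0 = 1 := rfl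

theorem Uc_succ (Y : ℕ → Mat r S) (k : ℕ) : Uc Y (k + 1) = Uc Y k * uU (Y k) := rfl

theorem Lc_zero (Y : ℕ → Mat r S) : Lc Y 0 = 1 := rfl

theorem Lc_succ (Y : ℕ → Mat r S) (k : ℕ) : Lc Y (k + 1) = lL (Y k) * Lc Y k := rfl

/-- The tuple `c_0, ..., c_{m+1}` attached to elements `Y 0, ..., Y (m-1)` of the cell; `κ k` is the
inverse of `det (Lc Y k)` and `t'` is the inverse of `t`. -/
def ctup (m : ℕ) (t t' : Fin r → S) (κ : ℕ → S) (Y : ℕ → Mat r S) (j : ℕ) : Mat r S :=
  if j = 0 then diagonal t' * (Uc Y m).adjugate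
  else if j ≤ m then κ (j - 1) • ((Lc Y (j - 1)).adjugate * zZ (Y (j - 1)) * Lc Y (j - 1))
  else κ m • ((Lc Y m).adjugate * diagonal t)

theorem ctup_zero (m : ℕ) (t t' : Fin r → S) (κ : ℕ → S) (Y : ℕ → Mat r S) :
    ctup m t t' κ Y 0 = diagonal t' * (Uc Y m).adjugate := by
  rw [ctup, if_pos rfl]

theorem ctup_mid (m : ℕ) (t t' : Fin r → S) (κ : ℕ → S) (Y : ℕ → Mat r S) (k : ℕ) (hk : k < m) :
    ctup m t t' κ Y (k + 1) = κ k • ((Lc Y k).adjugate * zZ (Y k) * Lc Y k) := by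
  rw [ctup, if_neg (Nat.succ_ne_zero k), if_pos (show k + 1 ≤ m from hk), Nat.add_sub_cancel]

theorem ctup_last (m : ℕ) (t t' : Fin r → S) (κ : ℕ → S) (Y : ℕ → Mat r S) :
    ctup m t t' κ Y (m + 1) = κ m • ((Lc Y m).adjugate * diagonal t) := by
  rw [ctup, if_neg (Nat.succ_ne_zero m), if_neg (by omega)]

theorem upT_Uc (Y : ℕ → Mat r S) (k : ℕ) : UpT (Uc Y k) := by
  induction k with
  | zero => exact upT_one
  | succ k ih => rw [Uc_succ]; exact ih.mul (upT_uU _)

theorem loT_Lc (Y : ℕ → Mat r S) (k : ℕ) : LoT (Lc Y k) := by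
  induction k with
  | zero => exact loT_one
  | succ k ih => rw [Lc_succ]; exact (loT_lL _).mul ih

theorem Uc_diag (Y : ℕ → Mat r S) (k : ℕ) (i : Fin r) : Uc Y k i i = 1 := by
  induction k with
  | zero => exact Matrix.one_apply_eq i
  | succ k ih => rw [Uc_succ, (upT_Uc Y k).mul_diag (upT_uU _), ih, uU_diag, one_mul]

theorem Lc_diag (Y : ℕ → Mat r S) (k : ℕ) (i : Fin r) :
    Lc Y k i i = ∏ l ∈ Finset.range k, Y l i i := by
  induction k with
  | zero => rw [Finset.range_zero, Finset.prod_empty]; exact Matrix.one_apply_eq i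
  | succ k ih =>
    rw [Lc_succ, (loT_lL _).mul_diag (loT_Lc Y k), ih, lL_diag, Finset.prod_range_succ, mul_comm]

theorem det_Uc (Y : ℕ → Mat r S) (k : ℕ) : (Uc Y k).det = 1 := by
  rw [(upT_Uc Y k).det]
  exact Finset.prod_eq_one fun i _ => Uc_diag Y k i

theorem det_Lc (Y : ℕ → Mat r S) (k : ℕ) :
    (Lc Y k).det = ∏ i, ∏ l ∈ Finset.range k, Y l i i := by
  rw [(loT_Lc Y k).det]
  exact Finset.prod_congr rfl fun i _ => Lc_diag Y k i

theorem Uc_map (φ : S →+* T) (Y : ℕ → Mat r S) (k : ℕ) :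
    (Uc Y k).map φ = Uc (fun l => (Y l).map φ) k := by
  induction k with
  | zero => exact Matrix.map_one φ (map_zero φ) (map_one φ)
  | succ k ih => rw [Uc_succ, Uc_succ, Matrix.map_mul, ih, uU_map]

theorem Lc_map (φ : S →+* T) (Y : ℕ → Mat r S) (k : ℕ) :
    (Lc Y k).map φ = Lc (fun l => (Y l).map φ) k := by
  induction k with
  | zero => exact Matrix.map_one φ (map_zero φ) (map_one φ)
  | succ k ih => rw [Lc_succ, Lc_succ, Matrix.map_mul, ih, lL_map]

theorem adjugate_map (φ : S →+* T) (A : Mat r S) : A.adjugate.map φ = (A.map φ).adjugate :=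
  RingHom.map_adjugate φ A

theorem smul_map (φ : S →+* T) (a : S) (A : Mat r S) : (a • A).map φ = φ a • A.map φ := by
  ext i j
  simp [Matrix.map_apply, Matrix.smul_apply]

theorem ctup_map (φ : S →+* T) (m : ℕ) (t t' : Fin r → S) (κ : ℕ → S) (Y : ℕ → Mat r S) (j : ℕ) :
    (ctup m t t' κ Y j).map φ =
      ctup m (fun i => φ (t i)) (fun i => φ (t' i)) (fun k => φ (κ k)) (fun l => (Y l).map φ) j := by
  unfold ctup
  split_ifs
  · rw [Matrix.map_mul, adjugate_map, Uc_map, Matrix.diagonal_map (map_zero φ)]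
  · rw [smul_map, Matrix.map_mul, Matrix.map_mul, adjugate_map, Lc_map, zZ_map]
  · rw [smul_map, Matrix.map_mul, adjugate_map, Lc_map, Matrix.diagonal_map (map_zero φ)]

/-- The tuple depends only on the first `m` elements. -/
theorem Uc_congr {Y Y' : ℕ → Mat r S} {k : ℕ} (h : ∀ l < k, Y l = Y' l) : Uc Y k = Uc Y' k := by
  induction k with
  | zero => rfl
  | succ k ih =>
    rw [Uc_succ, Uc_succ, ih fun l hl => h l (hl.trans (Nat.lt_succ_self k)),
      h k (Nat.lt_succ_self k)]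

theorem Lc_congr {Y Y' : ℕ → Mat r S} {k : ℕ} (h : ∀ l < k, Y l = Y' l) : Lc Y k = Lc Y' k := by
  induction k with
  | zero => rfl
  | succ k ih =>
    rw [Lc_succ, Lc_succ, ih fun l hl => h l (hl.trans (Nat.lt_succ_self k)),
      h k (Nat.lt_succ_self k)]

theorem ctup_congr {m : ℕ} {t t' : Fin r → S} {κ κ' : ℕ → S} {Y Y' : ℕ → Mat r S}
    (h : ∀ l < m, Y l = Y' l) (hκ : ∀ l ≤ m, κ l = κ' l) (j : ℕ) :
    ctup m t t' κ Y j = ctup m t t' κ' Y' j := by
  unfold ctup
  split_ifs with h1 h2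
  · rw [Uc_congr h]
  · rw [Lc_congr fun l (hl : l < j - 1) => h l (by omega), h (j - 1) (by omega),
      hκ (j - 1) (by omega)]
  · rw [Lc_congr h, hκ m le_rfl]

/-- Partial products. -/
theorem ctup_partial (m : ℕ) (t t' : Fin r → S) (κ : ℕ → S) (Y : ℕ → Mat r S)
    (hκ : ∀ k ≤ m, κ k * (Lc Y k).det = 1) (k : ℕ) (hk : k ≤ m) :
    (List.ofFn fun j : Fin k => ctup m t t' κ Y ((j : ℕ) + 1)).prod = Uc Y k * Lc Y k := by
  induction k with
  | zero => simp [Uc_zero, Lc_zero]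
  | succ k ih =>
    rw [List.ofFn_succ', List.concat_eq_append, List.prod_append, List.prod_singleton]
    have h1 : (List.ofFn fun i : Fin k => ctup m t t' κ Y (((Fin.castSucc i : Fin (k + 1)) : ℕ) + 1)).prod =
        Uc Y k * Lc Y k := ih (by omega)
    rw [h1, Fin.val_last, ctup_mid m t t' κ Y k hk]
    have h2 : Lc Y k * (κ k • ((Lc Y k).adjugate * zZ (Y k) * Lc Y k)) = zZ (Y k) * Lc Y k := by
      rw [mul_smul_comm, ← mul_assoc, ← mul_assoc, Matrix.mul_adjugate, smul_mul_assoc,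
        smul_mul_assoc, smul_smul, hκ k (by omega), one_smul, one_mul]
    rw [mul_assoc, h2, Uc_succ, Lc_succ, zZ]
    simp only [mul_assoc]

/-- The product of the tuple is one. -/
theorem ctup_prod (m : ℕ) (t t' : Fin r → S) (κ : ℕ → S) (Y : ℕ → Mat r S)
    (hκ : ∀ k ≤ m, κ k * (Lc Y k).det = 1) (ht : ∀ i, t' i * t i = 1) :
    (List.ofFn fun j : Fin (m + 2) => ctup m t t' κ Y j).prod = 1 := by
  rw [List.ofFn_succ, List.prod_cons, List.ofFn_succ', List.concat_eq_append, List.prod_append,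
    List.prod_singleton]
  have h1 : (List.ofFn fun i : Fin m =>
      ctup m t t' κ Y (((Fin.castSucc i).succ : Fin (m + 2)) : ℕ)).prod = Uc Y m * Lc Y m :=
    ctup_partial m t t' κ Y hκ m le_rfl
  rw [h1]
  have h2 : (((Fin.last m).succ : Fin (m + 2)) : ℕ) = m + 1 := by simp
  rw [h2, ctup_last, Fin.val_zero, ctup_zero]
  have h3 : Lc Y m * (κ m • ((Lc Y m).adjugate * diagonal t)) = diagonal t := by
    rw [mul_smul_comm, ← mul_assoc, Matrix.mul_adjugate, smul_mul_assoc, smul_smul,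
      hκ m le_rfl, one_smul, one_mul]
  rw [mul_assoc (Uc Y m), h3]
  calc diagonal t' * (Uc Y m).adjugate * (Uc Y m * diagonal t)
      = diagonal t' * ((Uc Y m).adjugate * Uc Y m) * diagonal t := by simp only [mul_assoc]
    _ = 1 := by
        rw [Matrix.adjugate_mul, det_Uc, one_smul, mul_one, Matrix.diagonal_mul_diagonal]
        rw [← Matrix.diagonal_one]
        congr 1
        funext i
        exact ht i

section field

variable {F : Type*} [Field F]

/-- Every tuple in general position is of the form `ctup`. -/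
theorem exists_ctup (m : ℕ) (c : ℕ → Mat r F) (X : ℕ → Mat r F)
    (hX : ∀ k ≤ m, (List.ofFn fun j : Fin k => c ((j : ℕ) + 1)).prod = zZ (X k))
    (hX0 : ∀ k ≤ m, ∀ i, X k i i ≠ 0)
    (hc0 : UpT (c 0)) (hcl : LoT (c (m + 1)))
    (hprod : (List.ofFn fun j : Fin (m + 2) => c j).prod = 1) :
    ∃ (Y : ℕ → Mat r F) (κ : ℕ → F) (t : Fin r → F), (∀ k ≤ m, κ k * (Lc Y k).det = 1) ∧
      (∀ i, c 0 i i * t i = 1) ∧ (∀ j ≤ m + 1, c j = ctup m t (fun i => c 0 i i) κ Y j) ∧
      (∀ k ≤ m, Lc Y k = lL (X k)) ∧ (∀ k < m, ∀ i, Y k i i ≠ 0) := by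
  have hdL : ∀ k ≤ m, IsUnit (lL (X k)).det := by
    intro k hk
    rw [det_lL, isUnit_iff_ne_zero, Finset.prod_ne_zero_iff]
    exact fun i _ => hX0 k hk i
  have hdU : ∀ k, IsUnit (uU (X k)).det := fun k => by rw [det_uU]; exact isUnit_one
  have hUinv : ∀ k, UpT (uU (X k))⁻¹ := fun k =>
    (upT_uU (X k)).inv fun i => by rw [uU_diag]; exact one_ne_zero
  have hLinv : ∀ k ≤ m, LoT (lL (X k))⁻¹ := fun k hk =>
    (loT_lL (X k)).inv fun i => by rw [lL_diag]; exact hX0 k hk i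
  -- the elements of the cell
  have hYex : ∀ k, ∃ Y : Mat r F, k < m → uU Y = (uU (X k))⁻¹ * uU (X (k + 1)) ∧
      lL Y = lL (X (k + 1)) * (lL (X k))⁻¹ ∧ ∀ i, Y i i ≠ 0 := by
    intro k
    by_cases hk : k < m
    · obtain ⟨Y, h1, h2, h3⟩ := exists_coord ((uU (X k))⁻¹ * uU (X (k + 1)))
        (lL (X (k + 1)) * (lL (X k))⁻¹) ((hUinv k).mul (upT_uU _))
        (fun i => by
          rw [(hUinv k).mul_diag (upT_uU _), uU_diag, mul_one,
            inv_diag (upT_uU (X k)) (fun i => by rw [uU_diag]; exact one_ne_zero), uU_diag, inv_one])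
        ((loT_lL _).mul (hLinv k hk.le))
      refine ⟨Y, fun _ => ⟨h1, h2, fun i => ?_⟩⟩
      rw [h3, (loT_lL _).mul_diag (hLinv k hk.le), lL_diag,
        (loT_lL (X k)).inv_diag (fun i => by rw [lL_diag]; exact hX0 k hk.le i), lL_diag]
      exact mul_ne_zero (hX0 (k + 1) hk i) (inv_ne_zero (hX0 k hk.le i))
    · exact ⟨0, fun h => absurd h hk⟩
  choose Y hY using hYex
  -- the first elements are trivial
  have h0 : zZ (X 0) = 1 := by
    rw [← hX 0 (Nat.zero_le m)]
    simp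
  have hUL0 : uU (X 0) = 1 ∧ lL (X 0) = 1 := by
    have h1 : lL (X 0) = (uU (X 0))⁻¹ := by
      rw [zZ] at h0
      exact (Matrix.inv_eq_right_inv h0).symm
    have h2 : lL (X 0) = 1 := by
      ext i j
      rcases lt_trichotomy i j with h | h | h
      · rw [loT_lL (X 0) i j h, Matrix.one_apply_ne h.ne]
      · subst h
        rw [h1, inv_diag (upT_uU (X 0)) (fun i => by rw [uU_diag]; exact one_ne_zero), uU_diag,
          inv_one, Matrix.one_apply_eq]
      · rw [h1, hUinv 0 i j h, Matrix.one_apply_ne h.ne']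
    refine ⟨?_, h2⟩
    rw [zZ, h2, mul_one] at h0
    exact h0
  have hUc : ∀ k ≤ m, Uc Y k = uU (X k) := by
    intro k
    induction k with
    | zero => exact fun _ => hUL0.1.symm
    | succ k ih =>
      intro hk
      rw [Uc_succ, ih (by omega), (hY k hk).1, ← mul_assoc, Matrix.mul_nonsing_inv _ (hdU k),
        one_mul]
  have hLc : ∀ k ≤ m, Lc Y k = lL (X k) := by
    intro k
    induction k with
    | zero => exact fun _ => hUL0.2.symm
    | succ k ih =>
      intro hk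
      rw [Lc_succ, ih (by omega), (hY k hk).2.1, mul_assoc,
        Matrix.nonsing_inv_mul _ (hdL k (by omega)), mul_one]
  obtain ⟨κ, hκdef⟩ : ∃ κ : ℕ → F, ∀ k, κ k = ((Lc Y k).det)⁻¹ := ⟨_, fun _ => rfl⟩
  have hκ : ∀ k ≤ m, κ k * (Lc Y k).det = 1 := by
    intro k hk
    rw [hκdef, inv_mul_cancel₀]
    rw [hLc k hk]
    exact (hdL k hk).ne_zero
  have hadj : ∀ k ≤ m, κ k • (Lc Y k).adjugate = (lL (X k))⁻¹ := by
    intro k hk
    rw [hκdef, hLc k hk, Matrix.inv_def, Ring.inverse_eq_inv']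
  -- the diagonal matrix
  have hmid : ∀ k < m, c (k + 1) = (lL (X k))⁻¹ * zZ (Y k) * lL (X k) := by
    intro k hk
    have h1 := hX (k + 1) hk
    rw [List.ofFn_succ', List.concat_eq_append, List.prod_append, List.prod_singleton] at h1
    have h2 : (List.ofFn fun i : Fin k => c (((Fin.castSucc i : Fin (k + 1)) : ℕ) + 1)).prod =
        zZ (X k) := hX k hk.le
    rw [h2, Fin.val_last] at h1
    have h3 : (lL (X k))⁻¹ * (uU (X k))⁻¹ * (uU (X k) * lL (X k)) = 1 := by
      calc (lL (X k))⁻¹ * (uU (X k))⁻¹ * (uU (X k) * lL (X k))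
          = (lL (X k))⁻¹ * ((uU (X k))⁻¹ * uU (X k)) * lL (X k) := by simp only [mul_assoc]
        _ = 1 := by
          rw [Matrix.nonsing_inv_mul _ (hdU k), mul_one, Matrix.nonsing_inv_mul _ (hdL k hk.le)]
    calc c (k + 1) = ((lL (X k))⁻¹ * (uU (X k))⁻¹ * (uU (X k) * lL (X k))) * c (k + 1) := by
          rw [h3, one_mul]
      _ = (lL (X k))⁻¹ * (uU (X k))⁻¹ * (zZ (X k) * c (k + 1)) := by
          rw [zZ]; simp only [mul_assoc]
      _ = (lL (X k))⁻¹ * (uU (X k))⁻¹ * (uU (X (k + 1)) * lL (X (k + 1))) := by rw [h1, zZ]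
      _ = (lL (X k))⁻¹ * ((uU (X k))⁻¹ * uU (X (k + 1)) * (lL (X (k + 1)) * ((lL (X k))⁻¹ *
            lL (X k)))) := by
          rw [Matrix.nonsing_inv_mul _ (hdL k hk.le), mul_one]; simp only [mul_assoc]
      _ = _ := by
          rw [zZ, (hY k hk).1, (hY k hk).2.1]; simp only [mul_assoc]
  have hpr : c 0 * (zZ (X m) * c (m + 1)) = 1 := by
    rw [List.ofFn_succ, List.prod_cons, List.ofFn_succ', List.concat_eq_append, List.prod_append,
      List.prod_singleton] at hprod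
    have h1 : (List.ofFn fun i : Fin m =>
        c (((Fin.castSucc i).succ : Fin (m + 2)) : ℕ)).prod = zZ (X m) := hX m le_rfl
    have h2 : (((Fin.last m).succ : Fin (m + 2)) : ℕ) = m + 1 := by simp
    rw [h1, h2] at hprod
    exact hprod
  have hD1 : (c 0 * uU (X m)) * (lL (X m) * c (m + 1)) = 1 := by
    rw [zZ] at hpr
    rw [← hpr]; simp only [mul_assoc]
  have hDl : c 0 * uU (X m) = (lL (X m) * c (m + 1))⁻¹ := (Matrix.inv_eq_left_inv hD1).symm
  have hDu : LoT (lL (X m) * c (m + 1)) := (loT_lL _).mul hcl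
  have hDd : ∀ i, (lL (X m) * c (m + 1)) i i ≠ 0 := by
    have h1 : (lL (X m) * c (m + 1)).det ≠ 0 := by
      have := congrArg Matrix.det hD1
      rw [det_mul, det_one] at this
      exact right_ne_zero_of_mul (by rw [this]; exact one_ne_zero)
    rw [hDu.det, Finset.prod_ne_zero_iff] at h1
    exact fun i => h1 i (Finset.mem_univ i)
  have hDup : UpT (c 0 * uU (X m)) := hc0.mul (upT_uU _)
  have hDii : ∀ i, (c 0 * uU (X m)) i i = c 0 i i := fun i => by
    rw [hc0.mul_diag (upT_uU _), uU_diag, mul_one]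
  have hD : c 0 * uU (X m) = diagonal fun i => c 0 i i := by
    ext i j
    rcases lt_trichotomy i j with h | h | h
    · rw [hDl, hDu.inv hDd i j h, Matrix.diagonal_apply_ne _ h.ne]
    · subst h
      rw [hDii, Matrix.diagonal_apply_eq]
    · rw [hDup i j h, Matrix.diagonal_apply_ne _ h.ne']
  have hξ0 : ∀ i, c 0 i i ≠ 0 := by
    intro i
    rw [← hDii i, hDl, hDu.inv_diag hDd]
    exact inv_ne_zero (hDd i)
  refine ⟨Y, κ, fun i => (c 0 i i)⁻¹, hκ, fun i => mul_inv_cancel₀ (hξ0 i), ?_, hLc,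
    fun k hk => (hY k hk).2.2⟩
  intro j hj
  rcases Nat.eq_zero_or_pos j with rfl | hj0
  · rw [ctup_zero, hUc m le_rfl, ← hD, mul_assoc, Matrix.mul_adjugate, det_uU, one_smul, mul_one]
  · obtain ⟨k, rfl⟩ : ∃ k, j = k + 1 := ⟨j - 1, by omega⟩
    rcases lt_or_eq_of_le (show k ≤ m by omega) with hk | rfl
    · rw [ctup_mid _ _ _ _ _ k hk, ← smul_mul_assoc, ← smul_mul_assoc, hadj k hk.le, hLc k hk.le,
        hmid k hk]
    · rw [ctup_last, ← smul_mul_assoc, hadj k le_rfl]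
      have h1 : (diagonal fun i => (c 0 i i)⁻¹) = lL (X k) * c (k + 1) := by
        have h2 : (diagonal fun i => (c 0 i i)⁻¹) * (c 0 * uU (X k)) = 1 := by
          rw [hD, Matrix.diagonal_mul_diagonal, ← Matrix.diagonal_one]
          congr 1
          funext i
          exact inv_mul_cancel₀ (hξ0 i)
        calc (diagonal fun i => (c 0 i i)⁻¹)
            = (diagonal fun i => (c 0 i i)⁻¹) * ((c 0 * uU (X k)) * (lL (X k) * c (k + 1))) := by
              rw [hD1, mul_one]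
          _ = _ := by rw [← mul_assoc, h2, one_mul]
      rw [h1, ← mul_assoc, Matrix.nonsing_inv_mul _ (hdL k le_rfl), one_mul]

end field

end Vale.Agent.P002R
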